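import Vale.Agent.P032.H859.Rup

namespace Vale.Agent.P032.H184.Z
open Vale.Agent.P032.H859.Rup

def c512_0 : Tr :=
 .n (.n (.n (.n (.n (.l (nat_lit 0x1) (nat_lit 0x0) (nat_lit 0))
 (.p (nat_lit 0x1c7111c002) (nat_lit 0x40a8) (nat_lit 4)))
 (.n (.p (nat_lit 0x184a1846184218400e710e6d06) (nat_lit 0x140001aa2) (nat_lit 17))
 (.p (nat_lit 0x3a2738dd37bd03) (nat_lit 0x21000002040) (nat_lit 43))))
 (.n (.n (.p (nat_lit 0xd530d500d4f0d4c0d4a0d480242000b000709) (nat_lit 0x568a0) (nat_lit 13))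
 (.p (nat_lit 0x3891388102) (nat_lit 0x7180a000000) (nat_lit 35)))
 (.p (nat_lit 0x152b0f8b02) (nat_lit 0x2ca4) (nat_lit 19))))
 (.n (.n (.n (.p (nat_lit 0x19bc19ba19b619b40d170d1106) (nat_lit 0x240000060) (nat_lit 17))
 (.p (nat_lit 0x2bee2bec2be82be62be4174b06) (nat_lit 0x80000292) (nat_lit 14)))
 (.p (nat_lit 0x31b030f02f7012004) (nat_lit 0xa1a0003) (nat_lit 23)))
 (.n (.n (.p (nat_lit 0xde30dcb02) (nat_lit 0xa881) (nat_lit 18))
 (.p (nat_lit 0x397d397302) (nat_lit 0x61c08000800) (nat_lit 35)))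
 (.p (nat_lit 0x258b102a02) (nat_lit 0x6006) (nat_lit 5)))))
 (.n (.n (.n (.n (.p (nat_lit 0x23ae23ac23aa23a823a60ce906) (nat_lit 0x10000c20) (nat_lit 16))
 (.p (nat_lit 0x14cf14b702) (nat_lit 0x680e) (nat_lit 18)))
 (.n (.p (nat_lit 0xed30ed00ece0ecc0ecb0ec80302002f002709) (nat_lit 0x52863) (nat_lit 13))
 (.p (nat_lit 0x3a3e228702) (nat_lit 0x2080) (nat_lit 46))))
 (.n (.n (.p (nat_lit 0x23c623c423c223bc0d950d9306) (nat_lit 0x60000d41) (nat_lit 16))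
 (.p (nat_lit 0x38ff38f302) (nat_lit 0xabc02000800) (nat_lit 35)))
 (.p (nat_lit 0x2fd50fc402) (nat_lit 0x45) (nat_lit 32))))
 (.n (.n (.n (.p (nat_lit 0x253a25382536253425320d2506) (nat_lit 0x10001280) (nat_lit 14))
 (.p (nat_lit 0x381137f502) (nat_lit 0xb2004000000) (nat_lit 35)))
 (.p (nat_lit 0x19b219b019ae19ac19aa0f2906) (nat_lit 0x10001d24) (nat_lit 15)))
 (.n (.n (.p (nat_lit 0x19b219b019ae19aa19a80e3106) (nat_lit 0x40001562) (nat_lit 15))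
 (.p (nat_lit 0x39b839b639b239b0389905) (nat_lit 0x480a000000) (nat_lit 36)))
 (.p (nat_lit 0x2516251425122510250c106f06) (nat_lit 0x20000166) (nat_lit 14)))))

def c512_256 : Tr :=
 .n (.n (.n (.n (.n (.p (nat_lit 0x188618841882187c0cd50cd306) (nat_lit 0x60000d00) (nat_lit 15))
 (.p (nat_lit 0x19a419a219a0199e199c138306) (nat_lit 0x200000dab) (nat_lit 17)))
 (.n (.p (nat_lit 0x13910e8102) (nat_lit 0xb03) (nat_lit 19))
 (.p (nat_lit 0x3a353929380f03) (nat_lit 0x95400004060) (nat_lit 43))))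
 (.n (.n (.p (nat_lit 0x2d810d7002) (nat_lit 0x4021) (nat_lit 32))
 (.p (nat_lit 0x38c138b502) (nat_lit 0x72000000800) (nat_lit 35)))
 (.p (nat_lit 0x1b321b2e1b2a1b280fa90fa506) (nat_lit 0x140001b05) (nat_lit 17))))
 (.n (.n (.n (.p (nat_lit 0x19e219e019dc19da0d1f0d1906) (nat_lit 0x90001960) (nat_lit 15))
 (.p (nat_lit 0x37a7378d02) (nat_lit 0x89000000000) (nat_lit 35)))
 (.p (nat_lit 0x17d217ce17ca17c80f190f1506) (nat_lit 0x140001b04) (nat_lit 17)))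
 (.n (.n (.p (nat_lit 0xe110df902) (nat_lit 0x8802) (nat_lit 18))
 (.p (nat_lit 0x39a739a302) (nat_lit 0x49c0a000800) (nat_lit 35)))
 (.p (nat_lit 0x1b0b105a02) (nat_lit 0x6046) (nat_lit 4)))))
 (.n (.n (.n (.n (.p (nat_lit 0xd0b002e02) (nat_lit 0xa840) (nat_lit 1))
 (.p (nat_lit 0x2b5720a706a7069f01ee05) (nat_lit 0x1432050) (nat_lit 9)))
 (.n (.p (nat_lit 0x2f070ef602) (nat_lit 0xa0a3) (nat_lit 32))
 (.p (nat_lit 0x3a09396b385303) (nat_lit 0x19c000080a0) (nat_lit 44))))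
 (.n (.n (.p (nat_lit 0x22822280227c227a22780daf06) (nat_lit 0x80001b61) (nat_lit 16))
 (.p (nat_lit 0x3941393d02) (nat_lit 0x31006000800) (nat_lit 35)))
 (.p (nat_lit 0x1f6a1f681f641f621f600fef06) (nat_lit 0x80001865) (nat_lit 17))))
 (.n (.n (.n (.p (nat_lit 0x1aa01a9e1a9c1a980d3b0d3306) (nat_lit 0x220001b80) (nat_lit 15))
 (.p (nat_lit 0x3851384d02) (nat_lit 0x31008000000) (nat_lit 35)))
 (.p (nat_lit 0x24d10f7002) (nat_lit 0x884) (nat_lit 5)))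
 (.n (.n (.p (nat_lit 0xedb0e4b02) (nat_lit 0x6382) (nat_lit 19))
 (.p (nat_lit 0x3a1a0d8702) (nat_lit 0x2520) (nat_lit 48)))
 (.p (nat_lit 0x260910a802) (nat_lit 0x8a6) (nat_lit 5)))))

def c256_0 : Tr := .n c512_0 c512_256

def c512_128 : Tr :=
 .n (.n (.n (.n (.n (.p (nat_lit 0x22d222d022ce22cc0cdb0cd906) (nat_lit 0x300000900) (nat_lit 14))
 (.p (nat_lit 0x12d5002802) (nat_lit 0x488a) (nat_lit 1)))
 (.n (.p (nat_lit 0x18c018be18ba18b80e7f0e7906) (nat_lit 0x240001103) (nat_lit 15))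
 (.p (nat_lit 0x39e53993387303) (nat_lit 0xbdc00008040) (nat_lit 44))))
 (.n (.n (.p (nat_lit 0xde30d5302) (nat_lit 0xa8a0) (nat_lit 19))
 (.p (nat_lit 0x38a238a0389a387a3878387638723870386a384a3848384638423840383a381a3818381638123810380a37ea37e837e637e237e037da37ba37b837b637b237b037aa378a3788378624) (nat_lit 0x100) (nat_lit 39)))
 (.p (nat_lit 0x1aea1ae81ae21ae00f9b0f9906) (nat_lit 0xc0001005) (nat_lit 17))))
 (.n (.n (.n (.p (nat_lit 0xda30d1302) (nat_lit 0x6060) (nat_lit 19))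
 (.p (nat_lit 0x8d5004802) (nat_lit 0x5) (nat_lit 30)))
 (.p (nat_lit 0x229822962294229222900f0f06) (nat_lit 0x200001404) (nat_lit 14)))
 (.n (.n (.p (nat_lit 0x273027100fe03) (nat_lit 0x2058001) (nat_lit 22))
 (.p (nat_lit 0x39ab399502) (nat_lit 0x5800a000800) (nat_lit 35)))
 (.p (nat_lit 0x18621860185e185c1858103f06) (nat_lit 0x20001326) (nat_lit 15)))))
 (.n (.n (.n (.n (.p (nat_lit 0x225f17af02) (nat_lit 0xa040) (nat_lit 11))
 (.p (nat_lit 0x2a9f153e02) (nat_lit 0xa00f) (nat_lit 5)))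
 (.n (.p (nat_lit 0xef70edf02) (nat_lit 0xa083) (nat_lit 18))
 (.p (nat_lit 0x3a0138bb37a103) (nat_lit 0x5b8000000a0) (nat_lit 44))))
 (.n (.n (.p (nat_lit 0x17f617f417f217ee17ec0da106) (nat_lit 0x40000561) (nat_lit 15))
 (.p (nat_lit 0x3929391b02) (nat_lit 0x92c04000800) (nat_lit 35)))
 (.p (nat_lit 0x19ee19ec19ea19e819e60fd106) (nat_lit 0x10000a45) (nat_lit 17))))
 (.n (.n (.n (.p (nat_lit 0x17e90d3802) (nat_lit 0x8880) (nat_lit 4))
 (.p (nat_lit 0x3829381f02) (nat_lit 0x51406000000) (nat_lit 35)))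
 (.p (nat_lit 0xf5b0f4302) (nat_lit 0x2844) (nat_lit 18)))
 (.n (.n (.p (nat_lit 0x23a70e4602) (nat_lit 0x2082) (nat_lit 5))
 (.p (nat_lit 0x3a113927380703) (nat_lit 0x8c400004000) (nat_lit 43)))
 (.p (nat_lit 0x25822580257e257a107d107906) (nat_lit 0x50001d66) (nat_lit 14)))))

def c512_384 : Tr :=
 .n (.n (.n (.n (.n (.p (nat_lit 0xf250ce502) (nat_lit 0x8320) (nat_lit 19))
 (.p (nat_lit 0x1a1e1a1a1a181a161a14141106) (nat_lit 0x100000cac) (nat_lit 15)))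
 (.n (.p (nat_lit 0xf310ea102) (nat_lit 0x8c23) (nat_lit 19))
 (.p (nat_lit 0x39f3399b387b03) (nat_lit 0x18c0000a060) (nat_lit 44))))
 (.n (.n (.p (nat_lit 0x2d990d8802) (nat_lit 0x4041) (nat_lit 32))
 (.p (nat_lit 0x38ff38d502) (nat_lit 0xa8002000800) (nat_lit 35)))
 (.p (nat_lit 0x1a6b0fba02) (nat_lit 0x2825) (nat_lit 4))))
 (.n (.n (.n (.p (nat_lit 0xecd0d1d02) (nat_lit 0x4a60) (nat_lit 19))
 (.p (nat_lit 0x37bb37b902) (nat_lit 0x18802000000) (nat_lit 35)))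
 (.p (nat_lit 0x198c198a198819840f270f1f06) (nat_lit 0x220000424) (nat_lit 17)))
 (.n (.n (.p (nat_lit 0x2e330e2202) (nat_lit 0x2842) (nat_lit 32))
 (.p (nat_lit 0x38b238b038aa379304) (nat_lit 0x1c00000000) (nat_lit 36)))
 (.p (nat_lit 0x106a1068106710641063106003d6004f004b09) (nat_lit 0x32846) (nat_lit 13)))))
 (.n (.n (.n (.n (.p (nat_lit 0x24482446244424400d0b0d0306) (nat_lit 0x220001c40) (nat_lit 14))
 (.p (nat_lit 0x372b171a02) (nat_lit 0x6052) (nat_lit 32)))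
 (.p (nat_lit 0x223a22382236223422300efb06) (nat_lit 0x200018a3) (nat_lit 14)))
 (.n (.n (.p (nat_lit 0x25d625d425d025ce25cc0dbb06) (nat_lit 0x80000381) (nat_lit 14))
 (.p (nat_lit 0x396d396502) (nat_lit 0x20008000800) (nat_lit 35)))
 (.p (nat_lit 0x10150f9d02) (nat_lit 0x80a5) (nat_lit 18))))
 (.n (.n (.n (.p (nat_lit 0x1b0e1b0c1b0a1b061b040d4106) (nat_lit 0x400002a0) (nat_lit 17))
 (.p (nat_lit 0x3873386f02) (nat_lit 0xbd408000000) (nat_lit 35)))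
 (.p (nat_lit 0x1a701a6e1a6c1a6a1a680f8706) (nat_lit 0x2000011a4) (nat_lit 15)))
 (.n (.n (.p (nat_lit 0xee30e5302) (nat_lit 0x2b82) (nat_lit 19))
 (.p (nat_lit 0x39d93967384d03) (nat_lit 0x9000008020) (nat_lit 44)))
 (.p (nat_lit 0x27b627b027ae27ac1189118706) (nat_lit 0x180000d48) (nat_lit 16)))))

def c256_128 : Tr := .n c512_128 c512_384

def c128_0 : Tr := .n c256_0 c256_128

def c512_64 : Tr :=
 .n (.n (.n (.n (.n (.p (nat_lit 0xce10cc902) (nat_lit 0x4000) (nat_lit 18))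
 (.p (nat_lit 0x1d1b126a02) (nat_lit 0x600a) (nat_lit 4)))
 (.n (.p (nat_lit 0x2df02d3010e03) (nat_lit 0xa046002) (nat_lit 22))
 (.p (nat_lit 0x3a2a12cb02) (nat_lit 0x6140) (nat_lit 48))))
 (.n (.n (.p (nat_lit 0x1b1a1b161b121b100d510d4d06) (nat_lit 0x140001aa0) (nat_lit 17))
 (.p (nat_lit 0x38a3388b02) (nat_lit 0xbac0a000000) (nat_lit 35)))
 (.p (nat_lit 0x3630357034b013004) (nat_lit 0xa1a2004) (nat_lit 23))))
 (.n (.n (.n (.p (nat_lit 0x24a824a424a224a00d170d1306) (nat_lit 0x280001260) (nat_lit 14))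
 (.p (nat_lit 0x849002902) (nat_lit 0x4003) (nat_lit 31)))
 (.p (nat_lit 0xf0e0f0d0f0a0f080f060f04003907) (nat_lit 0x8004) (nat_lit 7)))
 (.n (.n (.p (nat_lit 0xe610dd102) (nat_lit 0x42a1) (nat_lit 19))
 (.p (nat_lit 0x3993397d02) (nat_lit 0xbb008000800) (nat_lit 35)))
 (.p (nat_lit 0x2c722c702c6e2c6c2c68103306) (nat_lit 0x20001906) (nat_lit 14)))))
 (.n (.n (.n (.n (.p (nat_lit 0x1920191e191a19180cf30ced06) (nat_lit 0x240001d20) (nat_lit 15))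
 (.p (nat_lit 0x19ca19c819c619c219c014cd06) (nat_lit 0x4000182e) (nat_lit 15)))
 (.n (.p (nat_lit 0x243f198f030102f7011e05) (nat_lit 0x108a083) (nat_lit 9))
 (.p (nat_lit 0x3a45396f385503) (nat_lit 0x2a000008080) (nat_lit 43))))
 (.n (.n (.p (nat_lit 0x177e177a177817760da50d9d06) (nat_lit 0x110000061) (nat_lit 17))
 (.p (nat_lit 0x3929390902) (nat_lit 0x90804000800) (nat_lit 35)))
 (.p (nat_lit 0x15670fc702) (nat_lit 0x2445) (nat_lit 19))))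
 (.n (.n (.n (.p (nat_lit 0xd430d2b02) (nat_lit 0x6080) (nat_lit 18))
 (.p (nat_lit 0x37f437ee37ec37e837e637e417c107) (nat_lit 0x4000060) (nat_lit 37)))
 (.p (nat_lit 0xf3e0f3c0f3b0f380f360f35033a0037003109) (nat_lit 0x30044) (nat_lit 13)))
 (.n (.n (.p (nat_lit 0x23dc23da23d623d40e430e3d06) (nat_lit 0x240000862) (nat_lit 16))
 (.p (nat_lit 0x39c4177502) (nat_lit 0x0) (nat_lit 45)))
 (.p (nat_lit 0x1081004402) (nat_lit 0x8866) (nat_lit 1)))))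

def c512_320 : Tr :=
 .n (.n (.n (.n (.n (.p (nat_lit 0x2241179102) (nat_lit 0x4020) (nat_lit 11))
 (.p (nat_lit 0x1ea313f202) (nat_lit 0x288c) (nat_lit 4)))
 (.n (.p (nat_lit 0xf250e9502) (nat_lit 0x8423) (nat_lit 19))
 (.p (nat_lit 0x3a393971385703) (nat_lit 0x32400008060) (nat_lit 43))))
 (.n (.n (.p (nat_lit 0x2d910d8002) (nat_lit 0x8821) (nat_lit 32))
 (.p (nat_lit 0x38d338bf02) (nat_lit 0xbb400000800) (nat_lit 35)))
 (.p (nat_lit 0x17a2179e179c179a17980fb506) (nat_lit 0x100001125) (nat_lit 17))))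
 (.n (.n (.n (.p (nat_lit 0x24da24d824d424d00d1f0d1b06) (nat_lit 0xa0001c60) (nat_lit 14))
 (.p (nat_lit 0x37a537a302) (nat_lit 0x83c00000000) (nat_lit 35)))
 (.p (nat_lit 0xfa30f1302) (nat_lit 0x2d04) (nat_lit 19)))
 (.n (.n (.p (nat_lit 0xe9f0e0f02) (nat_lit 0x6b22) (nat_lit 19))
 (.p (nat_lit 0x39b939af02) (nat_lit 0x9340a000800) (nat_lit 35)))
 (.p (nat_lit 0x17ea17e817e617e217e0105906) (nat_lit 0x40001446) (nat_lit 15)))))
 (.n (.n (.n (.n (.p (nat_lit 0x1952194c194a19480d090d0706) (nat_lit 0x180001940) (nat_lit 15))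
 (.p (nat_lit 0x1a721a701a6c1a6a1a68160706) (nat_lit 0x80001950) (nat_lit 15)))
 (.n (.p (nat_lit 0x229a2296229422900ef50eef06) (nat_lit 0x1200014a3) (nat_lit 14))
 (.p (nat_lit 0x3a0b3997387d03) (nat_lit 0x900000a0a0) (nat_lit 44))))
 (.n (.n (.p (nat_lit 0x23150db402) (nat_lit 0x81) (nat_lit 5))
 (.p (nat_lit 0x394b394502) (nat_lit 0x5a006000800) (nat_lit 35)))
 (.p (nat_lit 0x1023100b02) (nat_lit 0xa885) (nat_lit 18))))
 (.n (.n (.n (.p (nat_lit 0x10930d3302) (nat_lit 0x2d80) (nat_lit 19))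
 (.p (nat_lit 0x385d385702) (nat_lit 0x62408000000) (nat_lit 35)))
 (.p (nat_lit 0xf8b0f7302) (nat_lit 0x2884) (nat_lit 18)))
 (.n (.n (.p (nat_lit 0x17c617c417c217be17bc0e5506) (nat_lit 0x40000b82) (nat_lit 15))
 (.p (nat_lit 0x39d7393f382703) (nat_lit 0x2a400006020) (nat_lit 44)))
 (.p (nat_lit 0x3f303e703db03cf04) (nat_lit 0xad10006) (nat_lit 24)))))

def c256_64 : Tr := .n c512_64 c512_320

def c512_192 : Tr :=
 .n (.n (.n (.n (.n (.p (nat_lit 0x18621860185e185c185a0cd106) (nat_lit 0x10001b00) (nat_lit 17))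
 (.p (nat_lit 0x1d9d12ec02) (nat_lit 0x48aa) (nat_lit 4)))
 (.n (.p (nat_lit 0xe8b0e880e860e840e820e80002f07) (nat_lit 0xa803) (nat_lit 7))
 (.p (nat_lit 0x3a2e139b02) (nat_lit 0xab40) (nat_lit 48))))
 (.n (.n (.p (nat_lit 0xfd00160014001004) (nat_lit 0x340008001) (nat_lit 20))
 (.p (nat_lit 0x38b738ab02) (nat_lit 0x48c00000800) (nat_lit 35)))
 (.p (nat_lit 0x2fb30fa202) (nat_lit 0x2805) (nat_lit 32))))
 (.n (.n (.n (.p (nat_lit 0xd230d200d1e0d1c0d1a0d18000b07) (nat_lit 0xa860) (nat_lit 7))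
 (.p (nat_lit 0x94b004602) (nat_lit 0xa066) (nat_lit 30)))
 (.p (nat_lit 0xf1a0f180f160f150f130f1003440035003309) (nat_lit 0x22804) (nat_lit 13)))
 (.n (.n (.p (nat_lit 0x2dff0dee02) (nat_lit 0xa002) (nat_lit 32))
 (.p (nat_lit 0x39b1399b02) (nat_lit 0x70c0a000800) (nat_lit 35)))
 (.p (nat_lit 0x10521051104e104c104b104803d80051004b09) (nat_lit 0x42826) (nat_lit 13)))))
 (.n (.n (.n (.n (.p (nat_lit 0x19a619a419a219a0199c0cf706) (nat_lit 0x20000540) (nat_lit 17))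
 (.p (nat_lit 0x208d15dc02) (nat_lit 0x30) (nat_lit 4)))
 (.n (.p (nat_lit 0x248424822480247c0eeb0ee306) (nat_lit 0x220000983) (nat_lit 16))
 (.p (nat_lit 0x3a4c22ad02) (nat_lit 0x48a0) (nat_lit 46))))
 (.n (.n (.p (nat_lit 0x23130db202) (nat_lit 0xa861) (nat_lit 5))
 (.p (nat_lit 0x3930392e392c390c3906390422ad07) (nat_lit 0x40008a0) (nat_lit 38)))
 (.p (nat_lit 0x25470fe602) (nat_lit 0xa065) (nat_lit 5))))
 (.n (.n (.n (.p (nat_lit 0x1a721a701a6e1a680d350d3306) (nat_lit 0x60001980) (nat_lit 17))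
 (.p (nat_lit 0x384f384502) (nat_lit 0x28008000000) (nat_lit 35)))
 (.p (nat_lit 0xff10f6102) (nat_lit 0x8d64) (nat_lit 19)))
 (.n (.n (.p (nat_lit 0x227622722270226e226c0e4d06) (nat_lit 0x100000382) (nat_lit 14))
 (.p (nat_lit 0x3a15398f387103) (nat_lit 0xad800008000) (nat_lit 43)))
 (.p (nat_lit 0x109a10981096109410921091004907) (nat_lit 0x886) (nat_lit 7)))))

def c512_448 : Tr :=
 .n (.n (.n (.n (.n (.p (nat_lit 0x18aa18a418a218a00cf10cef06) (nat_lit 0x180001820) (nat_lit 15))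
 (.p (nat_lit 0x2a0714a602) (nat_lit 0x200e) (nat_lit 5)))
 (.n (.p (nat_lit 0x2ed3002b02) (nat_lit 0x6063) (nat_lit 33))
 (.p (nat_lit 0x3a3a14d302) (nat_lit 0xac60) (nat_lit 48))))
 (.n (.n (.p (nat_lit 0x10590d8902) (nat_lit 0x4441) (nat_lit 19))
 (.p (nat_lit 0x390138dd02) (nat_lit 0xb1002000800) (nat_lit 35)))
 (.p (nat_lit 0x227422722270226e226c0fc306) (nat_lit 0x200000b25) (nat_lit 14))))
 (.n (.n (.n (.p (nat_lit 0x1a4e1a481a461a440d2d0d2b06) (nat_lit 0x180000080) (nat_lit 15))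
 (.p (nat_lit 0x37df37d702) (nat_lit 0xac402000000) (nat_lit 35)))
 (.p (nat_lit 0x19e10f3002) (nat_lit 0x8824) (nat_lit 4)))
 (.n (.n (.p (nat_lit 0x2e3f001b02) (nat_lit 0x2062) (nat_lit 33))
 (.p (nat_lit 0x3962396039383936381905) (nat_lit 0x806000000) (nat_lit 36)))
 (.p (nat_lit 0x180217fe17fc17fa17f8106906) (nat_lit 0x100001d46) (nat_lit 17)))))
 (.n (.n (.n (.n (.p (nat_lit 0xf410d0102) (nat_lit 0xb40) (nat_lit 19))
 (.p (nat_lit 0x2c8d172c02) (nat_lit 0x72) (nat_lit 5)))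
 (.p (nat_lit 0x22b022ae22ac22aa22a80f0306) (nat_lit 0x200001da3) (nat_lit 16)))
 (.n (.n (.p (nat_lit 0x2dd90dc802) (nat_lit 0x8881) (nat_lit 32))
 (.p (nat_lit 0x397d396b02) (nat_lit 0x60c08000800) (nat_lit 35)))
 (.p (nat_lit 0x152d101d02) (nat_lit 0x4ba5) (nat_lit 19))))
 (.n (.n (.n (.p (nat_lit 0xe650d4502) (nat_lit 0x81a0) (nat_lit 19))
 (.p (nat_lit 0x3893387902) (nat_lit 0x7880a000000) (nat_lit 35)))
 (.p (nat_lit 0xf93004602) (nat_lit 0xa8a4) (nat_lit 1)))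
 (.n (.n (.p (nat_lit 0xe670def02) (nat_lit 0xa0a2) (nat_lit 18))
 (.p (nat_lit 0x39db39bb38a303) (nat_lit 0x9dc0000a020) (nat_lit 44)))
 (.p (nat_lit 0x23d023ce23cc23ca23c811a306) (nat_lit 0x200001d68) (nat_lit 14)))))

def c256_192 : Tr := .n c512_192 c512_448

def c128_64 : Tr := .n c256_64 c256_192

def c64_0 : Tr := .n c128_0 c128_64

def c512_32 : Tr :=
 .n (.n (.n (.n (.n (.p (nat_lit 0x183e183c183a183818360cc506) (nat_lit 0x10000200) (nat_lit 15))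
 (.p (nat_lit 0x1cef123e02) (nat_lit 0xa089) (nat_lit 4)))
 (.n (.p (nat_lit 0x12f30e7302) (nat_lit 0xaaa2) (nat_lit 19))
 (.p (nat_lit 0x3a293929380903) (nat_lit 0x94800004040) (nat_lit 43))))
 (.n (.n (.p (nat_lit 0x25b225ae25ac25a80d510d4b06) (nat_lit 0x1200019a0) (nat_lit 14))
 (.p (nat_lit 0x389d388502) (nat_lit 0xa200a000000) (nat_lit 35)))
 (.p (nat_lit 0x34b03470345013004) (nat_lit 0x22b4004) (nat_lit 23))))
 (.n (.n (.n (.p (nat_lit 0x24822480247e247c0d170d1506) (nat_lit 0x300000160) (nat_lit 14))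
 (.p (nat_lit 0x7fd006002) (nat_lit 0x2) (nat_lit 30)))
 (.p (nat_lit 0x12f003a003003) (nat_lit 0x21000a004) (nat_lit 20)))
 (.n (.n (.p (nat_lit 0xdd60dd40dd30dd00dce0dcc001307) (nat_lit 0x60a1) (nat_lit 7))
 (.p (nat_lit 0x398f397702) (nat_lit 0xaa408000800) (nat_lit 35)))
 (.p (nat_lit 0x103a10381036103410321031004907) (nat_lit 0x806) (nat_lit 7)))))
 (.n (.n (.n (.n (.p (nat_lit 0x190819061904190219000cf306) (nat_lit 0x200001c20) (nat_lit 17))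
 (.p (nat_lit 0x14d714bf02) (nat_lit 0x202e) (nat_lit 18)))
 (.n (.p (nat_lit 0xede0edc0eda0ed80ed60ed5002507) (nat_lit 0x83) (nat_lit 7))
 (.p (nat_lit 0x3a43393f382103) (nat_lit 0x29800006080) (nat_lit 43))))
 (.n (.n (.p (nat_lit 0x184d0d9c02) (nat_lit 0x61) (nat_lit 4))
 (.p (nat_lit 0x390b390502) (nat_lit 0x18004000800) (nat_lit 35)))
 (.p (nat_lit 0x247a24782476247424700fc706) (nat_lit 0x20001045) (nat_lit 14))))
 (.n (.n (.n (.p (nat_lit 0x2550254e254c25480d2f0d2706) (nat_lit 0x220001380) (nat_lit 14))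
 (.p (nat_lit 0x3805380302) (nat_lit 0x83c04000000) (nat_lit 35)))
 (.p (nat_lit 0x249519e50349033b012e05) (nat_lit 0x10b0044) (nat_lit 9)))
 (.n (.n (.p (nat_lit 0x2e4b001b02) (nat_lit 0x2862) (nat_lit 33))
 (.p (nat_lit 0x3a0d38bd379d03) (nat_lit 0x63000000000) (nat_lit 43)))
 (.p (nat_lit 0x172f106f02) (nat_lit 0x2066) (nat_lit 19)))))

def c512_288 : Tr :=
 .n (.n (.n (.n (.n (.p (nat_lit 0xdf90cd902) (nat_lit 0x8900) (nat_lit 19))
 (.p (nat_lit 0x1e45139402) (nat_lit 0x480c) (nat_lit 4)))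
 (.n (.p (nat_lit 0x19470e9602) (nat_lit 0xa023) (nat_lit 4))
 (.p (nat_lit 0x39ef3947382703) (nat_lit 0x4a400006060) (nat_lit 44))))
 (.n (.n (.p (nat_lit 0xd8f0d7702) (nat_lit 0xa021) (nat_lit 18))
 (.p (nat_lit 0x38cd38b902) (nat_lit 0xa2800000800) (nat_lit 35)))
 (.p (nat_lit 0xfb60fb40fb20fb00faf0fac003f07) (nat_lit 0x2025) (nat_lit 7))))
 (.n (.n (.n (.p (nat_lit 0x19fa19f419f219f00d210d1f06) (nat_lit 0x180001a60) (nat_lit 15))
 (.p (nat_lit 0x37ad379902) (nat_lit 0xa2800000000) (nat_lit 35)))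
 (.p (nat_lit 0x1802180017fe17fc17f80f1306) (nat_lit 0x20001d04) (nat_lit 15)))
 (.n (.n (.p (nat_lit 0x27b427b227b027ae27ac0e0706) (nat_lit 0x200000522) (nat_lit 14))
 (.p (nat_lit 0x39b539a702) (nat_lit 0x8240a000800) (nat_lit 35)))
 (.p (nat_lit 0x17ba17b817b617b417b2105506) (nat_lit 0x10001246) (nat_lit 17)))))
 (.n (.n (.n (.n (.p (nat_lit 0x193a1938193419320d070d0106) (nat_lit 0x90001840) (nat_lit 15))
 (.p (nat_lit 0x20b1160002) (nat_lit 0x850) (nat_lit 4)))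
 (.n (.p (nat_lit 0x226a2268226422600ef30eef06) (nat_lit 0xa00012a3) (nat_lit 16))
 (.p (nat_lit 0x3a09398f386f03) (nat_lit 0xad4000080a0) (nat_lit 44))))
 (.n (.n (.p (nat_lit 0x22b222b022ae22aa22a80dad06) (nat_lit 0x40001d61) (nat_lit 14))
 (.p (nat_lit 0x395d393f02) (nat_lit 0xa1406000800) (nat_lit 35)))
 (.p (nat_lit 0x1aaf0ffe02) (nat_lit 0xa085) (nat_lit 4))))
 (.n (.n (.n (.p (nat_lit 0xd530d3b02) (nat_lit 0xa880) (nat_lit 18))
 (.p (nat_lit 0x3859385102) (nat_lit 0x51808000000) (nat_lit 35)))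
 (.p (nat_lit 0x1a2b0f7a02) (nat_lit 0xa884) (nat_lit 4)))
 (.n (.n (.p (nat_lit 0x222c222a222822240e5b0e5306) (nat_lit 0x220000882) (nat_lit 14))
 (.p (nat_lit 0x3a1d3927380f03) (nat_lit 0x8d400004020) (nat_lit 43)))
 (.p (nat_lit 0x3d903d703d5015004) (nat_lit 0x2234006) (nat_lit 23)))))

def c256_32 : Tr := .n c512_32 c512_288

def c512_160 : Tr :=
 .n (.n (.n (.n (.n (.p (nat_lit 0x22fa22f822f622f20cd50cd106) (nat_lit 0x50001a00) (nat_lit 14))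
 (.p (nat_lit 0x1d9312e202) (nat_lit 0x60aa) (nat_lit 4)))
 (.n (.p (nat_lit 0xf0f0e7f02) (nat_lit 0xa403) (nat_lit 19))
 (.p (nat_lit 0x39e739a7388903) (nat_lit 0x4a80000a040) (nat_lit 44))))
 (.n (.n (.p (nat_lit 0x21f021d021b021704) (nat_lit 0x1632000) (nat_lit 24))
 (.p (nat_lit 0x38b938a702) (nat_lit 0x50400000800) (nat_lit 35)))
 (.p (nat_lit 0x25e225de25da25d80f9d0f9906) (nat_lit 0x140001305) (nat_lit 16))))
 (.n (.n (.n (.p (nat_lit 0x10770d1702) (nat_lit 0xa560) (nat_lit 19))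
 (.p (nat_lit 0x91a0918091609140912013c00b507) (nat_lit 0x3a5) (nat_lit 28)))
 (.p (nat_lit 0x19c10f1002) (nat_lit 0x804) (nat_lit 4)))
 (.n (.n (.p (nat_lit 0x10f0020001803) (nat_lit 0x11000a002) (nat_lit 20))
 (.p (nat_lit 0x39c3399702) (nat_lit 0xb840a000800) (nat_lit 35)))
 (.p (nat_lit 0x10521050104e104c104b1048004b07) (nat_lit 0x2826) (nat_lit 7)))))
 (.n (.n (.n (.n (.p (nat_lit 0x196a19661964196219600cfd06) (nat_lit 0x100001240) (nat_lit 17))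
 (.p (nat_lit 0x1a4e1a4c1a4a1a461a44155d06) (nat_lit 0x4000082f) (nat_lit 15)))
 (.n (.p (nat_lit 0x2ef70ee602) (nat_lit 0x6883) (nat_lit 32))
 (.p (nat_lit 0x3a4b38df37c503) (nat_lit 0x2a0000020a0) (nat_lit 43))))
 (.n (.n (.p (nat_lit 0x106f0d9f02) (nat_lit 0x2461) (nat_lit 19))
 (.p (nat_lit 0x392d392302) (nat_lit 0xa3c04000800) (nat_lit 35)))
 (.p (nat_lit 0x160b0fdb02) (nat_lit 0xad45) (nat_lit 19))))
 (.n (.n (.n (.p (nat_lit 0x250a25082506250225000d3506) (nat_lit 0x40001880) (nat_lit 14))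
 (.p (nat_lit 0x3833382502) (nat_lit 0x7a006000000) (nat_lit 35)))
 (.p (nat_lit 0xf6b0f5302) (nat_lit 0x6064) (nat_lit 18)))
 (.n (.n (.p (nat_lit 0x178a1786178217800e4d0e4906) (nat_lit 0x140001082) (nat_lit 15))
 (.p (nat_lit 0x3a1439cc001503) (nat_lit 0x8000) (nat_lit 40)))
 (.p (nat_lit 0x108e108d108a108810861084005107) (nat_lit 0x8086) (nat_lit 7)))))

def c512_416 : Tr :=
 .n (.n (.n (.n (.n (.p (nat_lit 0xcf20cf00cee0ced0cea0ce902180005000109) (nat_lit 0x20820) (nat_lit 13))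
 (.p (nat_lit 0x1a401a3e1a3c1a3a1a38142b06) (nat_lit 0x200001d0d) (nat_lit 15)))
 (.n (.p (nat_lit 0x19690eb802) (nat_lit 0x8843) (nat_lit 4))
 (.p (nat_lit 0x39f339a9389103) (nat_lit 0x5380000a060) (nat_lit 44))))
 (.n (.n (.p (nat_lit 0x18f018ee18ec18ea18e80d8f06) (nat_lit 0x200001341) (nat_lit 15))
 (.p (nat_lit 0x38f538d902) (nat_lit 0x80802000800) (nat_lit 35)))
 (.p (nat_lit 0x178a17881786178217800fbd06) (nat_lit 0x40001825) (nat_lit 15))))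
 (.n (.n (.n (.p (nat_lit 0x228717d702) (nat_lit 0x2080) (nat_lit 11))
 (.p (nat_lit 0x37dd37bd02) (nat_lit 0xa1002000000) (nat_lit 35)))
 (.p (nat_lit 0x14c50f2502) (nat_lit 0x8424) (nat_lit 19)))
 (.n (.n (.p (nat_lit 0x282e282a2828282628240e2906) (nat_lit 0x100000c42) (nat_lit 14))
 (.p (nat_lit 0x38f638f438f038ee37d705) (nat_lit 0x4402000000) (nat_lit 36)))
 (.p (nat_lit 0x227422722270226e226c106b06) (nat_lit 0x200000b46) (nat_lit 14)))))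
 (.n (.n (.n (.n (.p (nat_lit 0x19b219ae19ac19a80d090d0306) (nat_lit 0x120001d40) (nat_lit 17))
 (.p (nat_lit 0x21da21d821d621d421d221d006) (nat_lit 0x852) (nat_lit 2)))
 (.p (nat_lit 0x17c617c417c017be17bc0eff06) (nat_lit 0x80000ba3) (nat_lit 15)))
 (.n (.n (.p (nat_lit 0x10870db702) (nat_lit 0x2481) (nat_lit 19))
 (.p (nat_lit 0x3987396702) (nat_lit 0x88408000800) (nat_lit 35)))
 (.p (nat_lit 0x10221021101e101c101a1018004507) (nat_lit 0x88a5) (nat_lit 7))))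
 (.n (.n (.n (.p (nat_lit 0x25e225de25dc25da25d80d4506) (nat_lit 0x1000013a0) (nat_lit 14))
 (.p (nat_lit 0x387b387702) (nat_lit 0x1840a000000) (nat_lit 35)))
 (.p (nat_lit 0x10110f8102) (nat_lit 0x45a4) (nat_lit 19)))
 (.n (.n (.p (nat_lit 0x2e770e6602) (nat_lit 0xa0a2) (nat_lit 32))
 (.p (nat_lit 0x3a233995387703) (nat_lit 0x40000a020) (nat_lit 43)))
 (.p (nat_lit 0x19081906190419021900119706) (nat_lit 0x200001468) (nat_lit 15)))))

def c256_160 : Tr := .n c512_160 c512_416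

def c128_32 : Tr := .n c256_32 c256_160

def c512_96 : Tr :=
 .n (.n (.n (.n (.n (.p (nat_lit 0xcd5001002) (nat_lit 0x4800) (nat_lit 1))
 (.p (nat_lit 0x1d7912c802) (nat_lit 0x408a) (nat_lit 4)))
 (.n (.p (nat_lit 0x11c002f002d002b002905) (nat_lit 0x3c0008003) (nat_lit 21))
 (.p (nat_lit 0x39e5396f385703) (nat_lit 0x2a400008040) (nat_lit 44))))
 (.n (.n (.p (nat_lit 0x1b3e1b3c1b3a1b381b340d4b06) (nat_lit 0x20000ca0) (nat_lit 15))
 (.p (nat_lit 0x38a3389302) (nat_lit 0xbbc0a000000) (nat_lit 35)))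
 (.p (nat_lit 0x2fa50f9402) (nat_lit 0x5) (nat_lit 32))))
 (.n (.n (.n (.p (nat_lit 0x1a361a341a321a2c0d110d0f06) (nat_lit 0x60000560) (nat_lit 15))
 (.p (nat_lit 0x87c087a087808760874011c000b07) (nat_lit 0xa083) (nat_lit 28)))
 (.p (nat_lit 0x17ba17b617b417b217b00f0d06) (nat_lit 0x100001204) (nat_lit 15)))
 (.n (.n (.p (nat_lit 0xde20de10dde0ddd0dda0dd8027c0015001109) (nat_lit 0x448a1) (nat_lit 13))
 (.p (nat_lit 0x3991398902) (nat_lit 0xb4808000800) (nat_lit 35)))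
 (.p (nat_lit 0x3051104002) (nat_lit 0x4026) (nat_lit 32)))))
 (.n (.n (.n (.n (.p (nat_lit 0xf330cf302) (nat_lit 0xab20) (nat_lit 19))
 (.p (nat_lit 0x14df14dc14da14d814d614d400b307) (nat_lit 0xa04e) (nat_lit 7)))
 (.n (.p (nat_lit 0x24922490248c248a0edb0ed506) (nat_lit 0x90001183) (nat_lit 16))
 (.p (nat_lit 0x3a44229902) (nat_lit 0x8880) (nat_lit 46))))
 (.n (.n (.p (nat_lit 0x226a22682264226222600da306) (nat_lit 0x80001261) (nat_lit 14))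
 (.p (nat_lit 0x392f391102) (nat_lit 0xa9804000800) (nat_lit 35)))
 (.p (nat_lit 0xfd9003802) (nat_lit 0x8845) (nat_lit 1))))
 (.n (.n (.n (.p (nat_lit 0xfff0d2f02) (nat_lit 0xa480) (nat_lit 19))
 (.p (nat_lit 0x3825381902) (nat_lit 0x40806000000) (nat_lit 35)))
 (.p (nat_lit 0x19f30f4202) (nat_lit 0x2844) (nat_lit 4)))
 (.n (.n (.p (nat_lit 0x24622460245e24580e3d0e3b06) (nat_lit 0x60001d62) (nat_lit 14))
 (.p (nat_lit 0x3a0f38e937cf03) (nat_lit 0x53400002000) (nat_lit 43)))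
 (.p (nat_lit 0x1a5a1a561a541a521081107906) (nat_lit 0x110001866) (nat_lit 17)))))

def c512_352 : Tr :=
 .n (.n (.n (.n (.n (.p (nat_lit 0x18fe18fc18f618f40ce30ce106) (nat_lit 0xc0000420) (nat_lit 17))
 (.p (nat_lit 0x24ce24ca24c824c624c4140506) (nat_lit 0x1000004ac) (nat_lit 14)))
 (.n (.p (nat_lit 0xea20ea00e9e0e9d0e9b0e9802fc0029002709) (nat_lit 0x22823) (nat_lit 13))
 (.p (nat_lit 0x39f13985386d03) (nat_lit 0x85000008060) (nat_lit 44))))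
 (.n (.n (.p (nat_lit 0xd950d7d02) (nat_lit 0x4821) (nat_lit 18))
 (.p (nat_lit 0x38d338cf02) (nat_lit 0xbd400000800) (nat_lit 35)))
 (.p (nat_lit 0x229a22962294229222900fb506) (nat_lit 0x100001425) (nat_lit 16))))
 (.n (.n (.n (.p (nat_lit 0x24f224f024ec24ea24e80d1f06) (nat_lit 0x80001d60) (nat_lit 14))
 (.p (nat_lit 0x37bf37b502) (nat_lit 0x28002000000) (nat_lit 35)))
 (.p (nat_lit 0x19d70f2602) (nat_lit 0xa024) (nat_lit 4)))
 (.n (.n (.p (nat_lit 0xe1f0e1c0e1a0e190e160e1402c60023001d09) (nat_lit 0x54042) (nat_lit 13))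
 (.p (nat_lit 0x39bf39bb02) (nat_lit 0xacc0a000800) (nat_lit 35)))
 (.p (nat_lit 0x15f9105902) (nat_lit 0x4446) (nat_lit 19)))))
 (.n (.n (.n (.n (.p (nat_lit 0x2430242e242c242a0d0b0d0106) (nat_lit 0x210001b40) (nat_lit 14))
 (.p (nat_lit 0x214d169c02) (nat_lit 0x71) (nat_lit 4)))
 (.n (.p (nat_lit 0xf830ef302) (nat_lit 0x64a3) (nat_lit 19))
 (.p (nat_lit 0x3a5339b1389703) (nat_lit 0x7440000a0a0) (nat_lit 43))))
 (.n (.n (.p (nat_lit 0x231f186f026d026700fe05) (nat_lit 0x88a081) (nat_lit 9))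
 (.p (nat_lit 0x394f394d02) (nat_lit 0x6b006000800) (nat_lit 35)))
 (.p (nat_lit 0x3025101402) (nat_lit 0x80a5) (nat_lit 32))))
 (.n (.n (.n (.p (nat_lit 0x22a617f60d4703) (nat_lit 0xa0a0) (nat_lit 6))
 (.p (nat_lit 0x3869385d02) (nat_lit 0x93008000000) (nat_lit 35)))
 (.p (nat_lit 0xf85004402) (nat_lit 0x80a4) (nat_lit 1)))
 (.n (.n (.p (nat_lit 0x22a622a422a2229e229c0e5506) (nat_lit 0x40000d82) (nat_lit 14))
 (.p (nat_lit 0x3a1f3959383b03) (nat_lit 0x94c00006020) (nat_lit 43)))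
 (.p (nat_lit 0x22e222e022dc22da22d8110306) (nat_lit 0x80001167) (nat_lit 14)))))

def c256_96 : Tr := .n c512_96 c512_352

def c512_224 : Tr :=
 .n (.n (.n (.n (.n (.p (nat_lit 0x186e186a186818640cd90cd306) (nat_lit 0x120000c00) (nat_lit 15))
 (.p (nat_lit 0x137f12ef02) (nat_lit 0x6baa) (nat_lit 19)))
 (.n (.p (nat_lit 0x18f218ee18ec18e80e890e8306) (nat_lit 0x120001b03) (nat_lit 17))
 (.p (nat_lit 0x3a3338df37bf03) (nat_lit 0x29400002060) (nat_lit 43))))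
 (.n (.n (.p (nat_lit 0x22c90d6802) (nat_lit 0x8801) (nat_lit 5))
 (.p (nat_lit 0x38c938af02) (nat_lit 0x91400000800) (nat_lit 35)))
 (.p (nat_lit 0x25a625a225a0259e259c0fa906) (nat_lit 0x100000905) (nat_lit 14))))
 (.n (.n (.n (.p (nat_lit 0x19ca19c619c419c219c00d2106) (nat_lit 0x100001860) (nat_lit 17))
 (.p (nat_lit 0x3797378502) (nat_lit 0x48000000000) (nat_lit 35)))
 (.p (nat_lit 0x225a2258225622540f1b0f1906) (nat_lit 0x300000a04) (nat_lit 14)))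
 (.n (.n (.p (nat_lit 0x18a50df402) (nat_lit 0x4802) (nat_lit 4))
 (.p (nat_lit 0x39a9399f02) (nat_lit 0x5140a000800) (nat_lit 35)))
 (.p (nat_lit 0x187a1876187418721051104906) (nat_lit 0x110001c26) (nat_lit 17)))))
 (.n (.n (.n (.n (.p (nat_lit 0xf350cf502) (nat_lit 0x340) (nat_lit 19))
 (.p (nat_lit 0x209915e802) (nat_lit 0x830) (nat_lit 4)))
 (.n (.p (nat_lit 0x13fb0eeb02) (nat_lit 0xab83) (nat_lit 19))
 (.p (nat_lit 0x3a0617f302) (nat_lit 0x60a0) (nat_lit 45))))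
 (.n (.n (.p (nat_lit 0x17a217a0179c179a17980daf06) (nat_lit 0x80001961) (nat_lit 15))
 (.p (nat_lit 0x394d393702) (nat_lit 0x60406000800) (nat_lit 35)))
 (.p (nat_lit 0x1a9b0fea02) (nat_lit 0x2865) (nat_lit 4))))
 (.n (.n (.n (.p (nat_lit 0x1a8a1a881a861a821a800d3506) (nat_lit 0x40001a80) (nat_lit 15))
 (.p (nat_lit 0x386f384702) (nat_lit 0xa8408000000) (nat_lit 35)))
 (.p (nat_lit 0xf6e0f6c0f6b0f680f670f6403460037003309) (nat_lit 0x32084) (nat_lit 13)))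
 (.n (.n (.p (nat_lit 0x17f417f217f017ee17ec0e4f06) (nat_lit 0x200000582) (nat_lit 15))
 (.p (nat_lit 0x3a1938b9379f03) (nat_lit 0x53400000020) (nat_lit 43)))
 (.p (nat_lit 0x2b442b422b402b3e2b3c109b06) (nat_lit 0x200000986) (nat_lit 16)))))

def c512_480 : Tr :=
 .n (.n (.n (.n (.n (.p (nat_lit 0x23882384238223800cf30cef06) (nat_lit 0x280001a20) (nat_lit 14))
 (.p (nat_lit 0x1f6114b002) (nat_lit 0x80e) (nat_lit 4)))
 (.n (.p (nat_lit 0xf550ec502) (nat_lit 0x8463) (nat_lit 19))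
 (.p (nat_lit 0x39f415f502) (nat_lit 0x580) (nat_lit 47))))
 (.n (.n (.p (nat_lit 0xd9b002202) (nat_lit 0xa841) (nat_lit 1))
 (.p (nat_lit 0x38eb38e502) (nat_lit 0x5a002000800) (nat_lit 35)))
 (.p (nat_lit 0x1802180017fc17fa17f80fbf06) (nat_lit 0x80001d25) (nat_lit 15))))
 (.n (.n (.n (.p (nat_lit 0x1a641a621a601a5e1a5c0d2f06) (nat_lit 0x200000180) (nat_lit 17))
 (.p (nat_lit 0x380d37e702) (nat_lit 0xa0404000000) (nat_lit 35)))
 (.p (nat_lit 0x194419421940193e0f330f2906) (nat_lit 0x210000924) (nat_lit 17)))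
 (.n (.n (.p (nat_lit 0x23ea23e823e423e20e330e2d06) (nat_lit 0x90001062) (nat_lit 16))
 (.p (nat_lit 0x3978397639723970385905) (nat_lit 0x2808000000) (nat_lit 36)))
 (.p (nat_lit 0x3081107002) (nat_lit 0x4066) (nat_lit 32)))))
 (.n (.n (.n (.n (.p (nat_lit 0x227117c102) (nat_lit 0x4060) (nat_lit 11))
 (.p (nat_lit 0x173d004c02) (nat_lit 0x4872) (nat_lit 1)))
 (.p (nat_lit 0x31b0319011e03) (nat_lit 0x6058003) (nat_lit 22)))
 (.n (.n (.p (nat_lit 0x1b0c1b0a1b081b060dcb0dc106) (nat_lit 0x210000a81) (nat_lit 15))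
 (.p (nat_lit 0x397b396f02) (nat_lit 0x59408000800) (nat_lit 35)))
 (.p (nat_lit 0x14f004e004a03) (nat_lit 0xa000a006) (nat_lit 20))))
 (.n (.n (.n (.p (nat_lit 0x17fd0d4c02) (nat_lit 0x48a0) (nat_lit 4))
 (.p (nat_lit 0x388d387d02) (nat_lit 0x6100a000000) (nat_lit 35)))
 (.p (nat_lit 0x2522251e251c25180f910f8b06) (nat_lit 0x1200019a4) (nat_lit 14)))
 (.n (.n (.p (nat_lit 0x2e7f001f02) (nat_lit 0x68a2) (nat_lit 33))
 (.p (nat_lit 0x39dd38c137a903) (nat_lit 0x74800000040) (nat_lit 44)))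
 (.p (nat_lit 0x2312230e230c230a230811ad06) (nat_lit 0x100001388) (nat_lit 14)))))

def c256_224 : Tr := .n c512_224 c512_480

def c128_96 : Tr := .n c256_96 c256_224

def c64_32 : Tr := .n c128_32 c128_96

def c32_0 : Tr := .n c64_0 c64_32

def c512_16 : Tr :=
 .n (.n (.n (.n (.n (.p (nat_lit 0x177d0ccc02) (nat_lit 0x8000) (nat_lit 4))
 (.p (nat_lit 0x2793123202) (nat_lit 0xa869) (nat_lit 5)))
 (.n (.p (nat_lit 0x187a1878187418720e6f0e6906) (nat_lit 0x90001ca2) (nat_lit 15))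
 (.p (nat_lit 0x3a2612c702) (nat_lit 0x2140) (nat_lit 48))))
 (.n (.n (.p (nat_lit 0x25a625a225a0259e259c0d5106) (nat_lit 0x1000009a0) (nat_lit 14))
 (.p (nat_lit 0x3891388302) (nat_lit 0x71c0a000000) (nat_lit 35)))
 (.p (nat_lit 0x33d03390337013004) (nat_lit 0x222004) (nat_lit 23))))
 (.n (.n (.n (.p (nat_lit 0x247824762474247224700d1706) (nat_lit 0x200001060) (nat_lit 16))
 (.l (nat_lit 0x2550008) (nat_lit 0x10341) (nat_lit 29)))
 (.p (nat_lit 0x12f0036003003) (nat_lit 0x9000a004) (nat_lit 20)))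
 (.n (.n (.p (nat_lit 0x2de62de42de22de02dde2ddc00fc07) (nat_lit 0xa1) (nat_lit 8))
 (.p (nat_lit 0x398b397502) (nat_lit 0x9a008000800) (nat_lit 35)))
 (.p (nat_lit 0x21da21d821d621d221d0102906) (nat_lit 0x40001206) (nat_lit 15)))))
 (.n (.n (.n (.n (.p (nat_lit 0x23ac23a823a623a40cf30cef06) (nat_lit 0x280000c20) (nat_lit 16))
 (.p (nat_lit 0x1f7514c402) (nat_lit 0x802e) (nat_lit 4)))
 (.n (.p (nat_lit 0xee50ecd02) (nat_lit 0x4863) (nat_lit 18))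
 (.p (nat_lit 0x39f93927380d03) (nat_lit 0x8d000004080) (nat_lit 44))))
 (.n (.n (.p (nat_lit 0xe250d9502) (nat_lit 0x4a41) (nat_lit 19))
 (.p (nat_lit 0x390138ff02) (nat_lit 0xb5402000800) (nat_lit 35)))
 (.p (nat_lit 0x252b1a7b038f0385013e05) (nat_lit 0x1016045) (nat_lit 9))))
 (.n (.n (.n (.p (nat_lit 0x25462544254225400d270d2506) (nat_lit 0x30000380) (nat_lit 14))
 (.p (nat_lit 0x380f37fb02) (nat_lit 0xaac04000000) (nat_lit 35)))
 (.p (nat_lit 0x14c90f2902) (nat_lit 0xc24) (nat_lit 19)))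
 (.n (.n (.p (nat_lit 0xec10e3102) (nat_lit 0x4362) (nat_lit 19))
 (.p (nat_lit 0x39c538d3378b03) (nat_lit 0xb8c00000000) (nat_lit 44)))
 (.p (nat_lit 0x1aa21aa01a9c1a981073106f06) (nat_lit 0xa0001366) (nat_lit 17)))))

def c512_272 : Tr :=
 .n (.n (.n (.n (.n (.p (nat_lit 0xce90cd102) (nat_lit 0x800) (nat_lit 18))
 (.p (nat_lit 0x28ef138e02) (nat_lit 0xa00c) (nat_lit 5)))
 (.n (.p (nat_lit 0x193f0e8e02) (nat_lit 0x2023) (nat_lit 4))
 (.p (nat_lit 0x3a373937381d03) (nat_lit 0x9000006060) (nat_lit 43))))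
 (.n (.n (.p (nat_lit 0xd770d740d720d700d6f0d6c02720017000f09) (nat_lit 0x52021) (nat_lit 13))
 (.p (nat_lit 0x38c738b702) (nat_lit 0x8a400000800) (nat_lit 35)))
 (.p (nat_lit 0x14b50fa502) (nat_lit 0x4b05) (nat_lit 19))))
 (.n (.n (.n (.p (nat_lit 0x19ee19ec19e819e60d1f0d1906) (nat_lit 0x90000a60) (nat_lit 15))
 (.p (nat_lit 0x379f379302) (nat_lit 0x69c00000000) (nat_lit 35)))
 (.p (nat_lit 0x17ea17e817e617e00f150f1306) (nat_lit 0x60001c04) (nat_lit 15)))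
 (.n (.n (.p (nat_lit 0x18b10e0002) (nat_lit 0x4022) (nat_lit 4))
 (.p (nat_lit 0x39af39a502) (nat_lit 0x6a00a000800) (nat_lit 35)))
 (.p (nat_lit 0x223a2238223622342232105506) (nat_lit 0x10001046) (nat_lit 14)))))
 (.n (.n (.n (.n (.p (nat_lit 0x192e192c192619240d070d0506) (nat_lit 0xc0000840) (nat_lit 15))
 (.p (nat_lit 0x24fe24fa24f824f624f415fd06) (nat_lit 0x100000050) (nat_lit 14)))
 (.n (.p (nat_lit 0x17a217a0179e179c179a0eed06) (nat_lit 0x100011a3) (nat_lit 15))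
 (.p (nat_lit 0x3a51397d385f03) (nat_lit 0x634000080a0) (nat_lit 43))))
 (.n (.n (.p (nat_lit 0x229a22982294229222900daf06) (nat_lit 0x80001c61) (nat_lit 14))
 (.p (nat_lit 0x3961393d02) (nat_lit 0xb1006000800) (nat_lit 35)))
 (.p (nat_lit 0x107d0fed02) (nat_lit 0x4865) (nat_lit 19))))
 (.n (.n (.n (.p (nat_lit 0x257425722570256e0d3b0d3106) (nat_lit 0x210000d80) (nat_lit 14))
 (.p (nat_lit 0x3855384f02) (nat_lit 0x41408000000) (nat_lit 35)))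
 (.p (nat_lit 0x2f85003502) (nat_lit 0x4884) (nat_lit 33)))
 (.n (.n (.p (nat_lit 0x2e65001d02) (nat_lit 0x4882) (nat_lit 33))
 (.p (nat_lit 0x39d5391137f903) (nat_lit 0x32800004020) (nat_lit 44)))
 (.p (nat_lit 0x261310b202) (nat_lit 0xa8a6) (nat_lit 5)))))

def c256_16 : Tr := .n c512_16 c512_272

def c512_144 : Tr :=
 .n (.n (.n (.n (.n (.p (nat_lit 0x22ee22ec22ea22e60cd50cd106) (nat_lit 0x50000a00) (nat_lit 14))
 (.p (nat_lit 0x1950194e194c194a194812db06) (nat_lit 0x20000198a) (nat_lit 17)))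
 (.n (.p (nat_lit 0x23b823b623b223b00e7f0e7906) (nat_lit 0x240001403) (nat_lit 14))
 (.p (nat_lit 0x3a2f39bd387503) (nat_lit 0xa000000a040) (nat_lit 43))))
 (.n (.n (.p (nat_lit 0xf8f0d4f02) (nat_lit 0x6ba0) (nat_lit 19))
 (.p (nat_lit 0x38c138a502) (nat_lit 0x70000000800) (nat_lit 35)))
 (.p (nat_lit 0x1b1a1b161b141b121b100f9d06) (nat_lit 0x100001205) (nat_lit 15))))
 (.n (.n (.n (.p (nat_lit 0xf4f0d0f02) (nat_lit 0x2360) (nat_lit 19))
 (.l (nat_lit 0x541008000000000020) (nat_lit 0x14225) (nat_lit 29)))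
 (.p (nat_lit 0xf270f0f02) (nat_lit 0xa004) (nat_lit 18)))
 (.n (.n (.p (nat_lit 0x297026500fe03) (nat_lit 0x8050001) (nat_lit 22))
 (.p (nat_lit 0x39a3399702) (nat_lit 0x3840a000800) (nat_lit 35)))
 (.p (nat_lit 0x105f104702) (nat_lit 0xa026) (nat_lit 18)))))
 (.n (.n (.n (.n (.p (nat_lit 0x23f623f423f223f00cf70cf506) (nat_lit 0x30000140) (nat_lit 14))
 (.p (nat_lit 0x2ab7155602) (nat_lit 0xa02f) (nat_lit 5)))
 (.n (.p (nat_lit 0x24410ee002) (nat_lit 0x883) (nat_lit 5))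
 (.p (nat_lit 0x3a0015e902) (nat_lit 0xca0) (nat_lit 47))))
 (.n (.n (.p (nat_lit 0xdb90da102) (nat_lit 0x4061) (nat_lit 18))
 (.p (nat_lit 0x392b391f02) (nat_lit 0x9b404000800) (nat_lit 35)))
 (.p (nat_lit 0x1a401a3e1a3c1a3a1a380fdb06) (nat_lit 0x200001d45) (nat_lit 17))))
 (.n (.n (.n (.p (nat_lit 0xd3a0d390d360d350d320d3002340009000509) (nat_lit 0x44880) (nat_lit 13))
 (.p (nat_lit 0x3827382102) (nat_lit 0x49806000000) (nat_lit 35)))
 (.p (nat_lit 0x1a010f5002) (nat_lit 0x4064) (nat_lit 4)))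
 (.n (.n (.p (nat_lit 0x18ff0e4e02) (nat_lit 0xa082) (nat_lit 4))
 (.p (nat_lit 0x39cb3939381f03) (nat_lit 0x11400006000) (nat_lit 44)))
 (.p (nat_lit 0x1b37108602) (nat_lit 0x2086) (nat_lit 4)))))

def c512_400 : Tr :=
 .n (.n (.n (.n (.n (.p (nat_lit 0x224b0cea02) (nat_lit 0x2820) (nat_lit 5))
 (.p (nat_lit 0x19ca19c619c419c219c0141d06) (nat_lit 0x10000100d) (nat_lit 17)))
 (.n (.p (nat_lit 0x1e261e241e221e201e1e0ea506) (nat_lit 0x10000543) (nat_lit 17))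
 (.p (nat_lit 0x3a3b39a3388303) (nat_lit 0x39c0000a060) (nat_lit 43))))
 (.n (.n (.p (nat_lit 0xd8e0d8c0d8b0d880d860d8502620013000d09) (nat_lit 0x30041) (nat_lit 13))
 (.p (nat_lit 0x38f338d702) (nat_lit 0x78402000800) (nat_lit 35)))
 (.p (nat_lit 0x25210fc002) (nat_lit 0x8825) (nat_lit 5))))
 (.n (.n (.n (.p (nat_lit 0x10790d1902) (nat_lit 0xd60) (nat_lit 19))
 (.p (nat_lit 0x37e337b902) (nat_lit 0xb8802000000) (nat_lit 35)))
 (.p (nat_lit 0x2462245e245c245a24580f2506) (nat_lit 0x100001524) (nat_lit 14)))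
 (.n (.n (.p (nat_lit 0x2e390e2802) (nat_lit 0x8842) (nat_lit 32))
 (.p (nat_lit 0x390038fe38d638d437b705) (nat_lit 0x402000000) (nat_lit 36)))
 (.p (nat_lit 0x17a217a0179e179c1798106306) (nat_lit 0x20001946) (nat_lit 15)))))
 (.n (.n (.n (.n (.p (nat_lit 0x245424522450244e0d0b0d0106) (nat_lit 0x210000d40) (nat_lit 16))
 (.p (nat_lit 0x18481846184418421840171f06) (nat_lit 0x200001252) (nat_lit 17)))
 (.p (nat_lit 0x225e225a2258225622540f0106) (nat_lit 0x100000aa3) (nat_lit 16)))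
 (.n (.n (.p (nat_lit 0x1b481b461b441b400dbf0db706) (nat_lit 0x220001481) (nat_lit 17))
 (.p (nat_lit 0x398f396502) (nat_lit 0xa8008000800) (nat_lit 35)))
 (.p (nat_lit 0x101d00c402) (nat_lit 0x48a5) (nat_lit 1))))
 (.n (.n (.n (.p (nat_lit 0x25c825c625c425c225c00d4706) (nat_lit 0x2000012a0) (nat_lit 16))
 (.p (nat_lit 0x387b387502) (nat_lit 0x1800a000000) (nat_lit 35)))
 (.p (nat_lit 0x1ad21ad01ace1aca1ac80f8106) (nat_lit 0x400015a4) (nat_lit 17)))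
 (.n (.n (.p (nat_lit 0xe660e640e620e610e5e0e5c001d07) (nat_lit 0x40a2) (nat_lit 7))
 (.p (nat_lit 0x3a21397b386103) (nat_lit 0x5b800008020) (nat_lit 43)))
 (.p (nat_lit 0x31a3006702) (nat_lit 0x6068) (nat_lit 33)))))

def c256_144 : Tr := .n c512_144 c512_400

def c128_16 : Tr := .n c256_16 c256_144

def c512_80 : Tr :=
 .n (.n (.n (.n (.n (.p (nat_lit 0xf070cc702) (nat_lit 0x2300) (nat_lit 19))
 (.p (nat_lit 0x282112c002) (nat_lit 0x886a) (nat_lit 5)))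
 (.n (.p (nat_lit 0x11d002a0026002404) (nat_lit 0xb0008003) (nat_lit 20))
 (.p (nat_lit 0x3a2d3969384903) (nat_lit 0x10800008040) (nat_lit 43))))
 (.n (.n (.p (nat_lit 0x1b241b201b1e1b1c0d530d4f06) (nat_lit 0x280000ba0) (nat_lit 15))
 (.p (nat_lit 0x389f388f02) (nat_lit 0xab40a000000) (nat_lit 35)))
 (.p (nat_lit 0x13f0046003e03) (nat_lit 0x22000a005) (nat_lit 20))))
 (.n (.n (.n (.p (nat_lit 0x1a1c1a1a1a181a160d170d0d06) (nat_lit 0x210000460) (nat_lit 15))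
 (.p (nat_lit 0x865002d02) (nat_lit 0x8043) (nat_lit 31)))
 (.p (nat_lit 0x178817861784178217800f0f06) (nat_lit 0x200001004) (nat_lit 17)))
 (.n (.n (.p (nat_lit 0x233d0ddc02) (nat_lit 0x48a1) (nat_lit 5))
 (.p (nat_lit 0x3991398102) (nat_lit 0xb3808000800) (nat_lit 35)))
 (.p (nat_lit 0x1af61af41af21af01aee1aec06) (nat_lit 0x26) (nat_lit 2)))))
 (.n (.n (.n (.n (.p (nat_lit 0xe0b0ceb02) (nat_lit 0x2920) (nat_lit 19))
 (.p (nat_lit 0x1f8514d402) (nat_lit 0x4e) (nat_lit 4)))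
 (.n (.p (nat_lit 0x19bc19ba19b819b619b40edf06) (nat_lit 0x200000083) (nat_lit 15))
 (.p (nat_lit 0x39fd397b386303) (nat_lit 0x5bc00008080) (nat_lit 44))))
 (.n (.n (.p (nat_lit 0x22522250224c224a22480da306) (nat_lit 0x80001161) (nat_lit 14))
 (.p (nat_lit 0x392d390d02) (nat_lit 0xa1004000800) (nat_lit 35)))
 (.p (nat_lit 0x1a830fd202) (nat_lit 0x2845) (nat_lit 4))))
 (.n (.n (.n (.p (nat_lit 0xed70d2702) (nat_lit 0x2280) (nat_lit 19))
 (.p (nat_lit 0x382d381502) (nat_lit 0x60006000000) (nat_lit 35)))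
 (.p (nat_lit 0x29722970296c296a0f3b0f3506) (nat_lit 0x90001544) (nat_lit 16)))
 (.n (.n (.p (nat_lit 0x19761970196e196c0e410e3f06) (nat_lit 0x180000b62) (nat_lit 17))
 (.p (nat_lit 0x39c7390137b903) (nat_lit 0xb0800002000) (nat_lit 44)))
 (.p (nat_lit 0x10831080107e107c107a107903ce0053004909) (nat_lit 0x50866) (nat_lit 13)))))

def c512_336 : Tr :=
 .n (.n (.n (.n (.n (.p (nat_lit 0x18c218c018ba18b80ce30ce106) (nat_lit 0xc0001120) (nat_lit 17))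
 (.p (nat_lit 0x1405003802) (nat_lit 0x80ac) (nat_lit 1)))
 (.n (.p (nat_lit 0x2ead0e9c02) (nat_lit 0x4823) (nat_lit 32))
 (.p (nat_lit 0x39f1397b386103) (nat_lit 0x5b800008060) (nat_lit 44))))
 (.n (.n (.p (nat_lit 0x26f426f226f026ee26ec0d8306) (nat_lit 0x200000b21) (nat_lit 14))
 (.p (nat_lit 0x38d138c502) (nat_lit 0xb4000000800) (nat_lit 35)))
 (.p (nat_lit 0x17d217d017ce17cc17ca0fad06) (nat_lit 0x10001325) (nat_lit 15))))
 (.n (.n (.n (.p (nat_lit 0x24e624e424e024de0d1f0d1906) (nat_lit 0x90000d60) (nat_lit 14))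
 (.p (nat_lit 0x37b137a902) (nat_lit 0xb4800000000) (nat_lit 35)))
 (.p (nat_lit 0x247f19cf0349033b012e05) (nat_lit 0xc42024) (nat_lit 9)))
 (.n (.n (.p (nat_lit 0x2e29001d02) (nat_lit 0x4042) (nat_lit 33))
 (.p (nat_lit 0x39c139b302) (nat_lit 0xb3c0a000800) (nat_lit 35)))
 (.p (nat_lit 0x22b222b022ae22ac22a8105706) (nat_lit 0x20001546) (nat_lit 16)))))
 (.n (.n (.n (.n (.p (nat_lit 0x242624242422241c0d050d0306) (nat_lit 0x60000b40) (nat_lit 14))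
 (.p (nat_lit 0x2b77161602) (nat_lit 0xa070) (nat_lit 5)))
 (.n (.p (nat_lit 0x180017fe17fc17fa0ef70eed06) (nat_lit 0x2100015a3) (nat_lit 17))
 (.p (nat_lit 0x3a5339a5388d03) (nat_lit 0x4300000a0a0) (nat_lit 43))))
 (.n (.n (.p (nat_lit 0x2dcb0dba02) (nat_lit 0x6081) (nat_lit 32))
 (.p (nat_lit 0x394f394702) (nat_lit 0x6a406000800) (nat_lit 35)))
 (.p (nat_lit 0x256f100e02) (nat_lit 0x20a5) (nat_lit 5))))
 (.n (.n (.n (.p (nat_lit 0x22a117f102) (nat_lit 0x40a0) (nat_lit 11))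
 (.p (nat_lit 0x3865385902) (nat_lit 0x82808000000) (nat_lit 35)))
 (.p (nat_lit 0x24dd1a2d034b0339012e05) (nat_lit 0x14a00a4) (nat_lit 9)))
 (.n (.n (.p (nat_lit 0x17de17dc17da17d817d40e5306) (nat_lit 0x20000c82) (nat_lit 17))
 (.p (nat_lit 0x3a1f394f383103) (nat_lit 0x6b800006020) (nat_lit 43)))
 (.p (nat_lit 0x118910f902) (nat_lit 0x8a47) (nat_lit 19)))))

def c256_80 : Tr := .n c512_80 c512_336

def c512_208 : Tr :=
 .n (.n (.n (.n (.n (.p (nat_lit 0x1860185e185c185a0cdb0cd106) (nat_lit 0x210001b00) (nat_lit 17))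
 (.p (nat_lit 0x3303008302) (nat_lit 0xa8aa) (nat_lit 33)))
 (.n (.p (nat_lit 0x238a23882384238223800e8706) (nat_lit 0x80001a03) (nat_lit 14))
 (.p (nat_lit 0x3a33003202) (nat_lit 0x2060) (nat_lit 42))))
 (.n (.n (.p (nat_lit 0xd750d5d02) (nat_lit 0x8001) (nat_lit 18))
 (.p (nat_lit 0x38c138ad02) (nat_lit 0x71000000800) (nat_lit 35)))
 (.p (nat_lit 0x2fb90fa802) (nat_lit 0x8805) (nat_lit 32))))
 (.n (.n (.n (.p (nat_lit 0x246e246a246624640d210d1d06) (nat_lit 0x140000860) (nat_lit 16))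
 (.p (nat_lit 0xa77008302) (nat_lit 0xa08a) (nat_lit 31)))
 (.p (nat_lit 0x22522250224e224a0f150f1106) (nat_lit 0x50001904) (nat_lit 14)))
 (.n (.n (.p (nat_lit 0x126b0deb02) (nat_lit 0x6202) (nat_lit 19))
 (.p (nat_lit 0x39ab399d02) (nat_lit 0x5900a000800) (nat_lit 35)))
 (.p (nat_lit 0x23062304230222fc104d104b06) (nat_lit 0x60000b26) (nat_lit 14)))))
 (.n (.n (.n (.n (.p (nat_lit 0xd0d0cf502) (nat_lit 0x40) (nat_lit 18))
 (.p (nat_lit 0x15e715e415e215e015de15dc00cb07) (nat_lit 0xa030) (nat_lit 7)))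
 (.n (.p (nat_lit 0x1a1e1a1a1a181a140ee90ee306) (nat_lit 0x120000c83) (nat_lit 17))
 (.p (nat_lit 0x3a4f393b382103) (nat_lit 0x198000060a0) (nat_lit 43))))
 (.n (.n (.p (nat_lit 0x178a17881784178217800daf06) (nat_lit 0x80001861) (nat_lit 17))
 (.p (nat_lit 0x3955393502) (nat_lit 0x80006000800) (nat_lit 35)))
 (.p (nat_lit 0x1fe21fde1fdc1fda1fd80fe506) (nat_lit 0x100001565) (nat_lit 15))))
 (.n (.n (.n (.p (nat_lit 0x1a7e1a7c1a7a1a781a760d3106) (nat_lit 0x10000a80) (nat_lit 15))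
 (.p (nat_lit 0x384f384702) (nat_lit 0x28408000000) (nat_lit 35)))
 (.p (nat_lit 0xf6b00ae02) (nat_lit 0x6084) (nat_lit 1)))
 (.n (.n (.p (nat_lit 0x228e228c228a228622840e4906) (nat_lit 0x40000482) (nat_lit 16))
 (.p (nat_lit 0x39cf399d387d03) (nat_lit 0x2100000a000) (nat_lit 44)))
 (.p (nat_lit 0x1b49109802) (nat_lit 0x8886) (nat_lit 4)))))

def c512_464 : Tr :=
 .n (.n (.n (.n (.n (.p (nat_lit 0x23722370236c236a23680cef06) (nat_lit 0x80001920) (nat_lit 16))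
 (.p (nat_lit 0x1a661a641a621a601a5e14a506) (nat_lit 0x1000010e) (nat_lit 15)))
 (.n (.p (nat_lit 0x1e3e1e3a1e381e361e340ec506) (nat_lit 0x100000063) (nat_lit 17))
 (.p (nat_lit 0x39f538c137a103) (nat_lit 0x73800000080) (nat_lit 44))))
 (.n (.n (.p (nat_lit 0x22f30d9202) (nat_lit 0x2841) (nat_lit 5))
 (.p (nat_lit 0x38fd38df02) (nat_lit 0xa1402000800) (nat_lit 35)))
 (.p (nat_lit 0x17ea17e817e617e00fbd0fbb06) (nat_lit 0x60001c25) (nat_lit 17))))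
 (.n (.n (.n (.p (nat_lit 0x1a5a1a561a541a500d2d0d2706) (nat_lit 0x120001080) (nat_lit 15))
 (.p (nat_lit 0x37ff37e502) (nat_lit 0x68004000000) (nat_lit 35)))
 (.p (nat_lit 0xf330f300f2e0f2c0f2b0f28034a003b003309) (nat_lit 0x52824) (nat_lit 13)))
 (.n (.n (.p (nat_lit 0x18e70e3602) (nat_lit 0xa062) (nat_lit 4))
 (.p (nat_lit 0x3958395639523950383905) (nat_lit 0x4806000000) (nat_lit 36)))
 (.p (nat_lit 0x160b106b02) (nat_lit 0xac46) (nat_lit 19)))))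
 (.n (.n (.n (.n (.p (nat_lit 0x10690d0902) (nat_lit 0x8d40) (nat_lit 19))
 (.p (nat_lit 0x25b225b025ae25ac25aa172d06) (nat_lit 0x10001172) (nat_lit 14)))
 (.p (nat_lit 0x30102ef011e03) (nat_lit 0x2040003) (nat_lit 22)))
 (.n (.n (.p (nat_lit 0xdca0dc90dc60dc40dc30dc002700015000f09) (nat_lit 0x42881) (nat_lit 13))
 (.p (nat_lit 0x397f396d02) (nat_lit 0x69008000800) (nat_lit 35)))
 (.p (nat_lit 0x3a9038f0383014004) (nat_lit 0x6210005) (nat_lit 23))))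
 (.n (.n (.n (.p (nat_lit 0x10a50d4502) (nat_lit 0x85a0) (nat_lit 19))
 (.p (nat_lit 0x388d387b02) (nat_lit 0x60c0a000000) (nat_lit 35)))
 (.p (nat_lit 0x24fa24f824f624f40f930f9106) (nat_lit 0x3000008a4) (nat_lit 14)))
 (.n (.n (.p (nat_lit 0xe720e700e6e0e6c0e6a0e69001907) (nat_lit 0x8a2) (nat_lit 7))
 (.p (nat_lit 0x39dd38b9379f03) (nat_lit 0x53400000040) (nat_lit 44)))
 (.p (nat_lit 0x270b11aa02) (nat_lit 0x6088) (nat_lit 5)))))

def c256_208 : Tr := .n c512_208 c512_464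

def c128_80 : Tr := .n c256_80 c256_208

def c64_16 : Tr := .n c128_16 c128_80

def c512_48 : Tr :=
 .n (.n (.n (.n (.n (.p (nat_lit 0x2310230e230c230a0ccf0cc506) (nat_lit 0x210001300) (nat_lit 16))
 (.p (nat_lit 0x27ad124c02) (nat_lit 0xa9) (nat_lit 5)))
 (.n (.p (nat_lit 0x2c702c5010e03) (nat_lit 0x4058002) (nat_lit 22))
 (.p (nat_lit 0x3a2b393b382103) (nat_lit 0x19800006040) (nat_lit 43))))
 (.n (.n (.p (nat_lit 0x25bc25ba25b825b625b40d5306) (nat_lit 0x200000aa0) (nat_lit 16))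
 (.p (nat_lit 0x3899388902) (nat_lit 0x9280a000000) (nat_lit 35)))
 (.p (nat_lit 0x361033d012e03) (nat_lit 0x8030004) (nat_lit 22))))
 (.n (.n (.n (.p (nat_lit 0x249e249c249a249824960d0d06) (nat_lit 0x10000260) (nat_lit 14))
 (.p (nat_lit 0x82b002302) (nat_lit 0xa062) (nat_lit 31)))
 (.p (nat_lit 0x2f1e2f1c2f1a2f182f162f14012c07) (nat_lit 0x4) (nat_lit 8)))
 (.n (.n (.p (nat_lit 0x21ce21cc21c821c40dd30dcf06) (nat_lit 0xa00002a1) (nat_lit 17))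
 (.p (nat_lit 0x397d397b02) (nat_lit 0x62c08000800) (nat_lit 35)))
 (.p (nat_lit 0x1ae9103802) (nat_lit 0x8806) (nat_lit 4)))))
 (.n (.n (.n (.n (.p (nat_lit 0x191419121910190e190c0cf306) (nat_lit 0x200000d20) (nat_lit 15))
 (.p (nat_lit 0x1f7f14ce02) (nat_lit 0x682e) (nat_lit 4)))
 (.n (.p (nat_lit 0x243b0eda02) (nat_lit 0x6083) (nat_lit 5))
 (.p (nat_lit 0x3a42229702) (nat_lit 0x6880) (nat_lit 46))))
 (.n (.n (.p (nat_lit 0x18530da202) (nat_lit 0x6061) (nat_lit 4))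
 (.p (nat_lit 0x3933390502) (nat_lit 0xb8004000800) (nat_lit 35)))
 (.p (nat_lit 0x1a2a1a261a241a221a200fcd06) (nat_lit 0x100001445) (nat_lit 15))))
 (.n (.n (.n (.p (nat_lit 0x1ac61ac41abe1abc0d2b0d2906) (nat_lit 0xc0000580) (nat_lit 15))
 (.p (nat_lit 0x3811380702) (nat_lit 0xb4404000000) (nat_lit 35)))
 (.p (nat_lit 0x2f4b003702) (nat_lit 0x6044) (nat_lit 33)))
 (.n (.n (.p (nat_lit 0xe43002e02) (nat_lit 0xa862) (nat_lit 1))
 (.p (nat_lit 0x3a0d38c737a703) (nat_lit 0x8c400000000) (nat_lit 43)))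
 (.p (nat_lit 0x3089004902) (nat_lit 0x866) (nat_lit 33)))))

def c512_304 : Tr :=
 .n (.n (.n (.n (.n (.p (nat_lit 0xfa50cd502) (nat_lit 0x4c00) (nat_lit 19))
 (.p (nat_lit 0x1421139102) (nat_lit 0xc0c) (nat_lit 19)))
 (.n (.p (nat_lit 0x283a28382836283428320e8d06) (nat_lit 0x10001423) (nat_lit 16))
 (.p (nat_lit 0x3a360fd702) (nat_lit 0x6d60) (nat_lit 48))))
 (.n (.n (.p (nat_lit 0x182b0d7a02) (nat_lit 0x2821) (nat_lit 4))
 (.p (nat_lit 0x38c738bd02) (nat_lit 0x8b000000800) (nat_lit 35)))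
 (.p (nat_lit 0xfb60fb50fb20fb00fae0fad03840045003d09) (nat_lit 0x40025) (nat_lit 13))))
 (.n (.n (.n (.p (nat_lit 0x1a041a0219fe19fc0d230d1d06) (nat_lit 0x240000b60) (nat_lit 17))
 (.p (nat_lit 0x37a1379f02) (nat_lit 0x73400000000) (nat_lit 35)))
 (.p (nat_lit 0xf2d0f1502) (nat_lit 0x4804) (nat_lit 18)))
 (.n (.n (.p (nat_lit 0x236d0e0c02) (nat_lit 0x4822) (nat_lit 5))
 (.p (nat_lit 0x39c139a902) (nat_lit 0xb280a000800) (nat_lit 35)))
 (.p (nat_lit 0x17c417c217be17bc105f105906) (nat_lit 0x240000346) (nat_lit 15)))))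
 (.n (.n (.n (.n (.p (nat_lit 0x194619421940193e193c0d0906) (nat_lit 0x100000940) (nat_lit 15))
 (.p (nat_lit 0x2b69160802) (nat_lit 0x8850) (nat_lit 5)))
 (.n (.p (nat_lit 0x22822280227e227a22780ef106) (nat_lit 0x400013a3) (nat_lit 14))
 (.p (nat_lit 0x3a500dc902) (nat_lit 0x89a0) (nat_lit 48))))
 (.n (.n (.p (nat_lit 0xe3f0daf02) (nat_lit 0x6a61) (nat_lit 19))
 (.p (nat_lit 0x395b394102) (nat_lit 0x99806000800) (nat_lit 35)))
 (.p (nat_lit 0x2563100202) (nat_lit 0x2885) (nat_lit 5))))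
 (.n (.n (.n (.p (nat_lit 0xee70d3702) (nat_lit 0x6a80) (nat_lit 19))
 (.p (nat_lit 0x3857385502) (nat_lit 0x4a008000000) (nat_lit 35)))
 (.p (nat_lit 0x2a0e2a0a2a082a062a040f7906) (nat_lit 0x100000884) (nat_lit 14)))
 (.n (.n (.p (nat_lit 0x17a2179e179c179a17980e5906) (nat_lit 0x100001982) (nat_lit 17))
 (.p (nat_lit 0x3a1f3961381903) (nat_lit 0xb0800006020) (nat_lit 43)))
 (.p (nat_lit 0x3e503d9014e03) (nat_lit 0x8022006) (nat_lit 22)))))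

def c256_48 : Tr := .n c512_48 c512_304

def c512_176 : Tr :=
 .n (.n (.n (.n (.n (.p (nat_lit 0x23062304230222fe0cd50cd106) (nat_lit 0x50000b00) (nat_lit 16))
 (.p (nat_lit 0x23ae23ac23aa23a823a412df06) (nat_lit 0x200004aa) (nat_lit 14)))
 (.n (.p (nat_lit 0xe8a0e880e860e850e820e80002907) (nat_lit 0x4803) (nat_lit 7))
 (.p (nat_lit 0x3a2f39b7389903) (nat_lit 0x8c80000a040) (nat_lit 43))))
 (.n (.n (.p (nat_lit 0x24f0243022b021f04) (nat_lit 0xb190000) (nat_lit 24))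
 (.p (nat_lit 0x38b338a902) (nat_lit 0x38800000800) (nat_lit 35)))
 (.p (nat_lit 0x15390f9902) (nat_lit 0x4405) (nat_lit 19))))
 (.n (.n (.n (.p (nat_lit 0x227d0d1c02) (nat_lit 0x4860) (nat_lit 5))
 (.l (nat_lit 0x445200000000000000020) (nat_lit 0x44346) (nat_lit 29)))
 (.p (nat_lit 0x247519c50357033d012e05) (nat_lit 0x1054804) (nat_lit 9)))
 (.n (.n (.p (nat_lit 0x2df70de602) (nat_lit 0x2002) (nat_lit 32))
 (.p (nat_lit 0x39b9399902) (nat_lit 0x9080a000800) (nat_lit 35)))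
 (.p (nat_lit 0x1051001402) (nat_lit 0x8826) (nat_lit 1)))))
 (.n (.n (.n (.n (.p (nat_lit 0x1980197e197c197a0cff0cf506) (nat_lit 0x210001340) (nat_lit 15))
 (.p (nat_lit 0x1ef00ca00c603) (nat_lit 0x28000a010) (nat_lit 20)))
 (.n (.p (nat_lit 0xeea0ee80ee70ee40ee30ee002fe002b002709) (nat_lit 0x32883) (nat_lit 13))
 (.p (nat_lit 0x3a4d3925380703) (nat_lit 0x844000040a0) (nat_lit 43))))
 (.n (.n (.p (nat_lit 0xdb20db00dae0dac0dab0da8000f07) (nat_lit 0x2861) (nat_lit 7))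
 (.p (nat_lit 0x392d392902) (nat_lit 0xa4804000800) (nat_lit 35)))
 (.p (nat_lit 0xfe60fe40fe20fe10fde0fdc004107) (nat_lit 0x4065) (nat_lit 7))))
 (.n (.n (.n (.p (nat_lit 0x2516251425122510250e0d3106) (nat_lit 0x10000980) (nat_lit 16))
 (.p (nat_lit 0x382d382902) (nat_lit 0x62806000000) (nat_lit 35)))
 (.p (nat_lit 0x24bf0f5e02) (nat_lit 0x6864) (nat_lit 5)))
 (.n (.n (.p (nat_lit 0x225e225c225a225822560e4506) (nat_lit 0x10000282) (nat_lit 14))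
 (.p (nat_lit 0x3a153977385903) (nat_lit 0x4a800008000) (nat_lit 43)))
 (.p (nat_lit 0x209620922090208e208c108d06) (nat_lit 0x100000186) (nat_lit 17)))))

def c512_432 : Tr :=
 .n (.n (.n (.n (.n (.p (nat_lit 0x189c189a189818960cf30ce906) (nat_lit 0x210000820) (nat_lit 15))
 (.p (nat_lit 0x29fb149a02) (nat_lit 0x28ad) (nat_lit 5)))
 (.n (.p (nat_lit 0xf4b0ebb02) (nat_lit 0xac43) (nat_lit 19))
 (.p (nat_lit 0x3a3b39c138a103) (nat_lit 0xb580000a060) (nat_lit 43))))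
 (.n (.n (.p (nat_lit 0x23d223d023ce23cc23c80d8706) (nat_lit 0x20001541) (nat_lit 16))
 (.p (nat_lit 0x38e138dd02) (nat_lit 0x31002000800) (nat_lit 35)))
 (.p (nat_lit 0x225e225a225822540fc10fbb06) (nat_lit 0x120000a25) (nat_lit 14))))
 (.n (.n (.n (.p (nat_lit 0xd2f004602) (nat_lit 0xa080) (nat_lit 1))
 (.p (nat_lit 0x37e337bf02) (nat_lit 0xb9402000000) (nat_lit 35)))
 (.p (nat_lit 0xf320f300f2e0f2c0f2b0f28003307) (nat_lit 0x2824) (nat_lit 7)))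
 (.n (.n (.p (nat_lit 0xeb10e2102) (nat_lit 0xb42) (nat_lit 19))
 (.p (nat_lit 0x391639143910390e37f705) (nat_lit 0x2404000000) (nat_lit 36)))
 (.p (nat_lit 0x229a2298229622942290106306) (nat_lit 0x20001c46) (nat_lit 14)))))
 (.n (.n (.n (.n (.p (nat_lit 0xd950d0502) (nat_lit 0x4840) (nat_lit 19))
 (.p (nat_lit 0x183e183c183818361834172706) (nat_lit 0x80000a52) (nat_lit 17)))
 (.p (nat_lit 0x17ea17e817e617e217e00efd06) (nat_lit 0x40001ca3) (nat_lit 15)))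
 (.n (.n (.p (nat_lit 0xdca0dc80dc60dc40dc30dc0000f07) (nat_lit 0x2881) (nat_lit 7))
 (.p (nat_lit 0x397d396902) (nat_lit 0x60808000800) (nat_lit 35)))
 (.p (nat_lit 0x2b462b422b402b3e2b3c102106) (nat_lit 0x1000009a5) (nat_lit 14))))
 (.n (.n (.n (.p (nat_lit 0x25fa25f425f225f00d450d4306) (nat_lit 0x1800014a0) (nat_lit 14))
 (.p (nat_lit 0x389b387702) (nat_lit 0x9840a000000) (nat_lit 35)))
 (.p (nat_lit 0xf920f900f8e0f8d0f8a0f88003507) (nat_lit 0x48a4) (nat_lit 7)))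
 (.n (.n (.p (nat_lit 0x22f822f622f422f222f00e6706) (nat_lit 0x2000012a2) (nat_lit 16))
 (.p (nat_lit 0x39db399d387d03) (nat_lit 0x2100000a020) (nat_lit 44)))
 (.p (nat_lit 0x26fd119c02) (nat_lit 0x4868) (nat_lit 5)))))

def c256_176 : Tr := .n c512_176 c512_432

def c128_48 : Tr := .n c256_48 c256_176

def c512_112 : Tr :=
 .n (.n (.n (.n (.n (.p (nat_lit 0xcda0cd80cd60cd40cd30cd102160003000109) (nat_lit 0x10800) (nat_lit 13))
 (.p (nat_lit 0x241a241824142412241012cb06) (nat_lit 0x8000128a) (nat_lit 14)))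
 (.n (.p (nat_lit 0xe7e0e7d0e7a0e780e760e74002d07) (nat_lit 0x8003) (nat_lit 7))
 (.p (nat_lit 0x39e53987386703) (nat_lit 0x8c400008040) (nat_lit 44))))
 (.n (.n (.p (nat_lit 0x1b561b541b521b501b4e0d4906) (nat_lit 0x10000da0) (nat_lit 17))
 (.p (nat_lit 0x38a3389d02) (nat_lit 0xbd00a000000) (nat_lit 35)))
 (.p (nat_lit 0x24fd0f9c02) (nat_lit 0x8005) (nat_lit 5))))
 (.n (.n (.n (.p (nat_lit 0x1a421a401a3a1a380d130d1106) (nat_lit 0xc0001560) (nat_lit 15))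
 (.p (nat_lit 0x8a208a0089e089c0898012c000307) (nat_lit 0x2524) (nat_lit 28)))
 (.p (nat_lit 0x2282227c227a22780f0d0f0b06) (nat_lit 0x180001304) (nat_lit 16)))
 (.n (.n (.p (nat_lit 0xe730de302) (nat_lit 0xaaa1) (nat_lit 19))
 (.p (nat_lit 0x3974396e396c39683966396417d107) (nat_lit 0x8000860) (nat_lit 37)))
 (.p (nat_lit 0x1046104410421040103f103d03c6004b004909) (nat_lit 0x10026) (nat_lit 13)))))
 (.n (.n (.n (.n (.p (nat_lit 0x225517a502) (nat_lit 0x40) (nat_lit 11))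
 (.p (nat_lit 0x1fdf152e02) (nat_lit 0x68ae) (nat_lit 4)))
 (.n (.p (nat_lit 0x1a281a261a241a220edf0ed506) (nat_lit 0x210001483) (nat_lit 17))
 (.p (nat_lit 0x39ff39b9389b03) (nat_lit 0x94c0000a080) (nat_lit 44))))
 (.n (.n (.p (nat_lit 0x17de17dc17da17d617d40da106) (nat_lit 0x40000461) (nat_lit 15))
 (.p (nat_lit 0x3925391702) (nat_lit 0x82404000800) (nat_lit 35)))
 (.p (nat_lit 0x19be19bc19b819b60fd70fd106) (nat_lit 0x90000845) (nat_lit 15))))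
 (.n (.n (.n (.p (nat_lit 0x17e30d3202) (nat_lit 0x2880) (nat_lit 4))
 (.p (nat_lit 0x382d381d02) (nat_lit 0x61006000000) (nat_lit 35)))
 (.p (nat_lit 0x2f590f4802) (nat_lit 0x8844) (nat_lit 32)))
 (.n (.n (.p (nat_lit 0x12bf0e3f02) (nat_lit 0x6a62) (nat_lit 19))
 (.p (nat_lit 0x3a0f390137e103) (nat_lit 0xb5800002000) (nat_lit 43)))
 (.p (nat_lit 0x1a701a6e1a6c1a681083107b06) (nat_lit 0x220001966) (nat_lit 15)))))

def c512_368 : Tr :=
 .n (.n (.n (.n (.n (.p (nat_lit 0xcfb0ce302) (nat_lit 0x6020) (nat_lit 18))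
 (.p (nat_lit 0x1ebf140e02) (nat_lit 0x68ac) (nat_lit 4)))
 (.n (.p (nat_lit 0x1d881d861d841d800ea30e9b06) (nat_lit 0x220001c23) (nat_lit 17))
 (.p (nat_lit 0x3a380edd02) (nat_lit 0x8160) (nat_lit 48))))
 (.n (.n (.p (nat_lit 0x183e183c183a18381836183406) (nat_lit 0x41) (nat_lit 2))
 (.p (nat_lit 0x38dd38d502) (nat_lit 0x20002000800) (nat_lit 35)))
 (.p (nat_lit 0x103d0fad02) (nat_lit 0x25) (nat_lit 19))))
 (.n (.n (.n (.p (nat_lit 0xd390d2102) (nat_lit 0x8860) (nat_lit 18))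
 (.p (nat_lit 0x37bd37b702) (nat_lit 0x20402000000) (nat_lit 35)))
 (.p (nat_lit 0x23e823e623e423e223e00f2706) (nat_lit 0x200001024) (nat_lit 14)))
 (.n (.n (.p (nat_lit 0xe330e1b02) (nat_lit 0x6042) (nat_lit 18))
 (.p (nat_lit 0x39bc39b639b439b039ae39ac228307) (nat_lit 0xa000860) (nat_lit 38)))
 (.p (nat_lit 0x25c7106602) (nat_lit 0x6846) (nat_lit 5)))))
 (.n (.n (.n (.n (.p (nat_lit 0x243c2438243624340d0b0d0706) (nat_lit 0x280000c40) (nat_lit 14))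
 (.p (nat_lit 0x266426622660265e265c171306) (nat_lit 0x200000b32) (nat_lit 14)))
 (.n (.p (nat_lit 0x19b10f0002) (nat_lit 0x88a3) (nat_lit 4))
 (.p (nat_lit 0x3a0a0dbf02) (nat_lit 0xa1a0) (nat_lit 47))))
 (.n (.n (.p (nat_lit 0x25b225ae25ac25aa25a80dbd06) (nat_lit 0x100001181) (nat_lit 16))
 (.p (nat_lit 0x3961395302) (nat_lit 0xb3c06000800) (nat_lit 35)))
 (.p (nat_lit 0x20a220a0209e209c209a100d06) (nat_lit 0x100011a5) (nat_lit 15))))
 (.n (.n (.n (.p (nat_lit 0x1ae81ae41ae21ae00d470d4306) (nat_lit 0x2800010a0) (nat_lit 15))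
 (.p (nat_lit 0x3871386102) (nat_lit 0xb3808000000) (nat_lit 35)))
 (.p (nat_lit 0x1a4a1a481a461a440f870f8506) (nat_lit 0x3000000a4) (nat_lit 15)))
 (.n (.n (.p (nat_lit 0x22b022ae22ac22a80e5b0e5306) (nat_lit 0x220001d82) (nat_lit 14))
 (.p (nat_lit 0x39d612e302) (nat_lit 0x6220) (nat_lit 47)))
 (.p (nat_lit 0x16d00640062006004) (nat_lit 0x70008008) (nat_lit 20)))))

def c256_112 : Tr := .n c512_112 c512_368

def c512_240 : Tr :=
 .n (.n (.n (.n (.n (.p (nat_lit 0x187a1878187418720cd70cd106) (nat_lit 0x90001c00) (nat_lit 15))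
 (.p (nat_lit 0x19381936193419321930137706) (nat_lit 0x2000010ab) (nat_lit 15)))
 (.n (.p (nat_lit 0x190819061904190219000e8b06) (nat_lit 0x200001c03) (nat_lit 15))
 (.p (nat_lit 0x39ed391f380503) (nat_lit 0x6c000004060) (nat_lit 44))))
 (.n (.n (.p (nat_lit 0x10330d6302) (nat_lit 0x2c01) (nat_lit 19))
 (.p (nat_lit 0x38d138b102) (nat_lit 0xb1800000800) (nat_lit 35)))
 (.p (nat_lit 0x25ca25c425c225c00fa90fa706) (nat_lit 0x180001a05) (nat_lit 14))))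
 (.n (.n (.n (.p (nat_lit 0x19d619d219d019ce0d210d1906) (nat_lit 0x110000960) (nat_lit 15))
 (.p (nat_lit 0x37ad378702) (nat_lit 0xa0400000000) (nat_lit 35)))
 (.p (nat_lit 0x227622742272226e0f150f1106) (nat_lit 0x50000b04) (nat_lit 16)))
 (.n (.n (.p (nat_lit 0x2e0b002302) (nat_lit 0xa802) (nat_lit 33))
 (.p (nat_lit 0x39a739a102) (nat_lit 0x4980a000800) (nat_lit 35)))
 (.p (nat_lit 0x15f3105302) (nat_lit 0xac26) (nat_lit 19)))))
 (.n (.n (.n (.n (.p (nat_lit 0xd03002602) (nat_lit 0x2840) (nat_lit 1))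
 (.p (nat_lit 0x25ca25c825c625c425c015eb06) (nat_lit 0x20001a30) (nat_lit 14)))
 (.n (.p (nat_lit 0xef60ef40ef20ef00eef0eec002707) (nat_lit 0x20a3) (nat_lit 7))
 (.p (nat_lit 0x3a093991384703) (nat_lit 0xb04000080a0) (nat_lit 44))))
 (.n (.n (.p (nat_lit 0x17ba17b617b417b00db10dab06) (nat_lit 0x120001a61) (nat_lit 15))
 (.p (nat_lit 0x3947393902) (nat_lit 0x48806000800) (nat_lit 35)))
 (.p (nat_lit 0xff20ff10fee0fec0fea0fe8004507) (nat_lit 0x8865) (nat_lit 7))))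
 (.n (.n (.n (.p (nat_lit 0x1a961a941a901a8e0d370d3106) (nat_lit 0x90000b80) (nat_lit 15))
 (.p (nat_lit 0x3865384902) (nat_lit 0x80808000000) (nat_lit 35)))
 (.p (nat_lit 0x2a302a2e2a2c2a2a2a280f6f06) (nat_lit 0x200001184) (nat_lit 16)))
 (.n (.n (.p (nat_lit 0xe650e4d02) (nat_lit 0x8082) (nat_lit 18))
 (.p (nat_lit 0x3a1b38d537b503) (nat_lit 0x2020) (nat_lit 43)))
 (.p (nat_lit 0x30ad004902) (nat_lit 0xa6) (nat_lit 33)))))

def c512_496 : Tr :=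
 .n (.n (.n (.n (.n (.p (nat_lit 0x23a223a0239e239c23980ceb06) (nat_lit 0x20001b20) (nat_lit 14))
 (.p (nat_lit 0x1a4e1a4c1a4a1a461a4414b506) (nat_lit 0x4000080e) (nat_lit 17)))
 (.n (.p (nat_lit 0x2edd002902) (nat_lit 0x4863) (nat_lit 33))
 (.p (nat_lit 0x39f7390137b703) (nat_lit 0xb0400002080) (nat_lit 44))))
 (.n (.n (.p (nat_lit 0x239623922390238e238c0d9906) (nat_lit 0x100000b41) (nat_lit 14))
 (.p (nat_lit 0x38ff38e702) (nat_lit 0xaa402000800) (nat_lit 35)))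
 (.p (nat_lit 0x14cb0fbb02) (nat_lit 0x2b25) (nat_lit 19))))
 (.n (.n (.n (.p (nat_lit 0x2522251e251c25180d2d0d2706) (nat_lit 0x120001180) (nat_lit 16))
 (.p (nat_lit 0x380b37ed02) (nat_lit 0x99004000000) (nat_lit 35)))
 (.p (nat_lit 0x199a1998199619900f2d0f2b06) (nat_lit 0x60001c24) (nat_lit 17)))
 (.n (.n (.p (nat_lit 0x198e198c198a198819860e2d06) (nat_lit 0x10000462) (nat_lit 15))
 (.p (nat_lit 0x39c239c039983996387905) (nat_lit 0x80a000000) (nat_lit 36)))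
 (.p (nat_lit 0x3087107602) (nat_lit 0xa066) (nat_lit 32)))))
 (.n (.n (.n (.n (.p (nat_lit 0xd160d140d120d110d0f0d0c02240005000309) (nat_lit 0x22060) (nat_lit 13))
 (.p (nat_lit 0x1b1a1b181b141b121b10173f06) (nat_lit 0x80001a72) (nat_lit 15)))
 (.p (nat_lit 0x319030d0301012004) (nat_lit 0x81a2003) (nat_lit 23)))
 (.n (.n (.p (nat_lit 0x1b321b2e1b2c1b280dc90dc306) (nat_lit 0x120001b81) (nat_lit 15))
 (.p (nat_lit 0x3979397102) (nat_lit 0x51808000800) (nat_lit 35)))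
 (.p (nat_lit 0x14d0052004c004a04) (nat_lit 0x260008006) (nat_lit 20))))
 (.n (.n (.n (.p (nat_lit 0x22b1180102) (nat_lit 0x88a0) (nat_lit 11))
 (.p (nat_lit 0x3891387f02) (nat_lit 0x7140a000000) (nat_lit 35)))
 (.p (nat_lit 0x1aba1ab81ab61ab41ab00f8b06) (nat_lit 0x20001ca4) (nat_lit 15)))
 (.n (.n (.p (nat_lit 0xe730e700e6e0e6c0e6b0e6802ba0023001b09) (nat_lit 0x528a2) (nat_lit 13))
 (.p (nat_lit 0x3a2738ff37b503) (nat_lit 0xa8000002040) (nat_lit 43)))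
 (.p (nat_lit 0x11b9001402) (nat_lit 0x8888) (nat_lit 1)))))

def c256_240 : Tr := .n c512_240 c512_496

def c128_112 : Tr := .n c256_112 c256_240

def c64_48 : Tr := .n c128_48 c128_112

def c32_16 : Tr := .n c64_16 c64_48

def c16_0 : Tr := .n c32_0 c32_16

def cb4_0 : Tr := c16_0

def c512_1 : Tr :=
 .n (.n (.n (.n (.n (.l (nat_lit 0x4) (nat_lit 0x2000) (nat_lit 0))
 (.p (nat_lit 0x1c7311c202) (nat_lit 0x60a8) (nat_lit 4)))
 (.n (.p (nat_lit 0x184818461844184218400e7306) (nat_lit 0x200001aa2) (nat_lit 17))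
 (.p (nat_lit 0x3a2738d737bf03) (nat_lit 0x9400002040) (nat_lit 43))))
 (.n (.n (.p (nat_lit 0xd530d510d4e0d4c0d4a0d48024e000b000909) (nat_lit 0x588a0) (nat_lit 13))
 (.p (nat_lit 0x3893388102) (nat_lit 0x7980a000000) (nat_lit 35)))
 (.p (nat_lit 0x152f0f8f02) (nat_lit 0x6ca4) (nat_lit 19))))
 (.n (.n (.n (.p (nat_lit 0x19bc19b819b619b40d170d1306) (nat_lit 0x280000060) (nat_lit 17))
 (.p (nat_lit 0x2bec2bea2be82be62be4174f06) (nat_lit 0x200000292) (nat_lit 14)))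
 (.p (nat_lit 0x31b030f0303012004) (nat_lit 0xa1a2003) (nat_lit 23)))
 (.n (.n (.p (nat_lit 0x11b30dc302) (nat_lit 0x2981) (nat_lit 19))
 (.p (nat_lit 0x397f397302) (nat_lit 0x69c08000800) (nat_lit 35)))
 (.p (nat_lit 0x102e102c102b102810261024004f07) (nat_lit 0x6006) (nat_lit 7)))))
 (.n (.n (.n (.n (.p (nat_lit 0x23ae23ac23aa23a823a40ceb06) (nat_lit 0x20000c20) (nat_lit 16))
 (.p (nat_lit 0x154714b702) (nat_lit 0x6d0e) (nat_lit 19)))
 (.n (.p (nat_lit 0xed20ed00ecf0ecd0eca0ec8030a002b002909) (nat_lit 0x34863) (nat_lit 13))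
 (.p (nat_lit 0x39f6106f02) (nat_lit 0x2080) (nat_lit 47))))
 (.n (.n (.p (nat_lit 0x19221920191e191c19180d9306) (nat_lit 0x20001d41) (nat_lit 17))
 (.p (nat_lit 0x390138f302) (nat_lit 0xb3c02000800) (nat_lit 35)))
 (.p (nat_lit 0x1a770fc602) (nat_lit 0x2045) (nat_lit 4))))
 (.n (.n (.n (.p (nat_lit 0x253a25382536253425300d2706) (nat_lit 0x20001280) (nat_lit 14))
 (.p (nat_lit 0x380537f702) (nat_lit 0x82404000000) (nat_lit 35)))
 (.p (nat_lit 0x19b219b019ae19aa19a80f2d06) (nat_lit 0x40001d24) (nat_lit 15)))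
 (.n (.n (.p (nat_lit 0x19b219b019ae19aa0e310e2d06) (nat_lit 0x50001562) (nat_lit 15))
 (.p (nat_lit 0x39ba39b839b2389b04) (nat_lit 0x4c0a000000) (nat_lit 36)))
 (.p (nat_lit 0x251625142510250e250c107306) (nat_lit 0x80000166) (nat_lit 14)))))

def c512_257 : Tr :=
 .n (.n (.n (.n (.n (.p (nat_lit 0x188618841880187e187c0cd706) (nat_lit 0x80000d00) (nat_lit 15))
 (.p (nat_lit 0x24622460245e245a2458137d06) (nat_lit 0x40001dab) (nat_lit 16)))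
 (.n (.p (nat_lit 0x13970e8702) (nat_lit 0x6b03) (nat_lit 19))
 (.p (nat_lit 0x39ed3929380f03) (nat_lit 0x95400004060) (nat_lit 44))))
 (.n (.n (.p (nat_lit 0x18230d7202) (nat_lit 0x6021) (nat_lit 4))
 (.p (nat_lit 0x38c338b502) (nat_lit 0x7a000000800) (nat_lit 35)))
 (.p (nat_lit 0x1b301b2e1b2c1b2a1b280fab06) (nat_lit 0x200001b05) (nat_lit 17))))
 (.n (.n (.n (.p (nat_lit 0x19e219e019dc19d80d1f0d1b06) (nat_lit 0xa0001960) (nat_lit 15))
 (.p (nat_lit 0x37a9378d02) (nat_lit 0x91000000000) (nat_lit 35)))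
 (.p (nat_lit 0x17d017ce17cc17ca17c80f1b06) (nat_lit 0x200001b04) (nat_lit 17)))
 (.n (.n (.p (nat_lit 0xe130dfb02) (nat_lit 0xa802) (nat_lit 18))
 (.p (nat_lit 0x39a939a302) (nat_lit 0x51c0a000800) (nat_lit 35)))
 (.p (nat_lit 0x25bb105a02) (nat_lit 0x6046) (nat_lit 5)))))
 (.n (.n (.n (.n (.p (nat_lit 0x17bb0d0a02) (nat_lit 0xa840) (nat_lit 4))
 (.p (nat_lit 0x20a915f802) (nat_lit 0x4050) (nat_lit 4)))
 (.n (.p (nat_lit 0x245719a7030302f5011e05) (nat_lit 0x101a0a3) (nat_lit 9))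
 (.p (nat_lit 0x3a093971385303) (nat_lit 0x31c000080a0) (nat_lit 44))))
 (.n (.n (.p (nat_lit 0x2282227e227c227a22780db106) (nat_lit 0x100001b61) (nat_lit 16))
 (.p (nat_lit 0x3943393d02) (nat_lit 0x39006000800) (nat_lit 35)))
 (.p (nat_lit 0x1f681f661f641f621f600ff306) (nat_lit 0x200001865) (nat_lit 17))))
 (.n (.n (.n (.p (nat_lit 0x1aa01a9c1a9a1a980d3b0d3706) (nat_lit 0x280001b80) (nat_lit 15))
 (.p (nat_lit 0x3853384d02) (nat_lit 0x39008000000) (nat_lit 35)))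
 (.p (nat_lit 0xf7a0f780f760f740f720f71003107) (nat_lit 0x884) (nat_lit 7)))
 (.n (.n (.p (nat_lit 0xedd0e4d02) (nat_lit 0x8382) (nat_lit 19))
 (.p (nat_lit 0x3a1a224b02) (nat_lit 0x2820) (nat_lit 46)))
 (.p (nat_lit 0x10b210b010ae10ac10aa10a9004907) (nat_lit 0x8a6) (nat_lit 7)))))

def c256_1 : Tr := .n c512_1 c512_257

def c512_129 : Tr :=
 .n (.n (.n (.n (.n (.p (nat_lit 0x22e222e022de22d80cd50cd306) (nat_lit 0x60001900) (nat_lit 14))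
 (.p (nat_lit 0x1d8512d402) (nat_lit 0x488a) (nat_lit 4)))
 (.n (.p (nat_lit 0x18e618e218e018de18dc0e7d06) (nat_lit 0x100000303) (nat_lit 17))
 (.p (nat_lit 0x39e417ad02) (nat_lit 0x8040) (nat_lit 45))))
 (.n (.n (.p (nat_lit 0xe690d4902) (nat_lit 0x9a0) (nat_lit 19))
 (.p (nat_lit 0x38a238823880387e387a3878387238523850384e384a3848384238223820381e381a3818381237f237f037ee37ea37e837e237c237c037be37ba37b837b237923790378e378a378824) (nat_lit 0x200) (nat_lit 39)))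
 (.p (nat_lit 0x1aea1ae61ae21ae00f9d0f9906) (nat_lit 0x140001005) (nat_lit 17))))
 (.n (.n (.n (.p (nat_lit 0xda50d1502) (nat_lit 0x8060) (nat_lit 19))
 (.p (nat_lit 0x8d5003d02) (nat_lit 0x5) (nat_lit 31)))
 (.p (nat_lit 0x22982294229222900f0f0f0b06) (nat_lit 0x280001404) (nat_lit 14)))
 (.n (.n (.p (nat_lit 0x273026f026d010004) (nat_lit 0x22b4001) (nat_lit 23))
 (.p (nat_lit 0x39ad399502) (nat_lit 0x6000a000800) (nat_lit 35)))
 (.p (nat_lit 0x1862185e185c185a1858104506) (nat_lit 0x100001326) (nat_lit 15)))))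
 (.n (.n (.n (.n (.p (nat_lit 0xcfe0cfd0cfa0cf80cf60cf5021c0009000109) (nat_lit 0x40040) (nat_lit 13))
 (.p (nat_lit 0x20ac20aa20a820a620a4153f06) (nat_lit 0x20000020f) (nat_lit 15)))
 (.n (.p (nat_lit 0x12c50ed502) (nat_lit 0x183) (nat_lit 19))
 (.p (nat_lit 0x3a0138c137a103) (nat_lit 0x738000000a0) (nat_lit 44))))
 (.n (.n (.p (nat_lit 0x17f617f417f017ee17ec0da306) (nat_lit 0x80000561) (nat_lit 15))
 (.p (nat_lit 0x392d391b02) (nat_lit 0xa2c04000800) (nat_lit 35)))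
 (.p (nat_lit 0x19ee19ec19ea19e60fd50fd106) (nat_lit 0x50000a45) (nat_lit 17))))
 (.n (.n (.n (.p (nat_lit 0x22990d3802) (nat_lit 0x8880) (nat_lit 5))
 (.p (nat_lit 0x382b381f02) (nat_lit 0x59406000000) (nat_lit 35)))
 (.p (nat_lit 0xf5d0f4502) (nat_lit 0x4844) (nat_lit 18)))
 (.n (.n (.p (nat_lit 0xe4e0e4c0e4a0e480e470e44001b07) (nat_lit 0x2082) (nat_lit 7))
 (.p (nat_lit 0x39c93923380903) (nat_lit 0x7c800004000) (nat_lit 44)))
 (.p (nat_lit 0x1091107902) (nat_lit 0x866) (nat_lit 18)))))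

def c512_385 : Tr :=
 .n (.n (.n (.n (.n (.p (nat_lit 0xf270ce702) (nat_lit 0xa320) (nat_lit 19))
 (.p (nat_lit 0x1a361a341a321a301a2c140b06) (nat_lit 0x20000dac) (nat_lit 17)))
 (.n (.p (nat_lit 0xf330ea302) (nat_lit 0xac23) (nat_lit 19))
 (.p (nat_lit 0x3a3b3995387d03) (nat_lit 0x100000a060) (nat_lit 43))))
 (.n (.n (.p (nat_lit 0x22e91839026d026300fe05) (nat_lit 0xc14041) (nat_lit 9))
 (.p (nat_lit 0x390138d502) (nat_lit 0xb0002000800) (nat_lit 35)))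
 (.p (nat_lit 0x251b0fba02) (nat_lit 0x2825) (nat_lit 5))))
 (.n (.n (.n (.p (nat_lit 0xecf0d1f02) (nat_lit 0x6a60) (nat_lit 19))
 (.p (nat_lit 0x37bd37b902) (nat_lit 0x20802000000) (nat_lit 35)))
 (.p (nat_lit 0x198a1988198619840f270f2506) (nat_lit 0x300000424) (nat_lit 17)))
 (.n (.n (.p (nat_lit 0x2e33001b02) (nat_lit 0x2842) (nat_lit 33))
 (.p (nat_lit 0x38b638b438b038ae379705) (nat_lit 0x2400000000) (nat_lit 36)))
 (.p (nat_lit 0x106b1068106610641063106003da0053004b09) (nat_lit 0x52846) (nat_lit 13)))))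
 (.n (.n (.n (.n (.p (nat_lit 0x24482444244224400d0b0d0706) (nat_lit 0x280001c40) (nat_lit 14))
 (.p (nat_lit 0x372b00df02) (nat_lit 0x6052) (nat_lit 33)))
 (.p (nat_lit 0x223a2238223622320efd0ef906) (nat_lit 0x500018a3) (nat_lit 14)))
 (.n (.n (.p (nat_lit 0x25d625d225d025ce25cc0dbd06) (nat_lit 0x100000381) (nat_lit 14))
 (.p (nat_lit 0x396f396502) (nat_lit 0x28008000800) (nat_lit 35)))
 (.p (nat_lit 0x10170f9f02) (nat_lit 0xa0a5) (nat_lit 18))))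
 (.n (.n (.n (.p (nat_lit 0x1b0e1b0c1b081b061b040d4306) (nat_lit 0x800002a0) (nat_lit 17))
 (.p (nat_lit 0x3873387102) (nat_lit 0xbd808000000) (nat_lit 35)))
 (.p (nat_lit 0x1a7e1a7c1a7a1a781a740f7f06) (nat_lit 0x200002a4) (nat_lit 17)))
 (.n (.n (.p (nat_lit 0xee50e5502) (nat_lit 0x4b82) (nat_lit 19))
 (.p (nat_lit 0x39d9396d384d03) (nat_lit 0x21000008020) (nat_lit 44)))
 (.p (nat_lit 0x1c461c441c421c401c3e1c3c06) (nat_lit 0x68) (nat_lit 2)))))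

def c256_129 : Tr := .n c512_129 c512_385

def c128_1 : Tr := .n c256_1 c256_129

def c512_65 : Tr :=
 .n (.n (.n (.n (.n (.p (nat_lit 0xce30ccb02) (nat_lit 0x6000) (nat_lit 18))
 (.p (nat_lit 0x1d1d126c02) (nat_lit 0x800a) (nat_lit 4)))
 (.n (.p (nat_lit 0x2df02c702af011004) (nat_lit 0xa220002) (nat_lit 23))
 (.p (nat_lit 0x3a2a137302) (nat_lit 0x6240) (nat_lit 48))))
 (.n (.n (.p (nat_lit 0x1b1a1b141b121b100d510d4f06) (nat_lit 0x180001aa0) (nat_lit 17))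
 (.p (nat_lit 0x388f388d02) (nat_lit 0x6b00a000000) (nat_lit 35)))
 (.p (nat_lit 0x3490347033d033b013005) (nat_lit 0x446004) (nat_lit 26))))
 (.n (.n (.n (.p (nat_lit 0x24a624a424a224a00d170d1506) (nat_lit 0x300001260) (nat_lit 14))
 (.p (nat_lit 0x84b002b02) (nat_lit 0x6003) (nat_lit 31)))
 (.p (nat_lit 0x2f1d0f0c02) (nat_lit 0x8004) (nat_lit 32)))
 (.n (.n (.p (nat_lit 0xe630dd302) (nat_lit 0x62a1) (nat_lit 19))
 (.p (nat_lit 0x3981397f02) (nat_lit 0x73408000800) (nat_lit 35)))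
 (.p (nat_lit 0x2c7e2c7c2c7a2c782c74103306) (nat_lit 0x20000a06) (nat_lit 14)))))
 (.n (.n (.n (.n (.p (nat_lit 0x1920191c191a19180cf30cef06) (nat_lit 0x280001d20) (nat_lit 15))
 (.p (nat_lit 0x19ca19c619c419c219c014d106) (nat_lit 0x10000182e) (nat_lit 15)))
 (.n (.p (nat_lit 0xede0edc0eda0ed80ed70ed502ee0027002509) (nat_lit 0x10083) (nat_lit 13))
 (.p (nat_lit 0x3a453975385503) (nat_lit 0x42000008080) (nat_lit 43))))
 (.n (.n (.p (nat_lit 0x177c177a177817760da70d9d06) (nat_lit 0x210000061) (nat_lit 17))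
 (.p (nat_lit 0x392d390902) (nat_lit 0xa0804000800) (nat_lit 35)))
 (.p (nat_lit 0x156b0fcb02) (nat_lit 0x6445) (nat_lit 19))))
 (.n (.n (.n (.p (nat_lit 0xd450d2d02) (nat_lit 0x8080) (nat_lit 18))
 (.p (nat_lit 0x380c38063804380037fe37fc227107) (nat_lit 0x4000060) (nat_lit 38)))
 (.p (nat_lit 0xf3f0f3c0f3a0f380f360f35033e003b003109) (nat_lit 0x50044) (nat_lit 13)))
 (.n (.n (.p (nat_lit 0x193a19381936193419320e3906) (nat_lit 0x10001862) (nat_lit 17))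
 (.p (nat_lit 0x3a0c10fd02) (nat_lit 0x0) (nat_lit 48)))
 (.p (nat_lit 0x1b31108002) (nat_lit 0x8866) (nat_lit 4)))))

def c512_321 : Tr :=
 .n (.n (.n (.n (.n (.p (nat_lit 0xce3001e02) (nat_lit 0x6020) (nat_lit 1))
 (.p (nat_lit 0x1ea513f402) (nat_lit 0x488c) (nat_lit 4)))
 (.n (.p (nat_lit 0xf270e9702) (nat_lit 0xa423) (nat_lit 19))
 (.p (nat_lit 0x39f13971385703) (nat_lit 0x32400008060) (nat_lit 44))))
 (.n (.n (.p (nat_lit 0xd83006a02) (nat_lit 0xa821) (nat_lit 1))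
 (.p (nat_lit 0x38c538c102) (nat_lit 0x83800000800) (nat_lit 35)))
 (.p (nat_lit 0x17a2179e179c179a0fb50fad06) (nat_lit 0x110001125) (nat_lit 17))))
 (.n (.n (.n (.p (nat_lit 0x24da24d824d224d00d1f0d1d06) (nat_lit 0xc0001c60) (nat_lit 14))
 (.p (nat_lit 0x37a737a302) (nat_lit 0x8bc00000000) (nat_lit 35)))
 (.p (nat_lit 0xfa50f1502) (nat_lit 0x4d04) (nat_lit 19)))
 (.n (.n (.p (nat_lit 0xea10e1102) (nat_lit 0x8b22) (nat_lit 19))
 (.p (nat_lit 0x39bb39af02) (nat_lit 0x9b40a000800) (nat_lit 35)))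
 (.p (nat_lit 0x17ea17e817e417e217e0105b06) (nat_lit 0x80001446) (nat_lit 15)))))
 (.n (.n (.n (.n (.p (nat_lit 0x1950194e194c194a19480d0b06) (nat_lit 0x200001940) (nat_lit 15))
 (.p (nat_lit 0x1a721a6e1a6c1a6a1a68160906) (nat_lit 0x100001950) (nat_lit 15)))
 (.n (.p (nat_lit 0x229822962294229222900ef706) (nat_lit 0x2000014a3) (nat_lit 14))
 (.p (nat_lit 0x3a0b399d387d03) (nat_lit 0x2100000a0a0) (nat_lit 44))))
 (.n (.n (.p (nat_lit 0xdbe0dbc0dba0db80db60db5000d07) (nat_lit 0x81) (nat_lit 7))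
 (.p (nat_lit 0x394d394502) (nat_lit 0x62006000800) (nat_lit 35)))
 (.p (nat_lit 0x1091100102) (nat_lit 0x885) (nat_lit 19))))
 (.n (.n (.n (.p (nat_lit 0x10950d3502) (nat_lit 0x4d80) (nat_lit 19))
 (.p (nat_lit 0x385f385702) (nat_lit 0x6a408000000) (nat_lit 35)))
 (.p (nat_lit 0xf8f0f7702) (nat_lit 0x6884) (nat_lit 18)))
 (.n (.n (.p (nat_lit 0x17c617c417c017be17bc0e5706) (nat_lit 0x80000b82) (nat_lit 15))
 (.p (nat_lit 0x39d73941382703) (nat_lit 0x32400006020) (nat_lit 44)))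
 (.p (nat_lit 0x3d903d503cd03c9015005) (nat_lit 0x444006) (nat_lit 26)))))

def c256_65 : Tr := .n c512_65 c512_321

def c512_193 : Tr :=
 .n (.n (.n (.n (.n (.p (nat_lit 0x18621860185e185c18580cd306) (nat_lit 0x20001b00) (nat_lit 17))
 (.p (nat_lit 0x284d12ec02) (nat_lit 0x48aa) (nat_lit 5)))
 (.n (.p (nat_lit 0x2e9b0e8a02) (nat_lit 0xa803) (nat_lit 32))
 (.p (nat_lit 0x3a2e0f3302) (nat_lit 0xac40) (nat_lit 48))))
 (.n (.n (.p (nat_lit 0xfe001700150011000f000d06) (nat_lit 0x37000a001) (nat_lit 21))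
 (.p (nat_lit 0x38b938ab02) (nat_lit 0x50c00000800) (nat_lit 35)))
 (.p (nat_lit 0xfa5004c02) (nat_lit 0x4805) (nat_lit 1))))
 (.n (.n (.n (.p (nat_lit 0x228317d302) (nat_lit 0xa860) (nat_lit 11))
 (.p (nat_lit 0x94b005302) (nat_lit 0xa066) (nat_lit 31)))
 (.p (nat_lit 0xf1a0f190f160f140f130f1003480039003309) (nat_lit 0x42804) (nat_lit 13)))
 (.n (.n (.p (nat_lit 0x2dff002302) (nat_lit 0xa002) (nat_lit 33))
 (.p (nat_lit 0x39b3399b02) (nat_lit 0x78c0a000800) (nat_lit 35)))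
 (.p (nat_lit 0x10521051104e104d104a104803e40051004d09) (nat_lit 0x44826) (nat_lit 13)))))
 (.n (.n (.n (.n (.p (nat_lit 0x19a619a419a219a00cf70cf506) (nat_lit 0x30000540) (nat_lit 17))
 (.p (nat_lit 0x2b3d15dc02) (nat_lit 0x30) (nat_lit 5)))
 (.n (.p (nat_lit 0x24822480247e247c0eeb0ee906) (nat_lit 0x300000983) (nat_lit 16))
 (.p (nat_lit 0x3a4c173d02) (nat_lit 0x48a0) (nat_lit 48))))
 (.n (.n (.p (nat_lit 0xdb30db00dae0dac0daa0da8001707) (nat_lit 0xa861) (nat_lit 7))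
 (.p (nat_lit 0x3937393502) (nat_lit 0x8006000800) (nat_lit 35)))
 (.p (nat_lit 0x2ff70fe602) (nat_lit 0xa065) (nat_lit 32))))
 (.n (.n (.n (.p (nat_lit 0x1a721a701a6c1a6a1a680d3706) (nat_lit 0x80001980) (nat_lit 17))
 (.p (nat_lit 0x3851384502) (nat_lit 0x30008000000) (nat_lit 35)))
 (.p (nat_lit 0xff30f6302) (nat_lit 0xad64) (nat_lit 19)))
 (.n (.n (.p (nat_lit 0x227422722270226e226c0e4f06) (nat_lit 0x200000382) (nat_lit 14))
 (.p (nat_lit 0x3a153991387103) (nat_lit 0xb5800008000) (nat_lit 43)))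
 (.p (nat_lit 0x30a1109002) (nat_lit 0x886) (nat_lit 32)))))

def c512_449 : Tr :=
 .n (.n (.n (.n (.n (.p (nat_lit 0x18a818a618a418a218a00cf306) (nat_lit 0x200001820) (nat_lit 15))
 (.p (nat_lit 0x14ae14ac14aa14a814a714a400ab07) (nat_lit 0x200e) (nat_lit 7)))
 (.n (.p (nat_lit 0x19750ec402) (nat_lit 0x8063) (nat_lit 4))
 (.p (nat_lit 0x3a3a0fdb02) (nat_lit 0xad60) (nat_lit 48))))
 (.n (.n (.p (nat_lit 0x105b0d8b02) (nat_lit 0x6441) (nat_lit 19))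
 (.p (nat_lit 0x390338dd02) (nat_lit 0xb9002000800) (nat_lit 35)))
 (.p (nat_lit 0x22822280227e227c227a0fb906) (nat_lit 0x10001b25) (nat_lit 14))))
 (.n (.n (.n (.p (nat_lit 0x1a4c1a4a1a481a461a440d2f06) (nat_lit 0x200000080) (nat_lit 15))
 (.p (nat_lit 0x37c437be37bc37b837b637b4222707) (nat_lit 0x2000000) (nat_lit 38)))
 (.p (nat_lit 0x24910f3002) (nat_lit 0x8824) (nat_lit 5)))
 (.n (.n (.p (nat_lit 0xe31002802) (nat_lit 0x4062) (nat_lit 1))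
 (.p (nat_lit 0x3962393a3938381b04) (nat_lit 0xc06000000) (nat_lit 36)))
 (.p (nat_lit 0x180217fc17fa17f81069106706) (nat_lit 0x180001d46) (nat_lit 17)))))
 (.n (.n (.n (.n (.p (nat_lit 0xf430d0302) (nat_lit 0x2b40) (nat_lit 19))
 (.p (nat_lit 0x1736173417321730172e172d00d907) (nat_lit 0x72) (nat_lit 7)))
 (.p (nat_lit 0xefb0e8302) (nat_lit 0x28a3) (nat_lit 18)))
 (.n (.n (.p (nat_lit 0x2dd9001502) (nat_lit 0x8881) (nat_lit 33))
 (.p (nat_lit 0x397f396b02) (nat_lit 0x68c08000800) (nat_lit 35)))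
 (.p (nat_lit 0x3830381013e03) (nat_lit 0x34005) (nat_lit 22))))
 (.n (.n (.n (.p (nat_lit 0xe670d4702) (nat_lit 0xa1a0) (nat_lit 19))
 (.p (nat_lit 0x3895387902) (nat_lit 0x8080a000000) (nat_lit 35)))
 (.p (nat_lit 0x1a430f9202) (nat_lit 0xa8a4) (nat_lit 4)))
 (.n (.n (.p (nat_lit 0x11bd0e5d02) (nat_lit 0xa2) (nat_lit 19))
 (.p (nat_lit 0x39db39c138a303) (nat_lit 0xb5c0000a020) (nat_lit 44)))
 (.p (nat_lit 0x23ce23cc23ca23c811a311a106) (nat_lit 0x300001d68) (nat_lit 14)))))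

def c256_193 : Tr := .n c512_193 c512_449

def c128_65 : Tr := .n c256_65 c256_193

def c64_1 : Tr := .n c128_1 c128_65

def c512_33 : Tr :=
 .n (.n (.n (.n (.n (.p (nat_lit 0x183e183c183a18380cc70cc506) (nat_lit 0x30000200) (nat_lit 15))
 (.p (nat_lit 0x279f123e02) (nat_lit 0xa089) (nat_lit 5)))
 (.n (.p (nat_lit 0xef90e6902) (nat_lit 0xba2) (nat_lit 19))
 (.p (nat_lit 0x39e13929380903) (nat_lit 0x94800004040) (nat_lit 44))))
 (.n (.n (.p (nat_lit 0x25b225ac25aa25a80d510d4f06) (nat_lit 0x1800019a0) (nat_lit 14))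
 (.p (nat_lit 0x389f388502) (nat_lit 0xaa00a000000) (nat_lit 35)))
 (.p (nat_lit 0x34b03490345013004) (nat_lit 0x22c4004) (nat_lit 23))))
 (.n (.n (.n (.p (nat_lit 0x24922490248e248c248a0d0d06) (nat_lit 0x10001160) (nat_lit 14))
 (.p (nat_lit 0x7ff006202) (nat_lit 0x2002) (nat_lit 30)))
 (.p (nat_lit 0x12f003a003203) (nat_lit 0x22000a004) (nat_lit 20)))
 (.n (.n (.p (nat_lit 0x2de30dd202) (nat_lit 0x60a1) (nat_lit 32))
 (.p (nat_lit 0x3991397702) (nat_lit 0xb2408000800) (nat_lit 35)))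
 (.p (nat_lit 0x3041103002) (nat_lit 0x806) (nat_lit 32)))))
 (.n (.n (.n (.n (.p (nat_lit 0x19081906190419020cf30ce906) (nat_lit 0x210001c20) (nat_lit 17))
 (.p (nat_lit 0x1f821f801f7e1f7c1f7a1f7806) (nat_lit 0x82e) (nat_lit 2)))
 (.n (.p (nat_lit 0x2ee5002502) (nat_lit 0x83) (nat_lit 33))
 (.p (nat_lit 0x3a433941382103) (nat_lit 0x31800006080) (nat_lit 43))))
 (.n (.n (.p (nat_lit 0x22fd0d9c02) (nat_lit 0x61) (nat_lit 5))
 (.p (nat_lit 0x390f390502) (nat_lit 0x28004000800) (nat_lit 35)))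
 (.p (nat_lit 0x247a24782476247224700fc906) (nat_lit 0x40001045) (nat_lit 14))))
 (.n (.n (.n (.p (nat_lit 0x255e255c255825560d2b0d2506) (nat_lit 0x90000480) (nat_lit 16))
 (.p (nat_lit 0x3807380302) (nat_lit 0x8bc04000000) (nat_lit 35)))
 (.p (nat_lit 0x19e70f3602) (nat_lit 0x2044) (nat_lit 4)))
 (.n (.n (.p (nat_lit 0xe3d002802) (nat_lit 0x4862) (nat_lit 1))
 (.p (nat_lit 0x3a0d38b7379f03) (nat_lit 0x4b400000000) (nat_lit 43)))
 (.p (nat_lit 0x1731107102) (nat_lit 0x4066) (nat_lit 19)))))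

def c512_289 : Tr :=
 .n (.n (.n (.n (.n (.p (nat_lit 0xdfb0cdb02) (nat_lit 0xa900) (nat_lit 19))
 (.p (nat_lit 0x28f5139402) (nat_lit 0x480c) (nat_lit 5)))
 (.n (.p (nat_lit 0x23f70e9602) (nat_lit 0xa023) (nat_lit 5))
 (.p (nat_lit 0x3a373941382903) (nat_lit 0x32800006060) (nat_lit 43))))
 (.n (.n (.p (nat_lit 0xdfd0d6d02) (nat_lit 0x221) (nat_lit 19))
 (.p (nat_lit 0x38cf38b902) (nat_lit 0xaa800000800) (nat_lit 35)))
 (.p (nat_lit 0x2fbf0fae02) (nat_lit 0x2025) (nat_lit 32))))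
 (.n (.n (.n (.p (nat_lit 0x19f819f619f419f219f00d2306) (nat_lit 0x200001a60) (nat_lit 15))
 (.p (nat_lit 0x379d379b02) (nat_lit 0x62c00000000) (nat_lit 35)))
 (.p (nat_lit 0x1802180017fe17fc0f130f1106) (nat_lit 0x30001d04) (nat_lit 15)))
 (.n (.n (.p (nat_lit 0x27b427b227b027ac0e070dff06) (nat_lit 0x220000522) (nat_lit 14))
 (.p (nat_lit 0x39b739a702) (nat_lit 0x8a40a000800) (nat_lit 35)))
 (.p (nat_lit 0x17ba17b817b617b417b0105706) (nat_lit 0x20001246) (nat_lit 17)))))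
 (.n (.n (.n (.n (.p (nat_lit 0x193a1938193419300d070d0306) (nat_lit 0xa0001840) (nat_lit 15))
 (.p (nat_lit 0x2b61160002) (nat_lit 0x850) (nat_lit 5)))
 (.n (.p (nat_lit 0x226a22662264226222600ef506) (nat_lit 0x1000012a3) (nat_lit 16))
 (.p (nat_lit 0x3a093989387103) (nat_lit 0x958000080a0) (nat_lit 44))))
 (.n (.n (.p (nat_lit 0x22b222b022ac22aa22a80daf06) (nat_lit 0x80001d61) (nat_lit 14))
 (.p (nat_lit 0x395f393f02) (nat_lit 0xa9406000800) (nat_lit 35)))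
 (.p (nat_lit 0x255f0ffe02) (nat_lit 0xa085) (nat_lit 5))))
 (.n (.n (.n (.p (nat_lit 0xdc10d3102) (nat_lit 0x880) (nat_lit 19))
 (.p (nat_lit 0x385d385102) (nat_lit 0x61808000000) (nat_lit 35)))
 (.p (nat_lit 0x24db0f7a02) (nat_lit 0xa884) (nat_lit 5)))
 (.n (.n (.p (nat_lit 0x223a22382236223422320e5106) (nat_lit 0x10001882) (nat_lit 14))
 (.p (nat_lit 0x3a1d3929380f03) (nat_lit 0x95400004020) (nat_lit 43)))
 (.p (nat_lit 0x3d503c9014e03) (nat_lit 0x4010006) (nat_lit 22)))))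

def c256_33 : Tr := .n c512_33 c512_289

def c512_161 : Tr :=
 .n (.n (.n (.n (.n (.p (nat_lit 0x22fa22f822f622f00cd50cd306) (nat_lit 0x60001a00) (nat_lit 14))
 (.p (nat_lit 0x284312e202) (nat_lit 0x60aa) (nat_lit 5)))
 (.n (.p (nat_lit 0x193a1938193619341932193006) (nat_lit 0x803) (nat_lit 2))
 (.p (nat_lit 0x39e739a7388f03) (nat_lit 0x4b40000a040) (nat_lit 44))))
 (.n (.n (.p (nat_lit 0x22902270225021704) (nat_lit 0x31a0000) (nat_lit 24))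
 (.p (nat_lit 0x38bb38a702) (nat_lit 0x58400000800) (nat_lit 35)))
 (.p (nat_lit 0x25e025de25dc25da25d80f9f06) (nat_lit 0x200001305) (nat_lit 16))))
 (.n (.n (.n (.p (nat_lit 0x17d217d017ce17cc17ca17c806) (nat_lit 0x860) (nat_lit 2))
 (.p (nat_lit 0xe1004e004c004a0048000b06) (nat_lit 0x58206) (nat_lit 29)))
 (.p (nat_lit 0x24710f1002) (nat_lit 0x804) (nat_lit 5)))
 (.n (.n (.p (nat_lit 0x10f0020001a03) (nat_lit 0x12000a002) (nat_lit 20))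
 (.p (nat_lit 0x399b399902) (nat_lit 0x1880a000800) (nat_lit 35)))
 (.p (nat_lit 0x305b104a02) (nat_lit 0x2826) (nat_lit 32)))))
 (.n (.n (.n (.n (.p (nat_lit 0x196a1966196419620cfd0cf506) (nat_lit 0x110001240) (nat_lit 17))
 (.p (nat_lit 0x1a4e1a4a1a481a461a44156106) (nat_lit 0x10000082f) (nat_lit 15)))
 (.n (.p (nat_lit 0x2ef7002b02) (nat_lit 0x6883) (nat_lit 33))
 (.p (nat_lit 0x3a4b38e537c503) (nat_lit 0x420000020a0) (nat_lit 43))))
 (.n (.n (.p (nat_lit 0x10710da102) (nat_lit 0x4461) (nat_lit 19))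
 (.p (nat_lit 0x392f392302) (nat_lit 0xabc04000800) (nat_lit 35)))
 (.p (nat_lit 0x2ff62ff42ff22ff02fee2fec013c07) (nat_lit 0x65) (nat_lit 8))))
 (.n (.n (.n (.p (nat_lit 0x250a2508250625000d350d3306) (nat_lit 0x60001880) (nat_lit 14))
 (.p (nat_lit 0x3837382502) (nat_lit 0x8a006000000) (nat_lit 35)))
 (.p (nat_lit 0xf6d0f5502) (nat_lit 0x8064) (nat_lit 18)))
 (.n (.n (.p (nat_lit 0x178817861784178217800e4f06) (nat_lit 0x200001082) (nat_lit 15))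
 (.p (nat_lit 0x3a15001402) (nat_lit 0x8000) (nat_lit 42)))
 (.p (nat_lit 0x309d005102) (nat_lit 0x8086) (nat_lit 33)))))

def c512_417 : Tr :=
 .n (.n (.n (.n (.n (.p (nat_lit 0xcf20cf00cef0cec0cea0ce9021a0007000109) (nat_lit 0x30820) (nat_lit 13))
 (.p (nat_lit 0x14b7142702) (nat_lit 0x6d0d) (nat_lit 19)))
 (.n (.p (nat_lit 0x24190eb802) (nat_lit 0x8843) (nat_lit 5))
 (.p (nat_lit 0x39f339af389103) (nat_lit 0x6b80000a060) (nat_lit 44))))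
 (.n (.n (.p (nat_lit 0x18fe18fc18fa18f818f40d8706) (nat_lit 0x20000441) (nat_lit 15))
 (.p (nat_lit 0x38f738d902) (nat_lit 0x88802000800) (nat_lit 35)))
 (.p (nat_lit 0x178a1788178417800fbf0fbb06) (nat_lit 0xa0001825) (nat_lit 15))))
 (.n (.n (.n (.p (nat_lit 0xd29004002) (nat_lit 0x4080) (nat_lit 1))
 (.p (nat_lit 0x37df37bd02) (nat_lit 0xa9002000000) (nat_lit 35)))
 (.p (nat_lit 0x14c70f2702) (nat_lit 0xa424) (nat_lit 19)))
 (.n (.n (.p (nat_lit 0x282c282a282628240e2b0e2506) (nat_lit 0x240000c42) (nat_lit 14))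
 (.p (nat_lit 0x38f838f638f238f037d905) (nat_lit 0x4802000000) (nat_lit 36)))
 (.p (nat_lit 0x22822280227e227c227a106106) (nat_lit 0x10001b46) (nat_lit 14)))))
 (.n (.n (.n (.n (.p (nat_lit 0x19b219ae19aa19a80d090d0506) (nat_lit 0x140001d40) (nat_lit 17))
 (.p (nat_lit 0x21d1172002) (nat_lit 0x852) (nat_lit 4)))
 (.p (nat_lit 0x17c617c217c017be17bc0f0106) (nat_lit 0x100000ba3) (nat_lit 15)))
 (.n (.n (.p (nat_lit 0x10890db902) (nat_lit 0x4481) (nat_lit 19))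
 (.p (nat_lit 0x3989396702) (nat_lit 0x90408000800) (nat_lit 35)))
 (.p (nat_lit 0x3031102002) (nat_lit 0x88a5) (nat_lit 32))))
 (.n (.n (.n (.p (nat_lit 0x25e225de25da25d80d450d4106) (nat_lit 0x1400013a0) (nat_lit 14))
 (.p (nat_lit 0x387d387702) (nat_lit 0x2040a000000) (nat_lit 35)))
 (.p (nat_lit 0x2fa22fa02f9e2f9c2f9a2f98012c07) (nat_lit 0x8a4) (nat_lit 8)))
 (.n (.n (.p (nat_lit 0xe660e640e620e610e5e0e5d02a8001d001909) (nat_lit 0x200a2) (nat_lit 13))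
 (.p (nat_lit 0x3a233997387703) (nat_lit 0x840000a020) (nat_lit 43)))
 (.p (nat_lit 0x1916191419121910190e118d06) (nat_lit 0x10000568) (nat_lit 15)))))

def c256_161 : Tr := .n c512_161 c512_417

def c128_33 : Tr := .n c256_33 c256_161

def c512_97 : Tr :=
 .n (.n (.n (.n (.n (.p (nat_lit 0x17850cd402) (nat_lit 0x4800) (nat_lit 4))
 (.p (nat_lit 0x282912c802) (nat_lit 0x408a) (nat_lit 5)))
 (.n (.p (nat_lit 0x192e192c192a19281926192406) (nat_lit 0x3) (nat_lit 2))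
 (.p (nat_lit 0x39e53971385703) (nat_lit 0x32400008040) (nat_lit 44))))
 (.n (.n (.p (nat_lit 0x1b3e1b3c1b3a1b380d4b0d4906) (nat_lit 0x30000ca0) (nat_lit 15))
 (.p (nat_lit 0x3897389502) (nat_lit 0x8c00a000000) (nat_lit 35)))
 (.p (nat_lit 0x1a470f9602) (nat_lit 0x2005) (nat_lit 4))))
 (.n (.n (.n (.p (nat_lit 0x1a361a341a301a2e0d130d0d06) (nat_lit 0x90000560) (nat_lit 15))
 (.l (nat_lit 0x541020000000008) (nat_lit 0x22104) (nat_lit 29)))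
 (.p (nat_lit 0x17ba17b417b217b00f0d0f0b06) (nat_lit 0x180001204) (nat_lit 15)))
 (.n (.n (.p (nat_lit 0x21da21d821d621d421d20dd906) (nat_lit 0x10001aa1) (nat_lit 17))
 (.p (nat_lit 0x3993398902) (nat_lit 0xbc808000800) (nat_lit 35)))
 (.p (nat_lit 0x1af3104202) (nat_lit 0x6026) (nat_lit 4)))))
 (.n (.n (.n (.n (.p (nat_lit 0xfb90ce902) (nat_lit 0xc20) (nat_lit 19))
 (.p (nat_lit 0x34ef00b302) (nat_lit 0xa04e) (nat_lit 33)))
 (.n (.p (nat_lit 0x2492248e248c248a24880edd06) (nat_lit 0x100001183) (nat_lit 16))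
 (.p (nat_lit 0x3a44108102) (nat_lit 0x8880) (nat_lit 48))))
 (.n (.n (.p (nat_lit 0x226a22662264226222600da506) (nat_lit 0x100001261) (nat_lit 14))
 (.p (nat_lit 0x391d391302) (nat_lit 0x61c04000800) (nat_lit 35)))
 (.p (nat_lit 0x1a890fd802) (nat_lit 0x8845) (nat_lit 4))))
 (.n (.n (.n (.p (nat_lit 0x10850d2502) (nat_lit 0x580) (nat_lit 19))
 (.p (nat_lit 0x3827381902) (nat_lit 0x48806000000) (nat_lit 35)))
 (.p (nat_lit 0x24a30f4202) (nat_lit 0x2844) (nat_lit 5)))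
 (.n (.n (.p (nat_lit 0x2460245e245c245a24580e4306) (nat_lit 0x200001d62) (nat_lit 14))
 (.p (nat_lit 0x3a0f38ed37cf03) (nat_lit 0x63400002000) (nat_lit 43)))
 (.p (nat_lit 0x1a5a1a561a521a501081107d06) (nat_lit 0x140001866) (nat_lit 17)))))

def c512_353 : Tr :=
 .n (.n (.n (.n (.n (.p (nat_lit 0x18fe18fa18f618f40ce50ce106) (nat_lit 0x140000420) (nat_lit 17))
 (.p (nat_lit 0x24da24d624d424d224d0140506) (nat_lit 0x1000014ac) (nat_lit 14)))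
 (.n (.p (nat_lit 0xea20ea00e9f0e9c0e9b0e9802fe002b002709) (nat_lit 0x32823) (nat_lit 13))
 (.p (nat_lit 0x39f1398d386d03) (nat_lit 0xa5000008060) (nat_lit 44))))
 (.n (.n (.p (nat_lit 0xd970d7f02) (nat_lit 0x6821) (nat_lit 18))
 (.p (nat_lit 0x38d338d102) (nat_lit 0xbd800000800) (nat_lit 35)))
 (.p (nat_lit 0x229a2296229422920fb50fad06) (nat_lit 0x110001425) (nat_lit 16))))
 (.n (.n (.n (.p (nat_lit 0x24f224f024ec24ea0d1f0d1906) (nat_lit 0x90001d60) (nat_lit 14))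
 (.p (nat_lit 0x37c137b502) (nat_lit 0x30002000000) (nat_lit 35)))
 (.p (nat_lit 0x24870f2602) (nat_lit 0xa024) (nat_lit 5)))
 (.n (.n (.p (nat_lit 0xe1e0e1d0e1b0e180e160e1402d00021001f09) (nat_lit 0x46042) (nat_lit 13))
 (.p (nat_lit 0x39c139bb02) (nat_lit 0xb4c0a000800) (nat_lit 35)))
 (.p (nat_lit 0x1b1a1b181b161b141b121b1006) (nat_lit 0x846) (nat_lit 2)))))
 (.n (.n (.n (.n (.p (nat_lit 0x2430242e242a24280d0b0d0506) (nat_lit 0x240001b40) (nat_lit 14))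
 (.p (nat_lit 0x214f169e02) (nat_lit 0x2071) (nat_lit 4)))
 (.n (.p (nat_lit 0xf850ef502) (nat_lit 0x84a3) (nat_lit 19))
 (.p (nat_lit 0x3a5339b5389703) (nat_lit 0x8440000a0a0) (nat_lit 43))))
 (.n (.n (.p (nat_lit 0xdbe0dbc0dbb0db80db60db502620013000d09) (nat_lit 0x30081) (nat_lit 13))
 (.p (nat_lit 0x3951394d02) (nat_lit 0x73006000800) (nat_lit 35)))
 (.p (nat_lit 0x1ac7101602) (nat_lit 0xa0a5) (nat_lit 4))))
 (.n (.n (.n (.p (nat_lit 0xd470d440d420d400d3e0d3c000b07) (nat_lit 0xa0a0) (nat_lit 7))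
 (.p (nat_lit 0x386b385d02) (nat_lit 0x9b008000000) (nat_lit 35)))
 (.p (nat_lit 0x1a350f8402) (nat_lit 0x80a4) (nat_lit 4)))
 (.n (.n (.p (nat_lit 0x22a622a422a0229e229c0e5706) (nat_lit 0x80000d82) (nat_lit 14))
 (.p (nat_lit 0x3a1f395b383b03) (nat_lit 0x9cc00006020) (nat_lit 43)))
 (.p (nat_lit 0x22ee22ec22e822e622e4110306) (nat_lit 0x80000267) (nat_lit 14)))))

def c256_97 : Tr := .n c512_97 c512_353

def c512_225 : Tr :=
 .n (.n (.n (.n (.n (.p (nat_lit 0x186e186a186618640cd90cd506) (nat_lit 0x140000c00) (nat_lit 15))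
 (.p (nat_lit 0x138112f102) (nat_lit 0x8baa) (nat_lit 19)))
 (.n (.p (nat_lit 0x18f218ec18ea18e80e890e8706) (nat_lit 0x180001b03) (nat_lit 17))
 (.p (nat_lit 0x3a3338dd37c503) (nat_lit 0x22000002060) (nat_lit 43))))
 (.n (.n (.p (nat_lit 0xd6a0d690d660d640d620d60001507) (nat_lit 0x8801) (nat_lit 7))
 (.p (nat_lit 0x38cb38af02) (nat_lit 0x99400000800) (nat_lit 35)))
 (.p (nat_lit 0x25a425a225a0259e259c0fab06) (nat_lit 0x200000905) (nat_lit 14))))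
 (.n (.n (.n (.p (nat_lit 0x19ca19c619c419c20d210d1906) (nat_lit 0x110001860) (nat_lit 17))
 (.p (nat_lit 0x3799378502) (nat_lit 0x50000000000) (nat_lit 35)))
 (.p (nat_lit 0x226a22682266226422620f1106) (nat_lit 0x10001a04) (nat_lit 14)))
 (.n (.n (.p (nat_lit 0x23550df402) (nat_lit 0x4802) (nat_lit 5))
 (.p (nat_lit 0x39ab399f02) (nat_lit 0x5940a000800) (nat_lit 35)))
 (.p (nat_lit 0x187a1876187218701051104d06) (nat_lit 0x140001c26) (nat_lit 17)))))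
 (.n (.n (.n (.n (.p (nat_lit 0xf370cf702) (nat_lit 0x2340) (nat_lit 19))
 (.p (nat_lit 0x209b15ea02) (nat_lit 0x2830) (nat_lit 4)))
 (.n (.p (nat_lit 0xf710ee102) (nat_lit 0xc83) (nat_lit 19))
 (.p (nat_lit 0x3a4e22a302) (nat_lit 0x60a0) (nat_lit 46))))
 (.n (.n (.p (nat_lit 0x17a2179e179c179a17980db106) (nat_lit 0x100001961) (nat_lit 15))
 (.p (nat_lit 0x394f393702) (nat_lit 0x68406000800) (nat_lit 35)))
 (.p (nat_lit 0x254b0fea02) (nat_lit 0x2865) (nat_lit 5))))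
 (.n (.n (.n (.p (nat_lit 0x1a8a1a881a861a820d350d3106) (nat_lit 0x50001a80) (nat_lit 15))
 (.p (nat_lit 0x3871384702) (nat_lit 0xb0408000000) (nat_lit 35)))
 (.p (nat_lit 0xf6e0f6d0f6a0f680f670f6403480039003309) (nat_lit 0x42084) (nat_lit 13)))
 (.n (.n (.p (nat_lit 0x17f417f017ee17ec0e4f0e4b06) (nat_lit 0x280000582) (nat_lit 15))
 (.p (nat_lit 0x3a1938bf379f03) (nat_lit 0x6b400000020) (nat_lit 43)))
 (.p (nat_lit 0x20a220a0209c209a1097109106) (nat_lit 0x90001986) (nat_lit 17)))))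

def c512_481 : Tr :=
 .n (.n (.n (.n (.n (.p (nat_lit 0x23862384238223800cf30cf106) (nat_lit 0x300001a20) (nat_lit 14))
 (.p (nat_lit 0x2a1114b002) (nat_lit 0x80e) (nat_lit 5)))
 (.n (.p (nat_lit 0xf570ec702) (nat_lit 0xa463) (nat_lit 19))
 (.p (nat_lit 0x39f417e102) (nat_lit 0x880) (nat_lit 45))))
 (.n (.n (.p (nat_lit 0x184b0d9a02) (nat_lit 0xa841) (nat_lit 4))
 (.p (nat_lit 0x38ed38e502) (nat_lit 0x62002000800) (nat_lit 35)))
 (.p (nat_lit 0x180217fe17fc17fa17f80fc106) (nat_lit 0x100001d25) (nat_lit 15))))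
 (.n (.n (.n (.p (nat_lit 0x1a641a621a601a5e0d2f0d2506) (nat_lit 0x210000180) (nat_lit 17))
 (.p (nat_lit 0x380f37e702) (nat_lit 0xa8404000000) (nat_lit 35)))
 (.p (nat_lit 0x194419421940193c0f330f2b06) (nat_lit 0x220000924) (nat_lit 17)))
 (.n (.n (.p (nat_lit 0x23ea23e823e423e00e330e2f06) (nat_lit 0xa0001062) (nat_lit 16))
 (.p (nat_lit 0x397a39783972385b04) (nat_lit 0x2c08000000) (nat_lit 36)))
 (.p (nat_lit 0x1073004202) (nat_lit 0x6066) (nat_lit 1)))))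
 (.n (.n (.n (.n (.p (nat_lit 0xd13003602) (nat_lit 0x6060) (nat_lit 1))
 (.p (nat_lit 0x21ed173c02) (nat_lit 0x4872) (nat_lit 4)))
 (.p (nat_lit 0x319030b02ff012004) (nat_lit 0x6222003) (nat_lit 23)))
 (.n (.n (.p (nat_lit 0x1b1a1b181b161b141b100dc306) (nat_lit 0x20001a81) (nat_lit 15))
 (.p (nat_lit 0x397d396f02) (nat_lit 0x61408000800) (nat_lit 35)))
 (.p (nat_lit 0x14d004e004a004804) (nat_lit 0xb0008006) (nat_lit 20))))
 (.n (.n (.n (.p (nat_lit 0x22ad0d4c02) (nat_lit 0x48a0) (nat_lit 5))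
 (.p (nat_lit 0x388f387d02) (nat_lit 0x6900a000000) (nat_lit 35)))
 (.p (nat_lit 0x2522251c251a25180f910f8f06) (nat_lit 0x1800019a4) (nat_lit 14)))
 (.n (.n (.p (nat_lit 0xe71001402) (nat_lit 0x88a2) (nat_lit 1))
 (.p (nat_lit 0x39dd38c737a903) (nat_lit 0x8c800000040) (nat_lit 44)))
 (.p (nat_lit 0x2310230e230c230a230811af06) (nat_lit 0x200001388) (nat_lit 14)))))

def c256_225 : Tr := .n c512_225 c512_481

def c128_97 : Tr := .n c256_97 c256_225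

def c64_33 : Tr := .n c128_33 c128_97

def c32_1 : Tr := .n c64_1 c64_33

def c512_17 : Tr :=
 .n (.n (.n (.n (.n (.p (nat_lit 0x222d0ccc02) (nat_lit 0x8000) (nat_lit 5))
 (.p (nat_lit 0x282e282a282828262824123106) (nat_lit 0x100000c69) (nat_lit 14)))
 (.n (.p (nat_lit 0x187a18761874187218700e7106) (nat_lit 0x100001ca2) (nat_lit 15))
 (.p (nat_lit 0x3a26136f02) (nat_lit 0x2240) (nat_lit 48))))
 (.n (.n (.p (nat_lit 0x25a625a225a0259c0d510d4b06) (nat_lit 0x1200009a0) (nat_lit 14))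
 (.p (nat_lit 0x3893388302) (nat_lit 0x79c0a000000) (nat_lit 35)))
 (.p (nat_lit 0x33f033b0337013004) (nat_lit 0x2b2004) (nat_lit 23))))
 (.n (.n (.n (.p (nat_lit 0x24782476247424720d170d0d06) (nat_lit 0x210001060) (nat_lit 16))
 (.l (nat_lit 0x8550002) (nat_lit 0x2341) (nat_lit 29)))
 (.p (nat_lit 0x12f0036003203) (nat_lit 0xa000a004) (nat_lit 20)))
 (.n (.n (.p (nat_lit 0x187d0dcc02) (nat_lit 0xa1) (nat_lit 4))
 (.p (nat_lit 0x398d397502) (nat_lit 0xa2008000800) (nat_lit 35)))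
 (.p (nat_lit 0x21da21d621d421d221d0102d06) (nat_lit 0x100001206) (nat_lit 15)))))
 (.n (.n (.n (.n (.p (nat_lit 0x23aa23a823a623a40cf30cf106) (nat_lit 0x300000c20) (nat_lit 16))
 (.p (nat_lit 0x2a2514c402) (nat_lit 0x802e) (nat_lit 5)))
 (.n (.p (nat_lit 0xee70ecf02) (nat_lit 0x6863) (nat_lit 18))
 (.p (nat_lit 0x39f9392d380d03) (nat_lit 0xa5000004080) (nat_lit 44))))
 (.n (.n (.p (nat_lit 0xe270d9702) (nat_lit 0x6a41) (nat_lit 19))
 (.p (nat_lit 0x390338ff02) (nat_lit 0xbd402000800) (nat_lit 35)))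
 (.p (nat_lit 0x1a7d0fcc02) (nat_lit 0x8045) (nat_lit 4))))
 (.n (.n (.n (.p (nat_lit 0x254625442542253e253c0d2906) (nat_lit 0x40000380) (nat_lit 14))
 (.p (nat_lit 0x380737fd02) (nat_lit 0x8b004000000) (nat_lit 35)))
 (.p (nat_lit 0x14cb0f2b02) (nat_lit 0x2c24) (nat_lit 19)))
 (.n (.n (.p (nat_lit 0xec30e3302) (nat_lit 0x6362) (nat_lit 19))
 (.p (nat_lit 0x39c538ab379303) (nat_lit 0x19c00000000) (nat_lit 44)))
 (.p (nat_lit 0x1aa21a9e1a9c1a9a1a98107506) (nat_lit 0x100001366) (nat_lit 17)))))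

def c512_273 : Tr :=
 .n (.n (.n (.n (.n (.p (nat_lit 0xceb0cd302) (nat_lit 0x2800) (nat_lit 18))
 (.p (nat_lit 0x193a1938193419321930138b06) (nat_lit 0x8000100c) (nat_lit 17)))
 (.n (.p (nat_lit 0x23ef0e8e02) (nat_lit 0x2023) (nat_lit 5))
 (.p (nat_lit 0x3a37393d381d03) (nat_lit 0x21000006060) (nat_lit 43))))
 (.n (.n (.p (nat_lit 0x1c3a1c361c341c321c300d7506) (nat_lit 0x100001221) (nat_lit 15))
 (.p (nat_lit 0x38c938b702) (nat_lit 0x92400000800) (nat_lit 35)))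
 (.p (nat_lit 0x14b70fa702) (nat_lit 0x6b05) (nat_lit 19))))
 (.n (.n (.n (.p (nat_lit 0x19ee19ec19e619e40d1f0d1d06) (nat_lit 0xc0000a60) (nat_lit 15))
 (.p (nat_lit 0x37a5379302) (nat_lit 0x81c00000000) (nat_lit 35)))
 (.p (nat_lit 0x17ea17e817e417e217e00f1706) (nat_lit 0x80001c04) (nat_lit 15)))
 (.n (.n (.p (nat_lit 0x23610e0002) (nat_lit 0x4022) (nat_lit 5))
 (.p (nat_lit 0x39b139a502) (nat_lit 0x7200a000800) (nat_lit 35)))
 (.p (nat_lit 0x223a2238223622342230105706) (nat_lit 0x20001046) (nat_lit 14)))))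
 (.n (.n (.n (.n (.p (nat_lit 0x192e192a1928192619240d0906) (nat_lit 0x100000840) (nat_lit 15))
 (.p (nat_lit 0x24fc24fa24f824f624f415ff06) (nat_lit 0x200000050) (nat_lit 14)))
 (.n (.p (nat_lit 0x17a217a0179e179c17980eef06) (nat_lit 0x200011a3) (nat_lit 15))
 (.p (nat_lit 0x3a09397b386103) (nat_lit 0x5b8000080a0) (nat_lit 44))))
 (.n (.n (.p (nat_lit 0x229a2298229422920daf0da906) (nat_lit 0x90001c61) (nat_lit 14))
 (.p (nat_lit 0x3963393d02) (nat_lit 0xb9006000800) (nat_lit 35)))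
 (.p (nat_lit 0x107f0fef02) (nat_lit 0x6865) (nat_lit 19))))
 (.n (.n (.n (.p (nat_lit 0x257425722570256c0d3b0d3306) (nat_lit 0x220000d80) (nat_lit 14))
 (.p (nat_lit 0x3857384f02) (nat_lit 0x49408000000) (nat_lit 35)))
 (.p (nat_lit 0x24d51a2503630355012e05) (nat_lit 0x15c4884) (nat_lit 9)))
 (.n (.n (.p (nat_lit 0x19070e5602) (nat_lit 0x6882) (nat_lit 4))
 (.p (nat_lit 0x39d5391337f903) (nat_lit 0x3a800004020) (nat_lit 44)))
 (.p (nat_lit 0x30c3005302) (nat_lit 0xa8a6) (nat_lit 33)))))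

def c256_17 : Tr := .n c512_17 c512_273

def c512_145 : Tr :=
 .n (.n (.n (.n (.n (.p (nat_lit 0x22ee22ec22ea22e40cd50cd306) (nat_lit 0x60000a00) (nat_lit 14))
 (.p (nat_lit 0x2456245424522450244c12d306) (nat_lit 0x20000d8a) (nat_lit 14)))
 (.n (.p (nat_lit 0x23c423c223c023be23bc0e7f06) (nat_lit 0x200000503) (nat_lit 14))
 (.p (nat_lit 0x3a2f39bf387503) (nat_lit 0xa800000a040) (nat_lit 43))))
 (.n (.n (.p (nat_lit 0xf910d5102) (nat_lit 0x8ba0) (nat_lit 19))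
 (.p (nat_lit 0x38c338a502) (nat_lit 0x78000000800) (nat_lit 35)))
 (.p (nat_lit 0x1b1a1b161b121b100f9d0f9906) (nat_lit 0x140001205) (nat_lit 15))))
 (.n (.n (.n (.p (nat_lit 0xf510d1102) (nat_lit 0x4360) (nat_lit 19))
 (.l (nat_lit 0x505080000000000020) (nat_lit 0x34225) (nat_lit 29)))
 (.p (nat_lit 0x138b0f0b02) (nat_lit 0x6204) (nat_lit 19)))
 (.n (.n (.p (nat_lit 0x297027d0265010004) (nat_lit 0x82a0001) (nat_lit 23))
 (.p (nat_lit 0x39a5399702) (nat_lit 0x4040a000800) (nat_lit 35)))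
 (.p (nat_lit 0x15df103f02) (nat_lit 0x2426) (nat_lit 19)))))
 (.n (.n (.n (.n (.p (nat_lit 0x23f623f223f023ee23ec0cfd06) (nat_lit 0x100000140) (nat_lit 14))
 (.p (nat_lit 0x24fe24fa24f824f624f4155506) (nat_lit 0x10000002f) (nat_lit 14)))
 (.n (.p (nat_lit 0xeea0ee80ee60ee40ee20ee1002507) (nat_lit 0x883) (nat_lit 7))
 (.p (nat_lit 0x3a0338d537b503) (nat_lit 0x20a0) (nat_lit 44))))
 (.n (.n (.p (nat_lit 0xdbd0da502) (nat_lit 0x8061) (nat_lit 18))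
 (.p (nat_lit 0x392d391f02) (nat_lit 0xa3404000800) (nat_lit 35)))
 (.p (nat_lit 0xfe90fd102) (nat_lit 0x845) (nat_lit 18))))
 (.n (.n (.n (.p (nat_lit 0xd3a0d390d370d340d320d3002400009000709) (nat_lit 0x46880) (nat_lit 13))
 (.p (nat_lit 0x3829382102) (nat_lit 0x51806000000) (nat_lit 35)))
 (.p (nat_lit 0x24b10f5002) (nat_lit 0x4064) (nat_lit 5)))
 (.n (.n (.p (nat_lit 0x23af0e4e02) (nat_lit 0xa082) (nat_lit 5))
 (.p (nat_lit 0x39cb393f381f03) (nat_lit 0x29400006000) (nat_lit 44)))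
 (.p (nat_lit 0x25e7108602) (nat_lit 0x2086) (nat_lit 5)))))

def c512_401 : Tr :=
 .n (.n (.n (.n (.n (.p (nat_lit 0x224b179b02) (nat_lit 0x2820) (nat_lit 11))
 (.p (nat_lit 0x19e219e019de19dc19da141506) (nat_lit 0x1000110d) (nat_lit 15)))
 (.n (.p (nat_lit 0xec10ea902) (nat_lit 0x4043) (nat_lit 18))
 (.p (nat_lit 0x39f339a3388303) (nat_lit 0x39c0000a060) (nat_lit 44))))
 (.n (.n (.p (nat_lit 0xd8e0d8c0d8a0d890d870d84026c0011000f09) (nat_lit 0x22041) (nat_lit 13))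
 (.p (nat_lit 0x38f538d702) (nat_lit 0x80402000800) (nat_lit 35)))
 (.p (nat_lit 0xfc20fc10fbe0fbc0fba0fb8004507) (nat_lit 0x8825) (nat_lit 7))))
 (.n (.n (.n (.p (nat_lit 0x107b0d1b02) (nat_lit 0x2d60) (nat_lit 19))
 (.p (nat_lit 0x37bd37bb02) (nat_lit 0x20c02000000) (nat_lit 35)))
 (.p (nat_lit 0x2462245e245c245a0f250f1d06) (nat_lit 0x110001524) (nat_lit 14)))
 (.n (.n (.p (nat_lit 0x18db0e2a02) (nat_lit 0xa842) (nat_lit 4))
 (.p (nat_lit 0x3902390038d838d637b905) (nat_lit 0x802000000) (nat_lit 36)))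
 (.p (nat_lit 0x17a217a0179e179a1798106506) (nat_lit 0x40001946) (nat_lit 15)))))
 (.n (.n (.n (.n (.p (nat_lit 0x245424522450244c0d0b0d0306) (nat_lit 0x220000d40) (nat_lit 16))
 (.p (nat_lit 0x185618541852184e184c171906) (nat_lit 0x40000352) (nat_lit 15)))
 (.p (nat_lit 0x225c225a2258225622540f0306) (nat_lit 0x200000aa3) (nat_lit 16)))
 (.n (.n (.p (nat_lit 0xdcd0db502) (nat_lit 0x81) (nat_lit 18))
 (.p (nat_lit 0x3991396502) (nat_lit 0xb0008000800) (nat_lit 35)))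
 (.p (nat_lit 0x1acd101c02) (nat_lit 0x48a5) (nat_lit 4))))
 (.n (.n (.n (.p (nat_lit 0x25c825c625c225c00d470d4106) (nat_lit 0x2400012a0) (nat_lit 16))
 (.p (nat_lit 0x387d387502) (nat_lit 0x2000a000000) (nat_lit 35)))
 (.p (nat_lit 0x1ad21ad01ace1aca0f810f7d06) (nat_lit 0x500015a4) (nat_lit 17)))
 (.n (.n (.p (nat_lit 0x2e71001d02) (nat_lit 0x40a2) (nat_lit 33))
 (.p (nat_lit 0x3a213985386d03) (nat_lit 0x85000008020) (nat_lit 43)))
 (.p (nat_lit 0x1195002002) (nat_lit 0x8068) (nat_lit 1)))))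

def c256_145 : Tr := .n c512_145 c512_401

def c128_17 : Tr := .n c256_17 c256_145

def c512_81 : Tr :=
 .n (.n (.n (.n (.n (.p (nat_lit 0xf0d0ccd02) (nat_lit 0x8300) (nat_lit 19))
 (.p (nat_lit 0x32d112c002) (nat_lit 0x886a) (nat_lit 32)))
 (.n (.p (nat_lit 0x11f002a002803) (nat_lit 0xc000a003) (nat_lit 20))
 (.p (nat_lit 0x39e53969384903) (nat_lit 0x10800008040) (nat_lit 44))))
 (.n (.n (.p (nat_lit 0x1b221b201b1e1b1c0d530d5106) (nat_lit 0x300000ba0) (nat_lit 15))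
 (.p (nat_lit 0x38a1388f02) (nat_lit 0xb340a000000) (nat_lit 35)))
 (.p (nat_lit 0x13d0046003e003c04) (nat_lit 0x230008005) (nat_lit 20))))
 (.n (.n (.n (.p (nat_lit 0x1a1c1a1a1a181a140d170d0f06) (nat_lit 0x220000460) (nat_lit 15))
 (.p (nat_lit 0x867008e02) (nat_lit 0xa043) (nat_lit 30)))
 (.p (nat_lit 0x17881784178217800f0f0f0b06) (nat_lit 0x280001004) (nat_lit 17)))
 (.n (.n (.p (nat_lit 0xde20de00dde0ddd0dda0dd8001107) (nat_lit 0x48a1) (nat_lit 7))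
 (.p (nat_lit 0x3985398302) (nat_lit 0x83c08000800) (nat_lit 35)))
 (.p (nat_lit 0x3056305430523050304e304c014c07) (nat_lit 0x26) (nat_lit 8)))))
 (.n (.n (.n (.n (.p (nat_lit 0xe0d0ced02) (nat_lit 0x4920) (nat_lit 19))
 (.p (nat_lit 0x2a3514d402) (nat_lit 0x4e) (nat_lit 5)))
 (.n (.p (nat_lit 0x19ca19c819c619c419c00ed706) (nat_lit 0x20001083) (nat_lit 15))
 (.p (nat_lit 0x39fd3981386303) (nat_lit 0x73c00008080) (nat_lit 44))))
 (.n (.n (.p (nat_lit 0x2252224e224c224a22480da506) (nat_lit 0x100001161) (nat_lit 14))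
 (.p (nat_lit 0x391d390f02) (nat_lit 0x61404000800) (nat_lit 35)))
 (.p (nat_lit 0x25330fd202) (nat_lit 0x2845) (nat_lit 5))))
 (.n (.n (.n (.p (nat_lit 0xed90d2902) (nat_lit 0x4280) (nat_lit 19))
 (.p (nat_lit 0x3831381502) (nat_lit 0x70006000000) (nat_lit 35)))
 (.p (nat_lit 0x29722970296c29680f3b0f3706) (nat_lit 0xa0001544) (nat_lit 16)))
 (.n (.n (.p (nat_lit 0x243e243c243a243824360e3906) (nat_lit 0x10000c62) (nat_lit 14))
 (.p (nat_lit 0x39c7390337b903) (nat_lit 0xb8800002000) (nat_lit 44)))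
 (.p (nat_lit 0x10821080107e107d107b107803d4004d004b09) (nat_lit 0x22866) (nat_lit 13)))))

def c512_337 : Tr :=
 .n (.n (.n (.n (.n (.p (nat_lit 0x18c018be18ba18b80ce70ce106) (nat_lit 0x240001120) (nat_lit 17))
 (.p (nat_lit 0x1eb5140402) (nat_lit 0x80ac) (nat_lit 4)))
 (.n (.p (nat_lit 0xe9f007e02) (nat_lit 0x6823) (nat_lit 1))
 (.p (nat_lit 0x39f1397f386103) (nat_lit 0x6b800008060) (nat_lit 44))))
 (.n (.n (.p (nat_lit 0x2702270026fe26fa26f80d7d06) (nat_lit 0x40001b21) (nat_lit 14))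
 (.p (nat_lit 0x38d338c502) (nat_lit 0xbc000000800) (nat_lit 35)))
 (.p (nat_lit 0x17d217d017ce17cc17c80faf06) (nat_lit 0x20001325) (nat_lit 15))))
 (.n (.n (.n (.p (nat_lit 0x24e624e424e024dc0d1f0d1b06) (nat_lit 0xa0000d60) (nat_lit 14))
 (.p (nat_lit 0x37ad37ab02) (nat_lit 0xa4c00000000) (nat_lit 35)))
 (.p (nat_lit 0x247f19cf03630349012e05) (nat_lit 0x15c2024) (nat_lit 9)))
 (.n (.n (.p (nat_lit 0x237918c902d302c5010e05) (nat_lit 0x15c4042) (nat_lit 9))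
 (.p (nat_lit 0x39c339b302) (nat_lit 0xbbc0a000800) (nat_lit 35)))
 (.p (nat_lit 0x22b222b022ae22aa22a8105906) (nat_lit 0x40001546) (nat_lit 16)))))
 (.n (.n (.n (.n (.p (nat_lit 0x242624242420241e241c0d0706) (nat_lit 0x80000b40) (nat_lit 14))
 (.p (nat_lit 0x2ac22ac02abe2aba2ab8161106) (nat_lit 0x40001170) (nat_lit 14)))
 (.n (.p (nat_lit 0xef10e7902) (nat_lit 0x40a3) (nat_lit 18))
 (.p (nat_lit 0x3a5339a7388f03) (nat_lit 0x4b40000a0a0) (nat_lit 43))))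
 (.n (.n (.p (nat_lit 0x2dcb001302) (nat_lit 0x6081) (nat_lit 33))
 (.p (nat_lit 0x3951394702) (nat_lit 0x72406000800) (nat_lit 35)))
 (.p (nat_lit 0x1016101410121010100f100c003f07) (nat_lit 0x20a5) (nat_lit 7))))
 (.n (.n (.n (.p (nat_lit 0xd43004e02) (nat_lit 0x60a0) (nat_lit 1))
 (.p (nat_lit 0x3867385902) (nat_lit 0x8a808000000) (nat_lit 35)))
 (.p (nat_lit 0xf7f003e02) (nat_lit 0x20a4) (nat_lit 1)))
 (.n (.n (.p (nat_lit 0x17de17dc17da17d80e530e5106) (nat_lit 0x30000c82) (nat_lit 17))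
 (.p (nat_lit 0x3a1f3951383103) (nat_lit 0x73800006020) (nat_lit 43)))
 (.p (nat_lit 0x118b10fb02) (nat_lit 0xaa47) (nat_lit 19)))))

def c256_81 : Tr := .n c512_81 c512_337

def c512_209 : Tr :=
 .n (.n (.n (.n (.n (.p (nat_lit 0x1860185e185c18580cdb0cd306) (nat_lit 0x220001b00) (nat_lit 17))
 (.p (nat_lit 0x12f212f012ef12ec12eb12e804f6007f007b09) (nat_lit 0x328aa) (nat_lit 13)))
 (.n (.p (nat_lit 0x238a2388238423820e870e8106) (nat_lit 0x90001a03) (nat_lit 14))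
 (.p (nat_lit 0x3a3338d537b503) (nat_lit 0x2060) (nat_lit 43))))
 (.n (.n (.p (nat_lit 0xd770d5f02) (nat_lit 0xa001) (nat_lit 18))
 (.p (nat_lit 0x38c338ad02) (nat_lit 0x79000000800) (nat_lit 35)))
 (.p (nat_lit 0x2fb9004502) (nat_lit 0x8805) (nat_lit 33))))
 (.n (.n (.n (.p (nat_lit 0x246e2468246624640d210d1f06) (nat_lit 0x180000860) (nat_lit 16))
 (.p (nat_lit 0xa760a740a720a700a6e018c000107) (nat_lit 0x58a) (nat_lit 28)))
 (.p (nat_lit 0x22522250224c224a22480f1706) (nat_lit 0x80001904) (nat_lit 14)))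
 (.n (.n (.p (nat_lit 0x126f0def02) (nat_lit 0xa202) (nat_lit 19))
 (.p (nat_lit 0x39ad399d02) (nat_lit 0x6100a000800) (nat_lit 35)))
 (.p (nat_lit 0x23062302230022fe22fc105106) (nat_lit 0x100000b26) (nat_lit 14)))))
 (.n (.n (.n (.n (.p (nat_lit 0xd0f0cf702) (nat_lit 0x2040) (nat_lit 18))
 (.p (nat_lit 0x15e715e415e215e015de15dd069e00cb00c109) (nat_lit 0x50030) (nat_lit 13)))
 (.n (.p (nat_lit 0x1a1c1a1a1a181a140eeb0ee306) (nat_lit 0x220000c83) (nat_lit 17))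
 (.p (nat_lit 0x3a4f393f382103) (nat_lit 0x298000060a0) (nat_lit 43))))
 (.n (.n (.p (nat_lit 0x178a1788178417820daf0da906) (nat_lit 0x90001861) (nat_lit 17))
 (.p (nat_lit 0x3957393502) (nat_lit 0x88006000800) (nat_lit 35)))
 (.p (nat_lit 0xff90fe102) (nat_lit 0x4065) (nat_lit 18))))
 (.n (.n (.n (.p (nat_lit 0x1a7e1a7c1a7a1a781a740d3306) (nat_lit 0x20000a80) (nat_lit 15))
 (.p (nat_lit 0x3851384702) (nat_lit 0x30408000000) (nat_lit 35)))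
 (.p (nat_lit 0x1a1b0f6a02) (nat_lit 0x6084) (nat_lit 4)))
 (.n (.n (.p (nat_lit 0x228e228c228a22860e490e4506) (nat_lit 0x50000482) (nat_lit 16))
 (.p (nat_lit 0x3a17399b388103) (nat_lit 0x1980000a000) (nat_lit 43)))
 (.p (nat_lit 0x109a10991096109410921090005107) (nat_lit 0x8886) (nat_lit 7)))))

def c512_465 : Tr :=
 .n (.n (.n (.n (.n (.p (nat_lit 0x237e237c237a23760ced0ce906) (nat_lit 0x50000a20) (nat_lit 14))
 (.p (nat_lit 0x1a641a621a601a5e1a5c14af06) (nat_lit 0x20000010e) (nat_lit 15)))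
 (.n (.p (nat_lit 0x1e3e1e3a1e361e340ec50ec106) (nat_lit 0x140000063) (nat_lit 17))
 (.p (nat_lit 0x39f538bb37a303) (nat_lit 0x5bc00000080) (nat_lit 44))))
 (.n (.n (.p (nat_lit 0xd9a0d980d960d940d930d90000f07) (nat_lit 0x2841) (nat_lit 7))
 (.p (nat_lit 0x38ff38df02) (nat_lit 0xa9402000800) (nat_lit 35)))
 (.p (nat_lit 0x17ea17e817e417e217e00fbf06) (nat_lit 0x80001c25) (nat_lit 17))))
 (.n (.n (.n (.p (nat_lit 0x1a5a1a561a521a500d2d0d2906) (nat_lit 0x140001080) (nat_lit 15))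
 (.p (nat_lit 0x380137e502) (nat_lit 0x70004000000) (nat_lit 35)))
 (.p (nat_lit 0xf330f300f2e0f2d0f2a0f280356003b003509) (nat_lit 0x54824) (nat_lit 13)))
 (.n (.n (.p (nat_lit 0x23970e3602) (nat_lit 0xa062) (nat_lit 5))
 (.p (nat_lit 0x395a39583952383b04) (nat_lit 0x4c06000000) (nat_lit 36)))
 (.p (nat_lit 0x1b261b241b221b201b1e1b1c06) (nat_lit 0x66) (nat_lit 2)))))
 (.n (.n (.n (.n (.p (nat_lit 0x106b0d0b02) (nat_lit 0xad40) (nat_lit 19))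
 (.p (nat_lit 0x25be25bc25ba25b825b6172d06) (nat_lit 0x10000272) (nat_lit 14)))
 (.p (nat_lit 0x30302ef011e03) (nat_lit 0x2050003) (nat_lit 22)))
 (.n (.n (.p (nat_lit 0xdcb0dc80dc60dc40dc30dc002720017000f09) (nat_lit 0x52881) (nat_lit 13))
 (.p (nat_lit 0x3981396d02) (nat_lit 0x71008000800) (nat_lit 35)))
 (.p (nat_lit 0x3ab038f0383014004) (nat_lit 0x6290005) (nat_lit 23))))
 (.n (.n (.n (.p (nat_lit 0x10a70d4702) (nat_lit 0xa5a0) (nat_lit 19))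
 (.p (nat_lit 0x388f387b02) (nat_lit 0x68c0a000000) (nat_lit 35)))
 (.p (nat_lit 0x250a25082506250425020f8906) (nat_lit 0x100018a4) (nat_lit 14)))
 (.n (.n (.p (nat_lit 0x2e790e6802) (nat_lit 0x8a2) (nat_lit 32))
 (.p (nat_lit 0x39dd38bd379f03) (nat_lit 0x63400000040) (nat_lit 44)))
 (.p (nat_lit 0x1c5d11ac02) (nat_lit 0x8088) (nat_lit 4)))))

def c256_209 : Tr := .n c512_209 c512_465

def c128_81 : Tr := .n c256_81 c256_209

def c64_17 : Tr := .n c128_17 c128_81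

def c512_49 : Tr :=
 .n (.n (.n (.n (.n (.p (nat_lit 0x2310230e230c23080ccf0cc706) (nat_lit 0x220001300) (nat_lit 16))
 (.p (nat_lit 0x27af124e02) (nat_lit 0x20a9) (nat_lit 5)))
 (.n (.p (nat_lit 0x2c702c502a9011004) (nat_lit 0x42c0002) (nat_lit 23))
 (.p (nat_lit 0x39e3393b382103) (nat_lit 0x19800006040) (nat_lit 44))))
 (.n (.n (.p (nat_lit 0x25bc25ba25b825b60d530d4906) (nat_lit 0x210000aa0) (nat_lit 16))
 (.p (nat_lit 0x389b388902) (nat_lit 0x9a80a000000) (nat_lit 35)))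
 (.p (nat_lit 0x36f033d012e03) (nat_lit 0x8050004) (nat_lit 22))))
 (.n (.n (.n (.p (nat_lit 0x249e249c249a24980d0f0d0d06) (nat_lit 0x30000260) (nat_lit 14))
 (.p (nat_lit 0x82a0828082608240822010c000107) (nat_lit 0x562) (nat_lit 28)))
 (.p (nat_lit 0x19b50f0402) (nat_lit 0x4) (nat_lit 4)))
 (.n (.n (.p (nat_lit 0x21cc21ca21c821c40dd70dcf06) (nat_lit 0x2200002a1) (nat_lit 17))
 (.p (nat_lit 0x397f397b02) (nat_lit 0x6ac08000800) (nat_lit 35)))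
 (.p (nat_lit 0x2599103802) (nat_lit 0x8806) (nat_lit 5)))))
 (.n (.n (.n (.n (.p (nat_lit 0x191419121910190e0cf30ce906) (nat_lit 0x210000d20) (nat_lit 15))
 (.p (nat_lit 0x2a2f14ce02) (nat_lit 0x682e) (nat_lit 5)))
 (.n (.p (nat_lit 0xede0edc0edb0ed80ed60ed4002b07) (nat_lit 0x6083) (nat_lit 7))
 (.p (nat_lit 0x3a42107f02) (nat_lit 0x6880) (nat_lit 48))))
 (.n (.n (.p (nat_lit 0x23030da202) (nat_lit 0x6061) (nat_lit 5))
 (.p (nat_lit 0x3911390702) (nat_lit 0x30404000800) (nat_lit 35)))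
 (.p (nat_lit 0x1a361a341a321a2e1a2c0fc906) (nat_lit 0x40000545) (nat_lit 17))))
 (.n (.n (.n (.p (nat_lit 0x1ac61ac21ac01abe0d2d0d2506) (nat_lit 0x110000580) (nat_lit 15))
 (.p (nat_lit 0x3813380702) (nat_lit 0xbc404000000) (nat_lit 35)))
 (.p (nat_lit 0x249b19eb0349033b012e05) (nat_lit 0x1086044) (nat_lit 9)))
 (.n (.n (.p (nat_lit 0x18f30e4202) (nat_lit 0xa862) (nat_lit 4))
 (.p (nat_lit 0x39c538c337a903) (nat_lit 0x7c800000000) (nat_lit 44)))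
 (.p (nat_lit 0x107b003e02) (nat_lit 0x2866) (nat_lit 1)))))

def c512_305 : Tr :=
 .n (.n (.n (.n (.n (.p (nat_lit 0xfa70cd702) (nat_lit 0x6c00) (nat_lit 19))
 (.p (nat_lit 0x1429139902) (nat_lit 0x8c0c) (nat_lit 19)))
 (.n (.p (nat_lit 0x283a28382836283428300e8f06) (nat_lit 0x20001423) (nat_lit 16))
 (.p (nat_lit 0x3a3839f0003903) (nat_lit 0x8060) (nat_lit 40))))
 (.n (.n (.p (nat_lit 0x22db0d7a02) (nat_lit 0x2821) (nat_lit 5))
 (.p (nat_lit 0x38c938bd02) (nat_lit 0x93000000800) (nat_lit 35)))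
 (.p (nat_lit 0xfb70fb40fb20fb00fae0fad03860047003d09) (nat_lit 0x50025) (nat_lit 13))))
 (.n (.n (.n (.p (nat_lit 0x24ce24cc24ca24c80d1b0d1906) (nat_lit 0x30000c60) (nat_lit 14))
 (.p (nat_lit 0x37a3379f02) (nat_lit 0x7b400000000) (nat_lit 35)))
 (.p (nat_lit 0xf2f0f1702) (nat_lit 0x6804) (nat_lit 18)))
 (.n (.n (.p (nat_lit 0x18bf0e0e02) (nat_lit 0x6822) (nat_lit 4))
 (.p (nat_lit 0x39c339a902) (nat_lit 0xba80a000800) (nat_lit 35)))
 (.p (nat_lit 0x17d217d017ce17cc17ca105506) (nat_lit 0x10001346) (nat_lit 15)))))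
 (.n (.n (.n (.n (.p (nat_lit 0x194619421940193e0d090d0106) (nat_lit 0x110000940) (nat_lit 15))
 (.p (nat_lit 0x3619160802) (nat_lit 0x8850) (nat_lit 32)))
 (.n (.p (nat_lit 0x22822280227c227a22780ef306) (nat_lit 0x800013a3) (nat_lit 14))
 (.p (nat_lit 0x3a080fa902) (nat_lit 0x8ba0) (nat_lit 47))))
 (.n (.n (.p (nat_lit 0xe410db102) (nat_lit 0x8a61) (nat_lit 19))
 (.p (nat_lit 0x395d394102) (nat_lit 0xa1806000800) (nat_lit 35)))
 (.p (nat_lit 0x1ab5100402) (nat_lit 0x4885) (nat_lit 4))))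
 (.n (.n (.n (.p (nat_lit 0xee90d3902) (nat_lit 0x8a80) (nat_lit 19))
 (.p (nat_lit 0x3859385502) (nat_lit 0x52008000000) (nat_lit 35)))
 (.p (nat_lit 0x2a1a2a182a142a122a100f7706) (nat_lit 0x80001884) (nat_lit 14)))
 (.n (.n (.p (nat_lit 0x17a2179e179a17980e590e5506) (nat_lit 0x140001982) (nat_lit 17))
 (.p (nat_lit 0x3a1f3963381903) (nat_lit 0xb8800006020) (nat_lit 43)))
 (.p (nat_lit 0x3f103d9014e03) (nat_lit 0x8032006) (nat_lit 22)))))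

def c256_49 : Tr := .n c512_49 c512_305

def c512_177 : Tr :=
 .n (.n (.n (.n (.n (.p (nat_lit 0x23062304230222fc0cd50cd306) (nat_lit 0x60000b00) (nat_lit 16))
 (.p (nat_lit 0x23ae23ac23a823a623a412e306) (nat_lit 0x800004aa) (nat_lit 14)))
 (.n (.p (nat_lit 0x2e950e8402) (nat_lit 0x4803) (nat_lit 32))
 (.p (nat_lit 0x3a2f39b9389903) (nat_lit 0x9480000a040) (nat_lit 43))))
 (.n (.n (.p (nat_lit 0x24f02430237021f04) (nat_lit 0xb1a0000) (nat_lit 24))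
 (.p (nat_lit 0x38b538a902) (nat_lit 0x40800000800) (nat_lit 35)))
 (.p (nat_lit 0x153d0f9d02) (nat_lit 0x8405) (nat_lit 19))))
 (.n (.n (.n (.p (nat_lit 0xd220d200d1e0d1d0d1a0d18000507) (nat_lit 0x4860) (nat_lit 7))
 (.l (nat_lit 0x145800000000000000020) (nat_lit 0x54346) (nat_lit 29)))
 (.p (nat_lit 0x19c70f1602) (nat_lit 0x6804) (nat_lit 4)))
 (.n (.n (.p (nat_lit 0x18990de802) (nat_lit 0x4002) (nat_lit 4))
 (.p (nat_lit 0x39bb399902) (nat_lit 0x9880a000800) (nat_lit 35)))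
 (.p (nat_lit 0x1b01105002) (nat_lit 0x8826) (nat_lit 4)))))
 (.n (.n (.n (.n (.p (nat_lit 0x197e197c197a19780cff0cfd06) (nat_lit 0x300001340) (nat_lit 15))
 (.p (nat_lit 0x1ed00ca00c800c404) (nat_lit 0x340008010) (nat_lit 20)))
 (.n (.p (nat_lit 0xeea0ee90ee60ee40ee30ee00300002d002709) (nat_lit 0x42883) (nat_lit 13))
 (.p (nat_lit 0x3a4d3927380703) (nat_lit 0x8c4000040a0) (nat_lit 43))))
 (.n (.n (.p (nat_lit 0x2dbb000f02) (nat_lit 0x2861) (nat_lit 33))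
 (.p (nat_lit 0x3931392902) (nat_lit 0xb4804000800) (nat_lit 35)))
 (.p (nat_lit 0x2ff10fe002) (nat_lit 0x4065) (nat_lit 32))))
 (.n (.n (.n (.p (nat_lit 0x2516251425122510250c0d3306) (nat_lit 0x20000980) (nat_lit 16))
 (.p (nat_lit 0x3837382902) (nat_lit 0x8a806000000) (nat_lit 35)))
 (.p (nat_lit 0x1a110f6002) (nat_lit 0x8864) (nat_lit 4)))
 (.n (.n (.p (nat_lit 0x225e225c225a225822540e4706) (nat_lit 0x20000282) (nat_lit 14))
 (.p (nat_lit 0x39cd3977385903) (nat_lit 0x4a800008000) (nat_lit 44)))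
 (.p (nat_lit 0x209620922090208c108d108706) (nat_lit 0x120000186) (nat_lit 17)))))

def c512_433 : Tr :=
 .n (.n (.n (.n (.n (.p (nat_lit 0x189c189a189618940cf30ced06) (nat_lit 0x240000820) (nat_lit 15))
 (.p (nat_lit 0x29fd149c02) (nat_lit 0x48ad) (nat_lit 5)))
 (.n (.p (nat_lit 0x2ed62ed42ed22ed02ece2ecc011c07) (nat_lit 0x63) (nat_lit 8))
 (.p (nat_lit 0x39f339c138a103) (nat_lit 0xb580000a060) (nat_lit 44))))
 (.n (.n (.p (nat_lit 0x23d223d023cc23ca0d8b0d8506) (nat_lit 0x90001541) (nat_lit 16))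
 (.p (nat_lit 0x38e338dd02) (nat_lit 0x39002000800) (nat_lit 35)))
 (.p (nat_lit 0x225c225a2258225622540fc306) (nat_lit 0x200000a25) (nat_lit 14))))
 (.n (.n (.n (.p (nat_lit 0x17df0d2e02) (nat_lit 0xa080) (nat_lit 4))
 (.p (nat_lit 0x37c537c102) (nat_lit 0x41802000000) (nat_lit 35)))
 (.p (nat_lit 0x2f3b0f2a02) (nat_lit 0x2824) (nat_lit 32)))
 (.n (.n (.p (nat_lit 0xeb30e2302) (nat_lit 0x2b42) (nat_lit 19))
 (.p (nat_lit 0x391839163912391037f905) (nat_lit 0x2804000000) (nat_lit 36)))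
 (.p (nat_lit 0x229a2298229622922290106506) (nat_lit 0x40001c46) (nat_lit 14)))))
 (.n (.n (.n (.n (.p (nat_lit 0xd970d0702) (nat_lit 0x6840) (nat_lit 19))
 (.p (nat_lit 0x23062304230222fe22fc172506) (nat_lit 0x40000b52) (nat_lit 14)))
 (.p (nat_lit 0x17ea17e817e617e20efd0ef906) (nat_lit 0x50001ca3) (nat_lit 15)))
 (.n (.n (.p (nat_lit 0x2dd3000f02) (nat_lit 0x2881) (nat_lit 33))
 (.p (nat_lit 0x397f396902) (nat_lit 0x68808000800) (nat_lit 35)))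
 (.p (nat_lit 0x2b442b422b402b3e2b3c102306) (nat_lit 0x2000009a5) (nat_lit 14))))
 (.n (.n (.n (.p (nat_lit 0x25f625f425f225f00d470d4506) (nat_lit 0x3000014a0) (nat_lit 14))
 (.p (nat_lit 0x389d387702) (nat_lit 0xa040a000000) (nat_lit 35)))
 (.p (nat_lit 0x2f9d0f8c02) (nat_lit 0x48a4) (nat_lit 32)))
 (.n (.n (.p (nat_lit 0x23062304230222fe22fc0e6106) (nat_lit 0x400003a2) (nat_lit 14))
 (.p (nat_lit 0x39db399f388103) (nat_lit 0x2980000a020) (nat_lit 44)))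
 (.p (nat_lit 0x11a211a0119e119d119a1198006507) (nat_lit 0x4868) (nat_lit 7)))))

def c256_177 : Tr := .n c512_177 c512_433

def c128_49 : Tr := .n c256_49 c256_177

def c512_113 : Tr :=
 .n (.n (.n (.n (.n (.p (nat_lit 0xcda0cd90cd60cd40cd30cd002280009000309) (nat_lit 0x42800) (nat_lit 13))
 (.p (nat_lit 0x19a619a419a219a0199c12c706) (nat_lit 0x2000058a) (nat_lit 15)))
 (.n (.p (nat_lit 0xe7f002202) (nat_lit 0xa003) (nat_lit 1))
 (.p (nat_lit 0x39e53981386903) (nat_lit 0x74800008040) (nat_lit 44))))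
 (.n (.n (.p (nat_lit 0x1b561b521b501b4e0d510d4906) (nat_lit 0x110000da0) (nat_lit 17))
 (.p (nat_lit 0x38a3389f02) (nat_lit 0xbd40a000000) (nat_lit 35)))
 (.p (nat_lit 0xf9e0f9d0f9a0f980f960f94004507) (nat_lit 0x8005) (nat_lit 7))))
 (.n (.n (.n (.p (nat_lit 0x1a421a3e1a3c1a3a1a380d1506) (nat_lit 0x100001560) (nat_lit 15))
 (.p (nat_lit 0x8a2089e089c089a0898012c000907) (nat_lit 0x8524) (nat_lit 28)))
 (.p (nat_lit 0x2280227e227c227a22780f0f06) (nat_lit 0x200001304) (nat_lit 16)))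
 (.n (.n (.p (nat_lit 0x10ad0ddd02) (nat_lit 0x4ca1) (nat_lit 19))
 (.p (nat_lit 0x398c398639843980397e397c228107) (nat_lit 0x8000860) (nat_lit 38)))
 (.p (nat_lit 0x1046104510421040103f103c03d80051004b09) (nat_lit 0x42026) (nat_lit 13)))))
 (.n (.n (.n (.n (.p (nat_lit 0xcf7002602) (nat_lit 0x2040) (nat_lit 1))
 (.p (nat_lit 0x2a8f152e02) (nat_lit 0x68ae) (nat_lit 5)))
 (.n (.p (nat_lit 0x1a281a261a221a200edf0ed906) (nat_lit 0x240001483) (nat_lit 17))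
 (.p (nat_lit 0x39ff39bb389b03) (nat_lit 0x9cc0000a080) (nat_lit 44))))
 (.n (.n (.p (nat_lit 0x17de17dc17da17d40da10d9f06) (nat_lit 0x60000461) (nat_lit 15))
 (.p (nat_lit 0x3927391702) (nat_lit 0x8a404000800) (nat_lit 35)))
 (.p (nat_lit 0x19be19ba19b819b619b40fd906) (nat_lit 0x100000845) (nat_lit 15))))
 (.n (.n (.n (.p (nat_lit 0x22930d3202) (nat_lit 0x2880) (nat_lit 5))
 (.p (nat_lit 0x382f381d02) (nat_lit 0x69006000000) (nat_lit 35)))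
 (.p (nat_lit 0x19fb0f4a02) (nat_lit 0xa844) (nat_lit 4)))
 (.n (.n (.p (nat_lit 0x12c10e4102) (nat_lit 0x8a62) (nat_lit 19))
 (.p (nat_lit 0x3a0e222702) (nat_lit 0x2000) (nat_lit 46)))
 (.p (nat_lit 0x1a7e1a7c1a7a1a781a74107b06) (nat_lit 0x20000a66) (nat_lit 15)))))

def c512_369 : Tr :=
 .n (.n (.n (.n (.n (.p (nat_lit 0xcfd0ce502) (nat_lit 0x8020) (nat_lit 18))
 (.p (nat_lit 0x296f140e02) (nat_lit 0x68ac) (nat_lit 5)))
 (.n (.p (nat_lit 0x1d961d941d921d8e1d8c0e9d06) (nat_lit 0x40000d23) (nat_lit 15))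
 (.p (nat_lit 0x39f00fcd02) (nat_lit 0x8560) (nat_lit 47))))
 (.n (.n (.p (nat_lit 0x2d9e2d9c2d9a2d982d962d9400fc07) (nat_lit 0x41) (nat_lit 8))
 (.p (nat_lit 0x38df38d502) (nat_lit 0x28002000800) (nat_lit 35)))
 (.p (nat_lit 0x103f0faf02) (nat_lit 0x2025) (nat_lit 19))))
 (.n (.n (.n (.p (nat_lit 0xd3b0d2302) (nat_lit 0xa860) (nat_lit 18))
 (.p (nat_lit 0x37bf37b702) (nat_lit 0x28402000000) (nat_lit 35)))
 (.p (nat_lit 0x19521950194e194c19480f1f06) (nat_lit 0x20001124) (nat_lit 17)))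
 (.n (.n (.p (nat_lit 0xe370e1f02) (nat_lit 0xa042) (nat_lit 18))
 (.p (nat_lit 0x39ac39a639a439a0399e399c17eb07) (nat_lit 0xa000880) (nat_lit 37)))
 (.p (nat_lit 0x106a10681067106410621060004f07) (nat_lit 0x6846) (nat_lit 7)))))
 (.n (.n (.n (.n (.p (nat_lit 0x243a2438243624340d0b0d0906) (nat_lit 0x300000c40) (nat_lit 14))
 (.p (nat_lit 0x26722670266e266c2668170b06) (nat_lit 0x20001b32) (nat_lit 14)))
 (.n (.p (nat_lit 0x24610f0002) (nat_lit 0x88a3) (nat_lit 5))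
 (.p (nat_lit 0x3a520f9f02) (nat_lit 0xa3a0) (nat_lit 48))))
 (.n (.n (.p (nat_lit 0x25b225ae25ac25aa0dbd0db506) (nat_lit 0x110001181) (nat_lit 16))
 (.p (nat_lit 0x395c395639543950394e394c178707) (nat_lit 0x6000800) (nat_lit 37)))
 (.p (nat_lit 0x20a220a0209e209a1011100d06) (nat_lit 0x500011a5) (nat_lit 15))))
 (.n (.n (.n (.p (nat_lit 0x1ae61ae41ae21ae00d470d4506) (nat_lit 0x3000010a0) (nat_lit 15))
 (.p (nat_lit 0x3865386302) (nat_lit 0x83c08000000) (nat_lit 35)))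
 (.p (nat_lit 0x1a5a1a581a561a541a520f7d06) (nat_lit 0x100010a4) (nat_lit 15)))
 (.n (.n (.p (nat_lit 0x22b022ae22aa22a80e5b0e5506) (nat_lit 0x240001d82) (nat_lit 14))
 (.p (nat_lit 0x39d60e7b02) (nat_lit 0x6320) (nat_lit 47)))
 (.p (nat_lit 0x16d00680066006404) (nat_lit 0x1c0008008) (nat_lit 20)))))

def c256_113 : Tr := .n c512_113 c512_369

def c512_241 : Tr :=
 .n (.n (.n (.n (.n (.p (nat_lit 0x187a1878187418700cd70cd306) (nat_lit 0xa0001c00) (nat_lit 15))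
 (.p (nat_lit 0x243e243c243a24382436136d06) (nat_lit 0x100004ab) (nat_lit 14)))
 (.n (.p (nat_lit 0x19081906190419020e8b0e8106) (nat_lit 0x210001c03) (nat_lit 15))
 (.p (nat_lit 0x39ed3925380503) (nat_lit 0x84000004060) (nat_lit 44))))
 (.n (.n (.p (nat_lit 0x10350d6502) (nat_lit 0x4c01) (nat_lit 19))
 (.p (nat_lit 0x38b538b302) (nat_lit 0x41c00000800) (nat_lit 35)))
 (.p (nat_lit 0x25c825c625c425c225c00fab06) (nat_lit 0x200001a05) (nat_lit 14))))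
 (.n (.n (.n (.p (nat_lit 0x19d619d219d019cc0d210d1b06) (nat_lit 0x120000960) (nat_lit 15))
 (.p (nat_lit 0x379d378902) (nat_lit 0x60800000000) (nat_lit 35)))
 (.p (nat_lit 0x227622742270226e226c0f1706) (nat_lit 0x80000b04) (nat_lit 16)))
 (.n (.n (.p (nat_lit 0xdfa0df80df60df40df30df102a6001b001909) (nat_lit 0x10802) (nat_lit 13))
 (.p (nat_lit 0x39a939a102) (nat_lit 0x5180a000800) (nat_lit 35)))
 (.p (nat_lit 0x1b0e1b0c1b0a1b081b061b0406) (nat_lit 0x46) (nat_lit 2)))))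
 (.n (.n (.n (.n (.p (nat_lit 0x17b30d0202) (nat_lit 0x2840) (nat_lit 4))
 (.p (nat_lit 0x25ca25c825c425c225c015ef06) (nat_lit 0x80001a30) (nat_lit 14)))
 (.n (.p (nat_lit 0x2eff002702) (nat_lit 0x20a3) (nat_lit 33))
 (.p (nat_lit 0x3a093967384903) (nat_lit 0x88000080a0) (nat_lit 44))))
 (.n (.n (.p (nat_lit 0x17b817b617b417b217b00db306) (nat_lit 0x200001a61) (nat_lit 15))
 (.p (nat_lit 0x3949393902) (nat_lit 0x50806000800) (nat_lit 35)))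
 (.p (nat_lit 0x30010ff002) (nat_lit 0x8865) (nat_lit 32))))
 (.n (.n (.n (.p (nat_lit 0x1a961a941a8e1a8c0d370d3506) (nat_lit 0xc0000b80) (nat_lit 15))
 (.p (nat_lit 0x386b384902) (nat_lit 0x98808000000) (nat_lit 35)))
 (.p (nat_lit 0x2a302a2e2a2c2a280f6f0f6706) (nat_lit 0x220001184) (nat_lit 16)))
 (.n (.n (.p (nat_lit 0xe670e4f02) (nat_lit 0xa082) (nat_lit 18))
 (.p (nat_lit 0x3a1b38fd37b503) (nat_lit 0xa0000002020) (nat_lit 43)))
 (.p (nat_lit 0x1b4f109e02) (nat_lit 0x20a6) (nat_lit 4)))))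

def c512_497 : Tr :=
 .n (.n (.n (.n (.n (.p (nat_lit 0x23a223a0239e239c0ceb0ce906) (nat_lit 0x30001b20) (nat_lit 14))
 (.p (nat_lit 0x1a4e1a4c1a481a461a4414b706) (nat_lit 0x8000080e) (nat_lit 17)))
 (.n (.p (nat_lit 0x197f0ece02) (nat_lit 0x6863) (nat_lit 4))
 (.p (nat_lit 0x3a3f38d737b903) (nat_lit 0x8800002080) (nat_lit 43))))
 (.n (.n (.p (nat_lit 0x23a223a0239e23980d950d9306) (nat_lit 0x60001b41) (nat_lit 14))
 (.p (nat_lit 0x390138e702) (nat_lit 0xb2402000800) (nat_lit 35)))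
 (.p (nat_lit 0x14cf0fbf02) (nat_lit 0x6b25) (nat_lit 19))))
 (.n (.n (.n (.p (nat_lit 0x2522251e251a25180d2d0d2906) (nat_lit 0x140001180) (nat_lit 16))
 (.p (nat_lit 0x380f37ed02) (nat_lit 0xa9004000000) (nat_lit 35)))
 (.p (nat_lit 0x199a1998199419900f2f0f2b06) (nat_lit 0xa0001c24) (nat_lit 17)))
 (.n (.n (.p (nat_lit 0x198e198c198a198619840e3106) (nat_lit 0x40000462) (nat_lit 15))
 (.p (nat_lit 0x39c2399a3998387b04) (nat_lit 0xc0a000000) (nat_lit 36)))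
 (.p (nat_lit 0x3087005302) (nat_lit 0xa066) (nat_lit 33)))))
 (.n (.n (.n (.n (.p (nat_lit 0xd170d140d120d100d0f0d0c022a000b000309) (nat_lit 0x52060) (nat_lit 13))
 (.p (nat_lit 0x1b181b161b141b121b10174306) (nat_lit 0x200001a72) (nat_lit 15)))
 (.p (nat_lit 0x327030d0301012004) (nat_lit 0x82a2003) (nat_lit 23)))
 (.n (.n (.p (nat_lit 0x1b301b2e1b2c1b2a1b280dcb06) (nat_lit 0x200001b81) (nat_lit 15))
 (.p (nat_lit 0x397b397102) (nat_lit 0x59808000800) (nat_lit 35)))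
 (.p (nat_lit 0x14f0052004e03) (nat_lit 0x28000a006) (nat_lit 20))))
 (.n (.n (.n (.p (nat_lit 0xd53005202) (nat_lit 0xa8a0) (nat_lit 1))
 (.p (nat_lit 0x3893387f02) (nat_lit 0x7940a000000) (nat_lit 35)))
 (.p (nat_lit 0x1aba1ab81ab41ab21ab00f8f06) (nat_lit 0x80001ca4) (nat_lit 15)))
 (.n (.n (.p (nat_lit 0x22c822c622c422c20e730e6906) (nat_lit 0x2100018a2) (nat_lit 14))
 (.p (nat_lit 0x3a2738d537b703) (nat_lit 0x400002040) (nat_lit 43)))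
 (.p (nat_lit 0x1c6911b802) (nat_lit 0x8888) (nat_lit 4)))))

def c256_241 : Tr := .n c512_241 c512_497

def c128_113 : Tr := .n c256_113 c256_241

def c64_49 : Tr := .n c128_49 c128_113

def c32_17 : Tr := .n c64_17 c64_49

def c16_1 : Tr := .n c32_1 c32_17

def cb4_1 : Tr := c16_1

def c512_2 : Tr :=
 .n (.n (.n (.n (.n (.l (nat_lit 0x10) (nat_lit 0x4000) (nat_lit 0))
 (.p (nat_lit 0x1c7511c402) (nat_lit 0x80a8) (nat_lit 4)))
 (.n (.p (nat_lit 0x18481846184218400e730e6d06) (nat_lit 0x240001aa2) (nat_lit 17))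
 (.p (nat_lit 0x3a2738d937bf03) (nat_lit 0x11400002040) (nat_lit 43))))
 (.n (.n (.p (nat_lit 0x258e258c2588258625840d4f06) (nat_lit 0x800008a0) (nat_lit 14))
 (.p (nat_lit 0x3895388102) (nat_lit 0x8180a000000) (nat_lit 35)))
 (.p (nat_lit 0x15330f9302) (nat_lit 0xaca4) (nat_lit 19))))
 (.n (.n (.n (.p (nat_lit 0x19ba19b819b619b40d170d1506) (nat_lit 0x300000060) (nat_lit 17))
 (.p (nat_lit 0x7c1000d02) (nat_lit 0x21) (nat_lit 31)))
 (.p (nat_lit 0x327030f0303012004) (nat_lit 0xa222003) (nat_lit 23)))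
 (.n (.n (.p (nat_lit 0x11b50dc502) (nat_lit 0x4981) (nat_lit 19))
 (.p (nat_lit 0x3985397302) (nat_lit 0x81c08000800) (nat_lit 35)))
 (.p (nat_lit 0x1add102c02) (nat_lit 0x8006) (nat_lit 4)))))
 (.n (.n (.n (.n (.p (nat_lit 0x23ae23ac23aa23a80ceb0ce906) (nat_lit 0x30000c20) (nat_lit 16))
 (.p (nat_lit 0x1f761f741f721f701f6e1f6c06) (nat_lit 0x2e) (nat_lit 2)))
 (.n (.p (nat_lit 0xed30ed00ece0ecd0eca0ec8030e002f002909) (nat_lit 0x54863) (nat_lit 13))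
 (.p (nat_lit 0x3a3e0f7f02) (nat_lit 0x2280) (nat_lit 48))))
 (.n (.n (.p (nat_lit 0x19221920191e191a19180d9506) (nat_lit 0x40001d41) (nat_lit 17))
 (.p (nat_lit 0x38fb38f502) (nat_lit 0x9c002000800) (nat_lit 35)))
 (.p (nat_lit 0x25270fc602) (nat_lit 0x2045) (nat_lit 5))))
 (.n (.n (.n (.p (nat_lit 0x253a2538253625340d270d2506) (nat_lit 0x30001280) (nat_lit 14))
 (.p (nat_lit 0x380737f702) (nat_lit 0x8a404000000) (nat_lit 35)))
 (.p (nat_lit 0x19b219b019ae19aa0f2d0f2906) (nat_lit 0x50001d24) (nat_lit 15)))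
 (.n (.n (.p (nat_lit 0x19b219ae19ac19aa19a80e3506) (nat_lit 0x100001562) (nat_lit 15))
 (.p (nat_lit 0x39bc39b639b4389d04) (nat_lit 0x500a000000) (nat_lit 36)))
 (.p (nat_lit 0x251625122510250e250c107506) (nat_lit 0x100000166) (nat_lit 14)))))

def c512_258 : Tr :=
 .n (.n (.n (.n (.n (.p (nat_lit 0x188618841880187c0cd70cd306) (nat_lit 0xa0000d00) (nat_lit 15))
 (.p (nat_lit 0x1385002402) (nat_lit 0xc) (nat_lit 1)))
 (.n (.p (nat_lit 0x13990e8902) (nat_lit 0x8b03) (nat_lit 19))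
 (.p (nat_lit 0x39ed392d380f03) (nat_lit 0xa5400004060) (nat_lit 44))))
 (.n (.n (.p (nat_lit 0x22d30d7202) (nat_lit 0x6021) (nat_lit 5))
 (.p (nat_lit 0x38c538b502) (nat_lit 0x82000000800) (nat_lit 35)))
 (.p (nat_lit 0x1b3e1b3c1b3a1b381b360fa106) (nat_lit 0x10000c05) (nat_lit 15))))
 (.n (.n (.n (.p (nat_lit 0x19e219e019da19d80d1f0d1d06) (nat_lit 0xc0001960) (nat_lit 15))
 (.p (nat_lit 0x37ad378d02) (nat_lit 0xa1000000000) (nat_lit 35)))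
 (.p (nat_lit 0x17d017ce17cc17c80f1b0f1306) (nat_lit 0x220001b04) (nat_lit 17)))
 (.n (.n (.p (nat_lit 0xe810df102) (nat_lit 0xb02) (nat_lit 19))
 (.p (nat_lit 0x39ad39a302) (nat_lit 0x61c0a000800) (nat_lit 35)))
 (.p (nat_lit 0x306b105a02) (nat_lit 0x6046) (nat_lit 32)))))
 (.n (.n (.n (.n (.p (nat_lit 0x226b0d0a02) (nat_lit 0xa840) (nat_lit 5))
 (.p (nat_lit 0x2b5915f802) (nat_lit 0x4050) (nat_lit 5)))
 (.n (.p (nat_lit 0xef60ef40ef30ef00eef0eec02fe002b002709) (nat_lit 0x320a3) (nat_lit 13))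
 (.p (nat_lit 0x3a093973385303) (nat_lit 0x39c000080a0) (nat_lit 44))))
 (.n (.n (.p (nat_lit 0x2280227e227c227a22780db306) (nat_lit 0x200001b61) (nat_lit 16))
 (.p (nat_lit 0x3945393d02) (nat_lit 0x41006000800) (nat_lit 35)))
 (.p (nat_lit 0x1f681f661f621f600ff30fed06) (nat_lit 0x240001865) (nat_lit 17))))
 (.n (.n (.n (.p (nat_lit 0x1a9e1a9c1a9a1a980d3b0d3906) (nat_lit 0x300001b80) (nat_lit 15))
 (.p (nat_lit 0x3855384d02) (nat_lit 0x41008000000) (nat_lit 35)))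
 (.p (nat_lit 0x2f810f7002) (nat_lit 0x884) (nat_lit 32)))
 (.n (.n (.p (nat_lit 0xedf0e4f02) (nat_lit 0xa382) (nat_lit 19))
 (.p (nat_lit 0x39d2119b02) (nat_lit 0x2820) (nat_lit 47)))
 (.p (nat_lit 0x30b9004902) (nat_lit 0x8a6) (nat_lit 33)))))

def c256_2 : Tr := .n c512_2 c512_258

def c512_130 : Tr :=
 .n (.n (.n (.n (.n (.p (nat_lit 0x22e222e022dc22da22d80cd706) (nat_lit 0x80001900) (nat_lit 14))
 (.p (nat_lit 0x283512d402) (nat_lit 0x488a) (nat_lit 5)))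
 (.n (.p (nat_lit 0x18e618e218de18dc0e7d0e7906) (nat_lit 0x140000303) (nat_lit 17))
 (.p (nat_lit 0x3a2c225d02) (nat_lit 0x8040) (nat_lit 46))))
 (.n (.n (.p (nat_lit 0xe6b0d4b02) (nat_lit 0x29a0) (nat_lit 19))
 (.p (nat_lit 0x388a3888388638823880387a385a3858385638523850384a382a3828382638223820381a37fa37f837f637f237f037ea37ca37c837c637c237c037ba379a3798379637923790378a24) (nat_lit 0x300) (nat_lit 39)))
 (.p (nat_lit 0x1aea1ae41ae21ae00f9d0f9b06) (nat_lit 0x180001005) (nat_lit 17))))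
 (.n (.n (.n (.p (nat_lit 0xda70d1702) (nat_lit 0xa060) (nat_lit 19))
 (.p (nat_lit 0x8d7004a02) (nat_lit 0x2005) (nat_lit 30)))
 (.p (nat_lit 0x22a622a422a2229e229c0f0906) (nat_lit 0x40000504) (nat_lit 14)))
 (.n (.n (.p (nat_lit 0x2730271026d010004) (nat_lit 0x22c4001) (nat_lit 23))
 (.p (nat_lit 0x39af399502) (nat_lit 0x6800a000800) (nat_lit 35)))
 (.p (nat_lit 0x1862185e185c18581045103f06) (nat_lit 0x120001326) (nat_lit 15)))))
 (.n (.n (.n (.n (.p (nat_lit 0xcfe0cfd0cfa0cf80cf70cf402280009000309) (nat_lit 0x42040) (nat_lit 13))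
 (.p (nat_lit 0x1551153902) (nat_lit 0x400f) (nat_lit 18)))
 (.n (.p (nat_lit 0x12c70ed702) (nat_lit 0x2183) (nat_lit 19))
 (.p (nat_lit 0x3a0138c137a303) (nat_lit 0x73c000000a0) (nat_lit 44))))
 (.n (.n (.p (nat_lit 0x17f617f217f017ee17ec0da506) (nat_lit 0x100000561) (nat_lit 15))
 (.p (nat_lit 0x392f391b02) (nat_lit 0xaac04000800) (nat_lit 35)))
 (.p (nat_lit 0x19ee19ea19e819e619e40fd906) (nat_lit 0x100000a45) (nat_lit 17))))
 (.n (.n (.n (.p (nat_lit 0x229817e80d3903) (nat_lit 0x8880) (nat_lit 6))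
 (.p (nat_lit 0x382d381f02) (nat_lit 0x61406000000) (nat_lit 35)))
 (.p (nat_lit 0xf5f0f4702) (nat_lit 0x6844) (nat_lit 18)))
 (.n (.n (.p (nat_lit 0x2e57001b02) (nat_lit 0x2082) (nat_lit 33))
 (.p (nat_lit 0x3a113927380903) (nat_lit 0x8c800004000) (nat_lit 43)))
 (.p (nat_lit 0x1093107b02) (nat_lit 0x2866) (nat_lit 18)))))

def c512_386 : Tr :=
 .n (.n (.n (.n (.n (.p (nat_lit 0xfb10ce102) (nat_lit 0x4420) (nat_lit 19))
 (.p (nat_lit 0x1409139102) (nat_lit 0x8ac) (nat_lit 18)))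
 (.n (.p (nat_lit 0x195e195c195a19581956195406) (nat_lit 0x43) (nat_lit 2))
 (.p (nat_lit 0x3a3b3997387d03) (nat_lit 0x900000a060) (nat_lit 43))))
 (.n (.n (.p (nat_lit 0x183b0d8a02) (nat_lit 0x6041) (nat_lit 4))
 (.p (nat_lit 0x390338d502) (nat_lit 0xb8002000800) (nat_lit 35)))
 (.p (nat_lit 0xfc20fc00fbe0fbc0fbb0fb8003f07) (nat_lit 0x2825) (nat_lit 7))))
 (.n (.n (.n (.p (nat_lit 0xed10d2102) (nat_lit 0x8a60) (nat_lit 19))
 (.p (nat_lit 0x37bf37b902) (nat_lit 0x28802000000) (nat_lit 35)))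
 (.p (nat_lit 0x244a24482446244424400f1f06) (nat_lit 0x20001424) (nat_lit 16)))
 (.n (.n (.p (nat_lit 0x18d50e2402) (nat_lit 0x4842) (nat_lit 4))
 (.p (nat_lit 0x38b838b638b238b0379905) (nat_lit 0x2800000000) (nat_lit 36)))
 (.p (nat_lit 0x106a1069106710641062106003f00051004f09) (nat_lit 0x46846) (nat_lit 13)))))
 (.n (.n (.n (.n (.p (nat_lit 0x24462444244224400d0b0d0906) (nat_lit 0x300001c40) (nat_lit 14))
 (.p (nat_lit 0x171d001402) (nat_lit 0x8052) (nat_lit 1)))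
 (.p (nat_lit 0x223a22382234223222300eff06) (nat_lit 0x800018a3) (nat_lit 14)))
 (.n (.n (.p (nat_lit 0x25d625d225d025ce0dbd0db506) (nat_lit 0x110000381) (nat_lit 14))
 (.p (nat_lit 0x3971396502) (nat_lit 0x30008000800) (nat_lit 35)))
 (.p (nat_lit 0x109d100d02) (nat_lit 0xa5) (nat_lit 19))))
 (.n (.n (.n (.p (nat_lit 0x1b0e1b0c1b061b040d430d4106) (nat_lit 0xc00002a0) (nat_lit 17))
 (.p (nat_lit 0x386c386638643860385e385c177d07) (nat_lit 0x8000000) (nat_lit 37)))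
 (.p (nat_lit 0x1a7e1a7c1a7a1a740f810f7f06) (nat_lit 0x600002a4) (nat_lit 17)))
 (.n (.n (.p (nat_lit 0xee90e5902) (nat_lit 0x8b82) (nat_lit 19))
 (.p (nat_lit 0x39d9396d385503) (nat_lit 0x22000008020) (nat_lit 44)))
 (.p (nat_lit 0x31a631a431a231a0319e319c016c07) (nat_lit 0x68) (nat_lit 8)))))

def c256_130 : Tr := .n c512_130 c512_386

def c128_2 : Tr := .n c256_2 c256_130

def c512_66 : Tr :=
 .n (.n (.n (.n (.n (.p (nat_lit 0xce70ccf02) (nat_lit 0xa000) (nat_lit 18))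
 (.p (nat_lit 0x1d1f126e02) (nat_lit 0xa00a) (nat_lit 4)))
 (.n (.p (nat_lit 0x2d302c702bb011004) (nat_lit 0xa1a2002) (nat_lit 23))
 (.p (nat_lit 0x39e217b702) (nat_lit 0x6840) (nat_lit 45))))
 (.n (.n (.p (nat_lit 0x1b181b161b141b121b100d5306) (nat_lit 0x200001aa0) (nat_lit 17))
 (.p (nat_lit 0x3891388d02) (nat_lit 0x7300a000000) (nat_lit 35)))
 (.p (nat_lit 0x141003c02) (nat_lit 0x1000c005) (nat_lit 20))))
 (.n (.n (.n (.p (nat_lit 0x1a121a101a0e1a0c0d0f0d0d06) (nat_lit 0x30001360) (nat_lit 17))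
 (.p (nat_lit 0x84d002d02) (nat_lit 0x8003) (nat_lit 31)))
 (.p (nat_lit 0x2f1d003902) (nat_lit 0x8004) (nat_lit 33)))
 (.n (.n (.p (nat_lit 0xe650dd502) (nat_lit 0x82a1) (nat_lit 19))
 (.p (nat_lit 0x3983397f02) (nat_lit 0x7b408000800) (nat_lit 35)))
 (.p (nat_lit 0x2c7e2c7a2c782c741039103306) (nat_lit 0x120000a06) (nat_lit 14)))))
 (.n (.n (.n (.n (.p (nat_lit 0x191e191c191a19180cf30cf106) (nat_lit 0x300001d20) (nat_lit 15))
 (.p (nat_lit 0x19d619d419d219d019cc14cb06) (nat_lit 0x2000092e) (nat_lit 17)))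
 (.n (.p (nat_lit 0xede0edc0eda0ed90ed60ed502f00029002509) (nat_lit 0x20083) (nat_lit 13))
 (.p (nat_lit 0x3a45396f385703) (nat_lit 0x2a400008080) (nat_lit 43))))
 (.n (.n (.p (nat_lit 0x223a22382236223422300d9f06) (nat_lit 0x20001061) (nat_lit 16))
 (.p (nat_lit 0x392f390902) (nat_lit 0xa8804000800) (nat_lit 35)))
 (.p (nat_lit 0x15f50fc502) (nat_lit 0x545) (nat_lit 19))))
 (.n (.n (.n (.p (nat_lit 0xd470d2f02) (nat_lit 0xa080) (nat_lit 18))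
 (.p (nat_lit 0x37fc37f637f437f037ee37ec17d907) (nat_lit 0x4000080) (nat_lit 37)))
 (.p (nat_lit 0xf3e0f3c0f3a0f390f370f3403440035003309) (nat_lit 0x22044) (nat_lit 13)))
 (.n (.n (.p (nat_lit 0x193a19381934193219300e3f06) (nat_lit 0x80001862) (nat_lit 17))
 (.p (nat_lit 0x3a0c103d02) (nat_lit 0x400) (nat_lit 48)))
 (.p (nat_lit 0x25e1108002) (nat_lit 0x8866) (nat_lit 5)))))

def c512_322 : Tr :=
 .n (.n (.n (.n (.n (.p (nat_lit 0x22430ce202) (nat_lit 0x6020) (nat_lit 5))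
 (.p (nat_lit 0x1ea913f802) (nat_lit 0x888c) (nat_lit 4)))
 (.n (.p (nat_lit 0x2eb22eb02eae2eac2eaa2ea8011c07) (nat_lit 0x823) (nat_lit 8))
 (.p (nat_lit 0x39f13977385703) (nat_lit 0x4a400008060) (nat_lit 44))))
 (.n (.n (.p (nat_lit 0x18330d8202) (nat_lit 0xa821) (nat_lit 4))
 (.p (nat_lit 0x38c738c102) (nat_lit 0x8b800000800) (nat_lit 35)))
 (.p (nat_lit 0x17a0179e179c179a17980fb706) (nat_lit 0x200001125) (nat_lit 17))))
 (.n (.n (.n (.p (nat_lit 0x24da24d624d424d224d00d2106) (nat_lit 0x100001c60) (nat_lit 14))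
 (.p (nat_lit 0x37ad37a302) (nat_lit 0xa3c00000000) (nat_lit 35)))
 (.p (nat_lit 0xfa90f1902) (nat_lit 0x8d04) (nat_lit 19)))
 (.n (.n (.p (nat_lit 0xea30e1302) (nat_lit 0xab22) (nat_lit 19))
 (.p (nat_lit 0x39bd39af02) (nat_lit 0xa340a000800) (nat_lit 35)))
 (.p (nat_lit 0x17ea17e817e217e0105b105906) (nat_lit 0xc0001446) (nat_lit 15)))))
 (.n (.n (.n (.n (.p (nat_lit 0x1950194e194c194a0d0b0d0106) (nat_lit 0x210001940) (nat_lit 15))
 (.p (nat_lit 0x1a701a6e1a6c1a6a1a68160b06) (nat_lit 0x200001950) (nat_lit 15)))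
 (.n (.p (nat_lit 0x22982296229422900ef70eef06) (nat_lit 0x2200014a3) (nat_lit 14))
 (.p (nat_lit 0x3a533999387f03) (nat_lit 0x1140000a0a0) (nat_lit 43))))
 (.n (.n (.p (nat_lit 0x2dc5000d02) (nat_lit 0x81) (nat_lit 33))
 (.p (nat_lit 0x394f394502) (nat_lit 0x6a006000800) (nat_lit 35)))
 (.p (nat_lit 0x1093100302) (nat_lit 0x2885) (nat_lit 19))))
 (.n (.n (.n (.p (nat_lit 0x10970d3702) (nat_lit 0x6d80) (nat_lit 19))
 (.p (nat_lit 0x3861385702) (nat_lit 0x72408000000) (nat_lit 35)))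
 (.p (nat_lit 0xf930f7b02) (nat_lit 0xa884) (nat_lit 18)))
 (.n (.n (.p (nat_lit 0x17c617c217c017be17bc0e5906) (nat_lit 0x100000b82) (nat_lit 15))
 (.p (nat_lit 0x39d73945382703) (nat_lit 0x42400006020) (nat_lit 44)))
 (.p (nat_lit 0x3ff03e703cd03c9015005) (nat_lit 0x1444006) (nat_lit 26)))))

def c256_66 : Tr := .n c512_66 c512_322

def c512_194 : Tr :=
 .n (.n (.n (.n (.n (.p (nat_lit 0x18621860185e185c0cd30cd106) (nat_lit 0x30001b00) (nat_lit 17))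
 (.p (nat_lit 0x32fd12ec02) (nat_lit 0x48aa) (nat_lit 32)))
 (.n (.p (nat_lit 0x2e9b002f02) (nat_lit 0xa803) (nat_lit 33))
 (.p (nat_lit 0x39e938b7379f03) (nat_lit 0x4b400000060) (nat_lit 44))))
 (.n (.n (.p (nat_lit 0xfd00160014001204) (nat_lit 0x380008001) (nat_lit 20))
 (.p (nat_lit 0x38bd38ab02) (nat_lit 0x60c00000800) (nat_lit 35)))
 (.p (nat_lit 0x1a550fa402) (nat_lit 0x4805) (nat_lit 4))))
 (.n (.n (.n (.p (nat_lit 0xd220d200d1e0d1d0d1a0d1902180005000109) (nat_lit 0x20860) (nat_lit 13))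
 (.p (nat_lit 0x94a0948094609420940014c000507) (nat_lit 0x4166) (nat_lit 28)))
 (.p (nat_lit 0xf1b0f180f160f140f130f10034a003b003309) (nat_lit 0x52804) (nat_lit 13)))
 (.n (.n (.p (nat_lit 0x234f189f02d302c5010e05) (nat_lit 0x113a002) (nat_lit 9))
 (.p (nat_lit 0x39b5399b02) (nat_lit 0x80c0a000800) (nat_lit 35)))
 (.p (nat_lit 0x10531050104e104d104a104803e60053004d09) (nat_lit 0x54826) (nat_lit 13)))))
 (.n (.n (.n (.n (.p (nat_lit 0x19a619a219a0199e199c0cfd06) (nat_lit 0x100000540) (nat_lit 17))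
 (.p (nat_lit 0x208f15de02) (nat_lit 0x2030) (nat_lit 4)))
 (.n (.p (nat_lit 0x19e219e019de19dc19da0ee106) (nat_lit 0x10001983) (nat_lit 17))
 (.p (nat_lit 0x3a4c0dc502) (nat_lit 0x49a0) (nat_lit 48))))
 (.n (.n (.p (nat_lit 0x2dc30db202) (nat_lit 0xa861) (nat_lit 32))
 (.p (nat_lit 0x3939393502) (nat_lit 0x10006000800) (nat_lit 35)))
 (.p (nat_lit 0xfe60fe40fe20fe10fde0fdd03800041003d09) (nat_lit 0x20065) (nat_lit 13))))
 (.n (.n (.n (.p (nat_lit 0x1a721a701a6c1a6a0d370d3106) (nat_lit 0x90001980) (nat_lit 17))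
 (.p (nat_lit 0x3853384502) (nat_lit 0x38008000000) (nat_lit 35)))
 (.p (nat_lit 0x2f7e2f7c2f7a2f782f762f74012c07) (nat_lit 0x84) (nat_lit 8)))
 (.n (.n (.p (nat_lit 0x22822280227e227c227a0e4506) (nat_lit 0x10001382) (nat_lit 14))
 (.p (nat_lit 0x39cc11ad02) (nat_lit 0x8100) (nat_lit 47)))
 (.p (nat_lit 0x109300c202) (nat_lit 0x2886) (nat_lit 1)))))

def c512_450 : Tr :=
 .n (.n (.n (.n (.n (.p (nat_lit 0x18a818a618a418a20cf30ce906) (nat_lit 0x210001820) (nat_lit 15))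
 (.p (nat_lit 0x1f5914a802) (nat_lit 0x400e) (nat_lit 4)))
 (.n (.p (nat_lit 0x24250ec402) (nat_lit 0x8063) (nat_lit 5))
 (.p (nat_lit 0x3a3d38b5379d03) (nat_lit 0x43000000080) (nat_lit 43))))
 (.n (.n (.p (nat_lit 0x105d0d8d02) (nat_lit 0x8441) (nat_lit 19))
 (.p (nat_lit 0x38e138df02) (nat_lit 0x31402000800) (nat_lit 35)))
 (.p (nat_lit 0x22822280227e227c22780fbb06) (nat_lit 0x20001b25) (nat_lit 14))))
 (.n (.n (.n (.p (nat_lit 0x1a4c1a4a1a461a440d2f0d2906) (nat_lit 0x240000080) (nat_lit 15))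
 (.p (nat_lit 0x37e037de37dc37bc37b637b417a707) (nat_lit 0x2000040) (nat_lit 37)))
 (.p (nat_lit 0xf320f310f2e0f2c0f2a0f28003907) (nat_lit 0x8824) (nat_lit 7)))
 (.n (.n (.p (nat_lit 0x18e10e3002) (nat_lit 0x4062) (nat_lit 4))
 (.p (nat_lit 0x393c39363934381d04) (nat_lit 0x1006000000) (nat_lit 36)))
 (.p (nat_lit 0x180017fe17fc17fa17f8106b06) (nat_lit 0x200001d46) (nat_lit 17)))))
 (.n (.n (.n (.n (.p (nat_lit 0xf450d0502) (nat_lit 0x4b40) (nat_lit 19))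
 (.p (nat_lit 0x172f004a02) (nat_lit 0x2072) (nat_lit 1)))
 (.p (nat_lit 0xefd0e8502) (nat_lit 0x48a3) (nat_lit 18)))
 (.n (.n (.p (nat_lit 0xdcb005202) (nat_lit 0xa881) (nat_lit 1))
 (.p (nat_lit 0x3985396b02) (nat_lit 0x80c08000800) (nat_lit 35)))
 (.p (nat_lit 0x3850381013e03) (nat_lit 0x44005) (nat_lit 22))))
 (.n (.n (.n (.p (nat_lit 0xef10d4102) (nat_lit 0x42a0) (nat_lit 19))
 (.p (nat_lit 0x3897387902) (nat_lit 0x8880a000000) (nat_lit 35)))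
 (.p (nat_lit 0x24f30f9202) (nat_lit 0xa8a4) (nat_lit 5)))
 (.n (.n (.p (nat_lit 0x11c10e6102) (nat_lit 0x40a2) (nat_lit 19))
 (.p (nat_lit 0x3a2339c338a303) (nat_lit 0xbdc0000a020) (nat_lit 43)))
 (.p (nat_lit 0x11b5119d02) (nat_lit 0x4868) (nat_lit 18)))))

def c256_194 : Tr := .n c512_194 c512_450

def c128_66 : Tr := .n c256_66 c256_194

def c64_2 : Tr := .n c128_2 c128_66

def c512_34 : Tr :=
 .n (.n (.n (.n (.n (.p (nat_lit 0x184a18481846184418420cc506) (nat_lit 0x10001200) (nat_lit 15))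
 (.p (nat_lit 0x237e237c237a23762374123906) (nat_lit 0x40000289) (nat_lit 14)))
 (.n (.p (nat_lit 0xefb0e6b02) (nat_lit 0x2ba2) (nat_lit 19))
 (.p (nat_lit 0x3a2812c902) (nat_lit 0x4140) (nat_lit 48))))
 (.n (.n (.p (nat_lit 0x25b025ae25ac25aa25a80d5306) (nat_lit 0x2000019a0) (nat_lit 14))
 (.p (nat_lit 0x38a1388502) (nat_lit 0xb200a000000) (nat_lit 35)))
 (.p (nat_lit 0x34b03490347013004) (nat_lit 0x22c6004) (nat_lit 23))))
 (.n (.n (.n (.p (nat_lit 0x24922490248e248c0d0f0d0d06) (nat_lit 0x30001160) (nat_lit 14))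
 (.p (nat_lit 0x801001d02) (nat_lit 0x4002) (nat_lit 31)))
 (.p (nat_lit 0x12f003a003403) (nat_lit 0x24000a004) (nat_lit 20)))
 (.n (.n (.p (nat_lit 0xdd500e002) (nat_lit 0x80a1) (nat_lit 1))
 (.p (nat_lit 0x3993397702) (nat_lit 0xba408000800) (nat_lit 35)))
 (.p (nat_lit 0x3041004902) (nat_lit 0x806) (nat_lit 33)))))
 (.n (.n (.n (.n (.p (nat_lit 0x19081906190419000cf30ceb06) (nat_lit 0x220001c20) (nat_lit 17))
 (.p (nat_lit 0x34e234e034de34dc34da34d801cc07) (nat_lit 0x82e) (nat_lit 8)))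
 (.n (.p (nat_lit 0xed7003202) (nat_lit 0x2083) (nat_lit 1))
 (.p (nat_lit 0x3a43393d382503) (nat_lit 0x22000006080) (nat_lit 43))))
 (.n (.n (.p (nat_lit 0xda60da40da20da00d9e0d9d000d07) (nat_lit 0x61) (nat_lit 7))
 (.p (nat_lit 0x3911390502) (nat_lit 0x30004000800) (nat_lit 35)))
 (.p (nat_lit 0x247a24762474247224700fcd06) (nat_lit 0x100001045) (nat_lit 14))))
 (.n (.n (.n (.p (nat_lit 0x1aba1ab81ab61ab41ab00d2706) (nat_lit 0x20001480) (nat_lit 17))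
 (.p (nat_lit 0x3809380302) (nat_lit 0x93c04000000) (nat_lit 35)))
 (.p (nat_lit 0x24970f3602) (nat_lit 0x2044) (nat_lit 5)))
 (.n (.n (.p (nat_lit 0x18ed0e3c02) (nat_lit 0x4862) (nat_lit 4))
 (.p (nat_lit 0x3a0d38b9379f03) (nat_lit 0x53400000000) (nat_lit 43)))
 (.p (nat_lit 0x1733107302) (nat_lit 0x6066) (nat_lit 19)))))

def c512_290 : Tr :=
 .n (.n (.n (.n (.n (.p (nat_lit 0xe810cd102) (nat_lit 0xa00) (nat_lit 19))
 (.p (nat_lit 0x1e47139602) (nat_lit 0x680c) (nat_lit 4)))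
 (.n (.p (nat_lit 0xe970e940e920e900e8e0e8c002f07) (nat_lit 0xa023) (nat_lit 7))
 (.p (nat_lit 0x3a373947382903) (nat_lit 0x4a800006060) (nat_lit 43))))
 (.n (.n (.p (nat_lit 0xdff0d6f02) (nat_lit 0x2221) (nat_lit 19))
 (.p (nat_lit 0x38d138b902) (nat_lit 0xb2800000800) (nat_lit 35)))
 (.p (nat_lit 0x1a610fb002) (nat_lit 0x4025) (nat_lit 4))))
 (.n (.n (.n (.p (nat_lit 0x19f819f619f419f00d230d1b06) (nat_lit 0x220001a60) (nat_lit 15))
 (.p (nat_lit 0x379f379b02) (nat_lit 0x6ac00000000) (nat_lit 35)))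
 (.p (nat_lit 0x1802180017fe17fa17f80f1506) (nat_lit 0x40001d04) (nat_lit 15)))
 (.n (.n (.p (nat_lit 0xe150dfd02) (nat_lit 0x22) (nat_lit 18))
 (.p (nat_lit 0x39bb39a702) (nat_lit 0x9a40a000800) (nat_lit 35)))
 (.p (nat_lit 0x17ba17b817b617b217b0105906) (nat_lit 0x40001246) (nat_lit 17)))))
 (.n (.n (.n (.n (.p (nat_lit 0x193a1938193219300d070d0506) (nat_lit 0xc0001840) (nat_lit 15))
 (.p (nat_lit 0x3611160002) (nat_lit 0x850) (nat_lit 32)))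
 (.n (.p (nat_lit 0x226a2266226422620ef50eed06) (nat_lit 0x1100012a3) (nat_lit 16))
 (.p (nat_lit 0x3a09398b387103) (nat_lit 0x9d8000080a0) (nat_lit 44))))
 (.n (.n (.p (nat_lit 0x22b222b022ac22aa0daf0da906) (nat_lit 0x90001d61) (nat_lit 14))
 (.p (nat_lit 0x3961393f02) (nat_lit 0xb1406000800) (nat_lit 35)))
 (.p (nat_lit 0xfff0ffc0ffa0ff80ff60ff4004707) (nat_lit 0xa085) (nat_lit 7))))
 (.n (.n (.n (.p (nat_lit 0xdc30d3302) (nat_lit 0x2880) (nat_lit 19))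
 (.p (nat_lit 0x385f385102) (nat_lit 0x69808000000) (nat_lit 35)))
 (.p (nat_lit 0xf7b0f780f760f740f720f70003b07) (nat_lit 0xa884) (nat_lit 7)))
 (.n (.n (.p (nat_lit 0x223a22382236223422300e5306) (nat_lit 0x20001882) (nat_lit 14))
 (.p (nat_lit 0x3a1d392d380f03) (nat_lit 0xa5400004020) (nat_lit 43)))
 (.p (nat_lit 0x3e503c9014e03) (nat_lit 0x4040006) (nat_lit 22)))))

def c256_34 : Tr := .n c512_34 c512_290

def c512_162 : Tr :=
 .n (.n (.n (.n (.n (.p (nat_lit 0x22fa22f822f422f20cd70cd106) (nat_lit 0x90001a00) (nat_lit 14))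
 (.p (nat_lit 0x1d9512e402) (nat_lit 0x80aa) (nat_lit 4)))
 (.n (.p (nat_lit 0x2e9a2e982e962e942e922e90011c07) (nat_lit 0x803) (nat_lit 8))
 (.p (nat_lit 0x39e739a9388f03) (nat_lit 0x5340000a040) (nat_lit 44))))
 (.n (.n (.p (nat_lit 0x22b02270225021704) (nat_lit 0x35a0000) (nat_lit 24))
 (.p (nat_lit 0x38bd38a702) (nat_lit 0x60400000800) (nat_lit 35)))
 (.p (nat_lit 0x25e025de25da25d80f9f0f9906) (nat_lit 0x240001305) (nat_lit 16))))
 (.n (.n (.n (.p (nat_lit 0x22822280227e227c227a227806) (nat_lit 0x860) (nat_lit 3))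
 (.p (nat_lit 0x929004902) (nat_lit 0x26) (nat_lit 31)))
 (.p (nat_lit 0xf1a0f180f160f140f120f11003107) (nat_lit 0x804) (nat_lit 7)))
 (.n (.n (.p (nat_lit 0x10d0020001a001804) (nat_lit 0x130008002) (nat_lit 20))
 (.p (nat_lit 0x399d399902) (nat_lit 0x2080a000800) (nat_lit 35)))
 (.p (nat_lit 0x305b004b02) (nat_lit 0x2826) (nat_lit 33)))))
 (.n (.n (.n (.n (.p (nat_lit 0x196a1966196419600cfd0cf706) (nat_lit 0x120001240) (nat_lit 17))
 (.p (nat_lit 0x1a5a1a561a541a521a50156106) (nat_lit 0x10000182f) (nat_lit 15)))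
 (.n (.p (nat_lit 0xee9003802) (nat_lit 0x8883) (nat_lit 1))
 (.p (nat_lit 0x3a02172f02) (nat_lit 0x20a0) (nat_lit 47))))
 (.n (.n (.p (nat_lit 0x10730da302) (nat_lit 0x6461) (nat_lit 19))
 (.p (nat_lit 0x3927392502) (nat_lit 0x8c004000800) (nat_lit 35)))
 (.p (nat_lit 0x1a8d0fdc02) (nat_lit 0x65) (nat_lit 4))))
 (.n (.n (.n (.p (nat_lit 0x250a25082504250225000d3706) (nat_lit 0x80001880) (nat_lit 14))
 (.p (nat_lit 0x3839382502) (nat_lit 0x92006000000) (nat_lit 35)))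
 (.p (nat_lit 0xf6f0f5702) (nat_lit 0xa064) (nat_lit 18)))
 (.n (.n (.p (nat_lit 0x17881786178217800e4f0e4906) (nat_lit 0x240001082) (nat_lit 15))
 (.p (nat_lit 0x39cd396d384d03) (nat_lit 0x21000008000) (nat_lit 44)))
 (.p (nat_lit 0x1b3f108e02) (nat_lit 0xa086) (nat_lit 4)))))

def c512_418 : Tr :=
 .n (.n (.n (.n (.n (.p (nat_lit 0xcf20cf10cee0cec0cea0ce9021c0009000109) (nat_lit 0x40820) (nat_lit 13))
 (.p (nat_lit 0x1edf142e02) (nat_lit 0x202d) (nat_lit 4)))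
 (.n (.p (nat_lit 0x196b0eba02) (nat_lit 0xa843) (nat_lit 4))
 (.p (nat_lit 0x3a3b39b3389b03) (nat_lit 0x7cc0000a060) (nat_lit 43))))
 (.n (.n (.p (nat_lit 0x18fe18fc18f818f40d8b0d8706) (nat_lit 0xa0000441) (nat_lit 15))
 (.p (nat_lit 0x38f938d902) (nat_lit 0x90802000800) (nat_lit 35)))
 (.p (nat_lit 0x178a1788178217800fbf0fbd06) (nat_lit 0xc0001825) (nat_lit 15))))
 (.n (.n (.n (.p (nat_lit 0x17d90d2802) (nat_lit 0x4080) (nat_lit 4))
 (.p (nat_lit 0x37e337bd02) (nat_lit 0xb9002000000) (nat_lit 35)))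
 (.p (nat_lit 0xfad0f1d02) (nat_lit 0x524) (nat_lit 19)))
 (.n (.n (.p (nat_lit 0x283a28382836283428320e2106) (nat_lit 0x10001c42) (nat_lit 14))
 (.p (nat_lit 0x38fa38f838f237db04) (nat_lit 0x4c02000000) (nat_lit 36)))
 (.p (nat_lit 0x22822280227e227c2278106306) (nat_lit 0x20001b46) (nat_lit 14)))))
 (.n (.n (.n (.n (.p (nat_lit 0x19b219ac19aa19a80d090d0706) (nat_lit 0x180001d40) (nat_lit 17))
 (.p (nat_lit 0x172a1728172617241722172100d907) (nat_lit 0x852) (nat_lit 7)))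
 (.p (nat_lit 0x17c617c217be17bc0f010efd06) (nat_lit 0x140000ba3) (nat_lit 15)))
 (.n (.n (.p (nat_lit 0x108b0dbb02) (nat_lit 0x6481) (nat_lit 19))
 (.p (nat_lit 0x398b396702) (nat_lit 0x98408000800) (nat_lit 35)))
 (.p (nat_lit 0x3031004502) (nat_lit 0x88a5) (nat_lit 33))))
 (.n (.n (.n (.p (nat_lit 0x25e225dc25da25d80d450d4306) (nat_lit 0x1800013a0) (nat_lit 14))
 (.p (nat_lit 0x387f387702) (nat_lit 0x2840a000000) (nat_lit 35)))
 (.p (nat_lit 0xf89003c02) (nat_lit 0x8a4) (nat_lit 1)))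
 (.n (.n (.p (nat_lit 0xe660e640e630e600e5e0e5d02aa001f001909) (nat_lit 0x300a2) (nat_lit 13))
 (.p (nat_lit 0x39db3997387703) (nat_lit 0x840000a020) (nat_lit 44)))
 (.p (nat_lit 0x191419121910190e190c119706) (nat_lit 0x200000568) (nat_lit 15)))))

def c256_162 : Tr := .n c512_162 c512_418

def c128_34 : Tr := .n c256_34 c256_162

def c512_98 : Tr :=
 .n (.n (.n (.n (.n (.p (nat_lit 0x22350cd402) (nat_lit 0x4800) (nat_lit 5))
 (.p (nat_lit 0x12cb002a02) (nat_lit 0x608a) (nat_lit 1)))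
 (.n (.p (nat_lit 0x19250e7402) (nat_lit 0x3) (nat_lit 4))
 (.p (nat_lit 0x39e53975385703) (nat_lit 0x42400008040) (nat_lit 44))))
 (.n (.n (.p (nat_lit 0x1b3e1b3c1b381b360d4f0d4906) (nat_lit 0x90000ca0) (nat_lit 15))
 (.p (nat_lit 0x389b389502) (nat_lit 0x9c00a000000) (nat_lit 35)))
 (.p (nat_lit 0x24f70f9602) (nat_lit 0x2005) (nat_lit 5))))
 (.n (.n (.n (.p (nat_lit 0x1a361a341a2e1a2c0d130d1106) (nat_lit 0xc0000560) (nat_lit 15))
 (.l (nat_lit 0x2550000000000008) (nat_lit 0x2504) (nat_lit 29)))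
 (.p (nat_lit 0x17b817b617b417b217b00f0f06) (nat_lit 0x200001204) (nat_lit 15)))
 (.n (.n (.p (nat_lit 0x21da21d821d621d221d00ddd06) (nat_lit 0x40001aa1) (nat_lit 17))
 (.p (nat_lit 0x398d398b02) (nat_lit 0xa4c08000800) (nat_lit 35)))
 (.p (nat_lit 0x25a3104202) (nat_lit 0x6026) (nat_lit 5)))))
 (.n (.n (.n (.n (.p (nat_lit 0xfbb0ceb02) (nat_lit 0x2c20) (nat_lit 19))
 (.p (nat_lit 0x14df14dd14da14d814d614d4063e00b300b109) (nat_lit 0x5804e) (nat_lit 13)))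
 (.n (.p (nat_lit 0x2492248e248c248a0edd0ed506) (nat_lit 0x110001183) (nat_lit 16))
 (.p (nat_lit 0x39fc0f9102) (nat_lit 0x8a80) (nat_lit 47))))
 (.n (.n (.p (nat_lit 0x226a2266226222600da50da106) (nat_lit 0x140001261) (nat_lit 14))
 (.p (nat_lit 0x391f391302) (nat_lit 0x69c04000800) (nat_lit 35)))
 (.p (nat_lit 0x25390fd802) (nat_lit 0x8845) (nat_lit 5))))
 (.n (.n (.n (.p (nat_lit 0x10870d2702) (nat_lit 0x2580) (nat_lit 19))
 (.p (nat_lit 0x3829381902) (nat_lit 0x50806000000) (nat_lit 35)))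
 (.p (nat_lit 0xf4a0f480f460f440f430f40003307) (nat_lit 0x2844) (nat_lit 7)))
 (.n (.n (.p (nat_lit 0xe510e3902) (nat_lit 0x862) (nat_lit 18))
 (.p (nat_lit 0x3a0f38ef37cf03) (nat_lit 0x6b400002000) (nat_lit 43)))
 (.p (nat_lit 0x1a581a561a541a521a50108306) (nat_lit 0x200001866) (nat_lit 17)))))

def c512_354 : Tr :=
 .n (.n (.n (.n (.n (.p (nat_lit 0x18fe18f818f618f40ce50ce306) (nat_lit 0x180000420) (nat_lit 17))
 (.p (nat_lit 0x24da24d624d424d2140513fd06) (nat_lit 0x1100014ac) (nat_lit 14)))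
 (.n (.p (nat_lit 0xea20ea10e9e0e9c0e9b0e980300002d002709) (nat_lit 0x42823) (nat_lit 13))
 (.p (nat_lit 0x39f13987386f03) (nat_lit 0x8d400008060) (nat_lit 44))))
 (.n (.n (.p (nat_lit 0xd990d8102) (nat_lit 0x8821) (nat_lit 18))
 (.p (nat_lit 0x38cc38c638c438c038be38bc178107) (nat_lit 0x800) (nat_lit 37)))
 (.p (nat_lit 0x229822962294229222900fb706) (nat_lit 0x200001425) (nat_lit 16))))
 (.n (.n (.n (.p (nat_lit 0x24f224f024ec24e80d1f0d1b06) (nat_lit 0xa0001d60) (nat_lit 14))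
 (.p (nat_lit 0x37c337b502) (nat_lit 0x38002000000) (nat_lit 35)))
 (.p (nat_lit 0xf270f240f220f200f1e0f1c003b07) (nat_lit 0xa024) (nat_lit 7)))
 (.n (.n (.p (nat_lit 0x1d721d701d6e1d6a0e190e1506) (nat_lit 0x50001342) (nat_lit 15))
 (.p (nat_lit 0x39c339bb02) (nat_lit 0xbcc0a000800) (nat_lit 35)))
 (.p (nat_lit 0x307a30783076307430723070014c07) (nat_lit 0x846) (nat_lit 8)))))
 (.n (.n (.n (.n (.p (nat_lit 0x2430242c242a24280d0b0d0706) (nat_lit 0x280001b40) (nat_lit 14))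
 (.p (nat_lit 0x215316a202) (nat_lit 0x6071) (nat_lit 4)))
 (.n (.p (nat_lit 0xf870ef702) (nat_lit 0xa4a3) (nat_lit 19))
 (.p (nat_lit 0x3a5339b7389703) (nat_lit 0x8c40000a0a0) (nat_lit 43))))
 (.n (.n (.p (nat_lit 0xdbe0dbd0dba0db80db60db502640015000d09) (nat_lit 0x40081) (nat_lit 13))
 (.p (nat_lit 0x3953394d02) (nat_lit 0x7b006000800) (nat_lit 35)))
 (.p (nat_lit 0x2577101602) (nat_lit 0xa0a5) (nat_lit 5))))
 (.n (.n (.n (.p (nat_lit 0x22a717f702) (nat_lit 0xa0a0) (nat_lit 11))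
 (.p (nat_lit 0x386f385d02) (nat_lit 0xab008000000) (nat_lit 35)))
 (.p (nat_lit 0x24e50f8402) (nat_lit 0x80a4) (nat_lit 5)))
 (.n (.n (.p (nat_lit 0x22a622a222a0229e229c0e5906) (nat_lit 0x100000d82) (nat_lit 14))
 (.p (nat_lit 0x3a1f3955383d03) (nat_lit 0x85000006020) (nat_lit 43)))
 (.p (nat_lit 0x23062302230022fe22fc110506) (nat_lit 0x100000367) (nat_lit 16)))))

def c256_98 : Tr := .n c512_98 c512_354

def c512_226 : Tr :=
 .n (.n (.n (.n (.n (.p (nat_lit 0x186e1868186618640cd90cd706) (nat_lit 0x180000c00) (nat_lit 15))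
 (.p (nat_lit 0x138312f302) (nat_lit 0xabaa) (nat_lit 19)))
 (.n (.p (nat_lit 0x18f018ee18ec18ea18e80e8b06) (nat_lit 0x200001b03) (nat_lit 17))
 (.p (nat_lit 0x3a3338df37c503) (nat_lit 0x2a000002060) (nat_lit 43))))
 (.n (.n (.p (nat_lit 0x181b0d6a02) (nat_lit 0xa801) (nat_lit 4))
 (.p (nat_lit 0x38cd38af02) (nat_lit 0xa1400000800) (nat_lit 35)))
 (.p (nat_lit 0x25b225b025ae25ac25aa0fa106) (nat_lit 0x10001905) (nat_lit 14))))
 (.n (.n (.n (.p (nat_lit 0x19ca19c619c419c00d210d1b06) (nat_lit 0x120001860) (nat_lit 17))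
 (.p (nat_lit 0x379b378502) (nat_lit 0x58000000000) (nat_lit 35)))
 (.p (nat_lit 0x226a22682266226422600f1306) (nat_lit 0x20001a04) (nat_lit 14)))
 (.n (.n (.p (nat_lit 0xdfa0df80df60df50df20df0001d07) (nat_lit 0x4802) (nat_lit 7))
 (.p (nat_lit 0x39ad399f02) (nat_lit 0x6140a000800) (nat_lit 35)))
 (.p (nat_lit 0x18781876187418721053104906) (nat_lit 0x210001c26) (nat_lit 17)))))
 (.n (.n (.n (.n (.p (nat_lit 0xf3d0cfd02) (nat_lit 0x8340) (nat_lit 19))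
 (.p (nat_lit 0x2b4b15ea02) (nat_lit 0x2830) (nat_lit 5)))
 (.n (.p (nat_lit 0xf730ee302) (nat_lit 0x2c83) (nat_lit 19))
 (.p (nat_lit 0x3a06173302) (nat_lit 0x60a0) (nat_lit 47))))
 (.n (.n (.p (nat_lit 0x17a0179e179c179a17980db306) (nat_lit 0x200001961) (nat_lit 15))
 (.p (nat_lit 0x3951393702) (nat_lit 0x70406000800) (nat_lit 35)))
 (.p (nat_lit 0x2ffb0fea02) (nat_lit 0x2865) (nat_lit 32))))
 (.n (.n (.n (.p (nat_lit 0x1a8a1a881a861a800d350d3306) (nat_lit 0x60001a80) (nat_lit 15))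
 (.p (nat_lit 0x3873384702) (nat_lit 0xb8408000000) (nat_lit 35)))
 (.p (nat_lit 0xf6f0f6c0f6a0f680f670f64034a003b003309) (nat_lit 0x52084) (nat_lit 13)))
 (.n (.n (.p (nat_lit 0x1802180017fe17fc17fa0e4506) (nat_lit 0x10001582) (nat_lit 15))
 (.p (nat_lit 0x3a1938b937a103) (nat_lit 0x53800000020) (nat_lit 43)))
 (.p (nat_lit 0x20a2209e209c209a1099109106) (nat_lit 0x110001986) (nat_lit 17)))))

def c512_482 : Tr :=
 .n (.n (.n (.n (.n (.p (nat_lit 0x2396239423922390238e0ce906) (nat_lit 0x10000b20) (nat_lit 14))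
 (.p (nat_lit 0x1f6314b202) (nat_lit 0x280e) (nat_lit 4)))
 (.n (.p (nat_lit 0x2ee22ee02ede2edc2eda2ed8011c07) (nat_lit 0x863) (nat_lit 8))
 (.p (nat_lit 0x3a3c229102) (nat_lit 0x880) (nat_lit 46))))
 (.n (.n (.p (nat_lit 0x22fb0d9a02) (nat_lit 0xa841) (nat_lit 5))
 (.p (nat_lit 0x38ef38e502) (nat_lit 0x6a002000800) (nat_lit 35)))
 (.p (nat_lit 0x180017fe17fc17fa17f80fc306) (nat_lit 0x200001d25) (nat_lit 15))))
 (.n (.n (.n (.p (nat_lit 0x1a641a621a601a5c0d2f0d2706) (nat_lit 0x220000180) (nat_lit 17))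
 (.p (nat_lit 0x37f737e902) (nat_lit 0x48804000000) (nat_lit 35)))
 (.p (nat_lit 0x19421940193e193c0f330f3106) (nat_lit 0x300000924) (nat_lit 17)))
 (.n (.n (.p (nat_lit 0x23ea23e623e423e00e350e2f06) (nat_lit 0x120001062) (nat_lit 16))
 (.p (nat_lit 0x397c39763974385d04) (nat_lit 0x3008000000) (nat_lit 36)))
 (.p (nat_lit 0x1b23107202) (nat_lit 0x6066) (nat_lit 4)))))
 (.n (.n (.n (.n (.p (nat_lit 0x17c30d1202) (nat_lit 0x6060) (nat_lit 4))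
 (.p (nat_lit 0x2c9d173c02) (nat_lit 0x4872) (nat_lit 5)))
 (.p (nat_lit 0x31b031902ff012004) (nat_lit 0x62c2003) (nat_lit 23)))
 (.n (.n (.p (nat_lit 0x1b1a1b181b161b121b100dc506) (nat_lit 0x40001a81) (nat_lit 15))
 (.p (nat_lit 0x397f396f02) (nat_lit 0x69408000800) (nat_lit 35)))
 (.p (nat_lit 0x14f004e004c03) (nat_lit 0xc000a006) (nat_lit 20))))
 (.n (.n (.n (.p (nat_lit 0x22ac17fc0d4d03) (nat_lit 0x48a0) (nat_lit 6))
 (.p (nat_lit 0x3891387d02) (nat_lit 0x7100a000000) (nat_lit 35)))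
 (.p (nat_lit 0x2520251e251c251a25180f9306) (nat_lit 0x2000019a4) (nat_lit 14)))
 (.n (.n (.p (nat_lit 0x19210e7002) (nat_lit 0x88a2) (nat_lit 4))
 (.p (nat_lit 0x3a2538c737ad03) (nat_lit 0x8d000000040) (nat_lit 43)))
 (.p (nat_lit 0x231e231a2318231611ad11a506) (nat_lit 0x110000488) (nat_lit 16)))))

def c256_226 : Tr := .n c512_226 c512_482

def c128_98 : Tr := .n c256_98 c256_226

def c64_34 : Tr := .n c128_34 c128_98

def c32_2 : Tr := .n c64_2 c64_34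

def c512_18 : Tr :=
 .n (.n (.n (.n (.n (.p (nat_lit 0x222d177d02) (nat_lit 0x8000) (nat_lit 11))
 (.p (nat_lit 0x12b9122902) (nat_lit 0xb69) (nat_lit 19)))
 (.n (.p (nat_lit 0x187818761874187218700e7306) (nat_lit 0x200001ca2) (nat_lit 15))
 (.p (nat_lit 0x39de0f1f02) (nat_lit 0x2440) (nat_lit 47))))
 (.n (.n (.p (nat_lit 0x25a425a225a0259e259c0d5306) (nat_lit 0x2000009a0) (nat_lit 14))
 (.p (nat_lit 0x3895388302) (nat_lit 0x81c0a000000) (nat_lit 35)))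
 (.p (nat_lit 0x33d033b0339013004) (nat_lit 0x234004) (nat_lit 23))))
 (.n (.n (.n (.p (nat_lit 0x24782476247424700d170d0f06) (nat_lit 0x220001060) (nat_lit 16))
 (.l (nat_lit 0x8000000000000550002) (nat_lit 0x10461) (nat_lit 29)))
 (.p (nat_lit 0x12f0036003403) (nat_lit 0xc000a004) (nat_lit 20)))
 (.n (.n (.p (nat_lit 0x232d0dcc02) (nat_lit 0xa1) (nat_lit 5))
 (.p (nat_lit 0x398f397502) (nat_lit 0xaa008000800) (nat_lit 35)))
 (.p (nat_lit 0x21d821d621d421d221d0102f06) (nat_lit 0x200001206) (nat_lit 15)))))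
 (.n (.n (.n (.n (.p (nat_lit 0x190a19081906190419020ce906) (nat_lit 0x10001c20) (nat_lit 17))
 (.p (nat_lit 0x1f7714c602) (nat_lit 0xa02e) (nat_lit 4)))
 (.n (.p (nat_lit 0xee90ed102) (nat_lit 0x8863) (nat_lit 18))
 (.p (nat_lit 0x39f93927380f03) (nat_lit 0x8d400004080) (nat_lit 44))))
 (.n (.n (.p (nat_lit 0xe290d9902) (nat_lit 0x8a41) (nat_lit 19))
 (.p (nat_lit 0x3903390102) (nat_lit 0xbd802000800) (nat_lit 35)))
 (.p (nat_lit 0x252d0fcc02) (nat_lit 0x8045) (nat_lit 5))))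
 (.n (.n (.n (.p (nat_lit 0x254625442542253e0d290d2506) (nat_lit 0x50000380) (nat_lit 14))
 (.p (nat_lit 0x380937fd02) (nat_lit 0x93004000000) (nat_lit 35)))
 (.p (nat_lit 0x14cf0f2f02) (nat_lit 0x6c24) (nat_lit 19)))
 (.n (.n (.p (nat_lit 0xec50e3502) (nat_lit 0x8362) (nat_lit 19))
 (.p (nat_lit 0x39c538b1379303) (nat_lit 0x31c00000000) (nat_lit 44)))
 (.p (nat_lit 0x1aa21a9c1a9a1a981075107306) (nat_lit 0x180001366) (nat_lit 17)))))

def c512_274 : Tr :=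
 .n (.n (.n (.n (.n (.p (nat_lit 0xced0cd502) (nat_lit 0x4800) (nat_lit 18))
 (.p (nat_lit 0x194619421940193e193c138d06) (nat_lit 0x10000010c) (nat_lit 15)))
 (.n (.p (nat_lit 0xe960e940e920e900e8f0e8c002707) (nat_lit 0x2023) (nat_lit 7))
 (.p (nat_lit 0x3a373937381f03) (nat_lit 0x9400006060) (nat_lit 43))))
 (.n (.n (.p (nat_lit 0x1c461c441c421c401c3e0d6d06) (nat_lit 0x10000321) (nat_lit 15))
 (.p (nat_lit 0x38cb38b702) (nat_lit 0x9a400000800) (nat_lit 35)))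
 (.p (nat_lit 0x14b90fa902) (nat_lit 0x8b05) (nat_lit 19))))
 (.n (.n (.n (.p (nat_lit 0x19ee19ea19e619e40d210d1d06) (nat_lit 0x140000a60) (nat_lit 15))
 (.p (nat_lit 0x37ad379302) (nat_lit 0xa1c00000000) (nat_lit 35)))
 (.p (nat_lit 0x17ea17e617e417e217e00f1906) (nat_lit 0x100001c04) (nat_lit 15)))
 (.n (.n (.p (nat_lit 0x2e11001d02) (nat_lit 0x4022) (nat_lit 33))
 (.p (nat_lit 0x39b339a502) (nat_lit 0x7a00a000800) (nat_lit 35)))
 (.p (nat_lit 0x223a2238223422322230105b06) (nat_lit 0x80001046) (nat_lit 14)))))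
 (.n (.n (.n (.n (.p (nat_lit 0x192e192a192819260d090d0106) (nat_lit 0x110000840) (nat_lit 15))
 (.p (nat_lit 0x250a250825062504250215f506) (nat_lit 0x10001050) (nat_lit 14)))
 (.n (.p (nat_lit 0x17a217a0179e179a17980ef106) (nat_lit 0x400011a3) (nat_lit 15))
 (.p (nat_lit 0x3a093981386103) (nat_lit 0x738000080a0) (nat_lit 44))))
 (.n (.n (.p (nat_lit 0x229a22962294229222900db106) (nat_lit 0x100001c61) (nat_lit 14))
 (.p (nat_lit 0x3941393f02) (nat_lit 0x31406000800) (nat_lit 35)))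
 (.p (nat_lit 0x10810ff102) (nat_lit 0x8865) (nat_lit 19))))
 (.n (.n (.n (.p (nat_lit 0x25822580257e257c25780d3306) (nat_lit 0x20001d80) (nat_lit 14))
 (.p (nat_lit 0x3859384f02) (nat_lit 0x51408000000) (nat_lit 35)))
 (.p (nat_lit 0x1a270f7602) (nat_lit 0x6884) (nat_lit 4)))
 (.n (.n (.p (nat_lit 0x23b70e5602) (nat_lit 0x6882) (nat_lit 5))
 (.p (nat_lit 0x39d5391737f903) (nat_lit 0x4a800004020) (nat_lit 44)))
 (.p (nat_lit 0x10b210b110ae10ad10aa10a803e40051004d09) (nat_lit 0x448a6) (nat_lit 13)))))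

def c256_18 : Tr := .n c512_18 c512_274

def c512_146 : Tr :=
 .n (.n (.n (.n (.n (.p (nat_lit 0x22ee22ec22e822e622e40cd706) (nat_lit 0x80000a00) (nat_lit 14))
 (.p (nat_lit 0x245624542450244e244c12d706) (nat_lit 0x80000d8a) (nat_lit 14)))
 (.n (.p (nat_lit 0x23d223ce23cc23ca23c80e7d06) (nat_lit 0x100001503) (nat_lit 14))
 (.p (nat_lit 0x3a2f3995387703) (nat_lit 0x40000a040) (nat_lit 43))))
 (.n (.n (.p (nat_lit 0xf930d5302) (nat_lit 0xaba0) (nat_lit 19))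
 (.p (nat_lit 0x38c538a502) (nat_lit 0x80000000800) (nat_lit 35)))
 (.p (nat_lit 0x1b1a1b141b121b100f9d0f9b06) (nat_lit 0x180001205) (nat_lit 15))))
 (.n (.n (.n (.p (nat_lit 0xf530d1302) (nat_lit 0x6360) (nat_lit 19))
 (.l (nat_lit 0x514002000000000080) (nat_lit 0x6225) (nat_lit 29)))
 (.p (nat_lit 0x138d0f0d02) (nat_lit 0x8204) (nat_lit 19)))
 (.n (.n (.p (nat_lit 0x29702890265010004) (nat_lit 0x82b0001) (nat_lit 23))
 (.p (nat_lit 0x39a7399702) (nat_lit 0x4840a000800) (nat_lit 35)))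
 (.p (nat_lit 0x15e5104502) (nat_lit 0x8426) (nat_lit 19)))))
 (.n (.n (.n (.n (.p (nat_lit 0x23f623f223f023ee0cfd0cf506) (nat_lit 0x110000140) (nat_lit 14))
 (.p (nat_lit 0x20122010200e200c200a200806) (nat_lit 0x82f) (nat_lit 2)))
 (.n (.p (nat_lit 0x2ef10ee002) (nat_lit 0x883) (nat_lit 32))
 (.p (nat_lit 0x3a0338fd37b503) (nat_lit 0xa00000020a0) (nat_lit 44))))
 (.n (.n (.p (nat_lit 0xdbf0da702) (nat_lit 0xa061) (nat_lit 18))
 (.p (nat_lit 0x392f391f02) (nat_lit 0xab404000800) (nat_lit 35)))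
 (.p (nat_lit 0xfef0fd702) (nat_lit 0x6845) (nat_lit 18))))
 (.n (.n (.n (.p (nat_lit 0x24fe24fc24fa24f624f40d3506) (nat_lit 0x40000880) (nat_lit 14))
 (.p (nat_lit 0x382d382102) (nat_lit 0x61806000000) (nat_lit 35)))
 (.p (nat_lit 0xf560f540f520f510f4e0f4c003507) (nat_lit 0x4064) (nat_lit 7)))
 (.n (.n (.p (nat_lit 0xe4f0e4c0e4a0e480e460e44002307) (nat_lit 0xa082) (nat_lit 7))
 (.p (nat_lit 0x39cb3939382103) (nat_lit 0x11800006000) (nat_lit 44)))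
 (.p (nat_lit 0x108e108c108a108810871084004b07) (nat_lit 0x2086) (nat_lit 7)))))

def c512_402 : Tr :=
 .n (.n (.n (.n (.n (.p (nat_lit 0x179d0cec02) (nat_lit 0x4820) (nat_lit 4))
 (.p (nat_lit 0x14a7141702) (nat_lit 0x250d) (nat_lit 19)))
 (.n (.p (nat_lit 0xec30eab02) (nat_lit 0x6043) (nat_lit 18))
 (.p (nat_lit 0x3a3b399d388503) (nat_lit 0x2200000a060) (nat_lit 43))))
 (.n (.n (.p (nat_lit 0xd8e0d8c0d8b0d880d870d84026e0013000f09) (nat_lit 0x32041) (nat_lit 13))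
 (.p (nat_lit 0x38f738d702) (nat_lit 0x88402000800) (nat_lit 35)))
 (.p (nat_lit 0x2fd10fc002) (nat_lit 0x8825) (nat_lit 32))))
 (.n (.n (.n (.p (nat_lit 0x107d0d1d02) (nat_lit 0x4d60) (nat_lit 19))
 (.p (nat_lit 0x37bf37bb02) (nat_lit 0x28c02000000) (nat_lit 35)))
 (.p (nat_lit 0x2460245e245c245a24580f2706) (nat_lit 0x200001524) (nat_lit 14)))
 (.n (.n (.p (nat_lit 0x238b0e2a02) (nat_lit 0xa842) (nat_lit 5))
 (.p (nat_lit 0x390238da38d837bb04) (nat_lit 0xc02000000) (nat_lit 36)))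
 (.p (nat_lit 0x17a217a0179c179a1798106706) (nat_lit 0x80001946) (nat_lit 15)))))
 (.n (.n (.n (.n (.p (nat_lit 0x24542450244e244c0d0b0d0706) (nat_lit 0x280000d40) (nat_lit 16))
 (.p (nat_lit 0x185618521850184e184c171d06) (nat_lit 0x100000352) (nat_lit 15)))
 (.p (nat_lit 0x225a2258225622540f030f0106) (nat_lit 0x300000aa3) (nat_lit 16)))
 (.n (.n (.p (nat_lit 0xdd50dbd02) (nat_lit 0x8081) (nat_lit 18))
 (.p (nat_lit 0x3993396502) (nat_lit 0xb8008000800) (nat_lit 35)))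
 (.p (nat_lit 0x257d101c02) (nat_lit 0x48a5) (nat_lit 5))))
 (.n (.n (.n (.p (nat_lit 0x25c825c425c225c00d470d4306) (nat_lit 0x2800012a0) (nat_lit 16))
 (.p (nat_lit 0x387f387502) (nat_lit 0x2800a000000) (nat_lit 35)))
 (.p (nat_lit 0x1ad21ad01ace1ac80f810f7f06) (nat_lit 0x600015a4) (nat_lit 17)))
 (.n (.n (.p (nat_lit 0xe63001202) (nat_lit 0x60a2) (nat_lit 1))
 (.p (nat_lit 0x3a21398d386d03) (nat_lit 0xa5000008020) (nat_lit 43)))
 (.p (nat_lit 0x1c45119402) (nat_lit 0x8068) (nat_lit 4)))))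

def c256_146 : Tr := .n c512_146 c512_402

def c128_18 : Tr := .n c256_18 c256_146

def c512_82 : Tr :=
 .n (.n (.n (.n (.n (.p (nat_lit 0xf0f0ccf02) (nat_lit 0xa300) (nat_lit 19))
 (.p (nat_lit 0x1d7312c202) (nat_lit 0xa86a) (nat_lit 4)))
 (.n (.p (nat_lit 0x11d002a0028002404) (nat_lit 0xd0008003) (nat_lit 20))
 (.p (nat_lit 0x39e53993384903) (nat_lit 0xb8800008040) (nat_lit 44))))
 (.n (.n (.p (nat_lit 0x1b321b301b2e1b2c1b2a0d4906) (nat_lit 0x10001ba0) (nat_lit 15))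
 (.p (nat_lit 0x38a3388f02) (nat_lit 0xbb40a000000) (nat_lit 35)))
 (.p (nat_lit 0x13f0046004003) (nat_lit 0x24000a005) (nat_lit 20))))
 (.n (.n (.n (.p (nat_lit 0x1a1c1a181a161a140d170d1306) (nat_lit 0x280000460) (nat_lit 15))
 (.p (nat_lit 0x86608640862085e085c011c009507) (nat_lit 0x4443) (nat_lit 28)))
 (.p (nat_lit 0x17861784178217800f0f0f0d06) (nat_lit 0x300001004) (nat_lit 17)))
 (.n (.n (.p (nat_lit 0x188f0dde02) (nat_lit 0x68a1) (nat_lit 4))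
 (.p (nat_lit 0x3989398502) (nat_lit 0x94008000800) (nat_lit 35)))
 (.p (nat_lit 0x1aed103c02) (nat_lit 0x26) (nat_lit 4)))))
 (.n (.n (.n (.n (.p (nat_lit 0xe0f0cef02) (nat_lit 0x6920) (nat_lit 19))
 (.p (nat_lit 0x34e514d402) (nat_lit 0x4e) (nat_lit 32)))
 (.n (.p (nat_lit 0x19ca19c819c619c219c00ed906) (nat_lit 0x40001083) (nat_lit 15))
 (.p (nat_lit 0x3a453983386303) (nat_lit 0x7bc00008080) (nat_lit 43))))
 (.n (.n (.p (nat_lit 0x2252224e224c22480da50d9f06) (nat_lit 0x120001161) (nat_lit 14))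
 (.p (nat_lit 0x391f390f02) (nat_lit 0x69404000800) (nat_lit 35)))
 (.p (nat_lit 0xfda0fd80fd60fd40fd30fd0003f07) (nat_lit 0x2845) (nat_lit 7))))
 (.n (.n (.n (.p (nat_lit 0xedb0d2b02) (nat_lit 0x6280) (nat_lit 19))
 (.p (nat_lit 0x3833381502) (nat_lit 0x78006000000) (nat_lit 35)))
 (.p (nat_lit 0xf510f3902) (nat_lit 0x4044) (nat_lit 18)))
 (.n (.n (.p (nat_lit 0x243c243a2438243624340e4306) (nat_lit 0x200000c62) (nat_lit 14))
 (.p (nat_lit 0x3a0f38db37bb03) (nat_lit 0x18c00002000) (nat_lit 43)))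
 (.p (nat_lit 0x10821081107e107c107b107803d80051004b09) (nat_lit 0x42866) (nat_lit 13)))))

def c512_338 : Tr :=
 .n (.n (.n (.n (.n (.p (nat_lit 0x18ce18cc18c618c40ce30ce106) (nat_lit 0xc0000220) (nat_lit 15))
 (.p (nat_lit 0x2965140402) (nat_lit 0x80ac) (nat_lit 5)))
 (.n (.p (nat_lit 0x194f0e9e02) (nat_lit 0x6823) (nat_lit 4))
 (.p (nat_lit 0x39f13981386103) (nat_lit 0x73800008060) (nat_lit 44))))
 (.n (.n (.p (nat_lit 0x2702270026fc26fa26f80d7f06) (nat_lit 0x80001b21) (nat_lit 14))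
 (.p (nat_lit 0x38cb38c702) (nat_lit 0x9c400000800) (nat_lit 35)))
 (.p (nat_lit 0x17d217d017ce17cc0faf0fad06) (nat_lit 0x30001325) (nat_lit 15))))
 (.n (.n (.n (.p (nat_lit 0x24e624e424de24dc0d1f0d1d06) (nat_lit 0xc0000d60) (nat_lit 14))
 (.p (nat_lit 0x37af37ad02) (nat_lit 0xad000000000) (nat_lit 35)))
 (.p (nat_lit 0x247f19cf034b033b012e05) (nat_lit 0xc52024) (nat_lit 9)))
 (.n (.n (.p (nat_lit 0xe1b007e02) (nat_lit 0x6042) (nat_lit 1))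
 (.p (nat_lit 0x39bb39b502) (nat_lit 0x9c00a000800) (nat_lit 35)))
 (.p (nat_lit 0x22b222b022ae22aa1059105506) (nat_lit 0x50001546) (nat_lit 16)))))
 (.n (.n (.n (.n (.p (nat_lit 0x242624242420241e0d070d0106) (nat_lit 0x90000b40) (nat_lit 14))
 (.p (nat_lit 0x169d160d02) (nat_lit 0x70) (nat_lit 19)))
 (.n (.p (nat_lit 0xef30e7b02) (nat_lit 0x60a3) (nat_lit 18))
 (.p (nat_lit 0x3a5339ad388f03) (nat_lit 0x6340000a0a0) (nat_lit 43))))
 (.n (.n (.p (nat_lit 0xdbd005002) (nat_lit 0x8081) (nat_lit 1))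
 (.p (nat_lit 0x3953394702) (nat_lit 0x7a406000800) (nat_lit 35)))
 (.p (nat_lit 0x301f003f02) (nat_lit 0x20a5) (nat_lit 33))))
 (.n (.n (.n (.p (nat_lit 0x17f30d4202) (nat_lit 0x60a0) (nat_lit 4))
 (.p (nat_lit 0x3869385902) (nat_lit 0x92808000000) (nat_lit 35)))
 (.p (nat_lit 0x1a2f0f7e02) (nat_lit 0x20a4) (nat_lit 4)))
 (.n (.n (.p (nat_lit 0x17de17dc17da17d617d40e5506) (nat_lit 0x40000c82) (nat_lit 17))
 (.p (nat_lit 0x3a1f394b383303) (nat_lit 0x5bc00006020) (nat_lit 43)))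
 (.p (nat_lit 0x172110f102) (nat_lit 0xc47) (nat_lit 19)))))

def c256_82 : Tr := .n c512_82 c512_338

def c512_210 : Tr :=
 .n (.n (.n (.n (.n (.p (nat_lit 0x1860185e185a18580cdb0cd506) (nat_lit 0x240001b00) (nat_lit 17))
 (.p (nat_lit 0x12f312f112ee12ec12ea12e8051e0083008109) (nat_lit 0x588aa) (nat_lit 13)))
 (.n (.p (nat_lit 0x238823862384238223800e8b06) (nat_lit 0x200001a03) (nat_lit 14))
 (.p (nat_lit 0x3a3338ff37b503) (nat_lit 0xa8000002060) (nat_lit 43))))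
 (.n (.n (.p (nat_lit 0xde90d5902) (nat_lit 0x4201) (nat_lit 19))
 (.p (nat_lit 0x38c538ad02) (nat_lit 0x81000000800) (nat_lit 35)))
 (.p (nat_lit 0xfab005202) (nat_lit 0xa805) (nat_lit 1))))
 (.n (.n (.n (.p (nat_lit 0x246c246a2468246624640d2306) (nat_lit 0x200000860) (nat_lit 16))
 (.p (nat_lit 0xbf900c102) (nat_lit 0x30) (nat_lit 31)))
 (.p (nat_lit 0x22522250224a22480f170f1506) (nat_lit 0xc0001904) (nat_lit 14)))
 (.n (.n (.p (nat_lit 0xe790de902) (nat_lit 0x4302) (nat_lit 19))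
 (.p (nat_lit 0x39af399d02) (nat_lit 0x6900a000800) (nat_lit 35)))
 (.p (nat_lit 0x23042302230022fe22fc105306) (nat_lit 0x200000b26) (nat_lit 14)))))
 (.n (.n (.n (.n (.p (nat_lit 0xd150cfd02) (nat_lit 0x8040) (nat_lit 18))
 (.p (nat_lit 0x258e258c258a2586258415e106) (nat_lit 0x40000030) (nat_lit 14)))
 (.n (.p (nat_lit 0x1a1a1a181a161a140eeb0ee906) (nat_lit 0x300000c83) (nat_lit 17))
 (.p (nat_lit 0x3a07393f382103) (nat_lit 0x298000060a0) (nat_lit 44))))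
 (.n (.n (.p (nat_lit 0x178a1788178217800daf0dad06) (nat_lit 0xc0001861) (nat_lit 17))
 (.p (nat_lit 0x395b393502) (nat_lit 0x98006000800) (nat_lit 35)))
 (.p (nat_lit 0xffd0fe502) (nat_lit 0x8065) (nat_lit 18))))
 (.n (.n (.n (.p (nat_lit 0x1a7e1a7c1a7a1a780d330d3106) (nat_lit 0x30000a80) (nat_lit 15))
 (.p (nat_lit 0x3853384702) (nat_lit 0x38408000000) (nat_lit 35)))
 (.p (nat_lit 0x24cb0f6a02) (nat_lit 0x6084) (nat_lit 5)))
 (.n (.n (.p (nat_lit 0x228e228c228a22840e490e4706) (nat_lit 0x60000482) (nat_lit 16))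
 (.p (nat_lit 0x3a1739a1388103) (nat_lit 0x3180000a000) (nat_lit 43)))
 (.p (nat_lit 0x30a9005102) (nat_lit 0x8886) (nat_lit 33)))))

def c512_466 : Tr :=
 .n (.n (.n (.n (.n (.p (nat_lit 0x237e237c237a23740ced0ceb06) (nat_lit 0x60000a20) (nat_lit 14))
 (.p (nat_lit 0x1a721a701a6e1a6c1a6814a706) (nat_lit 0x2000110e) (nat_lit 15)))
 (.n (.p (nat_lit 0x1eaa1ea81ea41ea00ec30ebf06) (nat_lit 0xa0001463) (nat_lit 15))
 (.p (nat_lit 0x39f538c137a303) (nat_lit 0x73c00000080) (nat_lit 44))))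
 (.n (.n (.p (nat_lit 0x2da3000f02) (nat_lit 0x2841) (nat_lit 33))
 (.p (nat_lit 0x390138df02) (nat_lit 0xb1402000800) (nat_lit 35)))
 (.p (nat_lit 0x17ea17e817e417e00fbf0fbb06) (nat_lit 0xa0001c25) (nat_lit 17))))
 (.n (.n (.n (.p (nat_lit 0x1a5a1a541a521a500d2d0d2b06) (nat_lit 0x180001080) (nat_lit 15))
 (.p (nat_lit 0x380337e502) (nat_lit 0x78004000000) (nat_lit 35)))
 (.p (nat_lit 0xf330f310f2e0f2c0f2a0f28036e003b003909) (nat_lit 0x58824) (nat_lit 13)))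
 (.n (.n (.p (nat_lit 0xe370e340e320e300e2e0e2c002307) (nat_lit 0xa062) (nat_lit 7))
 (.p (nat_lit 0x395c39563954383d04) (nat_lit 0x5006000000) (nat_lit 36)))
 (.p (nat_lit 0x3086308430823080307e307c014c07) (nat_lit 0x66) (nat_lit 8)))))
 (.n (.n (.n (.n (.p (nat_lit 0x2276227422722270226e226c06) (nat_lit 0x60) (nat_lit 3))
 (.p (nat_lit 0x25be25bc25ba25b825b4172f06) (nat_lit 0x20000272) (nat_lit 14)))
 (.p (nat_lit 0x30102ff011e03) (nat_lit 0x2046003) (nat_lit 22)))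
 (.n (.n (.p (nat_lit 0xdcb0dc90dc60dc40dc20dc002960017001509) (nat_lit 0x58881) (nat_lit 13))
 (.p (nat_lit 0x3983396d02) (nat_lit 0x79008000800) (nat_lit 35)))
 (.p (nat_lit 0x3ab03a9038f014004) (nat_lit 0x62c2005) (nat_lit 23))))
 (.n (.n (.n (.p (nat_lit 0x1802180017fe17fc17fa17f806) (nat_lit 0x8a0) (nat_lit 2))
 (.p (nat_lit 0x3891387b02) (nat_lit 0x70c0a000000) (nat_lit 35)))
 (.p (nat_lit 0x250a25082504250225000f8f06) (nat_lit 0x800018a4) (nat_lit 14)))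
 (.n (.n (.p (nat_lit 0x191b0e6a02) (nat_lit 0x28a2) (nat_lit 4))
 (.p (nat_lit 0x39dd38bf379f03) (nat_lit 0x6b400000040) (nat_lit 44)))
 (.p (nat_lit 0x270d11ac02) (nat_lit 0x8088) (nat_lit 5)))))

def c256_210 : Tr := .n c512_210 c512_466

def c128_82 : Tr := .n c256_82 c256_210

def c64_18 : Tr := .n c128_18 c128_82

def c512_50 : Tr :=
 .n (.n (.n (.n (.n (.p (nat_lit 0x231e231c231a231823140cc706) (nat_lit 0x20000400) (nat_lit 14))
 (.p (nat_lit 0x1251006402) (nat_lit 0x40a9) (nat_lit 1)))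
 (.n (.p (nat_lit 0x2c702c502b5011004) (nat_lit 0x42c2002) (nat_lit 23))
 (.p (nat_lit 0x3a2b393f382103) (nat_lit 0x29800006040) (nat_lit 43))))
 (.n (.n (.p (nat_lit 0x25bc25ba25b825b40d530d4b06) (nat_lit 0x220000aa0) (nat_lit 16))
 (.p (nat_lit 0x389f388902) (nat_lit 0xaa80a000000) (nat_lit 35)))
 (.p (nat_lit 0x3550349012e03) (nat_lit 0x8022004) (nat_lit 22))))
 (.n (.n (.n (.p (nat_lit 0x249e249c249a24940d110d0f06) (nat_lit 0x60000260) (nat_lit 14))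
 (.p (nat_lit 0x82a0826082408220820010c000907) (nat_lit 0x8562) (nat_lit 28)))
 (.p (nat_lit 0x24650f0402) (nat_lit 0x4) (nat_lit 5)))
 (.n (.n (.p (nat_lit 0x2c962c942c902c8e2c8c0dd306) (nat_lit 0x800003a1) (nat_lit 14))
 (.p (nat_lit 0x3985397b02) (nat_lit 0x82c08000800) (nat_lit 35)))
 (.p (nat_lit 0x103a10391036103410321030005107) (nat_lit 0x8806) (nat_lit 7)))))
 (.n (.n (.n (.n (.p (nat_lit 0x19141910190e190c0cf30cef06) (nat_lit 0x280000d20) (nat_lit 15))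
 (.p (nat_lit 0x14d214d014cf14cc14ca14c800af07) (nat_lit 0x682e) (nat_lit 7)))
 (.n (.p (nat_lit 0x2eeb0eda02) (nat_lit 0x6083) (nat_lit 32))
 (.p (nat_lit 0x3a42155f02) (nat_lit 0x6c80) (nat_lit 48))))
 (.n (.n (.p (nat_lit 0x2db30da202) (nat_lit 0x6061) (nat_lit 32))
 (.p (nat_lit 0x391d390702) (nat_lit 0x60404000800) (nat_lit 35)))
 (.p (nat_lit 0x1a361a341a321a2c0fc90fc706) (nat_lit 0x60000545) (nat_lit 17))))
 (.n (.n (.n (.p (nat_lit 0x1ac41ac21ac01abc0d2f0d2706) (nat_lit 0x220000580) (nat_lit 15))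
 (.p (nat_lit 0x380b380902) (nat_lit 0x9c804000000) (nat_lit 35)))
 (.p (nat_lit 0x249b19eb0357033b012e05) (nat_lit 0x1506044) (nat_lit 9)))
 (.n (.n (.p (nat_lit 0x23a30e4202) (nat_lit 0xa862) (nat_lit 5))
 (.p (nat_lit 0x39c538c937a903) (nat_lit 0x94800000000) (nat_lit 44)))
 (.p (nat_lit 0x1b2b107a02) (nat_lit 0x2866) (nat_lit 4)))))

def c512_306 : Tr :=
 .n (.n (.n (.n (.n (.p (nat_lit 0xfa90cd902) (nat_lit 0x8c00) (nat_lit 19))
 (.p (nat_lit 0x1e4d139c02) (nat_lit 0x2c) (nat_lit 4)))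
 (.n (.p (nat_lit 0x283a28362834283228300e9506) (nat_lit 0x100001423) (nat_lit 16))
 (.p (nat_lit 0x3a393965384503) (nat_lit 0x8060) (nat_lit 43))))
 (.n (.n (.p (nat_lit 0xd820d800d7e0d7c0d7b0d78000f07) (nat_lit 0x2821) (nat_lit 7))
 (.p (nat_lit 0x38cb38bd02) (nat_lit 0x9b000000800) (nat_lit 35)))
 (.p (nat_lit 0x222e222c222a222822240faf06) (nat_lit 0x20000025) (nat_lit 14))))
 (.n (.n (.n (.p (nat_lit 0x24ce24cc24ca24c624c40d1d06) (nat_lit 0x40000c60) (nat_lit 14))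
 (.p (nat_lit 0x37a5379f02) (nat_lit 0x83400000000) (nat_lit 35)))
 (.p (nat_lit 0xf310f1902) (nat_lit 0x8804) (nat_lit 18)))
 (.n (.n (.p (nat_lit 0x236f0e0e02) (nat_lit 0x6822) (nat_lit 5))
 (.p (nat_lit 0x39ad39ab02) (nat_lit 0x62c0a000800) (nat_lit 35)))
 (.p (nat_lit 0x17d217d017ce17cc17c8105706) (nat_lit 0x20001346) (nat_lit 15)))))
 (.n (.n (.n (.n (.p (nat_lit 0x194619421940193c0d090d0306) (nat_lit 0x120000940) (nat_lit 15))
 (.p (nat_lit 0x160b004602) (nat_lit 0xa850) (nat_lit 1)))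
 (.n (.p (nat_lit 0x22822280227c227a0ef30eed06) (nat_lit 0x900013a3) (nat_lit 14))
 (.p (nat_lit 0x3a523a0a005303) (nat_lit 0xa0a0) (nat_lit 40))))
 (.n (.n (.p (nat_lit 0xe430db302) (nat_lit 0xaa61) (nat_lit 19))
 (.p (nat_lit 0x395f394102) (nat_lit 0xa9806000800) (nat_lit 35)))
 (.p (nat_lit 0x2565100402) (nat_lit 0x4885) (nat_lit 5))))
 (.n (.n (.n (.p (nat_lit 0xeeb0d3b02) (nat_lit 0xaa80) (nat_lit 19))
 (.p (nat_lit 0x385b385502) (nat_lit 0x5a008000000) (nat_lit 35)))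
 (.p (nat_lit 0x2a262a242a222a202a1e0f7106) (nat_lit 0x10000984) (nat_lit 16)))
 (.n (.n (.p (nat_lit 0x17a0179e179c179a17980e5b06) (nat_lit 0x200001982) (nat_lit 17))
 (.p (nat_lit 0x3a1f3939381b03) (nat_lit 0x10c00006020) (nat_lit 43)))
 (.p (nat_lit 0x3f103e5014e03) (nat_lit 0x8034006) (nat_lit 22)))))

def c256_50 : Tr := .n c512_50 c512_306

def c512_178 : Tr :=
 .n (.n (.n (.n (.n (.p (nat_lit 0x23062304230022fe22fc0cd706) (nat_lit 0x80000b00) (nat_lit 16))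
 (.p (nat_lit 0x23ac23aa23a823a623a412e706) (nat_lit 0x2000004aa) (nat_lit 14)))
 (.n (.p (nat_lit 0x19370e8602) (nat_lit 0x6803) (nat_lit 4))
 (.p (nat_lit 0x3a2f39b3389b03) (nat_lit 0x7cc0000a040) (nat_lit 43))))
 (.n (.n (.p (nat_lit 0x24f02430237022b04) (nat_lit 0xb1a2000) (nat_lit 24))
 (.p (nat_lit 0x38b738a902) (nat_lit 0x48800000800) (nat_lit 35)))
 (.p (nat_lit 0x15c90f9902) (nat_lit 0x4505) (nat_lit 19))))
 (.n (.n (.n (.p (nat_lit 0x227d17cd02) (nat_lit 0x4860) (nat_lit 11))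
 (.l (nat_lit 0x415200000000000000080) (nat_lit 0x46346) (nat_lit 29)))
 (.p (nat_lit 0x24770f1602) (nat_lit 0x6804) (nat_lit 5)))
 (.n (.n (.p (nat_lit 0x23490de802) (nat_lit 0x4002) (nat_lit 5))
 (.p (nat_lit 0x39bd399902) (nat_lit 0xa080a000800) (nat_lit 35)))
 (.p (nat_lit 0x25b1105002) (nat_lit 0x8826) (nat_lit 5)))))
 (.n (.n (.n (.n (.p (nat_lit 0x198e198c198a198819860cf506) (nat_lit 0x10000440) (nat_lit 15))
 (.p (nat_lit 0x1ed00ca00c800c604) (nat_lit 0x380008010) (nat_lit 20)))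
 (.n (.p (nat_lit 0xeeb0ee80ee60ee40ee30ee00302002f002709) (nat_lit 0x52883) (nat_lit 13))
 (.p (nat_lit 0x3a4d3921380903) (nat_lit 0x748000040a0) (nat_lit 43))))
 (.n (.n (.p (nat_lit 0x185d0dac02) (nat_lit 0x4861) (nat_lit 4))
 (.p (nat_lit 0x3933392902) (nat_lit 0xbc804000800) (nat_lit 35)))
 (.p (nat_lit 0x2ff1004102) (nat_lit 0x4065) (nat_lit 33))))
 (.n (.n (.n (.p (nat_lit 0x251625142510250e0d370d3106) (nat_lit 0x90000980) (nat_lit 16))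
 (.p (nat_lit 0x382f382d02) (nat_lit 0x6b006000000) (nat_lit 35)))
 (.p (nat_lit 0x24c10f6002) (nat_lit 0x8864) (nat_lit 5)))
 (.n (.n (.p (nat_lit 0x225e225a2258225622540e4d06) (nat_lit 0x100000282) (nat_lit 14))
 (.p (nat_lit 0x3a153979385903) (nat_lit 0x52800008000) (nat_lit 43)))
 (.p (nat_lit 0x209420922090208e208c108f06) (nat_lit 0x200000186) (nat_lit 17)))))

def c512_434 : Tr :=
 .n (.n (.n (.n (.n (.p (nat_lit 0x189c1898189618940cf30cef06) (nat_lit 0x280000820) (nat_lit 15))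
 (.p (nat_lit 0x29ff149e02) (nat_lit 0x68ad) (nat_lit 5)))
 (.n (.p (nat_lit 0x196d0ebc02) (nat_lit 0x63) (nat_lit 4))
 (.p (nat_lit 0x3a3b39bb38a303) (nat_lit 0x9dc0000a060) (nat_lit 43))))
 (.n (.n (.p (nat_lit 0x23d223d023cc23c80d8b0d8706) (nat_lit 0xa0001541) (nat_lit 16))
 (.p (nat_lit 0x38e538dd02) (nat_lit 0x41002000800) (nat_lit 35)))
 (.p (nat_lit 0x225c225a225822540fc30fbb06) (nat_lit 0x220000a25) (nat_lit 14))))
 (.n (.n (.n (.p (nat_lit 0x228f0d2e02) (nat_lit 0xa080) (nat_lit 5))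
 (.p (nat_lit 0x37c537c302) (nat_lit 0x41c02000000) (nat_lit 35)))
 (.p (nat_lit 0x2f3b003302) (nat_lit 0x2824) (nat_lit 33)))
 (.n (.n (.p (nat_lit 0xeb50e2502) (nat_lit 0x4b42) (nat_lit 19))
 (.p (nat_lit 0x391a3918391237fb04) (nat_lit 0x2c04000000) (nat_lit 36)))
 (.p (nat_lit 0x229a2298229422922290106706) (nat_lit 0x80001c46) (nat_lit 14)))))
 (.n (.n (.n (.n (.p (nat_lit 0xd990d0902) (nat_lit 0x8840) (nat_lit 19))
 (.p (nat_lit 0x23062302230022fe22fc172906) (nat_lit 0x100000b52) (nat_lit 14)))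
 (.p (nat_lit 0x17ea17e817e417e217e00eff06) (nat_lit 0x80001ca3) (nat_lit 15)))
 (.n (.n (.p (nat_lit 0xdc5004c02) (nat_lit 0x4881) (nat_lit 1))
 (.p (nat_lit 0x3985396902) (nat_lit 0x80808000800) (nat_lit 35)))
 (.p (nat_lit 0x2b522b502b4e2b4c2b4a101906) (nat_lit 0x100019a5) (nat_lit 14))))
 (.n (.n (.n (.p (nat_lit 0x1b621b5e1b5a1b580d450d4106) (nat_lit 0x1400015a0) (nat_lit 17))
 (.p (nat_lit 0x389f387702) (nat_lit 0xa840a000000) (nat_lit 35)))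
 (.p (nat_lit 0x2f9d003502) (nat_lit 0x48a4) (nat_lit 33)))
 (.n (.n (.p (nat_lit 0x23062304230222fe0e610e5d06) (nat_lit 0x500003a2) (nat_lit 14))
 (.p (nat_lit 0x3a2339a3388903) (nat_lit 0x3a80000a020) (nat_lit 43)))
 (.p (nat_lit 0x1c4f119e02) (nat_lit 0x6868) (nat_lit 4)))))

def c256_178 : Tr := .n c512_178 c512_434

def c128_50 : Tr := .n c256_50 c256_178

def c512_114 : Tr :=
 .n (.n (.n (.n (.n (.p (nat_lit 0xcdb0cd80cd60cd40cd30cd0022a000b000309) (nat_lit 0x52800) (nat_lit 13))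
 (.p (nat_lit 0x19a619a419a0199e199c12cb06) (nat_lit 0x8000058a) (nat_lit 15)))
 (.n (.p (nat_lit 0x192f0e7e02) (nat_lit 0xa003) (nat_lit 4))
 (.p (nat_lit 0x39e53983386903) (nat_lit 0x7c800008040) (nat_lit 44))))
 (.n (.n (.p (nat_lit 0x1b561b521b501b4c0d510d4b06) (nat_lit 0x120000da0) (nat_lit 17))
 (.p (nat_lit 0x38a338a102) (nat_lit 0xbd80a000000) (nat_lit 35)))
 (.p (nat_lit 0x2fad004502) (nat_lit 0x8005) (nat_lit 33))))
 (.n (.n (.n (.p (nat_lit 0x1a421a3c1a3a1a380d150d1306) (nat_lit 0x180001560) (nat_lit 15))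
 (.p (nat_lit 0x8a0089e089c089a0898012c000b07) (nat_lit 0xa524) (nat_lit 28)))
 (.p (nat_lit 0x2280227e227a22780f0f0f0906) (nat_lit 0x240001304) (nat_lit 16)))
 (.n (.n (.p (nat_lit 0x10af0ddf02) (nat_lit 0x6ca1) (nat_lit 19))
 (.p (nat_lit 0x397c397639743970396e396c17e907) (nat_lit 0x8000880) (nat_lit 37)))
 (.p (nat_lit 0x1047104410421040103f103c03da0053004b09) (nat_lit 0x52026) (nat_lit 13)))))
 (.n (.n (.n (.n (.p (nat_lit 0x17a70cf602) (nat_lit 0x2040) (nat_lit 4))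
 (.p (nat_lit 0x2a91153002) (nat_lit 0x88ae) (nat_lit 5)))
 (.n (.p (nat_lit 0x1a361a341a321a301a2e0ed506) (nat_lit 0x10000583) (nat_lit 15))
 (.p (nat_lit 0x39ff39bb38a303) (nat_lit 0x9dc0000a080) (nat_lit 44))))
 (.n (.n (.p (nat_lit 0x17de17dc17d817d617d40da306) (nat_lit 0x80000461) (nat_lit 15))
 (.p (nat_lit 0x3929391702) (nat_lit 0x92404000800) (nat_lit 35)))
 (.p (nat_lit 0x19be19ba19b619b40fd90fd506) (nat_lit 0x140000845) (nat_lit 15))))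
 (.n (.n (.n (.p (nat_lit 0x229217e20d3303) (nat_lit 0x2880) (nat_lit 6))
 (.p (nat_lit 0x3831381d02) (nat_lit 0x71006000000) (nat_lit 35)))
 (.p (nat_lit 0x24ab0f4a02) (nat_lit 0xa844) (nat_lit 5)))
 (.n (.n (.p (nat_lit 0x12c30e4302) (nat_lit 0xaa62) (nat_lit 19))
 (.p (nat_lit 0x39c611a702) (nat_lit 0x2100) (nat_lit 47)))
 (.p (nat_lit 0x1a7e1a7a1a781a761a74108106) (nat_lit 0x100000a66) (nat_lit 15)))))

def c512_370 : Tr :=
 .n (.n (.n (.n (.n (.p (nat_lit 0xcff0ce702) (nat_lit 0xa020) (nat_lit 18))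
 (.p (nat_lit 0x1411003802) (nat_lit 0x88ac) (nat_lit 1)))
 (.n (.p (nat_lit 0x1d961d921d901d8e1d8c0ea106) (nat_lit 0x100000d23) (nat_lit 15))
 (.p (nat_lit 0x39f017d102) (nat_lit 0x8860) (nat_lit 45))))
 (.n (.n (.p (nat_lit 0xd85001802) (nat_lit 0x41) (nat_lit 1))
 (.p (nat_lit 0x38e138d502) (nat_lit 0x30002000800) (nat_lit 35)))
 (.p (nat_lit 0x10450fb502) (nat_lit 0x8025) (nat_lit 19))))
 (.n (.n (.n (.p (nat_lit 0xda90d1902) (nat_lit 0x860) (nat_lit 19))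
 (.p (nat_lit 0x37c137b702) (nat_lit 0x30402000000) (nat_lit 35)))
 (.p (nat_lit 0x19521950194e194c0f1f0f1d06) (nat_lit 0x30001124) (nat_lit 17)))
 (.n (.n (.p (nat_lit 0xea50e1502) (nat_lit 0x342) (nat_lit 19))
 (.p (nat_lit 0x39be39bc39b839b639b43994229b07) (nat_lit 0xa000880) (nat_lit 38)))
 (.p (nat_lit 0x3077106602) (nat_lit 0x6846) (nat_lit 32)))))
 (.n (.n (.n (.n (.p (nat_lit 0x244a24482446244424400d0306) (nat_lit 0x20001c40) (nat_lit 14))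
 (.p (nat_lit 0x1721170902) (nat_lit 0x832) (nat_lit 18)))
 (.n (.p (nat_lit 0xf020f010efe0efc0efa0ef8002d07) (nat_lit 0x88a3) (nat_lit 7))
 (.p (nat_lit 0x3a5215e702) (nat_lit 0xa4a0) (nat_lit 48))))
 (.n (.n (.p (nat_lit 0x25b225ae25aa25a80dbd0db906) (nat_lit 0x140001181) (nat_lit 16))
 (.p (nat_lit 0x3944393e393c393839363934223707) (nat_lit 0x6000800) (nat_lit 38)))
 (.p (nat_lit 0x20a2209e209c209a2098101506) (nat_lit 0x1000011a5) (nat_lit 15))))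
 (.n (.n (.n (.p (nat_lit 0x1af61af21af01aee1aec0d4506) (nat_lit 0x1000001a0) (nat_lit 15))
 (.p (nat_lit 0x386d386302) (nat_lit 0xa3c08000000) (nat_lit 35)))
 (.p (nat_lit 0x1a5a1a581a561a541a500f7f06) (nat_lit 0x200010a4) (nat_lit 15)))
 (.n (.n (.p (nat_lit 0x22ae22ac22aa22a80e5b0e5906) (nat_lit 0x300001d82) (nat_lit 14))
 (.p (nat_lit 0x39d6179f02) (nat_lit 0x6820) (nat_lit 45)))
 (.p (nat_lit 0x1c31118002) (nat_lit 0x848) (nat_lit 4)))))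

def c256_114 : Tr := .n c512_114 c512_370

def c512_242 : Tr :=
 .n (.n (.n (.n (.n (.p (nat_lit 0x187a1878187218700cd70cd506) (nat_lit 0xc0001c00) (nat_lit 15))
 (.p (nat_lit 0x245424522450244e244c137706) (nat_lit 0x2000005ab) (nat_lit 16)))
 (.n (.p (nat_lit 0x19081904190219000e8b0e8706) (nat_lit 0x280001c03) (nat_lit 15))
 (.p (nat_lit 0x39ed391f380703) (nat_lit 0x6c400004060) (nat_lit 44))))
 (.n (.n (.p (nat_lit 0x10370d6702) (nat_lit 0x6c01) (nat_lit 19))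
 (.p (nat_lit 0x38b738b302) (nat_lit 0x49c00000800) (nat_lit 35)))
 (.p (nat_lit 0x25c825c425c225c00fab0fa706) (nat_lit 0x280001a05) (nat_lit 14))))
 (.n (.n (.n (.p (nat_lit 0x19d619d219ce19cc0d210d1d06) (nat_lit 0x140000960) (nat_lit 15))
 (.p (nat_lit 0x379f378902) (nat_lit 0x68800000000) (nat_lit 35)))
 (.p (nat_lit 0x22762274226e226c0f170f1506) (nat_lit 0xc0000b04) (nat_lit 16)))
 (.n (.n (.p (nat_lit 0xdfb0df80df60df40df20df102ae0023001909) (nat_lit 0x50802) (nat_lit 13))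
 (.p (nat_lit 0x39ab39a102) (nat_lit 0x5980a000800) (nat_lit 35)))
 (.p (nat_lit 0x306e306c306a306830663064014c07) (nat_lit 0x46) (nat_lit 8)))))
 (.n (.n (.n (.n (.p (nat_lit 0x22630d0202) (nat_lit 0x2840) (nat_lit 5))
 (.p (nat_lit 0x25c825c625c425c225c015f306) (nat_lit 0x200001a30) (nat_lit 14)))
 (.n (.p (nat_lit 0x19a10ef002) (nat_lit 0x40a3) (nat_lit 4))
 (.p (nat_lit 0x3a093969384903) (nat_lit 0x108000080a0) (nat_lit 44))))
 (.n (.n (.p (nat_lit 0x17b817b617b417b20db30da906) (nat_lit 0x210001a61) (nat_lit 15))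
 (.p (nat_lit 0x394b393902) (nat_lit 0x58806000800) (nat_lit 35)))
 (.p (nat_lit 0x3001004502) (nat_lit 0x8865) (nat_lit 33))))
 (.n (.n (.n (.p (nat_lit 0x1a961a921a901a8c0d390d3306) (nat_lit 0x120000b80) (nat_lit 15))
 (.p (nat_lit 0x386d384902) (nat_lit 0xa0808000000) (nat_lit 35)))
 (.p (nat_lit 0x2a3e2a3a2a382a362a340f6d06) (nat_lit 0x100000284) (nat_lit 14)))
 (.n (.n (.p (nat_lit 0x11a70e4702) (nat_lit 0x2082) (nat_lit 19))
 (.p (nat_lit 0x3a1b38ff37b503) (nat_lit 0xa8000002020) (nat_lit 43)))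
 (.p (nat_lit 0x30af109e02) (nat_lit 0x20a6) (nat_lit 32)))))

def c512_498 : Tr :=
 .n (.n (.n (.n (.n (.p (nat_lit 0x23a223a0239e239a0ced0ce906) (nat_lit 0x50001b20) (nat_lit 14))
 (.p (nat_lit 0x1a4e1a4a1a481a461a4414b906) (nat_lit 0x10000080e) (nat_lit 17)))
 (.n (.p (nat_lit 0x242f0ece02) (nat_lit 0x6863) (nat_lit 5))
 (.p (nat_lit 0x39f738d737b903) (nat_lit 0x8800002080) (nat_lit 44))))
 (.n (.n (.p (nat_lit 0x23ae23ac23aa23a823a40d9306) (nat_lit 0x20000c41) (nat_lit 14))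
 (.p (nat_lit 0x38ed38e902) (nat_lit 0x62802000800) (nat_lit 35)))
 (.p (nat_lit 0x14d10fc102) (nat_lit 0x8b25) (nat_lit 19))))
 (.n (.n (.n (.p (nat_lit 0x2522251c251a25180d2d0d2b06) (nat_lit 0x180001180) (nat_lit 16))
 (.p (nat_lit 0x380537f102) (nat_lit 0x81804000000) (nat_lit 35)))
 (.p (nat_lit 0x199a1996199419920f310f2906) (nat_lit 0x110001c24) (nat_lit 17)))
 (.n (.n (.p (nat_lit 0x198e198a1988198619840e3506) (nat_lit 0x100000462) (nat_lit 15))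
 (.p (nat_lit 0x399c39963994387d04) (nat_lit 0x100a000000) (nat_lit 36)))
 (.p (nat_lit 0x1076107410721071106f106c03d4004d004b09) (nat_lit 0x22066) (nat_lit 13)))))
 (.n (.n (.n (.n (.p (nat_lit 0xd160d150d120d110d0e0d0c02340009000509) (nat_lit 0x44060) (nat_lit 13))
 (.p (nat_lit 0x1b261b241b221b201b1c173b06) (nat_lit 0x20000b72) (nat_lit 17)))
 (.p (nat_lit 0x32703190301012004) (nat_lit 0x82b2003) (nat_lit 23)))
 (.n (.n (.p (nat_lit 0x1b301b2e1b2c1b280dcb0dc306) (nat_lit 0x220001b81) (nat_lit 15))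
 (.p (nat_lit 0x397d397102) (nat_lit 0x61808000800) (nat_lit 35)))
 (.p (nat_lit 0x14d0052004e004804) (nat_lit 0x290008006) (nat_lit 20))))
 (.n (.n (.n (.p (nat_lit 0x18030d5202) (nat_lit 0xa8a0) (nat_lit 4))
 (.p (nat_lit 0x3897387f02) (nat_lit 0x8940a000000) (nat_lit 35)))
 (.p (nat_lit 0x1ac61ac41ac21ac01abc0f8b06) (nat_lit 0x20000da4) (nat_lit 17)))
 (.n (.n (.p (nat_lit 0x22d422d222d022ce22cc0e7306) (nat_lit 0x2000009a2) (nat_lit 14))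
 (.p (nat_lit 0x3a2738d737b703) (nat_lit 0x8400002040) (nat_lit 43)))
 (.p (nat_lit 0x271911b802) (nat_lit 0x8888) (nat_lit 5)))))

def c256_242 : Tr := .n c512_242 c512_498

def c128_114 : Tr := .n c256_114 c256_242

def c64_50 : Tr := .n c128_50 c128_114

def c32_18 : Tr := .n c64_18 c64_50

def c16_2 : Tr := .n c32_2 c32_18

def cb4_2 : Tr := c16_2

def c512_3 : Tr :=
 .n (.n (.n (.n (.n (.l (nat_lit 0x40) (nat_lit 0x6000) (nat_lit 0))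
 (.p (nat_lit 0x11c611c511c211c011be11bc006907) (nat_lit 0x80a8) (nat_lit 7)))
 (.n (.p (nat_lit 0x185618541852184e184c0e6d06) (nat_lit 0x40000ba2) (nat_lit 15))
 (.p (nat_lit 0x39df38d937bf03) (nat_lit 0x11400002040) (nat_lit 44))))
 (.n (.n (.p (nat_lit 0x258e258c258625840d4f0d4d06) (nat_lit 0xc00008a0) (nat_lit 14))
 (.p (nat_lit 0x3897388102) (nat_lit 0x8980a000000) (nat_lit 35)))
 (.p (nat_lit 0x10190f8902) (nat_lit 0xda4) (nat_lit 19))))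
 (.n (.n (.n (.p (nat_lit 0x247a24782476247424720d0d06) (nat_lit 0x10001060) (nat_lit 16))
 (.p (nat_lit 0x7c3000f02) (nat_lit 0x2021) (nat_lit 31)))
 (.p (nat_lit 0x327031b0303012004) (nat_lit 0xa232003) (nat_lit 23)))
 (.n (.n (.p (nat_lit 0x11b90dc902) (nat_lit 0x8981) (nat_lit 19))
 (.p (nat_lit 0x398d397302) (nat_lit 0xa1c08000800) (nat_lit 35)))
 (.p (nat_lit 0x258d102c02) (nat_lit 0x8006) (nat_lit 5)))))
 (.n (.n (.n (.n (.p (nat_lit 0x23ae23ac23aa23a60ced0ce906) (nat_lit 0x50000c20) (nat_lit 16))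
 (.p (nat_lit 0x1f6d14bc02) (nat_lit 0x2e) (nat_lit 4)))
 (.n (.p (nat_lit 0xed30ed00ecf0ecc0eca0ec8031a002f002b09) (nat_lit 0x56863) (nat_lit 13))
 (.p (nat_lit 0x3a3e14a702) (nat_lit 0x2380) (nat_lit 48))))
 (.n (.n (.p (nat_lit 0x1922191e191c191a19180d9906) (nat_lit 0x100001d41) (nat_lit 17))
 (.p (nat_lit 0x38fd38f502) (nat_lit 0xa4002000800) (nat_lit 35)))
 (.p (nat_lit 0xfce0fcc0fca0fc80fc70fc4003f07) (nat_lit 0x2045) (nat_lit 7))))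
 (.n (.n (.n (.p (nat_lit 0x253a25382536253225300d2906) (nat_lit 0x40001280) (nat_lit 14))
 (.p (nat_lit 0x380937f702) (nat_lit 0x92404000000) (nat_lit 35)))
 (.p (nat_lit 0x19b219b019ac19aa0f2f0f2906) (nat_lit 0x90001d24) (nat_lit 15)))
 (.n (.n (.p (nat_lit 0xe450e2d02) (nat_lit 0x62) (nat_lit 18))
 (.p (nat_lit 0x39be39bc39b839b6389f05) (nat_lit 0x540a000000) (nat_lit 36)))
 (.p (nat_lit 0x251625122510250c1075106f06) (nat_lit 0x120000166) (nat_lit 14)))))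

def c512_259 : Tr :=
 .n (.n (.n (.n (.n (.p (nat_lit 0x18861884187e187c0cd70cd506) (nat_lit 0xc0000d00) (nat_lit 15))
 (.p (nat_lit 0x1e35138402) (nat_lit 0xc) (nat_lit 4)))
 (.n (.p (nat_lit 0x139b0e8b02) (nat_lit 0xab03) (nat_lit 19))
 (.p (nat_lit 0x3a35392f380f03) (nat_lit 0xad400004060) (nat_lit 43))))
 (.n (.n (.p (nat_lit 0x2d830d7202) (nat_lit 0x6021) (nat_lit 32))
 (.p (nat_lit 0x38c738b502) (nat_lit 0x8a000000800) (nat_lit 35)))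
 (.p (nat_lit 0x1b4a1b481b461b441b420fa106) (nat_lit 0x10001c05) (nat_lit 15))))
 (.n (.n (.n (.p (nat_lit 0x19e219de19dc19da19d80d2106) (nat_lit 0x100001960) (nat_lit 15))
 (.p (nat_lit 0x379d378f02) (nat_lit 0x61400000000) (nat_lit 35)))
 (.p (nat_lit 0x17d017ce17ca17c80f1b0f1506) (nat_lit 0x240001b04) (nat_lit 17)))
 (.n (.n (.p (nat_lit 0xe830df302) (nat_lit 0x2b02) (nat_lit 19))
 (.p (nat_lit 0x39af39a302) (nat_lit 0x69c0a000800) (nat_lit 35)))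
 (.p (nat_lit 0x1b0d105c02) (nat_lit 0x8046) (nat_lit 4)))))
 (.n (.n (.n (.n (.p (nat_lit 0x226b17bb02) (nat_lit 0xa840) (nat_lit 11))
 (.p (nat_lit 0x15fe15fc15fa15f915f615f400c507) (nat_lit 0x4050) (nat_lit 7)))
 (.n (.p (nat_lit 0xef60ef50ef20ef00eef0eec0300002d002709) (nat_lit 0x420a3) (nat_lit 13))
 (.p (nat_lit 0x3a51396f385503) (nat_lit 0x2a0000080a0) (nat_lit 43))))
 (.n (.n (.p (nat_lit 0x2280227e227c227a0db30da906) (nat_lit 0x210001b61) (nat_lit 16))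
 (.p (nat_lit 0x3947393d02) (nat_lit 0x49006000800) (nat_lit 35)))
 (.p (nat_lit 0x1f661f641f621f600ff30ff106) (nat_lit 0x300001865) (nat_lit 17))))
 (.n (.n (.n (.p (nat_lit 0x1aae1aac1aaa1aa81aa60d3106) (nat_lit 0x10000c80) (nat_lit 17))
 (.p (nat_lit 0x3857384d02) (nat_lit 0x49008000000) (nat_lit 35)))
 (.p (nat_lit 0x2f81003102) (nat_lit 0x884) (nat_lit 33)))
 (.n (.n (.p (nat_lit 0x190a1908190619041902190006) (nat_lit 0x882) (nat_lit 2))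
 (.p (nat_lit 0x3a1a124302) (nat_lit 0x2920) (nat_lit 48)))
 (.p (nat_lit 0x1b5b10aa02) (nat_lit 0x28a6) (nat_lit 4)))))

def c256_3 : Tr := .n c512_3 c512_259

def c512_131 : Tr :=
 .n (.n (.n (.n (.n (.p (nat_lit 0x22e222e022dc22da0cd70cd106) (nat_lit 0x90001900) (nat_lit 14))
 (.p (nat_lit 0x12d7002a02) (nat_lit 0x688a) (nat_lit 1)))
 (.n (.p (nat_lit 0x18e418e218e018de18dc0e7f06) (nat_lit 0x200000303) (nat_lit 17))
 (.p (nat_lit 0x3a2c0e3502) (nat_lit 0x8040) (nat_lit 48))))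
 (.n (.n (.p (nat_lit 0xe6d0d4d02) (nat_lit 0x49a0) (nat_lit 19))
 (.p (nat_lit 0x38923890388e388a3888388238623860385e385a3858385238323830382e382a382838223802380037fe37fa37f837f237d237d037ce37ca37c837c237a237a0379e379a3798379224) (nat_lit 0x400) (nat_lit 39)))
 (.p (nat_lit 0x1ae81ae41ae21ae00f9f0f9b06) (nat_lit 0x280001005) (nat_lit 17))))
 (.n (.n (.n (.p (nat_lit 0xe2d0d0d02) (nat_lit 0x160) (nat_lit 19))
 (.p (nat_lit 0x8d7003f02) (nat_lit 0x2005) (nat_lit 31)))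
 (.p (nat_lit 0x22a622a422a0229e229c0f0b06) (nat_lit 0x80000504) (nat_lit 14)))
 (.n (.n (.p (nat_lit 0x26d026100fe03) (nat_lit 0x4010001) (nat_lit 22))
 (.p (nat_lit 0x39b1399502) (nat_lit 0x7000a000800) (nat_lit 35)))
 (.p (nat_lit 0x1860185e185c185a1858104706) (nat_lit 0x200001326) (nat_lit 15)))))
 (.n (.n (.n (.n (.p (nat_lit 0xcff0cfd0cfa0cf80cf60cf4024e000b000909) (nat_lit 0x58040) (nat_lit 13))
 (.p (nat_lit 0x15c5153502) (nat_lit 0xf) (nat_lit 19)))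
 (.n (.p (nat_lit 0x12c90ed902) (nat_lit 0x4183) (nat_lit 19))
 (.p (nat_lit 0x3a0138c137a903) (nat_lit 0x748000000a0) (nat_lit 44))))
 (.n (.n (.p (nat_lit 0x17f617f217f017ee0da50d9d06) (nat_lit 0x110000561) (nat_lit 15))
 (.p (nat_lit 0x3923391d02) (nat_lit 0x7b004000800) (nat_lit 35)))
 (.p (nat_lit 0x19ee19ea19e619e40fd90fd506) (nat_lit 0x140000a45) (nat_lit 17))))
 (.n (.n (.n (.p (nat_lit 0xd3a0d390d360d340d320d30000907) (nat_lit 0x8880) (nat_lit 7))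
 (.p (nat_lit 0x382f381f02) (nat_lit 0x69406000000) (nat_lit 35)))
 (.p (nat_lit 0xf610f4902) (nat_lit 0x8844) (nat_lit 18)))
 (.n (.n (.p (nat_lit 0x23a718f702b702a9010e05) (nat_lit 0x832082) (nat_lit 9))
 (.p (nat_lit 0x39c93929380903) (nat_lit 0x94800004000) (nat_lit 44)))
 (.p (nat_lit 0x1095107d02) (nat_lit 0x4866) (nat_lit 18)))))

def c512_387 : Tr :=
 .n (.n (.n (.n (.n (.p (nat_lit 0xfb30ce302) (nat_lit 0x6420) (nat_lit 19))
 (.p (nat_lit 0x1411139902) (nat_lit 0x88ac) (nat_lit 18)))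
 (.n (.p (nat_lit 0x19550ea402) (nat_lit 0x43) (nat_lit 4))
 (.p (nat_lit 0x3a3b399d387d03) (nat_lit 0x2100000a060) (nat_lit 43))))
 (.n (.n (.p (nat_lit 0x22eb0d8a02) (nat_lit 0x6041) (nat_lit 5))
 (.p (nat_lit 0x38d938d702) (nat_lit 0x10402000800) (nat_lit 35)))
 (.p (nat_lit 0x2fcb003f02) (nat_lit 0x2825) (nat_lit 33))))
 (.n (.n (.n (.p (nat_lit 0xed30d2302) (nat_lit 0xaa60) (nat_lit 19))
 (.p (nat_lit 0x37c137b902) (nat_lit 0x30802000000) (nat_lit 35)))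
 (.p (nat_lit 0x244a2448244624440f1f0f1d06) (nat_lit 0x30001424) (nat_lit 16)))
 (.n (.n (.p (nat_lit 0x23850e2402) (nat_lit 0x4842) (nat_lit 5))
 (.p (nat_lit 0x38ba38b838b2379b04) (nat_lit 0x2c00000000) (nat_lit 36)))
 (.p (nat_lit 0x106b1068106710641062106003f20053004f09) (nat_lit 0x56846) (nat_lit 13)))))
 (.n (.n (.n (.n (.p (nat_lit 0x2456245424522450244e0d0106) (nat_lit 0x10000d40) (nat_lit 16))
 (.p (nat_lit 0x21cd171c02) (nat_lit 0x8052) (nat_lit 4)))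
 (.p (nat_lit 0x223a22362234223222300f0106) (nat_lit 0x1000018a3) (nat_lit 14)))
 (.n (.n (.p (nat_lit 0x25d425d225d025ce25cc0dbf06) (nat_lit 0x200000381) (nat_lit 14))
 (.p (nat_lit 0x3973396502) (nat_lit 0x38008000800) (nat_lit 35)))
 (.p (nat_lit 0x109f100f02) (nat_lit 0x20a5) (nat_lit 19))))
 (.n (.n (.n (.p (nat_lit 0x1b0e1b0a1b081b061b040d4506) (nat_lit 0x1000002a0) (nat_lit 17))
 (.p (nat_lit 0x386e386c3868386638643844179507) (nat_lit 0x8000020) (nat_lit 37)))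
 (.p (nat_lit 0x1a7e1a7c1a781a761a740f8306) (nat_lit 0x800002a4) (nat_lit 17)))
 (.n (.n (.p (nat_lit 0xeeb0e5b02) (nat_lit 0xab82) (nat_lit 19))
 (.p (nat_lit 0x39d9396f385703) (nat_lit 0x2a400008020) (nat_lit 44)))
 (.p (nat_lit 0x118d001802) (nat_lit 0x68) (nat_lit 1)))))

def c256_131 : Tr := .n c512_131 c512_387

def c128_3 : Tr := .n c256_3 c256_131

def c512_67 : Tr :=
 .n (.n (.n (.n (.n (.p (nat_lit 0xd550cc502) (nat_lit 0x0) (nat_lit 19))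
 (.p (nat_lit 0x32d232d032ce32cc32ca32c8018c07) (nat_lit 0x86a) (nat_lit 8)))
 (.n (.p (nat_lit 0x2df02d302bb011004) (nat_lit 0xa232002) (nat_lit 23))
 (.p (nat_lit 0x3a2a226702) (nat_lit 0x6840) (nat_lit 46))))
 (.n (.n (.p (nat_lit 0x1b181b161b141b100d530d4b06) (nat_lit 0x220001aa0) (nat_lit 17))
 (.p (nat_lit 0x3893388d02) (nat_lit 0x7b00a000000) (nat_lit 35)))
 (.p (nat_lit 0x13f003e003c03) (nat_lit 0x3000a005) (nat_lit 20))))
 (.n (.n (.n (.p (nat_lit 0x1a121a101a0c1a0a0d130d0d06) (nat_lit 0x90001360) (nat_lit 17))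
 (.p (nat_lit 0x84f002202) (nat_lit 0xa003) (nat_lit 30)))
 (.p (nat_lit 0x19bf0f0e02) (nat_lit 0xa004) (nat_lit 4)))
 (.n (.n (.p (nat_lit 0xe670dd702) (nat_lit 0xa2a1) (nat_lit 19))
 (.p (nat_lit 0x3985397f02) (nat_lit 0x83408000800) (nat_lit 35)))
 (.p (nat_lit 0x2c8a2c882c862c842c82103106) (nat_lit 0x10001a06) (nat_lit 14)))))
 (.n (.n (.n (.n (.p (nat_lit 0xd010ce902) (nat_lit 0x820) (nat_lit 18))
 (.p (nat_lit 0x249e249c249a2498249614c906) (nat_lit 0x10000a2e) (nat_lit 14)))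
 (.n (.p (nat_lit 0xede0edc0edb0ed80ed60ed502f2002b002509) (nat_lit 0x30083) (nat_lit 13))
 (.p (nat_lit 0x3a453971385703) (nat_lit 0x32400008080) (nat_lit 43))))
 (.n (.n (.p (nat_lit 0x223a2238223622300da10d9f06) (nat_lit 0x60001061) (nat_lit 16))
 (.p (nat_lit 0x3915390b02) (nat_lit 0x40c04000800) (nat_lit 35)))
 (.p (nat_lit 0x15f70fc702) (nat_lit 0x2545) (nat_lit 19))))
 (.n (.n (.n (.p (nat_lit 0xdb50d2502) (nat_lit 0x80) (nat_lit 19))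
 (.p (nat_lit 0x380e380c38083806380437e4228907) (nat_lit 0x4000080) (nat_lit 38)))
 (.p (nat_lit 0xf3f0f3c0f3b0f380f360f340362003b003709) (nat_lit 0x56044) (nat_lit 13)))
 (.n (.n (.p (nat_lit 0x193a1938193419300e3f0e3b06) (nat_lit 0xa0001862) (nat_lit 17))
 (.p (nat_lit 0x3a0c171502) (nat_lit 0x500) (nat_lit 48)))
 (.p (nat_lit 0x10821081107e107c107a1078005107) (nat_lit 0x8866) (nat_lit 7)))))

def c512_323 : Tr :=
 .n (.n (.n (.n (.n (.p (nat_lit 0x2243179302) (nat_lit 0x6020) (nat_lit 11))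
 (.p (nat_lit 0x1eab13fa02) (nat_lit 0xa88c) (nat_lit 4)))
 (.n (.p (nat_lit 0x19490e9802) (nat_lit 0x823) (nat_lit 4))
 (.p (nat_lit 0x3a393971385903) (nat_lit 0x32800008060) (nat_lit 43))))
 (.n (.n (.p (nat_lit 0x22e30d8202) (nat_lit 0xa821) (nat_lit 5))
 (.p (nat_lit 0x38cb38c102) (nat_lit 0x9b800000800) (nat_lit 35)))
 (.p (nat_lit 0x17ae17ac17aa17a817a60fad06) (nat_lit 0x10000225) (nat_lit 15))))
 (.n (.n (.n (.p (nat_lit 0x24da24d624d424d20d210d1906) (nat_lit 0x110001c60) (nat_lit 14))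
 (.p (nat_lit 0x37a737a502) (nat_lit 0x8c000000000) (nat_lit 35)))
 (.p (nat_lit 0xfab0f1b02) (nat_lit 0xad04) (nat_lit 19)))
 (.n (.n (.p (nat_lit 0x2e2e2e2c2e2a2e282e262e24010c07) (nat_lit 0x42) (nat_lit 8))
 (.p (nat_lit 0x39bf39af02) (nat_lit 0xab40a000800) (nat_lit 35)))
 (.p (nat_lit 0x17ea17e617e217e0105d105906) (nat_lit 0x140001446) (nat_lit 15)))))
 (.n (.n (.n (.n (.p (nat_lit 0x1950194e194c19480d0b0d0306) (nat_lit 0x220001940) (nat_lit 15))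
 (.p (nat_lit 0x1a7e1a7c1a781a761a74160706) (nat_lit 0x80000a50) (nat_lit 17)))
 (.n (.p (nat_lit 0x22962294229222900ef70ef506) (nat_lit 0x3000014a3) (nat_lit 14))
 (.p (nat_lit 0x3a53399f388103) (nat_lit 0x2980000a0a0) (nat_lit 43))))
 (.n (.n (.p (nat_lit 0xdb7004a02) (nat_lit 0x2081) (nat_lit 1))
 (.p (nat_lit 0x3951394502) (nat_lit 0x72006000800) (nat_lit 35)))
 (.p (nat_lit 0x1097100702) (nat_lit 0x6885) (nat_lit 19))))
 (.n (.n (.n (.p (nat_lit 0x10990d3902) (nat_lit 0x8d80) (nat_lit 19))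
 (.p (nat_lit 0x3863385702) (nat_lit 0x7a408000000) (nat_lit 35)))
 (.p (nat_lit 0x13f10f7102) (nat_lit 0xa84) (nat_lit 19)))
 (.n (.n (.p (nat_lit 0x17c617c017be17bc0e590e5706) (nat_lit 0x180000b82) (nat_lit 15))
 (.p (nat_lit 0x39d73947382703) (nat_lit 0x4a400006020) (nat_lit 44)))
 (.p (nat_lit 0x1baa1ba81ba61ba41ba21ba006) (nat_lit 0x847) (nat_lit 2)))))

def c256_67 : Tr := .n c512_67 c512_323

def c512_195 : Tr :=
 .n (.n (.n (.n (.n (.p (nat_lit 0x18621860185e185a18580cd506) (nat_lit 0x40001b00) (nat_lit 17))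
 (.p (nat_lit 0x1d9f12ee02) (nat_lit 0x68aa) (nat_lit 4)))
 (.n (.p (nat_lit 0xe8a0e880e870e840e830e8002fe002b002709) (nat_lit 0x32803) (nat_lit 13))
 (.p (nat_lit 0x39e938b937a103) (nat_lit 0x53800000060) (nat_lit 44))))
 (.n (.n (.p (nat_lit 0x18050d5402) (nat_lit 0x1) (nat_lit 4))
 (.p (nat_lit 0x38bf38ab02) (nat_lit 0x68c00000800) (nat_lit 35)))
 (.p (nat_lit 0x25050fa402) (nat_lit 0x4805) (nat_lit 5))))
 (.n (.n (.n (.p (nat_lit 0xd220d200d1f0d1c0d1a0d19021a0007000109) (nat_lit 0x30860) (nat_lit 13))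
 (.p (nat_lit 0x94a0948094409420940014c000707) (nat_lit 0x6166) (nat_lit 28)))
 (.p (nat_lit 0xf1a0f190f160f150f120f1003540039003509) (nat_lit 0x44804) (nat_lit 13)))
 (.n (.n (.p (nat_lit 0xdef0dec0deb0de80de60de402d20023001f09) (nat_lit 0x56002) (nat_lit 13))
 (.p (nat_lit 0x39b7399b02) (nat_lit 0x88c0a000800) (nat_lit 35)))
 (.p (nat_lit 0x180e180a180618041051104d06) (nat_lit 0x140000826) (nat_lit 15)))))
 (.n (.n (.n (.n (.p (nat_lit 0x19a619a219a0199e0cfd0cf506) (nat_lit 0x110000540) (nat_lit 17))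
 (.p (nat_lit 0x2b3f15de02) (nat_lit 0x2030) (nat_lit 5)))
 (.n (.p (nat_lit 0x19e219e019de19da19d80ee506) (nat_lit 0x40001983) (nat_lit 17))
 (.p (nat_lit 0x3a040fa502) (nat_lit 0x4ba0) (nat_lit 47))))
 (.n (.n (.p (nat_lit 0x2dc3001702) (nat_lit 0xa861) (nat_lit 33))
 (.p (nat_lit 0x393b393502) (nat_lit 0x18006000800) (nat_lit 35)))
 (.p (nat_lit 0xfe60fe40fe20fe10fdf0fdc038c0041003f09) (nat_lit 0x22065) (nat_lit 13))))
 (.n (.n (.n (.p (nat_lit 0x1a721a701a6c1a680d370d3306) (nat_lit 0xa0001980) (nat_lit 17))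
 (.p (nat_lit 0x3855384502) (nat_lit 0x40008000000) (nat_lit 35)))
 (.p (nat_lit 0x1a150f6402) (nat_lit 0x84) (nat_lit 4)))
 (.n (.n (.p (nat_lit 0x22822280227e227c22780e4706) (nat_lit 0x20001382) (nat_lit 14))
 (.p (nat_lit 0x39cc0e6502) (nat_lit 0x8200) (nat_lit 47)))
 (.p (nat_lit 0x1b43109202) (nat_lit 0x2886) (nat_lit 4)))))

def c512_451 : Tr :=
 .n (.n (.n (.n (.n (.p (nat_lit 0x18a818a618a418a00cf30ceb06) (nat_lit 0x220001820) (nat_lit 15))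
 (.p (nat_lit 0x2a0914a802) (nat_lit 0x400e) (nat_lit 5)))
 (.n (.p (nat_lit 0xec60ec50ec20ec00ebe0ebc002d07) (nat_lit 0x8063) (nat_lit 7))
 (.p (nat_lit 0x3a3d38b7379d03) (nat_lit 0x4b000000080) (nat_lit 43))))
 (.n (.n (.p (nat_lit 0x105f0d8f02) (nat_lit 0xa441) (nat_lit 19))
 (.p (nat_lit 0x38e338df02) (nat_lit 0x39402000800) (nat_lit 35)))
 (.p (nat_lit 0x22822280227e227a22780fbd06) (nat_lit 0x40001b25) (nat_lit 14))))
 (.n (.n (.n (.p (nat_lit 0x1a4c1a481a461a440d2f0d2b06) (nat_lit 0x280000080) (nat_lit 15))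
 (.p (nat_lit 0x37d437ce37cc37c837c637c4225707) (nat_lit 0x2000040) (nat_lit 38)))
 (.p (nat_lit 0x2f410f3002) (nat_lit 0x8824) (nat_lit 32)))
 (.n (.n (.p (nat_lit 0x23910e3002) (nat_lit 0x4062) (nat_lit 5))
 (.p (nat_lit 0x393e393c39383936381f05) (nat_lit 0x1406000000) (nat_lit 36)))
 (.p (nat_lit 0x180017fe17fc17f8106b106306) (nat_lit 0x220001d46) (nat_lit 17)))))
 (.n (.n (.n (.n (.p (nat_lit 0xf470d0702) (nat_lit 0x6b40) (nat_lit 19))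
 (.p (nat_lit 0x21df172e02) (nat_lit 0x2072) (nat_lit 4)))
 (.p (nat_lit 0xeff0e8702) (nat_lit 0x68a3) (nat_lit 18)))
 (.n (.n (.p (nat_lit 0x187b0dca02) (nat_lit 0xa881) (nat_lit 4))
 (.p (nat_lit 0x3987396b02) (nat_lit 0x88c08000800) (nat_lit 35)))
 (.p (nat_lit 0x3870381013e03) (nat_lit 0x54005) (nat_lit 22))))
 (.n (.n (.n (.p (nat_lit 0xef30d4302) (nat_lit 0x62a0) (nat_lit 19))
 (.p (nat_lit 0x3899387902) (nat_lit 0x9080a000000) (nat_lit 35)))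
 (.p (nat_lit 0xf930f900f8e0f8c0f8a0f88003b07) (nat_lit 0xa8a4) (nat_lit 7)))
 (.n (.n (.p (nat_lit 0x124d0e5d02) (nat_lit 0x1a2) (nat_lit 19))
 (.p (nat_lit 0x39db39c338a303) (nat_lit 0xbdc0000a020) (nat_lit 44)))
 (.p (nat_lit 0x123311a302) (nat_lit 0xaa68) (nat_lit 19)))))

def c256_195 : Tr := .n c512_195 c512_451

def c128_67 : Tr := .n c256_67 c256_195

def c64_3 : Tr := .n c128_3 c128_67

def c512_35 : Tr :=
 .n (.n (.n (.n (.n (.p (nat_lit 0x184a1848184618440cc70cc506) (nat_lit 0x30001200) (nat_lit 15))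
 (.p (nat_lit 0x239623922390238e238c123d06) (nat_lit 0x100000389) (nat_lit 14)))
 (.n (.p (nat_lit 0xefd0e6d02) (nat_lit 0x4ba2) (nat_lit 19))
 (.p (nat_lit 0x39e017b502) (nat_lit 0x4840) (nat_lit 45))))
 (.n (.n (.p (nat_lit 0x25b025ae25ac25aa0d530d4906) (nat_lit 0x2100019a0) (nat_lit 14))
 (.p (nat_lit 0x38a3388502) (nat_lit 0xba00a000000) (nat_lit 35)))
 (.p (nat_lit 0x3450339012e03) (nat_lit 0x4010004) (nat_lit 22))))
 (.n (.n (.n (.p (nat_lit 0x24922490248e24880d110d0f06) (nat_lit 0x60001160) (nat_lit 14))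
 (.p (nat_lit 0x803001f02) (nat_lit 0x6002) (nat_lit 31)))
 (.p (nat_lit 0x12d003a0034003004) (nat_lit 0x250008004) (nat_lit 20)))
 (.n (.n (.p (nat_lit 0x18850dd402) (nat_lit 0x80a1) (nat_lit 4))
 (.p (nat_lit 0x397b397902) (nat_lit 0x5a808000800) (nat_lit 35)))
 (.p (nat_lit 0x1ae3103202) (nat_lit 0x2806) (nat_lit 4)))))
 (.n (.n (.n (.n (.p (nat_lit 0x19081906190219000cf30ced06) (nat_lit 0x240001c20) (nat_lit 17))
 (.p (nat_lit 0x1f7914c802) (nat_lit 0x82e) (nat_lit 4)))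
 (.n (.p (nat_lit 0x19870ed602) (nat_lit 0x2083) (nat_lit 4))
 (.p (nat_lit 0x3a43393f382503) (nat_lit 0x2a000006080) (nat_lit 43))))
 (.n (.n (.p (nat_lit 0x2dad000d02) (nat_lit 0x61) (nat_lit 33))
 (.p (nat_lit 0x3913390502) (nat_lit 0x38004000800) (nat_lit 35)))
 (.p (nat_lit 0x247a2476247224700fcd0fc906) (nat_lit 0x140001045) (nat_lit 14))))
 (.n (.n (.n (.p (nat_lit 0x1aba1ab81ab61ab40d270d2506) (nat_lit 0x30001480) (nat_lit 17))
 (.p (nat_lit 0x380d380302) (nat_lit 0xa3c04000000) (nat_lit 35)))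
 (.p (nat_lit 0xf3e0f3c0f3a0f380f370f34003307) (nat_lit 0x2044) (nat_lit 7)))
 (.n (.n (.p (nat_lit 0x239d0e3c02) (nat_lit 0x4862) (nat_lit 5))
 (.p (nat_lit 0x3a0d38bd379f03) (nat_lit 0x63400000000) (nat_lit 43)))
 (.p (nat_lit 0x1735107502) (nat_lit 0x8066) (nat_lit 19)))))

def c512_291 : Tr :=
 .n (.n (.n (.n (.n (.p (nat_lit 0xe830cd302) (nat_lit 0x2a00) (nat_lit 19))
 (.p (nat_lit 0x28f7139602) (nat_lit 0x680c) (nat_lit 5)))
 (.n (.p (nat_lit 0x2ea7002f02) (nat_lit 0xa023) (nat_lit 33))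
 (.p (nat_lit 0x39ef3947382d03) (nat_lit 0x4b000006060) (nat_lit 44))))
 (.n (.n (.p (nat_lit 0xe050d7502) (nat_lit 0x8221) (nat_lit 19))
 (.p (nat_lit 0x38d338b902) (nat_lit 0xba800000800) (nat_lit 35)))
 (.p (nat_lit 0x25110fb002) (nat_lit 0x4025) (nat_lit 5))))
 (.n (.n (.n (.p (nat_lit 0x19f819f619f219f00d230d1d06) (nat_lit 0x240001a60) (nat_lit 15))
 (.p (nat_lit 0x37a5379b02) (nat_lit 0x82c00000000) (nat_lit 35)))
 (.p (nat_lit 0x1802180017fe17f80f150f1306) (nat_lit 0x60001d04) (nat_lit 15)))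
 (.n (.n (.p (nat_lit 0xe170dff02) (nat_lit 0x2022) (nat_lit 18))
 (.p (nat_lit 0x39bd39a702) (nat_lit 0xa240a000800) (nat_lit 35)))
 (.p (nat_lit 0x17ba17b817b617b21059105506) (nat_lit 0x50001246) (nat_lit 17)))))
 (.n (.n (.n (.n (.p (nat_lit 0x193a19361934193219300d0906) (nat_lit 0x100001840) (nat_lit 15))
 (.p (nat_lit 0x20b3160202) (nat_lit 0x2850) (nat_lit 4)))
 (.n (.p (nat_lit 0x226a2266226422600ef50eef06) (nat_lit 0x1200012a3) (nat_lit 16))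
 (.p (nat_lit 0x3a09398f387103) (nat_lit 0xad8000080a0) (nat_lit 44))))
 (.n (.n (.p (nat_lit 0x22b222ae22ac22aa22a80db106) (nat_lit 0x100001d61) (nat_lit 14))
 (.p (nat_lit 0x3963393f02) (nat_lit 0xb9406000800) (nat_lit 35)))
 (.p (nat_lit 0xfff0ffc0ffa0ff80ff70ff403920047003f09) (nat_lit 0x52085) (nat_lit 13))))
 (.n (.n (.n (.p (nat_lit 0xdc50d3502) (nat_lit 0x4880) (nat_lit 19))
 (.p (nat_lit 0x3865385102) (nat_lit 0x81808000000) (nat_lit 35)))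
 (.p (nat_lit 0x2f8b0f7a02) (nat_lit 0xa884) (nat_lit 32)))
 (.n (.n (.p (nat_lit 0x223a22382234223222300e5706) (nat_lit 0x80001882) (nat_lit 14))
 (.p (nat_lit 0x3a1d392f380f03) (nat_lit 0xad400004020) (nat_lit 43)))
 (.p (nat_lit 0x3e703c9014e03) (nat_lit 0x4050006) (nat_lit 22)))))

def c256_35 : Tr := .n c512_35 c512_291

def c512_163 : Tr :=
 .n (.n (.n (.n (.n (.p (nat_lit 0x22fa22f822f222f00cd70cd506) (nat_lit 0xc0001a00) (nat_lit 14))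
 (.p (nat_lit 0x284512e402) (nat_lit 0x80aa) (nat_lit 5)))
 (.n (.p (nat_lit 0xe81001802) (nat_lit 0x803) (nat_lit 1))
 (.p (nat_lit 0x39e739ad388f03) (nat_lit 0x6340000a040) (nat_lit 44))))
 (.n (.n (.p (nat_lit 0x22b02290225021704) (nat_lit 0x3620000) (nat_lit 24))
 (.p (nat_lit 0x38bf38a702) (nat_lit 0x68400000800) (nat_lit 35)))
 (.p (nat_lit 0x25ee25ec25e825e625e40f9b06) (nat_lit 0x80000405) (nat_lit 14))))
 (.n (.n (.n (.p (nat_lit 0xd19003002) (nat_lit 0x860) (nat_lit 1))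
 (.p (nat_lit 0x92b004b02) (nat_lit 0x2026) (nat_lit 31)))
 (.p (nat_lit 0x2f210f1002) (nat_lit 0x804) (nat_lit 32)))
 (.n (.n (.p (nat_lit 0x111002202) (nat_lit 0x20000c002) (nat_lit 20))
 (.p (nat_lit 0x399f399902) (nat_lit 0x2880a000800) (nat_lit 35)))
 (.p (nat_lit 0x104d001002) (nat_lit 0x4826) (nat_lit 1)))))
 (.n (.n (.n (.n (.p (nat_lit 0x19661964196219600cff0cfd06) (nat_lit 0x300001240) (nat_lit 17))
 (.p (nat_lit 0x1a641a621a601a5e1a5c156306) (nat_lit 0x20000092f) (nat_lit 17)))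
 (.n (.p (nat_lit 0x19990ee802) (nat_lit 0x8883) (nat_lit 4))
 (.p (nat_lit 0x3a020db702) (nat_lit 0x21a0) (nat_lit 47))))
 (.n (.n (.p (nat_lit 0x10750da502) (nat_lit 0x8461) (nat_lit 19))
 (.p (nat_lit 0x3929392502) (nat_lit 0x94004000800) (nat_lit 35)))
 (.p (nat_lit 0x253d0fdc02) (nat_lit 0x65) (nat_lit 5))))
 (.n (.n (.n (.p (nat_lit 0x250a2508250425020d370d3106) (nat_lit 0x90001880) (nat_lit 14))
 (.p (nat_lit 0x383b382502) (nat_lit 0x9a006000000) (nat_lit 35)))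
 (.p (nat_lit 0xfdd0f4d02) (nat_lit 0x564) (nat_lit 19)))
 (.n (.n (.p (nat_lit 0x179617941792178e178c0e4906) (nat_lit 0x40000182) (nat_lit 17))
 (.p (nat_lit 0x39cd396d384f03) (nat_lit 0x21400008000) (nat_lit 44)))
 (.p (nat_lit 0x25ef108e02) (nat_lit 0xa086) (nat_lit 5)))))

def c512_419 : Tr :=
 .n (.n (.n (.n (.n (.p (nat_lit 0xcf30cf00cee0cec0cea0ce9021e000b000109) (nat_lit 0x50820) (nat_lit 13))
 (.p (nat_lit 0x1ee1143002) (nat_lit 0x402d) (nat_lit 4)))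
 (.n (.p (nat_lit 0x241b0eba02) (nat_lit 0xa843) (nat_lit 5))
 (.p (nat_lit 0x39f339b3389b03) (nat_lit 0x7cc0000a060) (nat_lit 44))))
 (.n (.n (.p (nat_lit 0x18fe18fa18f818f618f40d8d06) (nat_lit 0x100000441) (nat_lit 15))
 (.p (nat_lit 0x38fd38d902) (nat_lit 0xa0802000800) (nat_lit 35)))
 (.p (nat_lit 0x178a17861784178217800fc106) (nat_lit 0x100001825) (nat_lit 15))))
 (.n (.n (.n (.p (nat_lit 0x22890d2802) (nat_lit 0x4080) (nat_lit 5))
 (.p (nat_lit 0x37c137bf02) (nat_lit 0x31402000000) (nat_lit 35)))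
 (.p (nat_lit 0xfaf0f1f02) (nat_lit 0x2524) (nat_lit 19)))
 (.n (.n (.p (nat_lit 0x283a28382836283428300e2306) (nat_lit 0x20001c42) (nat_lit 14))
 (.p (nat_lit 0x38fc38f638f437dd04) (nat_lit 0x5002000000) (nat_lit 36)))
 (.p (nat_lit 0x22822280227e227a2278106506) (nat_lit 0x40001b46) (nat_lit 14)))))
 (.n (.n (.n (.n (.p (nat_lit 0x19b019ae19ac19aa19a80d0b06) (nat_lit 0x200001d40) (nat_lit 17))
 (.p (nat_lit 0x21d3172202) (nat_lit 0x2852) (nat_lit 4)))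
 (.p (nat_lit 0x17c417c217c017be17bc0f0306) (nat_lit 0x200000ba3) (nat_lit 15)))
 (.n (.n (.p (nat_lit 0x108d0dbd02) (nat_lit 0x8481) (nat_lit 19))
 (.p (nat_lit 0x398d396702) (nat_lit 0xa0408000800) (nat_lit 35)))
 (.p (nat_lit 0x102300ca02) (nat_lit 0xa8a5) (nat_lit 1))))
 (.n (.n (.n (.p (nat_lit 0x25e025de25dc25da25d80d4706) (nat_lit 0x2000013a0) (nat_lit 14))
 (.p (nat_lit 0x3881387702) (nat_lit 0x3040a000000) (nat_lit 35)))
 (.p (nat_lit 0x1a390f8802) (nat_lit 0x8a4) (nat_lit 4)))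
 (.n (.n (.p (nat_lit 0xe660e650e620e600e5e0e5d02ac0021001909) (nat_lit 0x400a2) (nat_lit 13))
 (.p (nat_lit 0x3a2339bf387703) (nat_lit 0xa840000a020) (nat_lit 43)))
 (.p (nat_lit 0x19221920191e191c1918118f06) (nat_lit 0x20001568) (nat_lit 15)))))

def c256_163 : Tr := .n c512_163 c512_419

def c128_35 : Tr := .n c256_35 c256_163

def c512_99 : Tr :=
 .n (.n (.n (.n (.n (.p (nat_lit 0x2235178502) (nat_lit 0x4800) (nat_lit 11))
 (.p (nat_lit 0x1d7b12ca02) (nat_lit 0x608a) (nat_lit 4)))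
 (.n (.p (nat_lit 0x23d50e7402) (nat_lit 0x3) (nat_lit 5))
 (.p (nat_lit 0x39e53979385903) (nat_lit 0x52800008040) (nat_lit 44))))
 (.n (.n (.p (nat_lit 0x1b3e1b3a1b381b360d510d4906) (nat_lit 0x110000ca0) (nat_lit 15))
 (.p (nat_lit 0x389f389502) (nat_lit 0xac00a000000) (nat_lit 35)))
 (.p (nat_lit 0x2fa70f9602) (nat_lit 0x2005) (nat_lit 32))))
 (.n (.n (.n (.p (nat_lit 0x1a361a321a301a2e1a2c0d1506) (nat_lit 0x100000560) (nat_lit 15))
 (.l (nat_lit 0x20541000000000008) (nat_lit 0x22504) (nat_lit 29)))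
 (.p (nat_lit 0x17b817b417b217b00f0f0f0b06) (nat_lit 0x280001204) (nat_lit 15)))
 (.n (.n (.p (nat_lit 0x21da21d821d621d20ddd0dd906) (nat_lit 0x50001aa1) (nat_lit 17))
 (.p (nat_lit 0x398f398b02) (nat_lit 0xacc08000800) (nat_lit 35)))
 (.p (nat_lit 0x3053104202) (nat_lit 0x6026) (nat_lit 32)))))
 (.n (.n (.n (.n (.p (nat_lit 0xfbd0ced02) (nat_lit 0x4c20) (nat_lit 19))
 (.p (nat_lit 0x297e297c297a2978297614d506) (nat_lit 0x1000004e) (nat_lit 14)))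
 (.n (.p (nat_lit 0x2492248e248a24880edd0ed906) (nat_lit 0x140001183) (nat_lit 16))
 (.p (nat_lit 0x39ff3997387903) (nat_lit 0x880000a080) (nat_lit 44))))
 (.n (.n (.p (nat_lit 0x226822662264226222600da706) (nat_lit 0x200001261) (nat_lit 14))
 (.p (nat_lit 0x3921391302) (nat_lit 0x71c04000800) (nat_lit 35)))
 (.p (nat_lit 0xfda0fd90fd60fd40fd20fd0004507) (nat_lit 0x8845) (nat_lit 7))))
 (.n (.n (.n (.p (nat_lit 0x10890d2902) (nat_lit 0x4580) (nat_lit 19))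
 (.p (nat_lit 0x382d381902) (nat_lit 0x60806000000) (nat_lit 35)))
 (.p (nat_lit 0x2f53003302) (nat_lit 0x2844) (nat_lit 33)))
 (.n (.n (.p (nat_lit 0xe530e3b02) (nat_lit 0x2862) (nat_lit 18))
 (.p (nat_lit 0x3a0f38e937d103) (nat_lit 0x53800002000) (nat_lit 43)))
 (.p (nat_lit 0x1a661a641a621a601a5e107906) (nat_lit 0x10000966) (nat_lit 15)))))

def c512_355 : Tr :=
 .n (.n (.n (.n (.n (.p (nat_lit 0x18fc18fa18f818f618f40ce706) (nat_lit 0x200000420) (nat_lit 17))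
 (.p (nat_lit 0x1a401a3e1a3c1a3a1a38140706) (nat_lit 0x2000015ac) (nat_lit 17)))
 (.n (.p (nat_lit 0xea30ea00e9e0e9c0e9b0e980302002f002709) (nat_lit 0x52823) (nat_lit 13))
 (.p (nat_lit 0x39f13989386f03) (nat_lit 0x95400008060) (nat_lit 44))))
 (.n (.n (.p (nat_lit 0xd9b0d8302) (nat_lit 0xa821) (nat_lit 18))
 (.p (nat_lit 0x38b438ae38ac38a838a638a4223107) (nat_lit 0x800) (nat_lit 38)))
 (.p (nat_lit 0x22982296229422920fb70fad06) (nat_lit 0x210001425) (nat_lit 16))))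
 (.n (.n (.n (.p (nat_lit 0x24f224f024ea24e80d1f0d1d06) (nat_lit 0xc0001d60) (nat_lit 14))
 (.p (nat_lit 0x37c537b502) (nat_lit 0x40002000000) (nat_lit 35)))
 (.p (nat_lit 0x2f370f2602) (nat_lit 0xa024) (nat_lit 32)))
 (.n (.n (.p (nat_lit 0x1d7e1d7c1d7a1d781d760e1506) (nat_lit 0x10000442) (nat_lit 15))
 (.p (nat_lit 0x39bf39bd02) (nat_lit 0xad00a000800) (nat_lit 35)))
 (.p (nat_lit 0x1b11106002) (nat_lit 0x846) (nat_lit 4)))))
 (.n (.n (.n (.n (.p (nat_lit 0x242e242c242a24280d0b0d0906) (nat_lit 0x300001b40) (nat_lit 14))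
 (.p (nat_lit 0x215516a402) (nat_lit 0x8071) (nat_lit 4)))
 (.n (.p (nat_lit 0x19b219b019ae19ac19aa19a806) (nat_lit 0x8a3) (nat_lit 2))
 (.p (nat_lit 0x3a5339b1389903) (nat_lit 0x7480000a0a0) (nat_lit 43))))
 (.n (.n (.p (nat_lit 0xdbf0dbc0dba0db80db60db502660017000d09) (nat_lit 0x50081) (nat_lit 13))
 (.p (nat_lit 0x3955394d02) (nat_lit 0x83006000800) (nat_lit 35)))
 (.p (nat_lit 0x3027101602) (nat_lit 0xa0a5) (nat_lit 32))))
 (.n (.n (.n (.p (nat_lit 0xd460d450d420d410d3e0d3c02340009000509) (nat_lit 0x440a0) (nat_lit 13))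
 (.p (nat_lit 0x3871385d02) (nat_lit 0xb3008000000) (nat_lit 35)))
 (.p (nat_lit 0xf860f850f820f800f7e0f7c003907) (nat_lit 0x80a4) (nat_lit 7)))
 (.n (.n (.p (nat_lit 0x22a622a2229e229c0e590e5506) (nat_lit 0x140000d82) (nat_lit 14))
 (.p (nat_lit 0x3a1f395d383d03) (nat_lit 0xa5000006020) (nat_lit 43)))
 (.p (nat_lit 0x186c186a186818661864110706) (nat_lit 0x200000467) (nat_lit 15)))))

def c256_99 : Tr := .n c512_99 c512_355

def c512_227 : Tr :=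
 .n (.n (.n (.n (.n (.p (nat_lit 0x186c186a1868186618640cdb06) (nat_lit 0x200000c00) (nat_lit 15))
 (.p (nat_lit 0x28cd136c02) (nat_lit 0xab) (nat_lit 5)))
 (.n (.p (nat_lit 0x18f018ee18ec18e80e8b0e8306) (nat_lit 0x220001b03) (nat_lit 17))
 (.p (nat_lit 0x3a3338e537c503) (nat_lit 0x42000002060) (nat_lit 43))))
 (.n (.n (.p (nat_lit 0xd6b0d680d660d640d620d60001707) (nat_lit 0xa801) (nat_lit 7))
 (.p (nat_lit 0x38cf38af02) (nat_lit 0xa9400000800) (nat_lit 35)))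
 (.p (nat_lit 0x25b225b025ae25aa25a80fa506) (nat_lit 0x40001905) (nat_lit 14))))
 (.n (.n (.n (.p (nat_lit 0x19ca19c619c219c00d210d1d06) (nat_lit 0x140001860) (nat_lit 17))
 (.p (nat_lit 0x379d378502) (nat_lit 0x60000000000) (nat_lit 35)))
 (.p (nat_lit 0x226a2268226622640f130f1106) (nat_lit 0x30001a04) (nat_lit 14)))
 (.n (.n (.p (nat_lit 0x2e05001d02) (nat_lit 0x4802) (nat_lit 33))
 (.p (nat_lit 0x39af399f02) (nat_lit 0x6940a000800) (nat_lit 35)))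
 (.p (nat_lit 0x18781876187418701053104b06) (nat_lit 0x220001c26) (nat_lit 17)))))
 (.n (.n (.n (.n (.p (nat_lit 0xf3f0cff02) (nat_lit 0xa340) (nat_lit 19))
 (.p (nat_lit 0x209d15ec02) (nat_lit 0x4830) (nat_lit 4)))
 (.n (.p (nat_lit 0xf750ee502) (nat_lit 0x4c83) (nat_lit 19))
 (.p (nat_lit 0x3a060dbb02) (nat_lit 0x61a0) (nat_lit 47))))
 (.n (.n (.p (nat_lit 0x17a0179e179c179a0db30da906) (nat_lit 0x210001961) (nat_lit 15))
 (.p (nat_lit 0x3953393702) (nat_lit 0x78406000800) (nat_lit 35)))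
 (.p (nat_lit 0x2ffb003f02) (nat_lit 0x2865) (nat_lit 33))))
 (.n (.n (.n (.p (nat_lit 0x1a8a1a881a841a821a800d3706) (nat_lit 0x80001a80) (nat_lit 15))
 (.p (nat_lit 0x384b384902) (nat_lit 0x18808000000) (nat_lit 35)))
 (.p (nat_lit 0xf6e0f6d0f6b0f680f660f6403600039003709) (nat_lit 0x46084) (nat_lit 13)))
 (.n (.n (.p (nat_lit 0x1802180017fe17fc17f80e4706) (nat_lit 0x20001582) (nat_lit 15))
 (.p (nat_lit 0x3a1938bf37a103) (nat_lit 0x6b800000020) (nat_lit 43)))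
 (.p (nat_lit 0x20ae20ac20aa20a820a4109306) (nat_lit 0x20000a86) (nat_lit 15)))))

def c512_483 : Tr :=
 .n (.n (.n (.n (.n (.p (nat_lit 0x2396239423922390238c0ceb06) (nat_lit 0x20000b20) (nat_lit 14))
 (.p (nat_lit 0x2a1314b202) (nat_lit 0x280e) (nat_lit 5)))
 (.n (.p (nat_lit 0x19790ec802) (nat_lit 0x863) (nat_lit 4))
 (.p (nat_lit 0x3a3c107902) (nat_lit 0x880) (nat_lit 48))))
 (.n (.n (.p (nat_lit 0xd9b0d980d960d940d920d90001707) (nat_lit 0xa841) (nat_lit 7))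
 (.p (nat_lit 0x38f138e502) (nat_lit 0x72002000800) (nat_lit 35)))
 (.p (nat_lit 0x180017fe17fc17fa0fc30fb906) (nat_lit 0x210001d25) (nat_lit 15))))
 (.n (.n (.n (.p (nat_lit 0x1a641a601a5e1a5c0d2f0d2b06) (nat_lit 0x280000180) (nat_lit 17))
 (.p (nat_lit 0x380537e902) (nat_lit 0x80804000000) (nat_lit 35)))
 (.p (nat_lit 0x2432242e242c242a0f310f2906) (nat_lit 0x110001b24) (nat_lit 14)))
 (.n (.n (.p (nat_lit 0x23ea23e423e223e00e350e3306) (nat_lit 0x180001062) (nat_lit 16))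
 (.p (nat_lit 0x397e397c39783976385f05) (nat_lit 0x3408000000) (nat_lit 36)))
 (.p (nat_lit 0x25d3107202) (nat_lit 0x6066) (nat_lit 5)))))
 (.n (.n (.n (.n (.p (nat_lit 0x22730d1202) (nat_lit 0x6060) (nat_lit 5))
 (.p (nat_lit 0x21ef173e02) (nat_lit 0x6872) (nat_lit 4)))
 (.p (nat_lit 0x31b0319030b012004) (nat_lit 0x62c4003) (nat_lit 23)))
 (.n (.n (.p (nat_lit 0x1b1a1b181b141b121b100dc706) (nat_lit 0x80001a81) (nat_lit 15))
 (.p (nat_lit 0x3981396f02) (nat_lit 0x71408000800) (nat_lit 35)))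
 (.p (nat_lit 0x14d004e004c004804) (nat_lit 0xd0008006) (nat_lit 20))))
 (.n (.n (.n (.p (nat_lit 0xd520d500d4e0d4d0d4a0d48000507) (nat_lit 0x48a0) (nat_lit 7))
 (.p (nat_lit 0x3893387d02) (nat_lit 0x7900a000000) (nat_lit 35)))
 (.p (nat_lit 0x2520251c251a25180f930f8f06) (nat_lit 0x2800019a4) (nat_lit 14)))
 (.n (.n (.p (nat_lit 0x23d10e7002) (nat_lit 0x88a2) (nat_lit 5))
 (.p (nat_lit 0x3a2538cd37ad03) (nat_lit 0xa5000000040) (nat_lit 43)))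
 (.p (nat_lit 0x187a187818761872187011a906) (nat_lit 0x40001488) (nat_lit 17)))))

def c256_227 : Tr := .n c512_227 c512_483

def c128_99 : Tr := .n c256_99 c256_227

def c64_35 : Tr := .n c128_35 c128_99

def c32_3 : Tr := .n c64_3 c64_35

def c512_19 : Tr :=
 .n (.n (.n (.n (.n (.p (nat_lit 0xccf001602) (nat_lit 0xa000) (nat_lit 1))
 (.p (nat_lit 0x12bd122d02) (nat_lit 0x4b69) (nat_lit 19)))
 (.n (.p (nat_lit 0x188618841882187c0e6d0e6b06) (nat_lit 0x60000da2) (nat_lit 17))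
 (.p (nat_lit 0x39de17b302) (nat_lit 0x2840) (nat_lit 45))))
 (.n (.n (.p (nat_lit 0x25a425a225a0259e0d530d4906) (nat_lit 0x2100009a0) (nat_lit 14))
 (.p (nat_lit 0x3897388302) (nat_lit 0x89c0a000000) (nat_lit 35)))
 (.p (nat_lit 0x33f033b0339013004) (nat_lit 0x2b4004) (nat_lit 23))))
 (.n (.n (.n (.p (nat_lit 0x24782476247224700d170d1106) (nat_lit 0x240001060) (nat_lit 16))
 (.l (nat_lit 0x2000000000000550008) (nat_lit 0x2461) (nat_lit 29)))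
 (.p (nat_lit 0x12d00360034003004) (nat_lit 0xd0008004) (nat_lit 20)))
 (.n (.n (.p (nat_lit 0x2ddd000d02) (nat_lit 0xa1) (nat_lit 33))
 (.p (nat_lit 0x3991397502) (nat_lit 0xb2008000800) (nat_lit 35)))
 (.p (nat_lit 0x21e621e421e021de21dc102b06) (nat_lit 0x80000306) (nat_lit 17)))))
 (.n (.n (.n (.n (.p (nat_lit 0x190a1908190619040ceb0ce906) (nat_lit 0x30001c20) (nat_lit 17))
 (.p (nat_lit 0x2a2714c602) (nat_lit 0xa02e) (nat_lit 5)))
 (.n (.p (nat_lit 0xeeb0ed302) (nat_lit 0xa863) (nat_lit 18))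
 (.p (nat_lit 0x39f93929380f03) (nat_lit 0x95400004080) (nat_lit 44))))
 (.n (.n (.p (nat_lit 0xe2b0d9b02) (nat_lit 0xaa41) (nat_lit 19))
 (.p (nat_lit 0x38e438de38dc38d838d638d4223307) (nat_lit 0x2000800) (nat_lit 38)))
 (.p (nat_lit 0xfce0fcd0fca0fc80fc60fc4004507) (nat_lit 0x8045) (nat_lit 7))))
 (.n (.n (.n (.p (nat_lit 0x254625442542253c0d290d2706) (nat_lit 0x60000380) (nat_lit 14))
 (.p (nat_lit 0x380d37fd02) (nat_lit 0xa3004000000) (nat_lit 35)))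
 (.p (nat_lit 0x14d10f3102) (nat_lit 0x8c24) (nat_lit 19)))
 (.n (.n (.p (nat_lit 0xec70e3702) (nat_lit 0xa362) (nat_lit 19))
 (.p (nat_lit 0x39c538b3379303) (nat_lit 0x39c00000000) (nat_lit 44)))
 (.p (nat_lit 0x1aa01a9e1a9c1a9a1a98107706) (nat_lit 0x200001366) (nat_lit 17)))))

def c512_275 : Tr :=
 .n (.n (.n (.n (.n (.p (nat_lit 0xcef0cd702) (nat_lit 0x6800) (nat_lit 18))
 (.p (nat_lit 0x243e243c243a24382436138506) (nat_lit 0x1000040c) (nat_lit 14)))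
 (.n (.p (nat_lit 0x2e9f002702) (nat_lit 0x2023) (nat_lit 33))
 (.p (nat_lit 0x3a37393d381f03) (nat_lit 0x21400006060) (nat_lit 43))))
 (.n (.n (.p (nat_lit 0x1c441c421c401c3e1c3c0d7706) (nat_lit 0x200000321) (nat_lit 15))
 (.p (nat_lit 0x38cd38b702) (nat_lit 0xa2400000800) (nat_lit 35)))
 (.p (nat_lit 0x14bb0fab02) (nat_lit 0xab05) (nat_lit 19))))
 (.n (.n (.n (.p (nat_lit 0x19ee19e819e619e40d210d1f06) (nat_lit 0x180000a60) (nat_lit 15))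
 (.p (nat_lit 0x379f379502) (nat_lit 0x6a000000000) (nat_lit 35)))
 (.p (nat_lit 0x17ea17e617e217e00f190f1506) (nat_lit 0x140001c04) (nat_lit 15)))
 (.n (.n (.p (nat_lit 0x18b30e0202) (nat_lit 0x6022) (nat_lit 4))
 (.p (nat_lit 0x39b539a502) (nat_lit 0x8200a000800) (nat_lit 35)))
 (.p (nat_lit 0x223a2236223422322230105d06) (nat_lit 0x100001046) (nat_lit 14)))))
 (.n (.n (.n (.n (.p (nat_lit 0x192e192a192619240d090d0506) (nat_lit 0x140000840) (nat_lit 15))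
 (.p (nat_lit 0x250a250625042502250015fd06) (nat_lit 0x100001050) (nat_lit 14)))
 (.n (.p (nat_lit 0x17a217a0179c179a17980ef306) (nat_lit 0x800011a3) (nat_lit 15))
 (.p (nat_lit 0x3a09397b386303) (nat_lit 0x5bc000080a0) (nat_lit 44))))
 (.n (.n (.p (nat_lit 0x229a2296229422920db10da906) (nat_lit 0x110001c61) (nat_lit 14))
 (.p (nat_lit 0x3943393f02) (nat_lit 0x39406000800) (nat_lit 35)))
 (.p (nat_lit 0x10830ff302) (nat_lit 0xa865) (nat_lit 19))))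
 (.n (.n (.n (.p (nat_lit 0x25822580257e257c0d330d3106) (nat_lit 0x30001d80) (nat_lit 14))
 (.p (nat_lit 0x385b384f02) (nat_lit 0x59408000000) (nat_lit 35)))
 (.p (nat_lit 0x24d70f7602) (nat_lit 0x6884) (nat_lit 5)))
 (.n (.n (.p (nat_lit 0x2e67001f02) (nat_lit 0x6882) (nat_lit 33))
 (.p (nat_lit 0x39d5391937f903) (nat_lit 0x52800004020) (nat_lit 44)))
 (.p (nat_lit 0x10ab103302) (nat_lit 0x28a6) (nat_lit 18)))))

def c256_19 : Tr := .n c512_19 c512_275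

def c512_147 : Tr :=
 .n (.n (.n (.n (.n (.p (nat_lit 0x22ee22ec22e822e60cd70cd106) (nat_lit 0x90000a00) (nat_lit 14))
 (.p (nat_lit 0x24622460245e245a245812d506) (nat_lit 0x40001d8a) (nat_lit 14)))
 (.n (.p (nat_lit 0x23d223ce23ca23c80e7d0e7906) (nat_lit 0x140001503) (nat_lit 14))
 (.p (nat_lit 0x3a2f3997387703) (nat_lit 0x840000a040) (nat_lit 43))))
 (.n (.n (.p (nat_lit 0x10190d4902) (nat_lit 0xca0) (nat_lit 19))
 (.p (nat_lit 0x38c738a502) (nat_lit 0x88000000800) (nat_lit 35)))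
 (.p (nat_lit 0x1b181b161b141b121b100f9f06) (nat_lit 0x200001205) (nat_lit 15))))
 (.n (.n (.n (.p (nat_lit 0xf550d1502) (nat_lit 0x8360) (nat_lit 19))
 (.p (nat_lit 0xc500440042003e003c000b06) (nat_lit 0x2a525) (nat_lit 29)))
 (.p (nat_lit 0x138f0f0f02) (nat_lit 0xa204) (nat_lit 19)))
 (.n (.n (.p (nat_lit 0x273026700fe03) (nat_lit 0xa010001) (nat_lit 22))
 (.p (nat_lit 0x39a9399702) (nat_lit 0x5040a000800) (nat_lit 35)))
 (.p (nat_lit 0x15e7104702) (nat_lit 0xa426) (nat_lit 19)))))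
 (.n (.n (.n (.n (.p (nat_lit 0x23f623f223f023ec0cfd0cf706) (nat_lit 0x120000140) (nat_lit 14))
 (.p (nat_lit 0x2009155802) (nat_lit 0x82f) (nat_lit 4)))
 (.n (.p (nat_lit 0x2ef1002502) (nat_lit 0x883) (nat_lit 33))
 (.p (nat_lit 0x3a0338ff37b503) (nat_lit 0xa80000020a0) (nat_lit 44))))
 (.n (.n (.p (nat_lit 0x10ff0d9f02) (nat_lit 0x2061) (nat_lit 19))
 (.p (nat_lit 0x3931391f02) (nat_lit 0xb3404000800) (nat_lit 35)))
 (.p (nat_lit 0xff10fd902) (nat_lit 0x8845) (nat_lit 18))))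
 (.n (.n (.n (.p (nat_lit 0x24fe24fc24fa24f40d350d3306) (nat_lit 0x60000880) (nat_lit 14))
 (.p (nat_lit 0x382f382102) (nat_lit 0x69806000000) (nat_lit 35)))
 (.p (nat_lit 0x1a030f5202) (nat_lit 0x6064) (nat_lit 4)))
 (.n (.n (.p (nat_lit 0x2e5f0e4e02) (nat_lit 0xa082) (nat_lit 32))
 (.p (nat_lit 0x3a13393b382103) (nat_lit 0x19800006000) (nat_lit 43)))
 (.p (nat_lit 0x3097108602) (nat_lit 0x2086) (nat_lit 32)))))

def c512_403 : Tr :=
 .n (.n (.n (.n (.n (.p (nat_lit 0x224d0cec02) (nat_lit 0x4820) (nat_lit 5))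
 (.p (nat_lit 0x14a9141902) (nat_lit 0x450d) (nat_lit 19)))
 (.n (.p (nat_lit 0xf350ea502) (nat_lit 0x443) (nat_lit 19))
 (.p (nat_lit 0x3a3b399f388503) (nat_lit 0x2a00000a060) (nat_lit 43))))
 (.n (.n (.p (nat_lit 0xd8e0d8c0d8b0d890d860d84027a0013001109) (nat_lit 0x34041) (nat_lit 13))
 (.p (nat_lit 0x38f938d702) (nat_lit 0x90402000800) (nat_lit 35)))
 (.p (nat_lit 0x1a730fc202) (nat_lit 0xa825) (nat_lit 4))))
 (.n (.n (.n (.p (nat_lit 0x107f0d1f02) (nat_lit 0x6d60) (nat_lit 19))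
 (.p (nat_lit 0x37c537bb02) (nat_lit 0x40c02000000) (nat_lit 35)))
 (.p (nat_lit 0x2460245e245c245a0f270f1d06) (nat_lit 0x210001524) (nat_lit 14)))
 (.n (.n (.p (nat_lit 0xe2b0e280e260e240e220e20002307) (nat_lit 0xa842) (nat_lit 7))
 (.p (nat_lit 0x38dc38d638d437bd04) (nat_lit 0x1002000000) (nat_lit 36)))
 (.p (nat_lit 0x17a2179e179c179a1798106906) (nat_lit 0x100001946) (nat_lit 15)))))
 (.n (.n (.n (.n (.p (nat_lit 0x24522450244e244c0d0b0d0906) (nat_lit 0x300000d40) (nat_lit 16))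
 (.p (nat_lit 0x185418521850184e184c171f06) (nat_lit 0x200000352) (nat_lit 15)))
 (.p (nat_lit 0x17ba17b817b617b417b20ef906) (nat_lit 0x10001aa3) (nat_lit 17)))
 (.n (.n (.p (nat_lit 0xdd70dbf02) (nat_lit 0xa081) (nat_lit 18))
 (.p (nat_lit 0x3969396702) (nat_lit 0x10408000800) (nat_lit 35)))
 (.p (nat_lit 0x10221020101e101d101a1018004107) (nat_lit 0x48a5) (nat_lit 7))))
 (.n (.n (.n (.p (nat_lit 0x25c625c425c225c00d470d4506) (nat_lit 0x3000012a0) (nat_lit 16))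
 (.p (nat_lit 0x3881387502) (nat_lit 0x3000a000000) (nat_lit 35)))
 (.p (nat_lit 0xf810f0902) (nat_lit 0x40a4) (nat_lit 18)))
 (.n (.n (.p (nat_lit 0x19130e6202) (nat_lit 0x60a2) (nat_lit 4))
 (.p (nat_lit 0x3a21398d386f03) (nat_lit 0xa5400008020) (nat_lit 43)))
 (.p (nat_lit 0x26f5119402) (nat_lit 0x8068) (nat_lit 5)))))

def c256_147 : Tr := .n c512_147 c512_403

def c128_19 : Tr := .n c256_19 c256_147

def c512_83 : Tr :=
 .n (.n (.n (.n (.n (.p (nat_lit 0xf950cc502) (nat_lit 0x400) (nat_lit 19))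
 (.p (nat_lit 0x282312c202) (nat_lit 0xa86a) (nat_lit 5)))
 (.n (.p (nat_lit 0x11d002a0028002604) (nat_lit 0xe0008003) (nat_lit 20))
 (.p (nat_lit 0x3a2d3969384b03) (nat_lit 0x10c00008040) (nat_lit 43))))
 (.n (.n (.p (nat_lit 0x1b321b301b2e1b2c1b280d4b06) (nat_lit 0x20001ba0) (nat_lit 15))
 (.p (nat_lit 0x3893389102) (nat_lit 0x7b80a000000) (nat_lit 35)))
 (.p (nat_lit 0x13d00460040003e04) (nat_lit 0x260008005) (nat_lit 20))))
 (.n (.n (.n (.p (nat_lit 0x1a1a1a181a161a140d170d1506) (nat_lit 0x300000460) (nat_lit 15))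
 (.p (nat_lit 0x875002502) (nat_lit 0x83) (nat_lit 31)))
 (.p (nat_lit 0x179617941792178e178c0f0906) (nat_lit 0x40000104) (nat_lit 15)))
 (.n (.n (.p (nat_lit 0x233f0dde02) (nat_lit 0x68a1) (nat_lit 5))
 (.p (nat_lit 0x398b398502) (nat_lit 0x9c008000800) (nat_lit 35)))
 (.p (nat_lit 0x259d103c02) (nat_lit 0x26) (nat_lit 5)))))
 (.n (.n (.n (.n (.p (nat_lit 0xe110cf102) (nat_lit 0x8920) (nat_lit 19))
 (.p (nat_lit 0x1f8714d602) (nat_lit 0x204e) (nat_lit 4)))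
 (.n (.p (nat_lit 0x19ca19c819c419c00edb0ed706) (nat_lit 0xa0001083) (nat_lit 15))
 (.p (nat_lit 0x39fd3983386303) (nat_lit 0x7bc00008080) (nat_lit 44))))
 (.n (.n (.p (nat_lit 0x2250224e224c224a22480da706) (nat_lit 0x200001161) (nat_lit 14))
 (.p (nat_lit 0x3921390f02) (nat_lit 0x71404000800) (nat_lit 35)))
 (.p (nat_lit 0x2fe30fd202) (nat_lit 0x2845) (nat_lit 32))))
 (.n (.n (.n (.p (nat_lit 0xedd0d2d02) (nat_lit 0x8280) (nat_lit 19))
 (.p (nat_lit 0x3839381502) (nat_lit 0x90006000000) (nat_lit 35)))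
 (.p (nat_lit 0xf530f3b02) (nat_lit 0x6044) (nat_lit 18)))
 (.n (.n (.p (nat_lit 0x244a24482446244424400e3b06) (nat_lit 0x20001c62) (nat_lit 14))
 (.p (nat_lit 0x39c738d537bd03) (nat_lit 0x1000002000) (nat_lit 44)))
 (.p (nat_lit 0x10821081107e107d107a107803e40051004d09) (nat_lit 0x44866) (nat_lit 13)))))

def c512_339 : Tr :=
 .n (.n (.n (.n (.n (.p (nat_lit 0x18cc18ca18c618c40ce70ce106) (nat_lit 0x240000220) (nat_lit 15))
 (.p (nat_lit 0x1407003a02) (nat_lit 0xa0ac) (nat_lit 1)))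
 (.n (.p (nat_lit 0x23ff0e9e02) (nat_lit 0x6823) (nat_lit 5))
 (.p (nat_lit 0x39f1397b386303) (nat_lit 0x5bc00008060) (nat_lit 44))))
 (.n (.n (.p (nat_lit 0x270026fe26fc26f80d830d7b06) (nat_lit 0x220001b21) (nat_lit 14))
 (.p (nat_lit 0x38cd38c702) (nat_lit 0xa4400000800) (nat_lit 35)))
 (.p (nat_lit 0x17d217ce17cc17ca17c80fb506) (nat_lit 0x100001325) (nat_lit 15))))
 (.n (.n (.n (.p (nat_lit 0x24e624e224e024de24dc0d2106) (nat_lit 0x100000d60) (nat_lit 14))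
 (.p (nat_lit 0x37b137ad02) (nat_lit 0xb5000000000) (nat_lit 35)))
 (.p (nat_lit 0x19d10f2002) (nat_lit 0x4024) (nat_lit 4)))
 (.n (.n (.p (nat_lit 0x18cb0e1a02) (nat_lit 0x6042) (nat_lit 4))
 (.p (nat_lit 0x39bf39b502) (nat_lit 0xac00a000800) (nat_lit 35)))
 (.p (nat_lit 0x22b222b022ae22a81059105706) (nat_lit 0x60001546) (nat_lit 16)))))
 (.n (.n (.n (.n (.p (nat_lit 0x242624222420241e241c0d0906) (nat_lit 0x100000b40) (nat_lit 14))
 (.p (nat_lit 0x169f160f02) (nat_lit 0x2070) (nat_lit 19)))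
 (.n (.p (nat_lit 0xef50e7d02) (nat_lit 0x80a3) (nat_lit 18))
 (.p (nat_lit 0x3a5339a9389103) (nat_lit 0x5380000a0a0) (nat_lit 43))))
 (.n (.n (.p (nat_lit 0x186d0dbc02) (nat_lit 0x8081) (nat_lit 4))
 (.p (nat_lit 0x3955394702) (nat_lit 0x82406000800) (nat_lit 35)))
 (.p (nat_lit 0x1ac1101002) (nat_lit 0x40a5) (nat_lit 4))))
 (.n (.n (.n (.p (nat_lit 0x22a30d4202) (nat_lit 0x60a0) (nat_lit 5))
 (.p (nat_lit 0x386d385902) (nat_lit 0xa2808000000) (nat_lit 35)))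
 (.p (nat_lit 0x24df0f7e02) (nat_lit 0x20a4) (nat_lit 5)))
 (.n (.n (.p (nat_lit 0x17de17dc17d817d617d40e5706) (nat_lit 0x80000c82) (nat_lit 17))
 (.p (nat_lit 0x3a1f3951383303) (nat_lit 0x73c00006020) (nat_lit 43)))
 (.p (nat_lit 0x1bb61bb41bb21bb01bae1bac06) (nat_lit 0x67) (nat_lit 2)))))

def c256_83 : Tr := .n c512_83 c512_339

def c512_211 : Tr :=
 .n (.n (.n (.n (.n (.p (nat_lit 0x1860185c185a18580cdb0cd706) (nat_lit 0x280001b00) (nat_lit 17))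
 (.p (nat_lit 0x235a235623542352235012f106) (nat_lit 0x1000018aa) (nat_lit 14)))
 (.n (.p (nat_lit 0x2396239423922390238e0e8106) (nat_lit 0x10000b03) (nat_lit 16))
 (.p (nat_lit 0x3a3338d537b703) (nat_lit 0x400002060) (nat_lit 43))))
 (.n (.n (.p (nat_lit 0xdeb0d5b02) (nat_lit 0x6201) (nat_lit 19))
 (.p (nat_lit 0x38c738ad02) (nat_lit 0x89000000800) (nat_lit 35)))
 (.p (nat_lit 0x1a5b0faa02) (nat_lit 0xa805) (nat_lit 4))))
 (.n (.n (.n (.p (nat_lit 0x246c246a246624640d230d1d06) (nat_lit 0x240000860) (nat_lit 16))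
 (.p (nat_lit 0xbfb00c302) (nat_lit 0x2030) (nat_lit 31)))
 (.p (nat_lit 0x2252224e224c224a22480f1906) (nat_lit 0x100001904) (nat_lit 14)))
 (.n (.n (.p (nat_lit 0xe7b0deb02) (nat_lit 0x6302) (nat_lit 19))
 (.p (nat_lit 0x39b1399d02) (nat_lit 0x7100a000800) (nat_lit 35)))
 (.p (nat_lit 0x23122310230c230a2308104f06) (nat_lit 0x80001b26) (nat_lit 14)))))
 (.n (.n (.n (.n (.p (nat_lit 0xd170cff02) (nat_lit 0xa040) (nat_lit 18))
 (.p (nat_lit 0x1b021b001afe1afc1afa15dd06) (nat_lit 0x10001130) (nat_lit 17)))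
 (.n (.p (nat_lit 0x24e624e424e224de24dc0ee506) (nat_lit 0x40000d83) (nat_lit 14))
 (.p (nat_lit 0x3a4f3941382103) (nat_lit 0x318000060a0) (nat_lit 43))))
 (.n (.n (.p (nat_lit 0x178a17861784178217800db106) (nat_lit 0x100001861) (nat_lit 17))
 (.p (nat_lit 0x395d393502) (nat_lit 0xa0006000800) (nat_lit 35)))
 (.p (nat_lit 0x106d0fdd02) (nat_lit 0x65) (nat_lit 19))))
 (.n (.n (.n (.p (nat_lit 0x1a7e1a7c1a7a1a761a740d3506) (nat_lit 0x40000a80) (nat_lit 15))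
 (.p (nat_lit 0x3855384702) (nat_lit 0x40408000000) (nat_lit 35)))
 (.p (nat_lit 0xf6e0f6c0f6b0f680f660f64003707) (nat_lit 0x6084) (nat_lit 7)))
 (.n (.n (.p (nat_lit 0x228c228a2288228622840e4f06) (nat_lit 0x200000482) (nat_lit 16))
 (.p (nat_lit 0x3a1739a7388f03) (nat_lit 0x4b40000a000) (nat_lit 43)))
 (.p (nat_lit 0x109b00ca02) (nat_lit 0xa886) (nat_lit 1)))))

def c512_467 : Tr :=
 .n (.n (.n (.n (.n (.p (nat_lit 0x237c237a2378237623740cf306) (nat_lit 0x200000a20) (nat_lit 14))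
 (.p (nat_lit 0x1a721a701a6c1a6a1a6814ab06) (nat_lit 0x8000110e) (nat_lit 15)))
 (.n (.p (nat_lit 0x1eb61eb41eb21eae1eac0ec106) (nat_lit 0x40000563) (nat_lit 15))
 (.p (nat_lit 0x39f538bf37a503) (nat_lit 0x6c000000080) (nat_lit 44))))
 (.n (.n (.p (nat_lit 0x18450d9402) (nat_lit 0x4841) (nat_lit 4))
 (.p (nat_lit 0x390338df02) (nat_lit 0xb9402000800) (nat_lit 35)))
 (.p (nat_lit 0x17ea17e617e417e217e00fc106) (nat_lit 0x100001c25) (nat_lit 17))))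
 (.n (.n (.n (.p (nat_lit 0x1a581a561a541a521a500d2f06) (nat_lit 0x200001080) (nat_lit 15))
 (.p (nat_lit 0x380537e502) (nat_lit 0x80004000000) (nat_lit 35)))
 (.p (nat_lit 0x192e192c192a192619240f2d06) (nat_lit 0x40000824) (nat_lit 15)))
 (.n (.n (.p (nat_lit 0x2e470e3602) (nat_lit 0xa062) (nat_lit 32))
 (.p (nat_lit 0x395e395c39583956383f05) (nat_lit 0x5406000000) (nat_lit 36)))
 (.p (nat_lit 0x106d003c02) (nat_lit 0x66) (nat_lit 1)))))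
 (.n (.n (.n (.n (.p (nat_lit 0xd0d003002) (nat_lit 0x60) (nat_lit 1))
 (.p (nat_lit 0x25bc25ba25b825b625b4173706) (nat_lit 0x200000272) (nat_lit 14)))
 (.p (nat_lit 0x3030301011e03) (nat_lit 0x2058003) (nat_lit 22)))
 (.n (.n (.p (nat_lit 0x258e258a2588258625840dc906) (nat_lit 0x100000881) (nat_lit 14))
 (.p (nat_lit 0x3985396d02) (nat_lit 0x81008000800) (nat_lit 35)))
 (.p (nat_lit 0x3ab0387013e03) (nat_lit 0xa030005) (nat_lit 22))))
 (.n (.n (.n (.p (nat_lit 0x22b222b022ae22ac22aa22a806) (nat_lit 0x8a0) (nat_lit 3))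
 (.p (nat_lit 0x3893387b02) (nat_lit 0x78c0a000000) (nat_lit 35)))
 (.p (nat_lit 0x250a2508250425000f8f0f8b06) (nat_lit 0xa00018a4) (nat_lit 14)))
 (.n (.n (.p (nat_lit 0x23cb0e6a02) (nat_lit 0x28a2) (nat_lit 5))
 (.p (nat_lit 0x39dd38bb37a103) (nat_lit 0x5b800000040) (nat_lit 44)))
 (.p (nat_lit 0x11ae11ad11aa11a811a611a4006907) (nat_lit 0x8088) (nat_lit 7)))))

def c256_211 : Tr := .n c512_211 c512_467

def c128_83 : Tr := .n c256_83 c256_211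

def c64_19 : Tr := .n c128_19 c128_83

def c512_51 : Tr :=
 .n (.n (.n (.n (.n (.p (nat_lit 0x231e231c231a23180cc70cc506) (nat_lit 0x30000400) (nat_lit 14))
 (.p (nat_lit 0x27b1125002) (nat_lit 0x40a9) (nat_lit 5)))
 (.n (.p (nat_lit 0x2d302b7010e03) (nat_lit 0x6052002) (nat_lit 22))
 (.p (nat_lit 0x39e3393f382103) (nat_lit 0x29800006040) (nat_lit 44))))
 (.n (.n (.p (nat_lit 0x25bc25ba25b625b40d530d4d06) (nat_lit 0x240000aa0) (nat_lit 16))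
 (.p (nat_lit 0x38a1388902) (nat_lit 0xb280a000000) (nat_lit 35)))
 (.p (nat_lit 0x36f0349012e03) (nat_lit 0x8052004) (nat_lit 22))))
 (.n (.n (.n (.p (nat_lit 0x249e249c249824960d130d0d06) (nat_lit 0x90000260) (nat_lit 14))
 (.p (nat_lit 0x8280826082408220820010c000b07) (nat_lit 0xa562) (nat_lit 28)))
 (.p (nat_lit 0x2f150f0402) (nat_lit 0x4) (nat_lit 32)))
 (.n (.n (.p (nat_lit 0x2ca22ca02c9e2c9c2c980dcf06) (nat_lit 0x200013a1) (nat_lit 14))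
 (.p (nat_lit 0x398d397b02) (nat_lit 0xa2c08000800) (nat_lit 35)))
 (.p (nat_lit 0x3049005102) (nat_lit 0x8806) (nat_lit 33)))))
 (.n (.n (.n (.n (.p (nat_lit 0x19221920191e191c191a0ce906) (nat_lit 0x10001d20) (nat_lit 15))
 (.p (nat_lit 0x34df00af02) (nat_lit 0x682e) (nat_lit 33)))
 (.n (.p (nat_lit 0x2eeb002b02) (nat_lit 0x6083) (nat_lit 33))
 (.p (nat_lit 0x3a42160702) (nat_lit 0x6d80) (nat_lit 48))))
 (.n (.n (.p (nat_lit 0x18550da402) (nat_lit 0x8061) (nat_lit 4))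
 (.p (nat_lit 0x391f390702) (nat_lit 0x68404000800) (nat_lit 35)))
 (.p (nat_lit 0x24f224f024ee24e80fc90fc706) (nat_lit 0x60001545) (nat_lit 16))))
 (.n (.n (.n (.p (nat_lit 0x1ac41ac21abe1abc0d2f0d2906) (nat_lit 0x240000580) (nat_lit 15))
 (.p (nat_lit 0x380d380902) (nat_lit 0xa4804000000) (nat_lit 35)))
 (.p (nat_lit 0x249b19eb03630349012e05) (nat_lit 0x10d6044) (nat_lit 9)))
 (.n (.n (.p (nat_lit 0xe430e400e3e0e3c0e3a0e38002307) (nat_lit 0xa862) (nat_lit 7))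
 (.p (nat_lit 0x39c538c337ab03) (nat_lit 0x7cc00000000) (nat_lit 44)))
 (.p (nat_lit 0x25db107a02) (nat_lit 0x2866) (nat_lit 5)))))

def c512_307 : Tr :=
 .n (.n (.n (.n (.n (.p (nat_lit 0xfab0cdb02) (nat_lit 0xac00) (nat_lit 19))
 (.p (nat_lit 0x28fd139c02) (nat_lit 0x2c) (nat_lit 5)))
 (.n (.p (nat_lit 0x284428422840283e283c0e9706) (nat_lit 0x200000523) (nat_lit 14))
 (.p (nat_lit 0x3a39398f384503) (nat_lit 0xa8000008060) (nat_lit 43))))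
 (.n (.n (.p (nat_lit 0x2d8b000f02) (nat_lit 0x2821) (nat_lit 33))
 (.p (nat_lit 0x38cd38bd02) (nat_lit 0xa3000000800) (nat_lit 35)))
 (.p (nat_lit 0x222e222a222822240fb50faf06) (nat_lit 0x120000025) (nat_lit 14))))
 (.n (.n (.n (.p (nat_lit 0x24ce24cc24c824c60d1f0d1906) (nat_lit 0x90000c60) (nat_lit 14))
 (.p (nat_lit 0x37a7379f02) (nat_lit 0x8b400000000) (nat_lit 35)))
 (.p (nat_lit 0xf330f1b02) (nat_lit 0xa804) (nat_lit 18)))
 (.n (.n (.p (nat_lit 0x18c10e1002) (nat_lit 0x8822) (nat_lit 4))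
 (.p (nat_lit 0x39b939ab02) (nat_lit 0x92c0a000800) (nat_lit 35)))
 (.p (nat_lit 0x17d217d017ce17ca17c8105906) (nat_lit 0x40001346) (nat_lit 15)))))
 (.n (.n (.n (.n (.p (nat_lit 0x194419421940193e193c0d0b06) (nat_lit 0x200000940) (nat_lit 15))
 (.p (nat_lit 0x20bb160a02) (nat_lit 0xa850) (nat_lit 4)))
 (.n (.p (nat_lit 0x2282227e227c227a22780ef506) (nat_lit 0x1000013a3) (nat_lit 14))
 (.p (nat_lit 0x3a0b3995387503) (nat_lit 0xa0a0) (nat_lit 44))))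
 (.n (.n (.p (nat_lit 0x10790da902) (nat_lit 0xc61) (nat_lit 19))
 (.p (nat_lit 0x3961394102) (nat_lit 0xb1806000800) (nat_lit 35)))
 (.p (nat_lit 0x1ab7100602) (nat_lit 0x6885) (nat_lit 4))))
 (.n (.n (.n (.p (nat_lit 0xf710d3102) (nat_lit 0xb80) (nat_lit 19))
 (.p (nat_lit 0x385f385502) (nat_lit 0x6a008000000) (nat_lit 35)))
 (.p (nat_lit 0x2a262a242a202a1e2a1c0f7706) (nat_lit 0x80000984) (nat_lit 16)))
 (.n (.n (.p (nat_lit 0x17a0179e179a17980e5b0e5506) (nat_lit 0x240001982) (nat_lit 17))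
 (.p (nat_lit 0x3a1f393b381b03) (nat_lit 0x18c00006020) (nat_lit 43)))
 (.p (nat_lit 0x3e503d903cd015004) (nat_lit 0x8110006) (nat_lit 23)))))

def c256_51 : Tr := .n c512_51 c512_307

def c512_179 : Tr :=
 .n (.n (.n (.n (.n (.p (nat_lit 0x23062304230022fe0cd70cd106) (nat_lit 0x90000b00) (nat_lit 16))
 (.p (nat_lit 0x23ba23b823b623b423b212dd06) (nat_lit 0x100014aa) (nat_lit 14)))
 (.n (.p (nat_lit 0x23e70e8602) (nat_lit 0x6803) (nat_lit 5))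
 (.p (nat_lit 0x39e739b3389b03) (nat_lit 0x7cc0000a040) (nat_lit 44))))
 (.n (.n (.p (nat_lit 0x101001002) (nat_lit 0x4000c001) (nat_lit 20))
 (.p (nat_lit 0x38b938a902) (nat_lit 0x50800000800) (nat_lit 35)))
 (.p (nat_lit 0x15cd0f9d02) (nat_lit 0x8505) (nat_lit 19))))
 (.n (.n (.n (.p (nat_lit 0xd1f003602) (nat_lit 0x6860) (nat_lit 1))
 (.l (nat_lit 0x445020000000000000200) (nat_lit 0x28346) (nat_lit 29)))
 (.p (nat_lit 0xf1a0f180f170f140f120f10003707) (nat_lit 0x6804) (nat_lit 7)))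
 (.n (.n (.p (nat_lit 0xdee0dec0dea0de90de60de4001d07) (nat_lit 0x4002) (nat_lit 7))
 (.p (nat_lit 0x39bf399902) (nat_lit 0xa880a000800) (nat_lit 35)))
 (.p (nat_lit 0x10521051104e104c104a1048005107) (nat_lit 0x8826) (nat_lit 7)))))
 (.n (.n (.n (.n (.p (nat_lit 0x198e198c198a19880cf70cf506) (nat_lit 0x30000440) (nat_lit 15))
 (.p (nat_lit 0x207515c402) (nat_lit 0x10) (nat_lit 4)))
 (.n (.p (nat_lit 0xeea0ee90ee70ee40ee20ee00318002d002b09) (nat_lit 0x46883) (nat_lit 13))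
 (.p (nat_lit 0x3a053921380903) (nat_lit 0x748000040a0) (nat_lit 44))))
 (.n (.n (.p (nat_lit 0x230d0dac02) (nat_lit 0x4861) (nat_lit 5))
 (.p (nat_lit 0x392d392b02) (nat_lit 0xa4c04000800) (nat_lit 35)))
 (.p (nat_lit 0x25411a91039d038f013e05) (nat_lit 0xcc4065) (nat_lit 9))))
 (.n (.n (.n (.p (nat_lit 0x251625122510250e250c0d3906) (nat_lit 0x100000980) (nat_lit 16))
 (.p (nat_lit 0x383d382d02) (nat_lit 0xa3006000000) (nat_lit 35)))
 (.p (nat_lit 0x1a130f6202) (nat_lit 0xa864) (nat_lit 4)))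
 (.n (.n (.p (nat_lit 0x225c225a2258225622540e4f06) (nat_lit 0x200000282) (nat_lit 14))
 (.p (nat_lit 0x3a153977385d03) (nat_lit 0x4b000008000) (nat_lit 43)))
 (.p (nat_lit 0x209420922090208e108f108506) (nat_lit 0x210000186) (nat_lit 17)))))

def c512_435 : Tr :=
 .n (.n (.n (.n (.n (.p (nat_lit 0x189a1898189618940cf30cf106) (nat_lit 0x300000820) (nat_lit 15))
 (.p (nat_lit 0x2a0314a202) (nat_lit 0xa8ad) (nat_lit 5)))
 (.n (.p (nat_lit 0x241d0ebc02) (nat_lit 0x63) (nat_lit 5))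
 (.p (nat_lit 0x39f339bb38a303) (nat_lit 0x9dc0000a060) (nat_lit 44))))
 (.n (.n (.p (nat_lit 0x23d223cc23ca23c80d8d0d8b06) (nat_lit 0x180001541) (nat_lit 16))
 (.p (nat_lit 0x38e738dd02) (nat_lit 0x49002000800) (nat_lit 35)))
 (.p (nat_lit 0x225a2258225622540fc30fc106) (nat_lit 0x300000a25) (nat_lit 14))))
 (.n (.n (.n (.p (nat_lit 0xd2f0d2c0d2a0d280d260d24000b07) (nat_lit 0xa080) (nat_lit 7))
 (.p (nat_lit 0x37c737c502) (nat_lit 0x4a002000000) (nat_lit 35)))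
 (.p (nat_lit 0x248b19db034b0339012e05) (nat_lit 0x852824) (nat_lit 9)))
 (.n (.n (.p (nat_lit 0xeb70e2702) (nat_lit 0x6b42) (nat_lit 19))
 (.p (nat_lit 0x391c3916391437fd04) (nat_lit 0x3004000000) (nat_lit 36)))
 (.p (nat_lit 0x22982296229422922290106b06) (nat_lit 0x200001c46) (nat_lit 14)))))
 (.n (.n (.n (.n (.p (nat_lit 0xd9b0d0b02) (nat_lit 0xa840) (nat_lit 19))
 (.p (nat_lit 0x23042302230022fe22fc172b06) (nat_lit 0x200000b52) (nat_lit 14)))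
 (.p (nat_lit 0x17ea17e617e417e217e00f0106) (nat_lit 0x100001ca3) (nat_lit 15)))
 (.n (.n (.p (nat_lit 0x18750dc402) (nat_lit 0x4881) (nat_lit 4))
 (.p (nat_lit 0x3987396902) (nat_lit 0x88808000800) (nat_lit 35)))
 (.p (nat_lit 0x2b5e2b582b562b541021101f06) (nat_lit 0x180000aa5) (nat_lit 16))))
 (.n (.n (.n (.p (nat_lit 0x1b621b5c1b5a1b580d450d4306) (nat_lit 0x1800015a0) (nat_lit 17))
 (.p (nat_lit 0x38a3387702) (nat_lit 0xb840a000000) (nat_lit 35)))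
 (.p (nat_lit 0xf8f004202) (nat_lit 0x68a4) (nat_lit 1)))
 (.n (.n (.p (nat_lit 0x23062304230222fc0e610e5f06) (nat_lit 0x600003a2) (nat_lit 14))
 (.p (nat_lit 0x3a2339af388f03) (nat_lit 0x6b40000a020) (nat_lit 43)))
 (.p (nat_lit 0x26ff119e02) (nat_lit 0x6868) (nat_lit 5)))))

def c256_179 : Tr := .n c512_179 c512_435

def c128_51 : Tr := .n c256_51 c256_179

def c512_115 : Tr :=
 .n (.n (.n (.n (.n (.p (nat_lit 0xcda0cd90cd60cd50cd20cd002340009000509) (nat_lit 0x44800) (nat_lit 13))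
 (.p (nat_lit 0x19a419a219a0199e199c12cf06) (nat_lit 0x20000058a) (nat_lit 15)))
 (.n (.p (nat_lit 0x23df0e7e02) (nat_lit 0xa003) (nat_lit 5))
 (.p (nat_lit 0x39e53987386903) (nat_lit 0x8c800008040) (nat_lit 44))))
 (.n (.n (.p (nat_lit 0x1b561b501b4e1b4c0d510d4f06) (nat_lit 0x180000da0) (nat_lit 17))
 (.p (nat_lit 0x389c389638943890388e388c177f07) (nat_lit 0xa000000) (nat_lit 37)))
 (.p (nat_lit 0xf9f005202) (nat_lit 0xa005) (nat_lit 1))))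
 (.n (.n (.n (.p (nat_lit 0x1a401a3e1a3c1a3a0d170d0d06) (nat_lit 0x210001560) (nat_lit 15))
 (.p (nat_lit 0x8c9003c02) (nat_lit 0xa4) (nat_lit 30)))
 (.p (nat_lit 0x2280227c227a22780f0f0f0b06) (nat_lit 0x280001304) (nat_lit 16)))
 (.n (.n (.p (nat_lit 0x263026100fe03) (nat_lit 0x34001) (nat_lit 22))
 (.p (nat_lit 0x398e398c3988398639843964229907) (nat_lit 0x8000880) (nat_lit 38)))
 (.p (nat_lit 0x22bc22ba22b822b622b4104706) (nat_lit 0x200000026) (nat_lit 14)))))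
 (.n (.n (.n (.n (.p (nat_lit 0x22570cf602) (nat_lit 0x2040) (nat_lit 5))
 (.p (nat_lit 0x15321531152e152c152a152800b107) (nat_lit 0x88ae) (nat_lit 7)))
 (.n (.p (nat_lit 0x1a361a341a321a301a2c0ed706) (nat_lit 0x20000583) (nat_lit 15))
 (.p (nat_lit 0x39fe17df02) (nat_lit 0xa080) (nat_lit 45))))
 (.n (.n (.p (nat_lit 0x17de17dc17d817d40da30d9f06) (nat_lit 0xa0000461) (nat_lit 15))
 (.p (nat_lit 0x392d391702) (nat_lit 0xa2404000800) (nat_lit 35)))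
 (.p (nat_lit 0x19bc19ba19b819b619b40fdb06) (nat_lit 0x200000845) (nat_lit 15))))
 (.n (.n (.n (.p (nat_lit 0xd3a0d380d360d340d330d30000307) (nat_lit 0x2880) (nat_lit 7))
 (.p (nat_lit 0x3833381d02) (nat_lit 0x79006000000) (nat_lit 35)))
 (.p (nat_lit 0xf4b0f480f460f440f420f40003b07) (nat_lit 0xa844) (nat_lit 7)))
 (.n (.n (.p (nat_lit 0xec90e3902) (nat_lit 0xb62) (nat_lit 19))
 (.p (nat_lit 0x39c60e5f02) (nat_lit 0x2200) (nat_lit 47)))
 (.p (nat_lit 0x1a8a1a881a861a821a80107d06) (nat_lit 0x40001a66) (nat_lit 15)))))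

def c512_371 : Tr :=
 .n (.n (.n (.n (.n (.p (nat_lit 0xd710ce102) (nat_lit 0x4020) (nat_lit 19))
 (.p (nat_lit 0x1ec1141002) (nat_lit 0x88ac) (nat_lit 4)))
 (.n (.p (nat_lit 0x1d941d921d901d8e1d8c0ea306) (nat_lit 0x200000d23) (nat_lit 15))
 (.p (nat_lit 0x3a38228102) (nat_lit 0x8860) (nat_lit 46))))
 (.n (.n (.p (nat_lit 0x18350d8402) (nat_lit 0x41) (nat_lit 4))
 (.p (nat_lit 0x38e338d502) (nat_lit 0x38002000800) (nat_lit 35)))
 (.p (nat_lit 0x10470fb702) (nat_lit 0xa025) (nat_lit 19))))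
 (.n (.n (.n (.p (nat_lit 0xdab0d1b02) (nat_lit 0x2860) (nat_lit 19))
 (.p (nat_lit 0x37c337b702) (nat_lit 0x38402000000) (nat_lit 35)))
 (.p (nat_lit 0x1952194e194c19480f250f1f06) (nat_lit 0x120001124) (nat_lit 17)))
 (.n (.n (.p (nat_lit 0xea70e1702) (nat_lit 0x2342) (nat_lit 19))
 (.p (nat_lit 0x39b439ae39ac39a839a639a4180307) (nat_lit 0xa0008a0) (nat_lit 37)))
 (.p (nat_lit 0x3077004f02) (nat_lit 0x6846) (nat_lit 33)))))
 (.n (.n (.n (.n (.p (nat_lit 0x244a2448244624440d030d0106) (nat_lit 0x30001c40) (nat_lit 14))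
 (.p (nat_lit 0x21ce21cc21ca21c821c621c406) (nat_lit 0x52) (nat_lit 2)))
 (.n (.p (nat_lit 0x19b30f0202) (nat_lit 0xa8a3) (nat_lit 4))
 (.p (nat_lit 0x3a0a180302) (nat_lit 0xa8a0) (nat_lit 45))))
 (.n (.n (.p (nat_lit 0x25b025ae25ac25aa0dbf0db506) (nat_lit 0x210001181) (nat_lit 16))
 (.p (nat_lit 0x395e395c3958395639543934179f07) (nat_lit 0x6000820) (nat_lit 37)))
 (.p (nat_lit 0x20ae20ac20aa20a820a6100d06) (nat_lit 0x100002a5) (nat_lit 17))))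
 (.n (.n (.n (.p (nat_lit 0x1af41af21af01aee1aec0d4706) (nat_lit 0x2000001a0) (nat_lit 15))
 (.p (nat_lit 0x386f386302) (nat_lit 0xabc08000000) (nat_lit 35)))
 (.p (nat_lit 0x1a5a1a581a561a540f7f0f7d06) (nat_lit 0x300010a4) (nat_lit 15)))
 (.n (.n (.p (nat_lit 0xe690e5102) (nat_lit 0x882) (nat_lit 18))
 (.p (nat_lit 0x39d6119f02) (nat_lit 0x6820) (nat_lit 47)))
 (.p (nat_lit 0x26e1118002) (nat_lit 0x848) (nat_lit 5)))))

def c256_115 : Tr := .n c512_115 c512_371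

def c512_243 : Tr :=
 .n (.n (.n (.n (.n (.p (nat_lit 0x187a18761874187218700cd906) (nat_lit 0x100001c00) (nat_lit 15))
 (.p (nat_lit 0x19b219b019ae19aa19a8137106) (nat_lit 0x400015ab) (nat_lit 17)))
 (.n (.p (nat_lit 0x19061904190219000e8b0e8906) (nat_lit 0x300001c03) (nat_lit 15))
 (.p (nat_lit 0x39ed3921380703) (nat_lit 0x74400004060) (nat_lit 44))))
 (.n (.n (.p (nat_lit 0x10390d6902) (nat_lit 0x8c01) (nat_lit 19))
 (.p (nat_lit 0x38bd38b302) (nat_lit 0x61c00000800) (nat_lit 35)))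
 (.p (nat_lit 0x25d625d425d225d025ce0fa106) (nat_lit 0x10000b05) (nat_lit 16))))
 (.n (.n (.n (.p (nat_lit 0x19d619d019ce19cc0d210d1f06) (nat_lit 0x180000960) (nat_lit 15))
 (.p (nat_lit 0x37a5378902) (nat_lit 0x80800000000) (nat_lit 35)))
 (.p (nat_lit 0x227622722270226e226c0f1906) (nat_lit 0x100000b04) (nat_lit 16)))
 (.n (.n (.p (nat_lit 0xdfb0df80df60df50df20df002c60023001d09) (nat_lit 0x54802) (nat_lit 13))
 (.p (nat_lit 0x39ad39a102) (nat_lit 0x6180a000800) (nat_lit 35)))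
 (.p (nat_lit 0x1b05105402) (nat_lit 0x46) (nat_lit 4)))))
 (.n (.n (.n (.n (.p (nat_lit 0x226317b302) (nat_lit 0x2840) (nat_lit 11))
 (.p (nat_lit 0x25d625d425d225d025cc15eb06) (nat_lit 0x20000b30) (nat_lit 14)))
 (.n (.p (nat_lit 0x24510ef002) (nat_lit 0x40a3) (nat_lit 5))
 (.p (nat_lit 0x3a093991384903) (nat_lit 0xb08000080a0) (nat_lit 44))))
 (.n (.n (.p (nat_lit 0x17b817b617b417b00db30dab06) (nat_lit 0x220001a61) (nat_lit 15))
 (.p (nat_lit 0x394d393902) (nat_lit 0x60806000800) (nat_lit 35)))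
 (.p (nat_lit 0xff300b202) (nat_lit 0xa865) (nat_lit 1))))
 (.n (.n (.n (.p (nat_lit 0x1a961a921a8e1a8c0d390d3506) (nat_lit 0x140000b80) (nat_lit 15))
 (.p (nat_lit 0x386f384902) (nat_lit 0xa8808000000) (nat_lit 35)))
 (.p (nat_lit 0xf7d0f6502) (nat_lit 0x84) (nat_lit 18)))
 (.n (.n (.p (nat_lit 0x11ad0e4d02) (nat_lit 0x8082) (nat_lit 19))
 (.p (nat_lit 0x3a1b38d537b703) (nat_lit 0x400002020) (nat_lit 43)))
 (.p (nat_lit 0x1b5110a002) (nat_lit 0x40a6) (nat_lit 4)))))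

def c512_499 : Tr :=
 .n (.n (.n (.n (.n (.p (nat_lit 0x23a223a0239e23980ced0ceb06) (nat_lit 0x60001b20) (nat_lit 14))
 (.p (nat_lit 0x2516251425122510250e14b106) (nat_lit 0x1000090e) (nat_lit 14)))
 (.n (.p (nat_lit 0xed20ed00ecf0ecc0eca0ec8002b07) (nat_lit 0x6863) (nat_lit 7))
 (.p (nat_lit 0x3a3f38d937b903) (nat_lit 0x10800002080) (nat_lit 43))))
 (.n (.n (.p (nat_lit 0x23ae23ac23aa23a623a40d9506) (nat_lit 0x40000c41) (nat_lit 14))
 (.p (nat_lit 0x38fd38e902) (nat_lit 0xa2802000800) (nat_lit 35)))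
 (.p (nat_lit 0x14d30fc302) (nat_lit 0xab25) (nat_lit 19))))
 (.n (.n (.n (.p (nat_lit 0x2520251e251c251a25180d2f06) (nat_lit 0x200001180) (nat_lit 16))
 (.p (nat_lit 0x380737f102) (nat_lit 0x89804000000) (nat_lit 35)))
 (.p (nat_lit 0x199a1996199419900f310f2b06) (nat_lit 0x120001c24) (nat_lit 17)))
 (.n (.n (.p (nat_lit 0x199a19981994199219900e3306) (nat_lit 0x80001462) (nat_lit 15))
 (.p (nat_lit 0x399e399c39983996387f05) (nat_lit 0x140a000000) (nat_lit 36)))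
 (.p (nat_lit 0x1076107410731070106f106c03d6004f004b09) (nat_lit 0x32066) (nat_lit 13)))))
 (.n (.n (.n (.n (.p (nat_lit 0xd160d150d130d100d0e0d0c02400009000709) (nat_lit 0x46060) (nat_lit 13))
 (.p (nat_lit 0x21f5174402) (nat_lit 0x92) (nat_lit 4)))
 (.p (nat_lit 0x3270319030d02f504) (nat_lit 0x95a0003) (nat_lit 24)))
 (.n (.n (.p (nat_lit 0x1b3e1b3c1b3a1b361b340dc506) (nat_lit 0x40000c81) (nat_lit 17))
 (.p (nat_lit 0x397f397102) (nat_lit 0x69808000800) (nat_lit 35)))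
 (.p (nat_lit 0x14d0052004e004a04) (nat_lit 0x2a0008006) (nat_lit 20))))
 (.n (.n (.n (.p (nat_lit 0x22b30d5202) (nat_lit 0xa8a0) (nat_lit 5))
 (.p (nat_lit 0x3899387f02) (nat_lit 0x9140a000000) (nat_lit 35)))
 (.p (nat_lit 0x1ac61ac41ac01abe0f8f0f8906) (nat_lit 0x90000da4) (nat_lit 17)))
 (.n (.n (.p (nat_lit 0x22d422d222d022ce0e730e6906) (nat_lit 0x2100009a2) (nat_lit 14))
 (.p (nat_lit 0x3a2738ff37b703) (nat_lit 0xa8400002040) (nat_lit 43)))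
 (.p (nat_lit 0x1c6b11ba02) (nat_lit 0xa888) (nat_lit 4)))))

def c256_243 : Tr := .n c512_243 c512_499

def c128_115 : Tr := .n c256_115 c256_243

def c64_51 : Tr := .n c128_51 c128_115

def c32_19 : Tr := .n c64_19 c64_51

def c16_3 : Tr := .n c32_3 c32_19

def cb4_3 : Tr := c16_3

def c512_4 : Tr :=
 .n (.n (.n (.n (.n (.l (nat_lit 0x100) (nat_lit 0x8000) (nat_lit 0))
 (.p (nat_lit 0x1c7711c602) (nat_lit 0xa0a8) (nat_lit 4)))
 (.n (.p (nat_lit 0x185618521850184e184c0e7106) (nat_lit 0x100000ba2) (nat_lit 15))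
 (.p (nat_lit 0x3a2738dd37bf03) (nat_lit 0x21400002040) (nat_lit 43))))
 (.n (.n (.p (nat_lit 0x258e258a258625840d510d4d06) (nat_lit 0x1400008a0) (nat_lit 14))
 (.p (nat_lit 0x3899388102) (nat_lit 0x9180a000000) (nat_lit 35)))
 (.p (nat_lit 0x101b0f8b02) (nat_lit 0x2da4) (nat_lit 19))))
 (.n (.n (.n (.p (nat_lit 0x247a24782476247424700d0f06) (nat_lit 0x20001060) (nat_lit 16))
 (.p (nat_lit 0x7c5006402) (nat_lit 0x4021) (nat_lit 30)))
 (.p (nat_lit 0x327031b030f012004) (nat_lit 0xa234003) (nat_lit 23)))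
 (.n (.n (.p (nat_lit 0x11bb0dcb02) (nat_lit 0xa981) (nat_lit 19))
 (.p (nat_lit 0x398f397302) (nat_lit 0xa9c08000800) (nat_lit 35)))
 (.p (nat_lit 0x102e102d102a102810261024005107) (nat_lit 0x8006) (nat_lit 7)))))
 (.n (.n (.n (.n (.p (nat_lit 0x23ae23ac23aa23a40ced0ceb06) (nat_lit 0x60000c20) (nat_lit 16))
 (.p (nat_lit 0x2a1d14bc02) (nat_lit 0x2e) (nat_lit 5)))
 (.n (.p (nat_lit 0xed30ed10ece0ecc0eca0ec80326002f002d09) (nat_lit 0x58863) (nat_lit 13))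
 (.p (nat_lit 0x39f615f702) (nat_lit 0x2580) (nat_lit 47))))
 (.n (.n (.p (nat_lit 0x1920191e191a19180d9b0d9506) (nat_lit 0x240001d41) (nat_lit 17))
 (.p (nat_lit 0x390338f502) (nat_lit 0xbc002000800) (nat_lit 35)))
 (.p (nat_lit 0x2fd7003f02) (nat_lit 0x2045) (nat_lit 33))))
 (.n (.n (.n (.p (nat_lit 0x253a2538253625320d290d2506) (nat_lit 0x50001280) (nat_lit 14))
 (.p (nat_lit 0x380d37f702) (nat_lit 0xa2404000000) (nat_lit 35)))
 (.p (nat_lit 0x19b219ae19ac19aa19a80f3106) (nat_lit 0x100001d24) (nat_lit 15)))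
 (.n (.n (.p (nat_lit 0xe470e2f02) (nat_lit 0x2062) (nat_lit 18))
 (.p (nat_lit 0x39c039be39ba39b838a105) (nat_lit 0x580a000000) (nat_lit 36)))
 (.p (nat_lit 0x251425122510250e250c107706) (nat_lit 0x200000166) (nat_lit 14)))))

def c512_260 : Tr :=
 .n (.n (.n (.n (.n (.p (nat_lit 0x188418821880187e187c0cdb06) (nat_lit 0x200000d00) (nat_lit 15))
 (.p (nat_lit 0x28e5138402) (nat_lit 0xc) (nat_lit 5)))
 (.n (.p (nat_lit 0xf110e8102) (nat_lit 0xc03) (nat_lit 19))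
 (.p (nat_lit 0x39ed392f380f03) (nat_lit 0xad400004060) (nat_lit 44))))
 (.n (.n (.p (nat_lit 0xd75006802) (nat_lit 0x8021) (nat_lit 1))
 (.p (nat_lit 0x38cb38b502) (nat_lit 0x9a000000800) (nat_lit 35)))
 (.p (nat_lit 0x1b561b541b521b501b4e0fa106) (nat_lit 0x10000d05) (nat_lit 15))))
 (.n (.n (.n (.p (nat_lit 0x19e219de19dc19da0d210d1906) (nat_lit 0x110001960) (nat_lit 15))
 (.p (nat_lit 0x379f378f02) (nat_lit 0x69400000000) (nat_lit 35)))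
 (.p (nat_lit 0x17ce17cc17ca17c80f1b0f1906) (nat_lit 0x300001b04) (nat_lit 17)))
 (.n (.n (.p (nat_lit 0xe850df502) (nat_lit 0x4b02) (nat_lit 19))
 (.p (nat_lit 0x39b539a302) (nat_lit 0x81c0a000800) (nat_lit 35)))
 (.p (nat_lit 0x25bd105c02) (nat_lit 0x8046) (nat_lit 5)))))
 (.n (.n (.n (.n (.p (nat_lit 0xd0a0d080d060d040d030d0102160003000109) (nat_lit 0x10840) (nat_lit 13))
 (.p (nat_lit 0x15fb004202) (nat_lit 0x6050) (nat_lit 1)))
 (.n (.p (nat_lit 0xef70ef40ef20ef00eef0eec0302002f002709) (nat_lit 0x520a3) (nat_lit 13))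
 (.p (nat_lit 0x3a513975385503) (nat_lit 0x420000080a0) (nat_lit 43))))
 (.n (.n (.p (nat_lit 0x228e228c228a228822860da906) (nat_lit 0x10000c61) (nat_lit 14))
 (.p (nat_lit 0x3949393d02) (nat_lit 0x51006000800) (nat_lit 35)))
 (.p (nat_lit 0x1f761f741f721f701f6c0feb06) (nat_lit 0x20000965) (nat_lit 15))))
 (.n (.n (.n (.p (nat_lit 0x1aae1aac1aaa1aa81aa40d3306) (nat_lit 0x20000c80) (nat_lit 17))
 (.p (nat_lit 0x3859384d02) (nat_lit 0x51008000000) (nat_lit 35)))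
 (.p (nat_lit 0x1a230f7202) (nat_lit 0x2884) (nat_lit 4)))
 (.n (.n (.p (nat_lit 0x2e6a2e682e662e642e622e60010c07) (nat_lit 0x882) (nat_lit 8))
 (.p (nat_lit 0x3a1a12eb02) (nat_lit 0x2a20) (nat_lit 48)))
 (.p (nat_lit 0x260b10aa02) (nat_lit 0x28a6) (nat_lit 5)))))

def c256_4 : Tr := .n c512_4 c512_260

def c512_132 : Tr :=
 .n (.n (.n (.n (.n (.p (nat_lit 0x22e222e022dc22d80cd70cd306) (nat_lit 0xa0001900) (nat_lit 14))
 (.p (nat_lit 0x1d8712d602) (nat_lit 0x688a) (nat_lit 4)))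
 (.n (.p (nat_lit 0x18e418e218de18dc0e7f0e7906) (nat_lit 0x240000303) (nat_lit 17))
 (.p (nat_lit 0x3a2c12cd02) (nat_lit 0x8140) (nat_lit 48))))
 (.n (.n (.p (nat_lit 0xe6f0d4f02) (nat_lit 0x69a0) (nat_lit 19))
 (.p (nat_lit 0x389a3898389638923890388a386a3868386638623860385a383a3838383638323830382a380a380838063802380037fa37da37d837d637d237d037ca37aa37a837a637a237a0379a24) (nat_lit 0x500) (nat_lit 39)))
 (.p (nat_lit 0x1af61af21af01aee1aec0f9d06) (nat_lit 0x100000105) (nat_lit 15))))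
 (.n (.n (.n (.p (nat_lit 0xe2f0d0f02) (nat_lit 0x2160) (nat_lit 19))
 (.p (nat_lit 0x8d9004102) (nat_lit 0x4005) (nat_lit 31)))
 (.p (nat_lit 0x22a622a222a0229e229c0f0d06) (nat_lit 0x100000504) (nat_lit 14)))
 (.n (.n (.p (nat_lit 0x27b026d00fe03) (nat_lit 0x4032001) (nat_lit 22))
 (.p (nat_lit 0x39b3399502) (nat_lit 0x7800a000800) (nat_lit 35)))
 (.p (nat_lit 0x186e186c186a18681864103f06) (nat_lit 0x20000426) (nat_lit 17)))))
 (.n (.n (.n (.n (.p (nat_lit 0x23de23da23d823d623d40cfd06) (nat_lit 0x100000040) (nat_lit 14))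
 (.p (nat_lit 0x2aa1154002) (nat_lit 0x80f) (nat_lit 5)))
 (.n (.p (nat_lit 0x12cb0edb02) (nat_lit 0x6183) (nat_lit 19))
 (.p (nat_lit 0x3a0138c737a903) (nat_lit 0x8c8000000a0) (nat_lit 44))))
 (.n (.n (.p (nat_lit 0x17f417f217f017ee17ec0da706) (nat_lit 0x200000561) (nat_lit 15))
 (.p (nat_lit 0x3925391d02) (nat_lit 0x83004000800) (nat_lit 35)))
 (.p (nat_lit 0x19ec19ea19e819e619e40fdb06) (nat_lit 0x200000a45) (nat_lit 17))))
 (.n (.n (.n (.p (nat_lit 0x229917e902) (nat_lit 0x8880) (nat_lit 11))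
 (.p (nat_lit 0x3831381f02) (nat_lit 0x71406000000) (nat_lit 35)))
 (.p (nat_lit 0xf630f4b02) (nat_lit 0xa844) (nat_lit 18)))
 (.n (.n (.p (nat_lit 0x18f90e4802) (nat_lit 0x4082) (nat_lit 4))
 (.p (nat_lit 0x3a113925380d03) (nat_lit 0x85000004000) (nat_lit 43)))
 (.p (nat_lit 0x1739107902) (nat_lit 0x866) (nat_lit 19)))))

def c512_388 : Tr :=
 .n (.n (.n (.n (.n (.p (nat_lit 0xfb50ce502) (nat_lit 0x8420) (nat_lit 19))
 (.p (nat_lit 0x1413139b02) (nat_lit 0xa8ac) (nat_lit 18)))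
 (.n (.p (nat_lit 0x24050ea402) (nat_lit 0x43) (nat_lit 5))
 (.p (nat_lit 0x3a3b3997387f03) (nat_lit 0x940000a060) (nat_lit 43))))
 (.n (.n (.p (nat_lit 0xd8e0d8c0d8b0d880d860d84001307) (nat_lit 0x6041) (nat_lit 7))
 (.p (nat_lit 0x38db38d702) (nat_lit 0x18402000800) (nat_lit 35)))
 (.p (nat_lit 0x251b1a6b039d038f013e05) (nat_lit 0x1132825) (nat_lit 9))))
 (.n (.n (.n (.p (nat_lit 0xf590d1902) (nat_lit 0xb60) (nat_lit 19))
 (.p (nat_lit 0x37c337b902) (nat_lit 0x38802000000) (nat_lit 35)))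
 (.p (nat_lit 0x244a2446244424420f250f1d06) (nat_lit 0x110001424) (nat_lit 16)))
 (.n (.n (.p (nat_lit 0xe2a0e280e260e250e220e20001d07) (nat_lit 0x4842) (nat_lit 7))
 (.p (nat_lit 0x38bc38b638b4379d04) (nat_lit 0x3000000000) (nat_lit 36)))
 (.p (nat_lit 0x177e177c177a17781776106106) (nat_lit 0x10000846) (nat_lit 15)))))
 (.n (.n (.n (.n (.p (nat_lit 0x2456245424522450244c0d0306) (nat_lit 0x20000d40) (nat_lit 16))
 (.p (nat_lit 0x2c7d171c02) (nat_lit 0x8052) (nat_lit 5)))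
 (.p (nat_lit 0x223a2236223422300f010efb06) (nat_lit 0x1200018a3) (nat_lit 14)))
 (.n (.n (.p (nat_lit 0x25d425d225d025ce0dbf0db506) (nat_lit 0x210000381) (nat_lit 14))
 (.p (nat_lit 0x3975396502) (nat_lit 0x40008000800) (nat_lit 35)))
 (.p (nat_lit 0x10a1101102) (nat_lit 0x40a5) (nat_lit 19))))
 (.n (.n (.n (.p (nat_lit 0x1b0e1b0a1b061b040d450d4106) (nat_lit 0x1400002a0) (nat_lit 17))
 (.p (nat_lit 0x385c385638543850384e384c224507) (nat_lit 0x8000020) (nat_lit 38)))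
 (.p (nat_lit 0x253a25382536253425320f7d06) (nat_lit 0x100012a4) (nat_lit 16)))
 (.n (.n (.p (nat_lit 0x2e762e742e722e702e6e2e6c010c07) (nat_lit 0xa2) (nat_lit 8))
 (.p (nat_lit 0x39d93971385703) (nat_lit 0x32400008020) (nat_lit 44)))
 (.p (nat_lit 0x1c3d118c02) (nat_lit 0x68) (nat_lit 4)))))

def c256_132 : Tr := .n c512_132 c512_388

def c128_4 : Tr := .n c256_4 c256_132

def c512_68 : Tr :=
 .n (.n (.n (.n (.n (.p (nat_lit 0xd570cc702) (nat_lit 0x2000) (nat_lit 19))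
 (.p (nat_lit 0x281912b802) (nat_lit 0x86a) (nat_lit 5)))
 (.n (.p (nat_lit 0x2df02d102af02ab011005) (nat_lit 0x1056002) (nat_lit 26))
 (.p (nat_lit 0x39e20e3f02) (nat_lit 0x6840) (nat_lit 47))))
 (.n (.n (.p (nat_lit 0x1b181b141b121b100d530d4f06) (nat_lit 0x280001aa0) (nat_lit 17))
 (.p (nat_lit 0x3897388d02) (nat_lit 0x8b00a000000) (nat_lit 35)))
 (.p (nat_lit 0x141004202) (nat_lit 0x8000c005) (nat_lit 20))))
 (.n (.n (.n (.p (nat_lit 0x1a121a0c1a0a1a080d150d1306) (nat_lit 0x180001360) (nat_lit 17))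
 (.p (nat_lit 0x84f002f02) (nat_lit 0xa003) (nat_lit 31)))
 (.p (nat_lit 0x246f0f0e02) (nat_lit 0xa004) (nat_lit 5)))
 (.n (.n (.p (nat_lit 0x109d0dcd02) (nat_lit 0x4a1) (nat_lit 19))
 (.p (nat_lit 0x3987397f02) (nat_lit 0x8b408000800) (nat_lit 35)))
 (.p (nat_lit 0x2c962c942c922c902c8e103106) (nat_lit 0x10000b06) (nat_lit 16)))))
 (.n (.n (.n (.n (.p (nat_lit 0xd030ceb02) (nat_lit 0x2820) (nat_lit 18))
 (.p (nat_lit 0x249e249c24982496249414cf06) (nat_lit 0x80000a2e) (nat_lit 14)))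
 (.n (.p (nat_lit 0xede0edd0eda0ed80ed60ed502f4002d002509) (nat_lit 0x40083) (nat_lit 13))
 (.p (nat_lit 0x3a453975385703) (nat_lit 0x42400008080) (nat_lit 43))))
 (.n (.n (.p (nat_lit 0x223a22382234223222300da306) (nat_lit 0x80001061) (nat_lit 16))
 (.p (nat_lit 0x3917390b02) (nat_lit 0x48c04000800) (nat_lit 35)))
 (.p (nat_lit 0x15f90fc902) (nat_lit 0x4545) (nat_lit 19))))
 (.n (.n (.n (.p (nat_lit 0xdb70d2702) (nat_lit 0x2080) (nat_lit 19))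
 (.p (nat_lit 0x380437fe37fc37f837f637f417f107) (nat_lit 0x40000a0) (nat_lit 37)))
 (.p (nat_lit 0x28ee28ec28ea28e828e40f3706) (nat_lit 0x20000044) (nat_lit 14)))
 (.n (.n (.p (nat_lit 0x193a1938193219300e3f0e3d06) (nat_lit 0xc0001862) (nat_lit 17))
 (.p (nat_lit 0x3a0c223102) (nat_lit 0x800) (nat_lit 46)))
 (.p (nat_lit 0x3091108002) (nat_lit 0x8866) (nat_lit 32)))))

def c512_324 : Tr :=
 .n (.n (.n (.n (.n (.p (nat_lit 0x17950ce402) (nat_lit 0x8020) (nat_lit 4))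
 (.p (nat_lit 0x297e297c297a2978297613f106) (nat_lit 0x1000088c) (nat_lit 14)))
 (.n (.p (nat_lit 0x23f90e9802) (nat_lit 0x823) (nat_lit 5))
 (.p (nat_lit 0x39f13971385903) (nat_lit 0x32800008060) (nat_lit 44))))
 (.n (.n (.p (nat_lit 0xd830d800d7e0d7c0d7a0d78001707) (nat_lit 0xa821) (nat_lit 7))
 (.p (nat_lit 0x38cd38c102) (nat_lit 0xa3800000800) (nat_lit 35)))
 (.p (nat_lit 0x17ae17ac17aa17a817a40faf06) (nat_lit 0x20000225) (nat_lit 15))))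
 (.n (.n (.n (.p (nat_lit 0x24da24d624d224d00d210d1d06) (nat_lit 0x140001c60) (nat_lit 14))
 (.p (nat_lit 0x37a937a502) (nat_lit 0x94000000000) (nat_lit 35)))
 (.p (nat_lit 0x2f362f342f322f302f2e2f2c012c07) (nat_lit 0x24) (nat_lit 8)))
 (.n (.n (.p (nat_lit 0xe15007802) (nat_lit 0x42) (nat_lit 1))
 (.p (nat_lit 0x39c139af02) (nat_lit 0xb340a000800) (nat_lit 35)))
 (.p (nat_lit 0x17e817e617e417e217e0105f06) (nat_lit 0x200001446) (nat_lit 15)))))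
 (.n (.n (.n (.n (.p (nat_lit 0x1950194e194a19480d0b0d0506) (nat_lit 0x240001940) (nat_lit 15))
 (.p (nat_lit 0x254625422540253e253c160906) (nat_lit 0x100000b50) (nat_lit 14)))
 (.n (.p (nat_lit 0x22a622a422a2229e229c0ef106) (nat_lit 0x400005a3) (nat_lit 16))
 (.p (nat_lit 0x3a0b399f388103) (nat_lit 0x2980000a0a0) (nat_lit 44))))
 (.n (.n (.p (nat_lit 0x18670db602) (nat_lit 0x2081) (nat_lit 4))
 (.p (nat_lit 0x3953394502) (nat_lit 0x7a006000800) (nat_lit 35)))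
 (.p (nat_lit 0x1099100902) (nat_lit 0x8885) (nat_lit 19))))
 (.n (.n (.n (.p (nat_lit 0x109b0d3b02) (nat_lit 0xad80) (nat_lit 19))
 (.p (nat_lit 0x3865385702) (nat_lit 0x82408000000) (nat_lit 35)))
 (.p (nat_lit 0x13f50f7502) (nat_lit 0x4a84) (nat_lit 19)))
 (.n (.n (.p (nat_lit 0x17c417c217c017be17bc0e5b06) (nat_lit 0x200000b82) (nat_lit 15))
 (.p (nat_lit 0x3a1f3943382903) (nat_lit 0x3a800006020) (nat_lit 43)))
 (.p (nat_lit 0x1ba110f002) (nat_lit 0x847) (nat_lit 4)))))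

def c256_68 : Tr := .n c512_68 c512_324

def c512_196 : Tr :=
 .n (.n (.n (.n (.n (.p (nat_lit 0x18621860185e185a0cd50cd106) (nat_lit 0x50001b00) (nat_lit 17))
 (.p (nat_lit 0x284f12ee02) (nat_lit 0x68aa) (nat_lit 5)))
 (.n (.p (nat_lit 0xe8a0e880e870e850e820e80030a002b002909) (nat_lit 0x34803) (nat_lit 13))
 (.p (nat_lit 0x39e938bd37a503) (nat_lit 0x64000000060) (nat_lit 44))))
 (.n (.n (.p (nat_lit 0x22b50d5402) (nat_lit 0x1) (nat_lit 5))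
 (.p (nat_lit 0x38c138ab02) (nat_lit 0x70c00000800) (nat_lit 35)))
 (.p (nat_lit 0xfaa0fa80fa60fa50fa20fa0004107) (nat_lit 0x4805) (nat_lit 7))))
 (.n (.n (.n (.p (nat_lit 0xd220d210d1e0d1c0d1a0d19021c0009000109) (nat_lit 0x40860) (nat_lit 13))
 (.p (nat_lit 0x9dd006102) (nat_lit 0x88) (nat_lit 31)))
 (.p (nat_lit 0xf1b0f180f160f150f120f100356003b003509) (nat_lit 0x54804) (nat_lit 13)))
 (.n (.n (.p (nat_lit 0x1c3a1c361c341c321c300ded06) (nat_lit 0x100001202) (nat_lit 15))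
 (.p (nat_lit 0x39b9399b02) (nat_lit 0x90c0a000800) (nat_lit 35)))
 (.p (nat_lit 0x181a181818161812104d104906) (nat_lit 0x50001826) (nat_lit 15)))))
 (.n (.n (.n (.n (.p (nat_lit 0x19a619a219a0199c0cfd0cf706) (nat_lit 0x120000540) (nat_lit 17))
 (.p (nat_lit 0x15e1004c02) (nat_lit 0x4030) (nat_lit 1)))
 (.n (.p (nat_lit 0x19e219de19dc19da19d80ee906) (nat_lit 0x100001983) (nat_lit 17))
 (.p (nat_lit 0x3a4e3a06004f03) (nat_lit 0x60a0) (nat_lit 40))))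
 (.n (.n (.p (nat_lit 0xdb20db00daf0dac0daa0da902620013000d09) (nat_lit 0x30861) (nat_lit 13))
 (.p (nat_lit 0x393d393502) (nat_lit 0x20006000800) (nat_lit 35)))
 (.p (nat_lit 0xfe60fe50fe20fe00fdf0fdc03900045003f09) (nat_lit 0x42065) (nat_lit 13))))
 (.n (.n (.n (.p (nat_lit 0x1a721a701a6a1a680d370d3506) (nat_lit 0xc0001980) (nat_lit 17))
 (.p (nat_lit 0x3857384502) (nat_lit 0x48008000000) (nat_lit 35)))
 (.p (nat_lit 0x24c50f6402) (nat_lit 0x84) (nat_lit 5)))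
 (.n (.n (.p (nat_lit 0x22822280227e227a22780e4906) (nat_lit 0x40001382) (nat_lit 14))
 (.p (nat_lit 0x3a14104502) (nat_lit 0x8400) (nat_lit 48)))
 (.p (nat_lit 0x25f3109202) (nat_lit 0x2886) (nat_lit 5)))))

def c512_452 : Tr :=
 .n (.n (.n (.n (.n (.p (nat_lit 0x18a818a618a218a00cf30ced06) (nat_lit 0x240001820) (nat_lit 15))
 (.p (nat_lit 0x2a091f59063f061501ce05) (nat_lit 0x161400e) (nat_lit 9)))
 (.n (.p (nat_lit 0x2ed5002d02) (nat_lit 0x8063) (nat_lit 33))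
 (.p (nat_lit 0x3a3d38bd379d03) (nat_lit 0x63000000080) (nat_lit 43))))
 (.n (.n (.p (nat_lit 0x17150d8502) (nat_lit 0x541) (nat_lit 19))
 (.p (nat_lit 0x38e538df02) (nat_lit 0x41402000800) (nat_lit 35)))
 (.p (nat_lit 0x2282227e227c227a22780fc106) (nat_lit 0x100001b25) (nat_lit 14))))
 (.n (.n (.n (.p (nat_lit 0x1a4a1a481a461a440d2f0d2d06) (nat_lit 0x300000080) (nat_lit 15))
 (.p (nat_lit 0x37dc37d637d437d037ce37cc226f07) (nat_lit 0x2000060) (nat_lit 38)))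
 (.p (nat_lit 0x2f41003902) (nat_lit 0x8824) (nat_lit 33)))
 (.n (.n (.p (nat_lit 0x2e41001d02) (nat_lit 0x4062) (nat_lit 33))
 (.p (nat_lit 0x3940393e393a3938382105) (nat_lit 0x1806000000) (nat_lit 36)))
 (.p (nat_lit 0x180017fc17fa17f8106b106706) (nat_lit 0x280001d46) (nat_lit 17)))))
 (.n (.n (.n (.n (.p (nat_lit 0xf490d0902) (nat_lit 0x8b40) (nat_lit 19))
 (.p (nat_lit 0x2c8f172e02) (nat_lit 0x2072) (nat_lit 5)))
 (.p (nat_lit 0xf010e8902) (nat_lit 0x88a3) (nat_lit 18)))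
 (.n (.n (.p (nat_lit 0x232b0dca02) (nat_lit 0xa881) (nat_lit 5))
 (.p (nat_lit 0x3989396b02) (nat_lit 0x90c08000800) (nat_lit 35)))
 (.p (nat_lit 0x38503830381014004) (nat_lit 0x234005) (nat_lit 23))))
 (.n (.n (.n (.p (nat_lit 0xef50d4502) (nat_lit 0x82a0) (nat_lit 19))
 (.p (nat_lit 0x389b387902) (nat_lit 0x9880a000000) (nat_lit 35)))
 (.p (nat_lit 0x2fa30f9202) (nat_lit 0xa8a4) (nat_lit 32)))
 (.n (.n (.p (nat_lit 0x12510e6102) (nat_lit 0x41a2) (nat_lit 19))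
 (.p (nat_lit 0x39da179702) (nat_lit 0xa020) (nat_lit 45)))
 (.p (nat_lit 0x1c5e1c5c1c5a1c581c561c5406) (nat_lit 0x88) (nat_lit 2)))))

def c256_196 : Tr := .n c512_196 c512_452

def c128_68 : Tr := .n c256_68 c256_196

def c64_4 : Tr := .n c128_4 c128_68

def c512_36 : Tr :=
 .n (.n (.n (.n (.n (.p (nat_lit 0x184a1846184418420ccd0cc506) (nat_lit 0x110001200) (nat_lit 15))
 (.p (nat_lit 0x190a1908190619041902123506) (nat_lit 0x10001489) (nat_lit 17)))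
 (.n (.p (nat_lit 0xf010e7102) (nat_lit 0x8ba2) (nat_lit 19))
 (.p (nat_lit 0x3a28226502) (nat_lit 0x4840) (nat_lit 46))))
 (.n (.n (.p (nat_lit 0x25b025ae25ac25a80d530d4b06) (nat_lit 0x2200019a0) (nat_lit 14))
 (.p (nat_lit 0x388f388702) (nat_lit 0x6a40a000000) (nat_lit 35)))
 (.p (nat_lit 0x3550339012e03) (nat_lit 0x4040004) (nat_lit 22))))
 (.n (.n (.n (.p (nat_lit 0x24922490248c248a24880d1306) (nat_lit 0x80001160) (nat_lit 14))
 (.p (nat_lit 0x805002102) (nat_lit 0x8002) (nat_lit 31)))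
 (.p (nat_lit 0x12d003a0034003204) (nat_lit 0x260008004) (nat_lit 20)))
 (.n (.n (.p (nat_lit 0x23350dd402) (nat_lit 0x80a1) (nat_lit 5))
 (.p (nat_lit 0x397d397902) (nat_lit 0x62808000800) (nat_lit 35)))
 (.p (nat_lit 0x2593103202) (nat_lit 0x2806) (nat_lit 5)))))
 (.n (.n (.n (.n (.p (nat_lit 0x19081904190219000cf30cef06) (nat_lit 0x280001c20) (nat_lit 17))
 (.p (nat_lit 0x2a2914c802) (nat_lit 0x82e) (nat_lit 5)))
 (.n (.p (nat_lit 0x24370ed602) (nat_lit 0x2083) (nat_lit 5))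
 (.p (nat_lit 0x3a433945382503) (nat_lit 0x42000006080) (nat_lit 43))))
 (.n (.n (.p (nat_lit 0x184f0d9e02) (nat_lit 0x2061) (nat_lit 4))
 (.p (nat_lit 0x3917390502) (nat_lit 0x48004000800) (nat_lit 35)))
 (.p (nat_lit 0x247824762474247224700fcf06) (nat_lit 0x200001045) (nat_lit 14))))
 (.n (.n (.n (.p (nat_lit 0x1aba1ab81ab61ab00d290d2706) (nat_lit 0x60001480) (nat_lit 17))
 (.p (nat_lit 0x380f380302) (nat_lit 0xabc04000000) (nat_lit 35)))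
 (.p (nat_lit 0x2f470f3602) (nat_lit 0x2044) (nat_lit 32)))
 (.n (.n (.p (nat_lit 0xe420e400e3e0e3d0e3a0e38001d07) (nat_lit 0x4862) (nat_lit 7))
 (.p (nat_lit 0x3a0d38bf379f03) (nat_lit 0x6b400000000) (nat_lit 43)))
 (.p (nat_lit 0x1737107702) (nat_lit 0xa066) (nat_lit 19)))))

def c512_292 : Tr :=
 .n (.n (.n (.n (.n (.p (nat_lit 0xe850cd502) (nat_lit 0x4a00) (nat_lit 19))
 (.p (nat_lit 0x1e49139802) (nat_lit 0x880c) (nat_lit 4)))
 (.n (.p (nat_lit 0x23f71947032702ef011e05) (nat_lit 0x44a023) (nat_lit 9))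
 (.p (nat_lit 0x39ef394d382d03) (nat_lit 0x63000006060) (nat_lit 44))))
 (.n (.n (.p (nat_lit 0xe070d7702) (nat_lit 0xa221) (nat_lit 19))
 (.p (nat_lit 0x38bd38bb02) (nat_lit 0x62c00000800) (nat_lit 35)))
 (.p (nat_lit 0x2fc10fb002) (nat_lit 0x4025) (nat_lit 32))))
 (.n (.n (.n (.p (nat_lit 0x19f819f419f219f00d230d1f06) (nat_lit 0x280001a60) (nat_lit 15))
 (.p (nat_lit 0x37a7379b02) (nat_lit 0x8ac00000000) (nat_lit 35)))
 (.p (nat_lit 0x1802180017fc17fa17f80f1706) (nat_lit 0x80001d04) (nat_lit 15)))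
 (.n (.n (.p (nat_lit 0xe1d0e0502) (nat_lit 0x8022) (nat_lit 18))
 (.p (nat_lit 0x39bf39a702) (nat_lit 0xaa40a000800) (nat_lit 35)))
 (.p (nat_lit 0x17ba17b817b417b217b0105b06) (nat_lit 0x80001246) (nat_lit 17)))))
 (.n (.n (.n (.n (.p (nat_lit 0x193a1936193419320d090d0106) (nat_lit 0x110001840) (nat_lit 15))
 (.p (nat_lit 0x2b63160202) (nat_lit 0x2850) (nat_lit 5)))
 (.n (.p (nat_lit 0x226a2264226222600ef50ef306) (nat_lit 0x1800012a3) (nat_lit 16))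
 (.p (nat_lit 0x3a093991387103) (nat_lit 0xb58000080a0) (nat_lit 44))))
 (.n (.n (.p (nat_lit 0x22b022ae22ac22aa22a80db306) (nat_lit 0x200001d61) (nat_lit 14))
 (.p (nat_lit 0x3943394102) (nat_lit 0x39806000800) (nat_lit 35)))
 (.p (nat_lit 0x100d0ff502) (nat_lit 0x85) (nat_lit 18))))
 (.n (.n (.n (.p (nat_lit 0xdc70d3702) (nat_lit 0x6880) (nat_lit 19))
 (.p (nat_lit 0x386b385102) (nat_lit 0x99808000000) (nat_lit 35)))
 (.p (nat_lit 0x2f8b003b02) (nat_lit 0xa884) (nat_lit 33)))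
 (.n (.n (.p (nat_lit 0x223a22362234223222300e5906) (nat_lit 0x100001882) (nat_lit 14))
 (.p (nat_lit 0x39d5392b381103) (nat_lit 0x9d800004020) (nat_lit 44)))
 (.p (nat_lit 0x3e703e5014e03) (nat_lit 0x4058006) (nat_lit 22)))))

def c256_36 : Tr := .n c512_36 c512_292

def c512_164 : Tr :=
 .n (.n (.n (.n (.n (.p (nat_lit 0x22fa22f622f422f222f00cd906) (nat_lit 0x100001a00) (nat_lit 14))
 (.p (nat_lit 0x12e7002202) (nat_lit 0xa0aa) (nat_lit 1)))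
 (.n (.p (nat_lit 0x19310e8002) (nat_lit 0x803) (nat_lit 4))
 (.p (nat_lit 0x39e739af388f03) (nat_lit 0x6b40000a040) (nat_lit 44))))
 (.n (.n (.p (nat_lit 0x22b02290227021704) (nat_lit 0x3630000) (nat_lit 24))
 (.p (nat_lit 0x38c138a702) (nat_lit 0x70400000800) (nat_lit 35)))
 (.p (nat_lit 0x25ee25ea25e825e625e40f9d06) (nat_lit 0x100000405) (nat_lit 14))))
 (.n (.n (.n (.p (nat_lit 0x17c90d1802) (nat_lit 0x860) (nat_lit 4))
 (.p (nat_lit 0x92d001002) (nat_lit 0x4026) (nat_lit 30)))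
 (.p (nat_lit 0x2f21003102) (nat_lit 0x804) (nat_lit 33)))
 (.n (.n (.p (nat_lit 0x10f0022001803) (nat_lit 0x21000a002) (nat_lit 20))
 (.p (nat_lit 0x39a1399902) (nat_lit 0x3080a000800) (nat_lit 35)))
 (.p (nat_lit 0x1afd104c02) (nat_lit 0x4826) (nat_lit 4)))))
 (.n (.n (.n (.n (.p (nat_lit 0x1976197419721970196c0cf706) (nat_lit 0x20000340) (nat_lit 15))
 (.p (nat_lit 0x2522251e251c251a2518156106) (nat_lit 0x10000192f) (nat_lit 16)))
 (.n (.p (nat_lit 0x24490ee802) (nat_lit 0x8883) (nat_lit 5))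
 (.p (nat_lit 0x3a4a15df02) (nat_lit 0x24a0) (nat_lit 48))))
 (.n (.n (.p (nat_lit 0x10770da702) (nat_lit 0xa461) (nat_lit 19))
 (.p (nat_lit 0x392b392502) (nat_lit 0x9c004000800) (nat_lit 35)))
 (.p (nat_lit 0xfe60fe40fe20fe00fde0fdd003d07) (nat_lit 0x65) (nat_lit 7))))
 (.n (.n (.n (.p (nat_lit 0x250a2508250425000d370d3306) (nat_lit 0xa0001880) (nat_lit 14))
 (.p (nat_lit 0x383d382502) (nat_lit 0xa2006000000) (nat_lit 35)))
 (.p (nat_lit 0xfdf0f4f02) (nat_lit 0x2564) (nat_lit 19)))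
 (.n (.n (.p (nat_lit 0x17961792178e178c0e4d0e4906) (nat_lit 0x140000182) (nat_lit 17))
 (.p (nat_lit 0x3a153973385303) (nat_lit 0x39c00008000) (nat_lit 43)))
 (.p (nat_lit 0x108f108c108a108810861084005307) (nat_lit 0xa086) (nat_lit 7)))))

def c512_420 : Tr :=
 .n (.n (.n (.n (.n (.p (nat_lit 0xcf20cf00cee0ced0ceb0ce802240005000309) (nat_lit 0x22820) (nat_lit 13))
 (.p (nat_lit 0x1ee5143402) (nat_lit 0x802d) (nat_lit 4)))
 (.n (.p (nat_lit 0xebb0eb80eb60eb40eb20eb0002f07) (nat_lit 0xa843) (nat_lit 7))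
 (.p (nat_lit 0x3a3b39b9389b03) (nat_lit 0x94c0000a060) (nat_lit 43))))
 (.n (.n (.p (nat_lit 0x18fc18fa18f818f618f40d8f06) (nat_lit 0x200000441) (nat_lit 15))
 (.p (nat_lit 0x38ff38d902) (nat_lit 0xa8802000800) (nat_lit 35)))
 (.p (nat_lit 0x178a1786178417820fc10fb906) (nat_lit 0x110001825) (nat_lit 15))))
 (.n (.n (.n (.p (nat_lit 0xd2e0d2c0d2a0d290d260d24000507) (nat_lit 0x4080) (nat_lit 7))
 (.p (nat_lit 0x37c337bf02) (nat_lit 0x39402000000) (nat_lit 35)))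
 (.p (nat_lit 0xfb50f2502) (nat_lit 0x8524) (nat_lit 19)))
 (.n (.n (.p (nat_lit 0x283a28362834283228300e2906) (nat_lit 0x100001c42) (nat_lit 14))
 (.p (nat_lit 0x38fe38fc38f838f637df05) (nat_lit 0x5402000000) (nat_lit 36)))
 (.p (nat_lit 0x22822280227c227a2278106706) (nat_lit 0x80001b46) (nat_lit 14)))))
 (.n (.n (.n (.n (.p (nat_lit 0x19b019ae19ac19aa0d0b0d0106) (nat_lit 0x210001d40) (nat_lit 17))
 (.p (nat_lit 0x2c83172202) (nat_lit 0x2852) (nat_lit 5)))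
 (.p (nat_lit 0x17c417c217be17bc0f030efd06) (nat_lit 0x240000ba3) (nat_lit 15)))
 (.n (.n (.p (nat_lit 0x108f0dbf02) (nat_lit 0xa481) (nat_lit 19))
 (.p (nat_lit 0x398f396702) (nat_lit 0xa8408000800) (nat_lit 35)))
 (.p (nat_lit 0x1ad3102202) (nat_lit 0xa8a5) (nat_lit 4))))
 (.n (.n (.n (.p (nat_lit 0x25e025de25da25d80d470d4106) (nat_lit 0x2400013a0) (nat_lit 14))
 (.p (nat_lit 0x3883387702) (nat_lit 0x3840a000000) (nat_lit 35)))
 (.p (nat_lit 0x24e90f8802) (nat_lit 0x8a4) (nat_lit 5)))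
 (.n (.n (.p (nat_lit 0xe670e640e620e600e5e0e5d02ae0023001909) (nat_lit 0x500a2) (nat_lit 13))
 (.p (nat_lit 0x3a2339c1387703) (nat_lit 0xb040000a020) (nat_lit 43)))
 (.p (nat_lit 0x1922191e191c191a1918119506) (nat_lit 0x100001568) (nat_lit 15)))))

def c256_164 : Tr := .n c512_164 c512_420

def c128_36 : Tr := .n c256_36 c256_164

def c512_100 : Tr :=
 .n (.n (.n (.n (.n (.p (nat_lit 0xcd7001202) (nat_lit 0x6800) (nat_lit 1))
 (.p (nat_lit 0x282b12ca02) (nat_lit 0x608a) (nat_lit 5)))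
 (.n (.p (nat_lit 0x19270e7602) (nat_lit 0x2003) (nat_lit 4))
 (.p (nat_lit 0x39e53979385b03) (nat_lit 0x52c00008040) (nat_lit 44))))
 (.n (.n (.p (nat_lit 0x1b3c1b3a1b381b361b340d5306) (nat_lit 0x200000ca0) (nat_lit 15))
 (.p (nat_lit 0x38a1389502) (nat_lit 0xb400a000000) (nat_lit 35)))
 (.p (nat_lit 0xf99004c02) (nat_lit 0x4005) (nat_lit 1))))
 (.n (.n (.n (.p (nat_lit 0x1a361a321a2e1a2c0d150d1106) (nat_lit 0x140000560) (nat_lit 15))
 (.l (nat_lit 0x80505000000000020) (nat_lit 0x34504) (nat_lit 29)))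
 (.p (nat_lit 0x17b617b417b217b00f0f0f0d06) (nat_lit 0x300001204) (nat_lit 15)))
 (.n (.n (.p (nat_lit 0x21e621e421e221e021de0dd906) (nat_lit 0x10000ba1) (nat_lit 15))
 (.p (nat_lit 0x3991398b02) (nat_lit 0xb4c08000800) (nat_lit 35)))
 (.p (nat_lit 0x1045001402) (nat_lit 0x8026) (nat_lit 1)))))
 (.n (.n (.n (.n (.p (nat_lit 0xfbf0cef02) (nat_lit 0x6c20) (nat_lit 19))
 (.p (nat_lit 0x298a298829862984298214d506) (nat_lit 0x1000104e) (nat_lit 14)))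
 (.n (.p (nat_lit 0x2490248e248c248a0edf0ed506) (nat_lit 0x210001183) (nat_lit 16))
 (.p (nat_lit 0x39ff3999387903) (nat_lit 0x1080000a080) (nat_lit 44))))
 (.n (.n (.p (nat_lit 0x22682266226422620da70d9d06) (nat_lit 0x210001261) (nat_lit 14))
 (.p (nat_lit 0x3925391302) (nat_lit 0x81c04000800) (nat_lit 35)))
 (.p (nat_lit 0x2fe90fd802) (nat_lit 0x8845) (nat_lit 32))))
 (.n (.n (.n (.p (nat_lit 0x108b0d2b02) (nat_lit 0x6580) (nat_lit 19))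
 (.p (nat_lit 0x382f381902) (nat_lit 0x68806000000) (nat_lit 35)))
 (.p (nat_lit 0x19f50f4402) (nat_lit 0x4844) (nat_lit 4)))
 (.n (.n (.p (nat_lit 0xe550e3d02) (nat_lit 0x4862) (nat_lit 18))
 (.p (nat_lit 0x3a0f38eb37d103) (nat_lit 0x5b800002000) (nat_lit 43)))
 (.p (nat_lit 0x1a661a641a621a601a5c107b06) (nat_lit 0x20000966) (nat_lit 15)))))

def c512_356 : Tr :=
 .n (.n (.n (.n (.n (.p (nat_lit 0x18fc18fa18f618f40ce70ce106) (nat_lit 0x240000420) (nat_lit 17))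
 (.p (nat_lit 0x13fd138502) (nat_lit 0xac) (nat_lit 18)))
 (.n (.p (nat_lit 0xea30ea10e9e0e9c0e9a0e980326002f002d09) (nat_lit 0x58823) (nat_lit 13))
 (.p (nat_lit 0x39f1398d386f03) (nat_lit 0xa5400008060) (nat_lit 44))))
 (.n (.n (.p (nat_lit 0xe090d7902) (nat_lit 0xa21) (nat_lit 19))
 (.p (nat_lit 0x38bc38b638b438b038ae38ac224907) (nat_lit 0x820) (nat_lit 38)))
 (.p (nat_lit 0x22a622a222a0229e229c0fb506) (nat_lit 0x100000525) (nat_lit 14))))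
 (.n (.n (.n (.p (nat_lit 0x24f224ee24ec24ea24e80d2106) (nat_lit 0x100001d60) (nat_lit 14))
 (.p (nat_lit 0x37c737b502) (nat_lit 0x48002000000) (nat_lit 35)))
 (.p (nat_lit 0x2f37003b02) (nat_lit 0xa024) (nat_lit 33)))
 (.n (.n (.p (nat_lit 0x1d7e1d7c1d7a1d761d740e1906) (nat_lit 0x40000442) (nat_lit 15))
 (.p (nat_lit 0x39c139bd02) (nat_lit 0xb500a000800) (nat_lit 35)))
 (.p (nat_lit 0x25c1106002) (nat_lit 0x846) (nat_lit 5)))))
 (.n (.n (.n (.n (.p (nat_lit 0x243e243c243a243824360d0106) (nat_lit 0x10000c40) (nat_lit 14))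
 (.p (nat_lit 0x215716a602) (nat_lit 0xa071) (nat_lit 4)))
 (.n (.p (nat_lit 0x19a90ef802) (nat_lit 0x8a3) (nat_lit 4))
 (.p (nat_lit 0x3a5339b3389903) (nat_lit 0x7c80000a0a0) (nat_lit 43))))
 (.n (.n (.p (nat_lit 0xdbe0dbd0dbb0db80db60db402880015001309) (nat_lit 0x46081) (nat_lit 13))
 (.p (nat_lit 0x3957394d02) (nat_lit 0x8b006000800) (nat_lit 35)))
 (.p (nat_lit 0x3027004702) (nat_lit 0xa0a5) (nat_lit 33))))
 (.n (.n (.n (.p (nat_lit 0xd460d450d430d400d3e0d3c02400009000709) (nat_lit 0x460a0) (nat_lit 13))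
 (.p (nat_lit 0x3861385f02) (nat_lit 0x73408000000) (nat_lit 35)))
 (.p (nat_lit 0x2f950f8402) (nat_lit 0x80a4) (nat_lit 32)))
 (.n (.n (.p (nat_lit 0x22a422a222a0229e229c0e5b06) (nat_lit 0x200000d82) (nat_lit 14))
 (.p (nat_lit 0x3a1f3957383f03) (nat_lit 0x8d400006020) (nat_lit 43)))
 (.p (nat_lit 0x118d10fd02) (nat_lit 0x267) (nat_lit 19)))))

def c256_100 : Tr := .n c512_100 c512_356

def c512_228 : Tr :=
 .n (.n (.n (.n (.n (.p (nat_lit 0x186c186a186818660cdb0cd106) (nat_lit 0x210000c00) (nat_lit 15))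
 (.p (nat_lit 0x1e1f136e02) (nat_lit 0x20ab) (nat_lit 4)))
 (.n (.p (nat_lit 0x18fe18fc18fa18f818f60e8106) (nat_lit 0x10000c03) (nat_lit 15))
 (.p (nat_lit 0x3a32226f02) (nat_lit 0x2060) (nat_lit 46))))
 (.n (.n (.p (nat_lit 0xd6b0d680d670d640d620d60028a0017001309) (nat_lit 0x56801) (nat_lit 13))
 (.p (nat_lit 0x38d138af02) (nat_lit 0xb1400000800) (nat_lit 35)))
 (.p (nat_lit 0x25b225ae25ac25aa25a80fa906) (nat_lit 0x100001905) (nat_lit 14))))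
 (.n (.n (.n (.p (nat_lit 0x19ca19c419c219c00d210d1f06) (nat_lit 0x180001860) (nat_lit 17))
 (.p (nat_lit 0x379f378502) (nat_lit 0x68000000000) (nat_lit 35)))
 (.p (nat_lit 0x226a22682266226222600f1506) (nat_lit 0x40001a04) (nat_lit 14)))
 (.n (.n (.p (nat_lit 0x18a70df602) (nat_lit 0x6802) (nat_lit 4))
 (.p (nat_lit 0x39b1399f02) (nat_lit 0x7140a000800) (nat_lit 35)))
 (.p (nat_lit 0x18921890188e188a1888104d06) (nat_lit 0x40001d26) (nat_lit 15)))))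
 (.n (.n (.n (.n (.p (nat_lit 0xfc50cf502) (nat_lit 0x440) (nat_lit 19))
 (.p (nat_lit 0x2b4d15ec02) (nat_lit 0x4830) (nat_lit 5)))
 (.n (.p (nat_lit 0xf770ee702) (nat_lit 0x6c83) (nat_lit 19))
 (.p (nat_lit 0x3a4e0f9b02) (nat_lit 0x63a0) (nat_lit 48))))
 (.n (.n (.p (nat_lit 0x17ae17ac17aa17a817a60da906) (nat_lit 0x10000a61) (nat_lit 15))
 (.p (nat_lit 0x3955393702) (nat_lit 0x80406000800) (nat_lit 35)))
 (.p (nat_lit 0xfed00ac02) (nat_lit 0x4865) (nat_lit 1))))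
 (.n (.n (.n (.p (nat_lit 0x1a8a1a881a841a820d370d3106) (nat_lit 0x90001a80) (nat_lit 15))
 (.p (nat_lit 0x384d384902) (nat_lit 0x20808000000) (nat_lit 35)))
 (.p (nat_lit 0xf6f0f6c0f6b0f680f660f640362003b003709) (nat_lit 0x56084) (nat_lit 13)))
 (.n (.n (.p (nat_lit 0x1802180017fe17fa17f80e4906) (nat_lit 0x40001582) (nat_lit 15))
 (.p (nat_lit 0x39d138bf37a103) (nat_lit 0x6b800000020) (nat_lit 44)))
 (.p (nat_lit 0x20ae20ac20a820a620a4109706) (nat_lit 0x80000a86) (nat_lit 15)))))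

def c512_484 : Tr :=
 .n (.n (.n (.n (.n (.p (nat_lit 0x239623942392238c0ced0ceb06) (nat_lit 0x60000b20) (nat_lit 14))
 (.p (nat_lit 0x14ba14b814b614b414b314b000ab07) (nat_lit 0x280e) (nat_lit 7)))
 (.n (.p (nat_lit 0x24290ec802) (nat_lit 0x863) (nat_lit 5))
 (.p (nat_lit 0x39f40f8902) (nat_lit 0xa80) (nat_lit 47))))
 (.n (.n (.p (nat_lit 0x2dab0d9a02) (nat_lit 0xa841) (nat_lit 32))
 (.p (nat_lit 0x38f338e502) (nat_lit 0x7a002000800) (nat_lit 35)))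
 (.p (nat_lit 0xfd10fb902) (nat_lit 0x825) (nat_lit 18))))
 (.n (.n (.n (.p (nat_lit 0x1a621a601a5e1a5c0d2f0d2d06) (nat_lit 0x300000180) (nat_lit 17))
 (.p (nat_lit 0x380737e902) (nat_lit 0x88804000000) (nat_lit 35)))
 (.p (nat_lit 0x243e243c243a243624340f2d06) (nat_lit 0x40000c24) (nat_lit 16)))
 (.n (.n (.p (nat_lit 0x23e823e623e423e223e00e3706) (nat_lit 0x200001062) (nat_lit 16))
 (.p (nat_lit 0x3980397e397a3978386105) (nat_lit 0x3808000000) (nat_lit 36)))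
 (.p (nat_lit 0x1076107410731070106e106c004f07) (nat_lit 0x6066) (nat_lit 7)))))
 (.n (.n (.n (.n (.p (nat_lit 0xd160d140d130d100d0e0d0c000707) (nat_lit 0x6060) (nat_lit 7))
 (.p (nat_lit 0x2c9f173e02) (nat_lit 0x6872) (nat_lit 5)))
 (.p (nat_lit 0x31b0319030b02ff04) (nat_lit 0x7622003) (nat_lit 24)))
 (.n (.n (.p (nat_lit 0x1b1a1b181b141b100dc70dc306) (nat_lit 0xa0001a81) (nat_lit 15))
 (.p (nat_lit 0x3983396f02) (nat_lit 0x79408000800) (nat_lit 35)))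
 (.p (nat_lit 0x14d004e004c004a04) (nat_lit 0xe0008006) (nat_lit 20))))
 (.n (.n (.n (.p (nat_lit 0x22ad17fd02) (nat_lit 0x48a0) (nat_lit 11))
 (.p (nat_lit 0x3895387d02) (nat_lit 0x8100a000000) (nat_lit 35)))
 (.p (nat_lit 0x252e252c252a252825240f8b06) (nat_lit 0x20000aa4) (nat_lit 16)))
 (.n (.n (.p (nat_lit 0xe720e710e6e0e6c0e6a0e68002107) (nat_lit 0x88a2) (nat_lit 7))
 (.p (nat_lit 0x39dc17a502) (nat_lit 0x40) (nat_lit 45)))
 (.p (nat_lit 0x1890188e188c188a188811af06) (nat_lit 0x200001588) (nat_lit 15)))))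

def c256_228 : Tr := .n c512_228 c512_484

def c128_100 : Tr := .n c256_100 c256_228

def c64_36 : Tr := .n c128_36 c128_100

def c32_4 : Tr := .n c64_4 c64_36

def c512_20 : Tr :=
 .n (.n (.n (.n (.n (.p (nat_lit 0x177f0cce02) (nat_lit 0xa000) (nat_lit 4))
 (.p (nat_lit 0x1cee1cec1cea1ce81ce61ce406) (nat_lit 0x89) (nat_lit 2)))
 (.n (.p (nat_lit 0x188618841880187c0e6f0e6b06) (nat_lit 0xa0000da2) (nat_lit 17))
 (.p (nat_lit 0x3a26226302) (nat_lit 0x2840) (nat_lit 46))))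
 (.n (.n (.p (nat_lit 0x25a425a225a0259c0d530d4b06) (nat_lit 0x2200009a0) (nat_lit 14))
 (.p (nat_lit 0x3899388302) (nat_lit 0x91c0a000000) (nat_lit 35)))
 (.p (nat_lit 0x33f033d0339013004) (nat_lit 0x2c4004) (nat_lit 23))))
 (.n (.n (.n (.p (nat_lit 0x24782474247224700d170d1306) (nat_lit 0x280001060) (nat_lit 16))
 (.p (nat_lit 0x7e5000d02) (nat_lit 0x81) (nat_lit 31)))
 (.p (nat_lit 0x12d00360034003204) (nat_lit 0xe0008004) (nat_lit 20)))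
 (.n (.n (.p (nat_lit 0xdcf00da02) (nat_lit 0x20a1) (nat_lit 1))
 (.p (nat_lit 0x3993397502) (nat_lit 0xba008000800) (nat_lit 35)))
 (.p (nat_lit 0x21e421e221e021de21dc102f06) (nat_lit 0x200000306) (nat_lit 17)))))
 (.n (.n (.n (.n (.p (nat_lit 0x190a19081906190219000ced06) (nat_lit 0x40001c20) (nat_lit 17))
 (.p (nat_lit 0x14c714c414c214c014be14bc00b307) (nat_lit 0xa02e) (nat_lit 7)))
 (.n (.p (nat_lit 0x12bf0ecf02) (nat_lit 0x6963) (nat_lit 19))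
 (.p (nat_lit 0x39f9392d380f03) (nat_lit 0xa5400004080) (nat_lit 44))))
 (.n (.n (.p (nat_lit 0x10630d9302) (nat_lit 0x2c41) (nat_lit 19))
 (.p (nat_lit 0x38fe38fc38f838f638f438d4179b07) (nat_lit 0x2000820) (nat_lit 37)))
 (.p (nat_lit 0x2fdd0fcc02) (nat_lit 0x8045) (nat_lit 32))))
 (.n (.n (.n (.p (nat_lit 0x254625442540253e0d2b0d2506) (nat_lit 0x90000380) (nat_lit 14))
 (.p (nat_lit 0x380f37fd02) (nat_lit 0xab004000000) (nat_lit 35)))
 (.p (nat_lit 0x14d30f3302) (nat_lit 0xac24) (nat_lit 19)))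
 (.n (.n (.p (nat_lit 0x2e522e502e4e2e4c2e4a2e48010c07) (nat_lit 0x862) (nat_lit 8))
 (.p (nat_lit 0x39c538af379703) (nat_lit 0x2a400000000) (nat_lit 44)))
 (.p (nat_lit 0x1aa01a9c1a9a1a981077107306) (nat_lit 0x280001366) (nat_lit 17)))))

def c512_276 : Tr :=
 .n (.n (.n (.n (.n (.p (nat_lit 0xcf10cd902) (nat_lit 0x8800) (nat_lit 18))
 (.p (nat_lit 0x2456245424522450244c138706) (nat_lit 0x2000050c) (nat_lit 14)))
 (.n (.p (nat_lit 0x19410e9002) (nat_lit 0x4023) (nat_lit 4))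
 (.p (nat_lit 0x3a37393f381f03) (nat_lit 0x29400006060) (nat_lit 43))))
 (.n (.n (.p (nat_lit 0x1c441c421c401c3e0d770d6d06) (nat_lit 0x210000321) (nat_lit 15))
 (.p (nat_lit 0x38cf38b702) (nat_lit 0xaa400000800) (nat_lit 35)))
 (.p (nat_lit 0x15410fa102) (nat_lit 0xc05) (nat_lit 19))))
 (.n (.n (.n (.p (nat_lit 0x19ec19ea19e819e40d230d1b06) (nat_lit 0x220000a60) (nat_lit 15))
 (.p (nat_lit 0x37a1379502) (nat_lit 0x72000000000) (nat_lit 35)))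
 (.p (nat_lit 0x17e817e617e417e217e00f1b06) (nat_lit 0x200001c04) (nat_lit 15)))
 (.n (.n (.p (nat_lit 0x23630e0202) (nat_lit 0x6022) (nat_lit 5))
 (.p (nat_lit 0x39b939a502) (nat_lit 0x9200a000800) (nat_lit 35)))
 (.p (nat_lit 0x22382236223422322230105f06) (nat_lit 0x200001046) (nat_lit 14)))))
 (.n (.n (.n (.n (.p (nat_lit 0x192e1928192619240d090d0706) (nat_lit 0x180000840) (nat_lit 15))
 (.p (nat_lit 0x2508250625042502250015ff06) (nat_lit 0x200001050) (nat_lit 14)))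
 (.n (.p (nat_lit 0x17a2179e179c179a17980ef506) (nat_lit 0x1000011a3) (nat_lit 15))
 (.p (nat_lit 0x3a093981386303) (nat_lit 0x73c000080a0) (nat_lit 44))))
 (.n (.n (.p (nat_lit 0x229a2296229222900db10dad06) (nat_lit 0x140001c61) (nat_lit 14))
 (.p (nat_lit 0x3945393f02) (nat_lit 0x41406000800) (nat_lit 35)))
 (.p (nat_lit 0x1aae1aac1aaa1aa81aa61aa406) (nat_lit 0x85) (nat_lit 2))))
 (.n (.n (.n (.p (nat_lit 0x25822580257e257a25780d3506) (nat_lit 0x40001d80) (nat_lit 14))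
 (.p (nat_lit 0x385d384f02) (nat_lit 0x61408000000) (nat_lit 35)))
 (.p (nat_lit 0xf7a0f780f770f740f720f70003707) (nat_lit 0x6884) (nat_lit 7)))
 (.n (.n (.p (nat_lit 0x19090e5802) (nat_lit 0x8882) (nat_lit 4))
 (.p (nat_lit 0x3a1d3925380503) (nat_lit 0x84000004020) (nat_lit 43)))
 (.p (nat_lit 0x3cd03c7014e03) (nat_lit 0x42006) (nat_lit 22)))))

def c256_20 : Tr := .n c512_20 c512_276

def c512_148 : Tr :=
 .n (.n (.n (.n (.n (.p (nat_lit 0x22ee22ec22e822e40cd70cd306) (nat_lit 0xa0000a00) (nat_lit 14))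
 (.p (nat_lit 0x12eb12d302) (nat_lit 0x288a) (nat_lit 18)))
 (.n (.p (nat_lit 0x23d023ce23cc23ca23c80e7f06) (nat_lit 0x200001503) (nat_lit 14))
 (.p (nat_lit 0x3a2f39bf387703) (nat_lit 0xa840000a040) (nat_lit 43))))
 (.n (.n (.p (nat_lit 0x101b0d4b02) (nat_lit 0x2ca0) (nat_lit 19))
 (.p (nat_lit 0x38c938a502) (nat_lit 0x90000000800) (nat_lit 35)))
 (.p (nat_lit 0x1b181b141b121b100f9f0f9b06) (nat_lit 0x280001205) (nat_lit 15))))
 (.n (.n (.n (.p (nat_lit 0xf570d1702) (nat_lit 0xa360) (nat_lit 19))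
 (.p (nat_lit 0x8ed003d02) (nat_lit 0x45) (nat_lit 31)))
 (.p (nat_lit 0x141b0f0b02) (nat_lit 0x6304) (nat_lit 19)))
 (.n (.n (.p (nat_lit 0x28b026700fe03) (nat_lit 0xa030001) (nat_lit 22))
 (.p (nat_lit 0x39ab399702) (nat_lit 0x5840a000800) (nat_lit 35)))
 (.p (nat_lit 0x1b021b001afe1afc1afa1af806) (nat_lit 0x826) (nat_lit 2)))))
 (.n (.n (.n (.n (.p (nat_lit 0x23f423f223f023ee23ec0cff06) (nat_lit 0x200000140) (nat_lit 14))
 (.p (nat_lit 0x2ab9155802) (nat_lit 0x82f) (nat_lit 5)))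
 (.n (.p (nat_lit 0x19930ee202) (nat_lit 0x2883) (nat_lit 4))
 (.p (nat_lit 0x3a0338d537b703) (nat_lit 0x4000020a0) (nat_lit 44))))
 (.n (.n (.p (nat_lit 0x11010da102) (nat_lit 0x4061) (nat_lit 19))
 (.p (nat_lit 0x3933391f02) (nat_lit 0xbb404000800) (nat_lit 35)))
 (.p (nat_lit 0xff30fdb02) (nat_lit 0xa845) (nat_lit 18))))
 (.n (.n (.n (.p (nat_lit 0x24fe24fc24f824f624f40d3706) (nat_lit 0x80000880) (nat_lit 14))
 (.p (nat_lit 0x3835382102) (nat_lit 0x81806000000) (nat_lit 35)))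
 (.p (nat_lit 0x24b30f5202) (nat_lit 0x6064) (nat_lit 5)))
 (.n (.n (.p (nat_lit 0xe4e0e4c0e4a0e490e470e4402b4001d001b09) (nat_lit 0x22082) (nat_lit 13))
 (.p (nat_lit 0x3a133941382103) (nat_lit 0x31800006000) (nat_lit 43)))
 (.p (nat_lit 0x108900c402) (nat_lit 0x4086) (nat_lit 1)))))

def c512_404 : Tr :=
 .n (.n (.n (.n (.n (.p (nat_lit 0x224d179d02) (nat_lit 0x4820) (nat_lit 11))
 (.p (nat_lit 0x2981142002) (nat_lit 0x80d) (nat_lit 5)))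
 (.n (.p (nat_lit 0xf390ea902) (nat_lit 0x4443) (nat_lit 19))
 (.p (nat_lit 0x3a3b39a5388503) (nat_lit 0x4200000a060) (nat_lit 43))))
 (.n (.n (.p (nat_lit 0xd8f0d8c0d8b0d880d860d84028a0017001309) (nat_lit 0x56041) (nat_lit 13))
 (.p (nat_lit 0x38fb38d702) (nat_lit 0x98402000800) (nat_lit 35)))
 (.p (nat_lit 0x25230fc202) (nat_lit 0xa825) (nat_lit 5))))
 (.n (.n (.n (.p (nat_lit 0x10810d2102) (nat_lit 0x8d60) (nat_lit 19))
 (.p (nat_lit 0x37bf37bd02) (nat_lit 0x29002000000) (nat_lit 35)))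
 (.p (nat_lit 0x245e245c245a24580f270f2506) (nat_lit 0x300001524) (nat_lit 14)))
 (.n (.n (.p (nat_lit 0x2e3b0e2a02) (nat_lit 0xa842) (nat_lit 32))
 (.p (nat_lit 0x38de38dc38d838d637bf05) (nat_lit 0x1402000000) (nat_lit 36)))
 (.p (nat_lit 0x17a0179e179c179a1798106b06) (nat_lit 0x200001946) (nat_lit 15)))))
 (.n (.n (.n (.n (.p (nat_lit 0x19b219b019ae19ac19aa0d0106) (nat_lit 0x10001d40) (nat_lit 17))
 (.p (nat_lit 0x18621860185c185a1858171b06) (nat_lit 0x80001352) (nat_lit 15)))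
 (.p (nat_lit 0x17ba17b817b617b417b00efb06) (nat_lit 0x20001aa3) (nat_lit 17)))
 (.n (.n (.p (nat_lit 0x11a50db502) (nat_lit 0x181) (nat_lit 19))
 (.p (nat_lit 0x396b396702) (nat_lit 0x18408000800) (nat_lit 35)))
 (.p (nat_lit 0x302d101c02) (nat_lit 0x48a5) (nat_lit 32))))
 (.n (.n (.n (.p (nat_lit 0x25d625d425d225ce25cc0d4106) (nat_lit 0x400003a0) (nat_lit 14))
 (.p (nat_lit 0x3883387502) (nat_lit 0x3800a000000) (nat_lit 35)))
 (.p (nat_lit 0xf830f0b02) (nat_lit 0x60a4) (nat_lit 18)))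
 (.n (.n (.p (nat_lit 0x23c30e6202) (nat_lit 0x60a2) (nat_lit 5))
 (.p (nat_lit 0x39d9398b387103) (nat_lit 0x9d800008020) (nat_lit 44)))
 (.p (nat_lit 0x31a5006902) (nat_lit 0x8068) (nat_lit 33)))))

def c256_148 : Tr := .n c512_148 c512_404

def c128_20 : Tr := .n c256_20 c256_148

def c512_84 : Tr :=
 .n (.n (.n (.n (.n (.p (nat_lit 0xf970cc702) (nat_lit 0x2400) (nat_lit 19))
 (.p (nat_lit 0x32d3008302) (nat_lit 0xa86a) (nat_lit 33)))
 (.n (.p (nat_lit 0x11c002d002b0027002505) (nat_lit 0x1b0008003) (nat_lit 21))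
 (.p (nat_lit 0x3a2d3965384d03) (nat_lit 0x1000008040) (nat_lit 43))))
 (.n (.n (.p (nat_lit 0x1b321b301b2e1b2c0d4b0d4906) (nat_lit 0x30001ba0) (nat_lit 15))
 (.p (nat_lit 0x3895389102) (nat_lit 0x8380a000000) (nat_lit 35)))
 (.p (nat_lit 0x13f0046004203) (nat_lit 0x28000a005) (nat_lit 20))))
 (.n (.n (.n (.p (nat_lit 0x1a2a1a281a261a240d0f0d0d06) (nat_lit 0x30001460) (nat_lit 15))
 (.p (nat_lit 0x877003202) (nat_lit 0x2083) (nat_lit 30)))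
 (.p (nat_lit 0x17941792178e178c0f0f0f0906) (nat_lit 0x240000104) (nat_lit 15)))
 (.n (.n (.p (nat_lit 0xde20de00ddf0ddc0dda0dd8001307) (nat_lit 0x68a1) (nat_lit 7))
 (.p (nat_lit 0x398d398502) (nat_lit 0xa4008000800) (nat_lit 35)))
 (.p (nat_lit 0x1046104410421040103e103d004907) (nat_lit 0x26) (nat_lit 7)))))
 (.n (.n (.n (.n (.p (nat_lit 0xe130cf302) (nat_lit 0xa920) (nat_lit 19))
 (.p (nat_lit 0x2a3714d602) (nat_lit 0x204e) (nat_lit 5)))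
 (.n (.p (nat_lit 0x19ca19c619c419c219c00edd06) (nat_lit 0x100001083) (nat_lit 15))
 (.p (nat_lit 0x39fd3985386703) (nat_lit 0x84400008080) (nat_lit 44))))
 (.n (.n (.p (nat_lit 0x2250224e224c22480da70d9f06) (nat_lit 0x220001161) (nat_lit 14))
 (.p (nat_lit 0x3925390f02) (nat_lit 0x81404000800) (nat_lit 35)))
 (.p (nat_lit 0x2fe3003f02) (nat_lit 0x2845) (nat_lit 33))))
 (.n (.n (.n (.p (nat_lit 0xedf0d2f02) (nat_lit 0xa280) (nat_lit 19))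
 (.p (nat_lit 0x383b381502) (nat_lit 0x98006000000) (nat_lit 35)))
 (.p (nat_lit 0x14d90f3902) (nat_lit 0x4444) (nat_lit 19)))
 (.n (.n (.p (nat_lit 0x244a2448244424400e3f0e3b06) (nat_lit 0xa0001c62) (nat_lit 14))
 (.p (nat_lit 0x39c738d737bd03) (nat_lit 0x9000002000) (nat_lit 44)))
 (.p (nat_lit 0x10831080107e107d107a107803e60053004d09) (nat_lit 0x54866) (nat_lit 13)))))

def c512_340 : Tr :=
 .n (.n (.n (.n (.n (.p (nat_lit 0x18cc18c818c618c40ce70ce306) (nat_lit 0x280000220) (nat_lit 15))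
 (.p (nat_lit 0x1eb7140602) (nat_lit 0xa0ac) (nat_lit 4)))
 (.n (.p (nat_lit 0x2eaf0e9e02) (nat_lit 0x6823) (nat_lit 32))
 (.p (nat_lit 0x39f13981386303) (nat_lit 0x73c00008060) (nat_lit 44))))
 (.n (.n (.p (nat_lit 0x270e270c270a270827040d7b06) (nat_lit 0x20000c21) (nat_lit 16))
 (.p (nat_lit 0x38cf38c702) (nat_lit 0xac400000800) (nat_lit 35)))
 (.p (nat_lit 0x17d217ce17cc17c80fb50faf06) (nat_lit 0x120001325) (nat_lit 15))))
 (.n (.n (.n (.p (nat_lit 0x24e624e224e024de0d210d1906) (nat_lit 0x110000d60) (nat_lit 14))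
 (.p (nat_lit 0x37b337ad02) (nat_lit 0xbd000000000) (nat_lit 35)))
 (.p (nat_lit 0x24810f2002) (nat_lit 0x4024) (nat_lit 5)))
 (.n (.n (.p (nat_lit 0x237b0e1a02) (nat_lit 0x6042) (nat_lit 5))
 (.p (nat_lit 0x39c139b502) (nat_lit 0xb400a000800) (nat_lit 35)))
 (.p (nat_lit 0x22b222b022ac22aa22a8105b06) (nat_lit 0x80001546) (nat_lit 16)))))
 (.n (.n (.n (.n (.p (nat_lit 0x242624222420241c0d090d0306) (nat_lit 0x120000b40) (nat_lit 14))
 (.p (nat_lit 0x2be5168402) (nat_lit 0x51) (nat_lit 5)))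
 (.n (.p (nat_lit 0xef70e7f02) (nat_lit 0xa0a3) (nat_lit 18))
 (.p (nat_lit 0x3a5339ab389103) (nat_lit 0x5b80000a0a0) (nat_lit 43))))
 (.n (.n (.p (nat_lit 0x231d0dbc02) (nat_lit 0x8081) (nat_lit 5))
 (.p (nat_lit 0x3957394702) (nat_lit 0x8a406000800) (nat_lit 35)))
 (.p (nat_lit 0x2571101002) (nat_lit 0x40a5) (nat_lit 5))))
 (.n (.n (.n (.p (nat_lit 0x22a217f20d4303) (nat_lit 0x60a0) (nat_lit 6))
 (.p (nat_lit 0x386f385902) (nat_lit 0xaa808000000) (nat_lit 35)))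
 (.p (nat_lit 0xf860f840f820f800f7f0f7c003307) (nat_lit 0x20a4) (nat_lit 7)))
 (.n (.n (.p (nat_lit 0x17de17dc17d817d60e570e5106) (nat_lit 0x90000c82) (nat_lit 17))
 (.p (nat_lit 0x3a1f3953383303) (nat_lit 0x7bc00006020) (nat_lit 43)))
 (.p (nat_lit 0x1bad10fc02) (nat_lit 0x67) (nat_lit 4)))))

def c256_84 : Tr := .n c512_84 c512_340

def c512_212 : Tr :=
 .n (.n (.n (.n (.n (.p (nat_lit 0x185e185c185a18580cdb0cd906) (nat_lit 0x300001b00) (nat_lit 17))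
 (.p (nat_lit 0x2366236423622360235e12e906) (nat_lit 0x100009aa) (nat_lit 14)))
 (.n (.p (nat_lit 0x239623942390238e0e870e8106) (nat_lit 0x90000b03) (nat_lit 16))
 (.p (nat_lit 0x3a3338d737b703) (nat_lit 0x8400002060) (nat_lit 43))))
 (.n (.n (.p (nat_lit 0xded0d5d02) (nat_lit 0x8201) (nat_lit 19))
 (.p (nat_lit 0x38c938ad02) (nat_lit 0x91000000800) (nat_lit 35)))
 (.p (nat_lit 0x250b0faa02) (nat_lit 0xa805) (nat_lit 5))))
 (.n (.n (.n (.p (nat_lit 0x246c2468246624640d230d1f06) (nat_lit 0x280000860) (nat_lit 16))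
 (.p (nat_lit 0xbfd004c02) (nat_lit 0x4030) (nat_lit 30)))
 (.p (nat_lit 0x2252224e224a22480f190f1506) (nat_lit 0x140001904) (nat_lit 14)))
 (.n (.n (.p (nat_lit 0xe7d0ded02) (nat_lit 0x8302) (nat_lit 19))
 (.p (nat_lit 0x39b3399d02) (nat_lit 0x7900a000800) (nat_lit 35)))
 (.p (nat_lit 0x23122310230c230a104f104906) (nat_lit 0x90001b26) (nat_lit 14)))))
 (.n (.n (.n (.n (.p (nat_lit 0xd850cf502) (nat_lit 0x40) (nat_lit 19))
 (.p (nat_lit 0x1b021b001afe1afa1af815e106) (nat_lit 0x40001130) (nat_lit 17)))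
 (.n (.p (nat_lit 0x24f224f024ee24ec24e80ee306) (nat_lit 0x20001d83) (nat_lit 14))
 (.p (nat_lit 0x3a073941382103) (nat_lit 0x318000060a0) (nat_lit 44))))
 (.n (.n (.p (nat_lit 0x178a1786178417820db10da906) (nat_lit 0x110001861) (nat_lit 17))
 (.p (nat_lit 0x3961393502) (nat_lit 0xb0006000800) (nat_lit 35)))
 (.p (nat_lit 0x106f0fdf02) (nat_lit 0x2065) (nat_lit 19))))
 (.n (.n (.n (.p (nat_lit 0x1a7e1a7c1a7a1a740d350d3306) (nat_lit 0x60000a80) (nat_lit 15))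
 (.p (nat_lit 0x3857384702) (nat_lit 0x48408000000) (nat_lit 35)))
 (.p (nat_lit 0x2f7b0f6a02) (nat_lit 0x6084) (nat_lit 32)))
 (.n (.n (.p (nat_lit 0x17ea17e817e617e417e20e4506) (nat_lit 0x10001482) (nat_lit 17))
 (.p (nat_lit 0x3a1739ad388f03) (nat_lit 0x6340000a000) (nat_lit 43)))
 (.p (nat_lit 0x1b4b109a02) (nat_lit 0xa886) (nat_lit 4)))))

def c512_468 : Tr :=
 .n (.n (.n (.n (.n (.p (nat_lit 0x237c237a237823760cf30ce906) (nat_lit 0x210000a20) (nat_lit 14))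
 (.p (nat_lit 0x1a721a6e1a6c1a6a1a6814ad06) (nat_lit 0x10000110e) (nat_lit 15)))
 (.n (.p (nat_lit 0x1eb61eb21eae1eac0ec50ec106) (nat_lit 0x140000563) (nat_lit 15))
 (.p (nat_lit 0x39f538c537a503) (nat_lit 0x84000000080) (nat_lit 44))))
 (.n (.n (.p (nat_lit 0x22f50d9402) (nat_lit 0x4841) (nat_lit 5))
 (.p (nat_lit 0x38e538e102) (nat_lit 0x41802000800) (nat_lit 35)))
 (.p (nat_lit 0x17ea17e617e417e00fc10fbb06) (nat_lit 0x120001c25) (nat_lit 17))))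
 (.n (.n (.n (.p (nat_lit 0x1a581a561a541a520d2f0d2506) (nat_lit 0x210001080) (nat_lit 15))
 (.p (nat_lit 0x380737e502) (nat_lit 0x88004000000) (nat_lit 35)))
 (.p (nat_lit 0x192e192c192a19260f2d0f2906) (nat_lit 0x50000824) (nat_lit 15)))
 (.n (.n (.p (nat_lit 0x2e47002302) (nat_lit 0xa062) (nat_lit 33))
 (.p (nat_lit 0x3960395e395a3958384105) (nat_lit 0x5806000000) (nat_lit 36)))
 (.p (nat_lit 0x1b1d106c02) (nat_lit 0x66) (nat_lit 4)))))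
 (.n (.n (.n (.n (.p (nat_lit 0x17bd0d0c02) (nat_lit 0x60) (nat_lit 4))
 (.p (nat_lit 0x25ca25c825c625c425c0172f06) (nat_lit 0x20001272) (nat_lit 14)))
 (.p (nat_lit 0x30102fd02ef012004) (nat_lit 0x2220003) (nat_lit 23)))
 (.n (.n (.p (nat_lit 0x25a625a425a225a0259c0dc306) (nat_lit 0x20000981) (nat_lit 16))
 (.p (nat_lit 0x3987396d02) (nat_lit 0x89008000800) (nat_lit 35)))
 (.p (nat_lit 0x3b70393013e03) (nat_lit 0xa042005) (nat_lit 22))))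
 (.n (.n (.n (.p (nat_lit 0xd49004802) (nat_lit 0x8a0) (nat_lit 1))
 (.p (nat_lit 0x3895387b02) (nat_lit 0x80c0a000000) (nat_lit 35)))
 (.p (nat_lit 0x250a25062504250225000f9106) (nat_lit 0x1000018a4) (nat_lit 14)))
 (.n (.n (.p (nat_lit 0xe720e700e6e0e6c0e6b0e68001b07) (nat_lit 0x28a2) (nat_lit 7))
 (.p (nat_lit 0x39dd38bf37a103) (nat_lit 0x6b800000040) (nat_lit 44)))
 (.p (nat_lit 0x1c5f11ae02) (nat_lit 0xa088) (nat_lit 4)))))

def c256_212 : Tr := .n c512_212 c512_468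

def c128_84 : Tr := .n c256_84 c256_212

def c64_20 : Tr := .n c128_20 c128_84

def c512_52 : Tr :=
 .n (.n (.n (.n (.n (.p (nat_lit 0x231e231a231823160ccd0cc506) (nat_lit 0x110000400) (nat_lit 14))
 (.p (nat_lit 0x27b3125202) (nat_lit 0x60a9) (nat_lit 5)))
 (.n (.p (nat_lit 0x2d302d1010e03) (nat_lit 0x6058002) (nat_lit 22))
 (.p (nat_lit 0x3a2b3941382103) (nat_lit 0x31800006040) (nat_lit 43))))
 (.n (.n (.p (nat_lit 0x25bc25b825b625b40d530d4f06) (nat_lit 0x280000aa0) (nat_lit 16))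
 (.p (nat_lit 0x38a3388902) (nat_lit 0xba80a000000) (nat_lit 35)))
 (.p (nat_lit 0x3550349033d013004) (nat_lit 0x8110004) (nat_lit 23))))
 (.n (.n (.n (.p (nat_lit 0x249e249c249824940d130d0f06) (nat_lit 0xa0000260) (nat_lit 14))
 (.l (nat_lit 0x20505000080) (nat_lit 0x34462) (nat_lit 29)))
 (.p (nat_lit 0x19b70f0602) (nat_lit 0x2004) (nat_lit 4)))
 (.n (.n (.p (nat_lit 0x2ca22ca02c9c2c9a2c980dd306) (nat_lit 0x800013a1) (nat_lit 14))
 (.p (nat_lit 0x398f397b02) (nat_lit 0xaac08000800) (nat_lit 35)))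
 (.p (nat_lit 0x1aeb103a02) (nat_lit 0xa806) (nat_lit 4)))))
 (.n (.n (.n (.n (.p (nat_lit 0x19221920191e191c19180ceb06) (nat_lit 0x20001d20) (nat_lit 15))
 (.p (nat_lit 0x2a2f1f7f063f062301ce05) (nat_lit 0x162682e) (nat_lit 9)))
 (.n (.p (nat_lit 0xedd003802) (nat_lit 0x8083) (nat_lit 1))
 (.p (nat_lit 0x39fd3965384703) (nat_lit 0x400008080) (nat_lit 44))))
 (.n (.n (.p (nat_lit 0x23050da402) (nat_lit 0x8061) (nat_lit 5))
 (.p (nat_lit 0x3921390702) (nat_lit 0x70404000800) (nat_lit 35)))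
 (.p (nat_lit 0x24f224f024ec24ea24e80fcb06) (nat_lit 0x80001545) (nat_lit 16))))
 (.n (.n (.n (.p (nat_lit 0x1ad21ad01ace1acc1aca0d2506) (nat_lit 0x10001580) (nat_lit 15))
 (.p (nat_lit 0x380f380902) (nat_lit 0xac804000000) (nat_lit 35)))
 (.p (nat_lit 0x249b19eb03630355012e05) (nat_lit 0x1156044) (nat_lit 9)))
 (.n (.n (.p (nat_lit 0x2e530e4202) (nat_lit 0xa862) (nat_lit 32))
 (.p (nat_lit 0x39c538c937ab03) (nat_lit 0x94c00000000) (nat_lit 44)))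
 (.p (nat_lit 0x10821080107e107c107b1078004b07) (nat_lit 0x2866) (nat_lit 7)))))

def c512_308 : Tr :=
 .n (.n (.n (.n (.n (.p (nat_lit 0x10310cd102) (nat_lit 0xd00) (nat_lit 19))
 (.p (nat_lit 0x1e4f139e02) (nat_lit 0x202c) (nat_lit 4)))
 (.n (.p (nat_lit 0x28522850284e284c284a0e8d06) (nat_lit 0x10001523) (nat_lit 14))
 (.p (nat_lit 0x3a393965384703) (nat_lit 0x400008060) (nat_lit 43))))
 (.n (.n (.p (nat_lit 0x182d0d7c02) (nat_lit 0x4821) (nat_lit 4))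
 (.p (nat_lit 0x38cf38bd02) (nat_lit 0xab000000800) (nat_lit 35)))
 (.p (nat_lit 0x222c222a222822240fb70faf06) (nat_lit 0x220000025) (nat_lit 14))))
 (.n (.n (.n (.p (nat_lit 0x24ce24cc24c624c40d1f0d1d06) (nat_lit 0xc0000c60) (nat_lit 14))
 (.p (nat_lit 0x37a9379f02) (nat_lit 0x93400000000) (nat_lit 35)))
 (.p (nat_lit 0x13930f1302) (nat_lit 0x2a04) (nat_lit 19)))
 (.n (.n (.p (nat_lit 0x23710e1002) (nat_lit 0x8822) (nat_lit 5))
 (.p (nat_lit 0x39bb39ab02) (nat_lit 0x9ac0a000800) (nat_lit 35)))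
 (.p (nat_lit 0x17d217d017ce17ca1059105506) (nat_lit 0x50001346) (nat_lit 15)))))
 (.n (.n (.n (.n (.p (nat_lit 0x194419421940193e0d0b0d0106) (nat_lit 0x210000940) (nat_lit 15))
 (.p (nat_lit 0x2b6b160a02) (nat_lit 0xa850) (nat_lit 5)))
 (.n (.p (nat_lit 0x2280227e227c227a22780ef706) (nat_lit 0x2000013a3) (nat_lit 14))
 (.p (nat_lit 0x3a0b39bd387503) (nat_lit 0xa000000a0a0) (nat_lit 44))))
 (.n (.n (.p (nat_lit 0x107b0dab02) (nat_lit 0x2c61) (nat_lit 19))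
 (.p (nat_lit 0x3963394102) (nat_lit 0xb9806000800) (nat_lit 35)))
 (.p (nat_lit 0x2567100602) (nat_lit 0x6885) (nat_lit 5))))
 (.n (.n (.n (.p (nat_lit 0xf730d3302) (nat_lit 0x2b80) (nat_lit 19))
 (.p (nat_lit 0x3861385502) (nat_lit 0x72008000000) (nat_lit 35)))
 (.p (nat_lit 0x2a242a222a1e2a1c0f7b0f7506) (nat_lit 0x240000984) (nat_lit 16)))
 (.n (.n (.p (nat_lit 0x179e179c179a17980e5b0e5906) (nat_lit 0x300001982) (nat_lit 17))
 (.p (nat_lit 0x3a1f3963381b03) (nat_lit 0xb8c00006020) (nat_lit 43)))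
 (.p (nat_lit 0x3f103d903cd015004) (nat_lit 0x8190006) (nat_lit 23)))))

def c256_52 : Tr := .n c512_52 c512_308

def c512_180 : Tr :=
 .n (.n (.n (.n (.n (.p (nat_lit 0x23062304230022fc0cd70cd306) (nat_lit 0xa0000b00) (nat_lit 16))
 (.p (nat_lit 0x23ba23b623b423b223b012e506) (nat_lit 0x1000014aa) (nat_lit 14)))
 (.n (.p (nat_lit 0xe8a0e880e870e840e820e80002b07) (nat_lit 0x6803) (nat_lit 7))
 (.p (nat_lit 0x3a2f39b9389b03) (nat_lit 0x94c0000a040) (nat_lit 43))))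
 (.n (.n (.p (nat_lit 0x101001202) (nat_lit 0x8000c001) (nat_lit 20))
 (.p (nat_lit 0x38bb38a902) (nat_lit 0x58800000800) (nat_lit 35)))
 (.p (nat_lit 0x1a5a1a581a561a541a521a5006) (nat_lit 0x805) (nat_lit 2))))
 (.n (.n (.n (.p (nat_lit 0x17cf0d1e02) (nat_lit 0x6860) (nat_lit 4))
 (.l (nat_lit 0x415080000000000000200) (nat_lit 0x38346) (nat_lit 29)))
 (.p (nat_lit 0x2f270f1602) (nat_lit 0x6804) (nat_lit 32)))
 (.n (.n (.p (nat_lit 0x2df9001d02) (nat_lit 0x4002) (nat_lit 33))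
 (.p (nat_lit 0x39c1399902) (nat_lit 0xb080a000800) (nat_lit 35)))
 (.p (nat_lit 0x3061105002) (nat_lit 0x8826) (nat_lit 32)))))
 (.n (.n (.n (.n (.p (nat_lit 0x198e198a1988198619840cfd06) (nat_lit 0x100000440) (nat_lit 15))
 (.p (nat_lit 0x207915c802) (nat_lit 0x4010) (nat_lit 4)))
 (.n (.p (nat_lit 0xeeb0ee90ee60ee40ee20ee00326002f002d09) (nat_lit 0x58883) (nat_lit 13))
 (.p (nat_lit 0x3a4d3923380903) (nat_lit 0x7c8000040a0) (nat_lit 43))))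
 (.n (.n (.p (nat_lit 0x2dbd0dac02) (nat_lit 0x4861) (nat_lit 32))
 (.p (nat_lit 0x392f392b02) (nat_lit 0xacc04000800) (nat_lit 35)))
 (.p (nat_lit 0x1a930fe202) (nat_lit 0x6065) (nat_lit 4))))
 (.n (.n (.n (.p (nat_lit 0x251625122510250e0d390d3106) (nat_lit 0x110000980) (nat_lit 16))
 (.p (nat_lit 0x3837382f02) (nat_lit 0x8b406000000) (nat_lit 35)))
 (.p (nat_lit 0x24c30f6202) (nat_lit 0xa864) (nat_lit 5)))
 (.n (.n (.p (nat_lit 0x226a22682266226422620e4506) (nat_lit 0x10001282) (nat_lit 14))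
 (.p (nat_lit 0x3a153977385f03) (nat_lit 0x4b400008000) (nat_lit 43)))
 (.p (nat_lit 0x209420922090208c108f108706) (nat_lit 0x220000186) (nat_lit 17)))))

def c512_436 : Tr :=
 .n (.n (.n (.n (.n (.p (nat_lit 0x18aa18a818a618a418a20ce906) (nat_lit 0x10001820) (nat_lit 15))
 (.p (nat_lit 0x2a0e2a0c2a0a2a082a04149b06) (nat_lit 0x200008ad) (nat_lit 14)))
 (.n (.p (nat_lit 0x2ecd0ebc02) (nat_lit 0x63) (nat_lit 32))
 (.p (nat_lit 0x39f217c702) (nat_lit 0xa060) (nat_lit 45))))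
 (.n (.n (.p (nat_lit 0x23d023cc23ca23c80d8f0d8b06) (nat_lit 0x280001541) (nat_lit 16))
 (.p (nat_lit 0x38e938dd02) (nat_lit 0x51002000800) (nat_lit 35)))
 (.p (nat_lit 0x226a22682266226422620fb906) (nat_lit 0x10001a25) (nat_lit 14))))
 (.n (.n (.n (.p (nat_lit 0x228f17df02) (nat_lit 0xa080) (nat_lit 11))
 (.p (nat_lit 0x37c937c502) (nat_lit 0x52002000000) (nat_lit 35)))
 (.p (nat_lit 0xf2d002802) (nat_lit 0x4824) (nat_lit 1)))
 (.n (.n (.p (nat_lit 0xeb90e2902) (nat_lit 0x8b42) (nat_lit 19))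
 (.p (nat_lit 0x3920391e391a3918380105) (nat_lit 0x3804000000) (nat_lit 36)))
 (.p (nat_lit 0x2298229622922290106b106506) (nat_lit 0x240001c46) (nat_lit 14)))))
 (.n (.n (.n (.n (.p (nat_lit 0xe210d0102) (nat_lit 0x940) (nat_lit 19))
 (.p (nat_lit 0x23122310230c230a2308172706) (nat_lit 0x80001b52) (nat_lit 14)))
 (.p (nat_lit 0x17ea17e617e417e20f010ef906) (nat_lit 0x110001ca3) (nat_lit 15)))
 (.n (.n (.p (nat_lit 0x23250dc402) (nat_lit 0x4881) (nat_lit 5))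
 (.p (nat_lit 0x3989396902) (nat_lit 0x90808000800) (nat_lit 35)))
 (.p (nat_lit 0x20ba20b820b620b420b0101b06) (nat_lit 0x20001aa5) (nat_lit 17))))
 (.n (.n (.n (.p (nat_lit 0x1b601b5c1b5a1b580d470d4306) (nat_lit 0x2800015a0) (nat_lit 17))
 (.p (nat_lit 0x387b387902) (nat_lit 0x1880a000000) (nat_lit 35)))
 (.p (nat_lit 0x1a3f0f8e02) (nat_lit 0x68a4) (nat_lit 4)))
 (.n (.n (.p (nat_lit 0x23062302230022fe22fc0e6506) (nat_lit 0x1000003a2) (nat_lit 14))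
 (.p (nat_lit 0x39db39ab389103) (nat_lit 0x5b80000a020) (nat_lit 44)))
 (.p (nat_lit 0x1c5111a002) (nat_lit 0x8868) (nat_lit 4)))))

def c256_180 : Tr := .n c512_180 c512_436

def c128_52 : Tr := .n c256_52 c256_180

def c512_116 : Tr :=
 .n (.n (.n (.n (.n (.p (nat_lit 0x180e180c180a180618040cd506) (nat_lit 0x40000800) (nat_lit 17))
 (.p (nat_lit 0x19b219b019ae19aa19a812c906) (nat_lit 0x4000158a) (nat_lit 15)))
 (.n (.p (nat_lit 0xe7f0e7c0e7a0e780e760e74002f07) (nat_lit 0xa003) (nat_lit 7))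
 (.p (nat_lit 0x39e53989386903) (nat_lit 0x94800008040) (nat_lit 44))))
 (.n (.n (.p (nat_lit 0x1b541b521b501b4e0d530d4906) (nat_lit 0x210000da0) (nat_lit 17))
 (.p (nat_lit 0x3884387e387c387838763874222f07) (nat_lit 0xa000000) (nat_lit 38)))
 (.p (nat_lit 0x1a4f0f9e02) (nat_lit 0xa005) (nat_lit 4))))
 (.n (.n (.n (.p (nat_lit 0x1a401a3e1a3c1a380d170d0f06) (nat_lit 0x220001560) (nat_lit 15))
 (.p (nat_lit 0x8c9003102) (nat_lit 0xa4) (nat_lit 31)))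
 (.p (nat_lit 0x227e227c227a22780f0f0f0d06) (nat_lit 0x300001304) (nat_lit 16)))
 (.n (.n (.p (nat_lit 0x265026300fe03) (nat_lit 0x46001) (nat_lit 22))
 (.p (nat_lit 0x3984397e397c397839763974180107) (nat_lit 0x80008a0) (nat_lit 37)))
 (.p (nat_lit 0x22d222d022ce22cc1047104506) (nat_lit 0x300000126) (nat_lit 16)))))
 (.n (.n (.n (.n (.p (nat_lit 0x225717a702) (nat_lit 0x2040) (nat_lit 11))
 (.p (nat_lit 0x2a911fe1063f061501ce05) (nat_lit 0x8d88ae) (nat_lit 9)))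
 (.n (.p (nat_lit 0x1a361a341a321a2e1a2c0ed906) (nat_lit 0x40000583) (nat_lit 15))
 (.p (nat_lit 0x39fe107702) (nat_lit 0xa080) (nat_lit 47))))
 (.n (.n (.p (nat_lit 0x17de17da17d817d617d40da506) (nat_lit 0x100000461) (nat_lit 15))
 (.p (nat_lit 0x392f391702) (nat_lit 0xaa404000800) (nat_lit 35)))
 (.p (nat_lit 0x19ba19b819b619b40fdb0fd906) (nat_lit 0x300000845) (nat_lit 15))))
 (.n (.n (.n (.p (nat_lit 0x229317e302) (nat_lit 0x2880) (nat_lit 11))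
 (.p (nat_lit 0x3835381d02) (nat_lit 0x81006000000) (nat_lit 35)))
 (.p (nat_lit 0x2f5b0f4a02) (nat_lit 0xa844) (nat_lit 32)))
 (.n (.n (.p (nat_lit 0xecb0e3b02) (nat_lit 0x2b62) (nat_lit 19))
 (.p (nat_lit 0x39c6178302) (nat_lit 0x2800) (nat_lit 45)))
 (.p (nat_lit 0x1a8a1a881a841a821a80107f06) (nat_lit 0x80001a66) (nat_lit 15)))))

def c512_372 : Tr :=
 .n (.n (.n (.n (.n (.p (nat_lit 0xd730ce302) (nat_lit 0x6020) (nat_lit 19))
 (.p (nat_lit 0x2971141002) (nat_lit 0x88ac) (nat_lit 5)))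
 (.n (.p (nat_lit 0x1da21da01d9e1d9c1d9a0e9906) (nat_lit 0x10001d23) (nat_lit 15))
 (.p (nat_lit 0x39f00ee902) (nat_lit 0x8960) (nat_lit 47))))
 (.n (.n (.p (nat_lit 0x22e50d8402) (nat_lit 0x41) (nat_lit 5))
 (.p (nat_lit 0x38e538d502) (nat_lit 0x40002000800) (nat_lit 35)))
 (.p (nat_lit 0x14bd0fad02) (nat_lit 0x325) (nat_lit 19))))
 (.n (.n (.n (.p (nat_lit 0xdad0d1d02) (nat_lit 0x4860) (nat_lit 19))
 (.p (nat_lit 0x37c537b702) (nat_lit 0x40402000000) (nat_lit 35)))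
 (.p (nat_lit 0x1950194e194c194a0f270f1d06) (nat_lit 0x210001124) (nat_lit 17)))
 (.n (.n (.p (nat_lit 0xea90e1902) (nat_lit 0x4342) (nat_lit 19))
 (.p (nat_lit 0x39c039be39bc399c3996399422b307) (nat_lit 0xa0008a0) (nat_lit 38)))
 (.p (nat_lit 0x1b19106802) (nat_lit 0x8846) (nat_lit 4)))))
 (.n (.n (.n (.n (.p (nat_lit 0x244a24482446244224400d0506) (nat_lit 0x40001c40) (nat_lit 14))
 (.p (nat_lit 0x372e372c372a372837263724020c07) (nat_lit 0x52) (nat_lit 8)))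
 (.n (.p (nat_lit 0x24630f0202) (nat_lit 0xa8a3) (nat_lit 5))
 (.p (nat_lit 0x3a5222b302) (nat_lit 0xa8a0) (nat_lit 46))))
 (.n (.n (.p (nat_lit 0x25be25bc25ba25b825b60db506) (nat_lit 0x10000281) (nat_lit 14))
 (.p (nat_lit 0x394c394639443940393e393c224f07) (nat_lit 0x6000820) (nat_lit 38)))
 (.p (nat_lit 0x20ae20ac20aa20a8100f100d06) (nat_lit 0x300002a5) (nat_lit 17))))
 (.n (.n (.n (.p (nat_lit 0x1af41af01aee1aec0d470d4306) (nat_lit 0x2800001a0) (nat_lit 15))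
 (.p (nat_lit 0x3871386302) (nat_lit 0xb3c08000000) (nat_lit 35)))
 (.p (nat_lit 0x1a5a1a581a561a520f810f7d06) (nat_lit 0x500010a4) (nat_lit 15)))
 (.n (.n (.p (nat_lit 0xe6b0e5302) (nat_lit 0x2882) (nat_lit 18))
 (.p (nat_lit 0x39d60d9702) (nat_lit 0x6d20) (nat_lit 47)))
 (.p (nat_lit 0x1c33118202) (nat_lit 0x2848) (nat_lit 4)))))

def c256_116 : Tr := .n c512_116 c512_372

def c512_244 : Tr :=
 .n (.n (.n (.n (.n (.p (nat_lit 0x187a1876187418720cd90cd106) (nat_lit 0x110001c00) (nat_lit 15))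
 (.p (nat_lit 0x13fd136d02) (nat_lit 0x4ab) (nat_lit 19)))
 (.n (.p (nat_lit 0x1916191419121910190e0e8106) (nat_lit 0x10000d03) (nat_lit 15))
 (.p (nat_lit 0x39ed3925380703) (nat_lit 0x84400004060) (nat_lit 44))))
 (.n (.n (.p (nat_lit 0x103b0d6b02) (nat_lit 0xac01) (nat_lit 19))
 (.p (nat_lit 0x38bf38b302) (nat_lit 0x69c00000800) (nat_lit 35)))
 (.p (nat_lit 0x25d625d425d225ce25cc0fa506) (nat_lit 0x40000b05) (nat_lit 16))))
 (.n (.n (.n (.p (nat_lit 0x19d419d219d019ce19cc0d2306) (nat_lit 0x200000960) (nat_lit 15))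
 (.p (nat_lit 0x37a7378902) (nat_lit 0x88800000000) (nat_lit 35)))
 (.p (nat_lit 0x22762272226e226c0f190f1506) (nat_lit 0x140000b04) (nat_lit 16)))
 (.n (.n (.p (nat_lit 0xdfa0df90df70df40df20df002d00021001f09) (nat_lit 0x46802) (nat_lit 13))
 (.p (nat_lit 0x39af39a102) (nat_lit 0x6980a000800) (nat_lit 35)))
 (.p (nat_lit 0x25b5105402) (nat_lit 0x46) (nat_lit 5)))))
 (.n (.n (.n (.n (.p (nat_lit 0xd05002802) (nat_lit 0x4840) (nat_lit 1))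
 (.p (nat_lit 0x25d425d225d025ce25cc15f306) (nat_lit 0x200000b30) (nat_lit 14)))
 (.n (.p (nat_lit 0x2f010ef002) (nat_lit 0x40a3) (nat_lit 32))
 (.p (nat_lit 0x3a093993384903) (nat_lit 0xb88000080a0) (nat_lit 44))))
 (.n (.n (.p (nat_lit 0x17b817b417b217b00db30daf06) (nat_lit 0x280001a61) (nat_lit 15))
 (.p (nat_lit 0x394f393902) (nat_lit 0x68806000800) (nat_lit 35)))
 (.p (nat_lit 0x1aa30ff202) (nat_lit 0xa865) (nat_lit 4))))
 (.n (.n (.n (.p (nat_lit 0x1a941a921a8e1a8c0d3b0d3506) (nat_lit 0x240000b80) (nat_lit 15))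
 (.p (nat_lit 0x3871384902) (nat_lit 0xb0808000000) (nat_lit 35)))
 (.p (nat_lit 0xf7f0f6702) (nat_lit 0x2084) (nat_lit 18)))
 (.n (.n (.p (nat_lit 0x11af0e4f02) (nat_lit 0xa082) (nat_lit 19))
 (.p (nat_lit 0x3a1b38d737b703) (nat_lit 0x8400002020) (nat_lit 43)))
 (.p (nat_lit 0x30b110a002) (nat_lit 0x40a6) (nat_lit 32)))))

def c512_500 : Tr :=
 .n (.n (.n (.n (.n (.p (nat_lit 0x23a223a0239c239a0cef0ce906) (nat_lit 0x90001b20) (nat_lit 14))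
 (.p (nat_lit 0x251425122510250e250c14bb06) (nat_lit 0x20000090e) (nat_lit 14)))
 (.n (.p (nat_lit 0x2edf0ece02) (nat_lit 0x6863) (nat_lit 32))
 (.p (nat_lit 0x3a3f390137b903) (nat_lit 0xb0800002080) (nat_lit 43))))
 (.n (.n (.p (nat_lit 0x23ae23ac23aa23a40d950d9306) (nat_lit 0x60000c41) (nat_lit 14))
 (.p (nat_lit 0x38ff38e902) (nat_lit 0xaa802000800) (nat_lit 35)))
 (.p (nat_lit 0x155b0fbb02) (nat_lit 0x2c25) (nat_lit 19))))
 (.n (.n (.n (.p (nat_lit 0x2520251e251c25180d2f0d2706) (nat_lit 0x220001180) (nat_lit 16))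
 (.p (nat_lit 0x380937f102) (nat_lit 0x91804000000) (nat_lit 35)))
 (.p (nat_lit 0x19981996199419920f330f2906) (nat_lit 0x210001c24) (nat_lit 17)))
 (.n (.n (.p (nat_lit 0x199a19961994199219900e3506) (nat_lit 0x100001462) (nat_lit 15))
 (.p (nat_lit 0x39a0399e399a3998388105) (nat_lit 0x180a000000) (nat_lit 36)))
 (.p (nat_lit 0x1076107510731070106e106c03f00051004f09) (nat_lit 0x46066) (nat_lit 13)))))
 (.n (.n (.n (.n (.p (nat_lit 0xd170d150d120d100d0e0d0c024e000b000909) (nat_lit 0x58060) (nat_lit 13))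
 (.p (nat_lit 0x2ca5174402) (nat_lit 0x92) (nat_lit 5)))
 (.p (nat_lit 0x3270319030d030104) (nat_lit 0x95a2003) (nat_lit 24)))
 (.n (.n (.p (nat_lit 0x1b3e1b3c1b381b361b340dc706) (nat_lit 0x80000c81) (nat_lit 17))
 (.p (nat_lit 0x3981397102) (nat_lit 0x71808000800) (nat_lit 35)))
 (.p (nat_lit 0x14f0052005003) (nat_lit 0x30000a006) (nat_lit 20))))
 (.n (.n (.n (.p (nat_lit 0x22b218020d5303) (nat_lit 0xa8a0) (nat_lit 6))
 (.p (nat_lit 0x389b387f02) (nat_lit 0x9940a000000) (nat_lit 35)))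
 (.p (nat_lit 0x1ac61ac41ac01abc0f8f0f8b06) (nat_lit 0xa0000da4) (nat_lit 17)))
 (.n (.n (.p (nat_lit 0x22d422d022ce22cc0e730e6f06) (nat_lit 0x2800009a2) (nat_lit 14))
 (.p (nat_lit 0x3a27390137b703) (nat_lit 0xb0400002040) (nat_lit 43)))
 (.p (nat_lit 0x271b11ba02) (nat_lit 0xa888) (nat_lit 5)))))

def c256_244 : Tr := .n c512_244 c512_500

def c128_116 : Tr := .n c256_116 c256_244

def c64_52 : Tr := .n c128_52 c128_116

def c32_20 : Tr := .n c64_20 c64_52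

def c16_4 : Tr := .n c32_4 c32_20

def cb4_4 : Tr := c16_4

def c512_5 : Tr :=
 .n (.n (.n (.n (.n (.l (nat_lit 0x400) (nat_lit 0xa000) (nat_lit 0))
 (.p (nat_lit 0x265a265826542652265011c306) (nat_lit 0x800012a8) (nat_lit 16)))
 (.n (.p (nat_lit 0x185418521850184e184c0e7306) (nat_lit 0x200000ba2) (nat_lit 15))
 (.p (nat_lit 0x3a2738df37bf03) (nat_lit 0x29400002040) (nat_lit 43))))
 (.n (.n (.p (nat_lit 0x258c258a2588258625840d5306) (nat_lit 0x2000008a0) (nat_lit 14))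
 (.p (nat_lit 0x389b388102) (nat_lit 0x9980a000000) (nat_lit 35)))
 (.p (nat_lit 0x101d0f8d02) (nat_lit 0x4da4) (nat_lit 19))))
 (.n (.n (.n (.p (nat_lit 0x247a2478247624740d0f0d0d06) (nat_lit 0x30001060) (nat_lit 16))
 (.p (nat_lit 0x7c7006602) (nat_lit 0x6021) (nat_lit 30)))
 (.p (nat_lit 0x31b030f030302f704) (nat_lit 0xad10003) (nat_lit 24)))
 (.n (.n (.p (nat_lit 0xe510dc102) (nat_lit 0xa81) (nat_lit 19))
 (.p (nat_lit 0x3991397302) (nat_lit 0xb1c08000800) (nat_lit 35)))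
 (.p (nat_lit 0x258d1add03f103e7014e05) (nat_lit 0x1538006) (nat_lit 9)))))
 (.n (.n (.n (.n (.p (nat_lit 0x23ae23ac23a823a60cef0ce906) (nat_lit 0x90000c20) (nat_lit 16))
 (.p (nat_lit 0x14bf003202) (nat_lit 0x202e) (nat_lit 1)))
 (.n (.p (nat_lit 0x28ee28ec28e828e40ecf0ecb06) (nat_lit 0xa0000863) (nat_lit 16))
 (.p (nat_lit 0x39f617e302) (nat_lit 0x2880) (nat_lit 45))))
 (.n (.n (.p (nat_lit 0xda90d9102) (nat_lit 0x841) (nat_lit 18))
 (.p (nat_lit 0x38fb38f702) (nat_lit 0x9c402000800) (nat_lit 35)))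
 (.p (nat_lit 0x25271a77038f0381013e05) (nat_lit 0x832045) (nat_lit 9))))
 (.n (.n (.n (.p (nat_lit 0x253a2538253625300d290d2706) (nat_lit 0x60001280) (nat_lit 14))
 (.p (nat_lit 0x380f37f702) (nat_lit 0xaa404000000) (nat_lit 35)))
 (.p (nat_lit 0x19b219ae19ac19aa0f310f2906) (nat_lit 0x110001d24) (nat_lit 15)))
 (.n (.n (.p (nat_lit 0xe4b0e3302) (nat_lit 0x6062) (nat_lit 18))
 (.p (nat_lit 0x39c239c039ba38a304) (nat_lit 0x5c0a000000) (nat_lit 36)))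
 (.p (nat_lit 0x251425122510250e1077106d06) (nat_lit 0x210000166) (nat_lit 14)))))

def c512_261 : Tr :=
 .n (.n (.n (.n (.n (.p (nat_lit 0x18841882187e187c0cdb0cd506) (nat_lit 0x240000d00) (nat_lit 15))
 (.p (nat_lit 0x1e37138602) (nat_lit 0x200c) (nat_lit 4)))
 (.n (.p (nat_lit 0xf130e8302) (nat_lit 0x2c03) (nat_lit 19))
 (.p (nat_lit 0x3a353929381103) (nat_lit 0x95800004060) (nat_lit 43))))
 (.n (.n (.p (nat_lit 0x18250d7402) (nat_lit 0x8021) (nat_lit 4))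
 (.p (nat_lit 0x38cd38b502) (nat_lit 0xa2000000800) (nat_lit 35)))
 (.p (nat_lit 0xfb90fa102) (nat_lit 0x805) (nat_lit 18))))
 (.n (.n (.n (.p (nat_lit 0x19e219de19da19d80d210d1d06) (nat_lit 0x140001960) (nat_lit 15))
 (.p (nat_lit 0x37a1378f02) (nat_lit 0x71400000000) (nat_lit 35)))
 (.p (nat_lit 0x17de17dc17da17d817d40f1306) (nat_lit 0x20000c04) (nat_lit 15)))
 (.n (.n (.p (nat_lit 0xe870df702) (nat_lit 0x6b02) (nat_lit 19))
 (.p (nat_lit 0x39b739a302) (nat_lit 0x89c0a000800) (nat_lit 35)))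
 (.p (nat_lit 0x105e105d105a105810561054005107) (nat_lit 0x8046) (nat_lit 7)))))
 (.n (.n (.n (.n (.p (nat_lit 0xd0a0d080d060d050d020d0102180005000109) (nat_lit 0x20840) (nat_lit 13))
 (.p (nat_lit 0x20ab15fa02) (nat_lit 0x6050) (nat_lit 4)))
 (.n (.p (nat_lit 0x177e177c177a177817760eed06) (nat_lit 0x100000a3) (nat_lit 15))
 (.p (nat_lit 0x3a51396f385703) (nat_lit 0x2a4000080a0) (nat_lit 43))))
 (.n (.n (.p (nat_lit 0x228e228c228a228622840dad06) (nat_lit 0x40000c61) (nat_lit 14))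
 (.p (nat_lit 0x394b393d02) (nat_lit 0x59006000800) (nat_lit 35)))
 (.p (nat_lit 0x1f741f721f701f6e1f6c0ff306) (nat_lit 0x200000965) (nat_lit 15))))
 (.n (.n (.n (.p (nat_lit 0x1aae1aac1aaa1aa61aa40d3506) (nat_lit 0x40000c80) (nat_lit 17))
 (.p (nat_lit 0x385b384d02) (nat_lit 0x59008000000) (nat_lit 35)))
 (.p (nat_lit 0x24d30f7202) (nat_lit 0x2884) (nat_lit 5)))
 (.n (.n (.p (nat_lit 0x19010e5002) (nat_lit 0x882) (nat_lit 4))
 (.p (nat_lit 0x3a1a0e8302) (nat_lit 0x2b20) (nat_lit 48)))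
 (.p (nat_lit 0x30bb10aa02) (nat_lit 0x28a6) (nat_lit 32)))))

def c256_5 : Tr := .n c512_5 c512_261

def c512_133 : Tr :=
 .n (.n (.n (.n (.n (.p (nat_lit 0x22e222e022da22d80cd70cd506) (nat_lit 0xc0001900) (nat_lit 14))
 (.p (nat_lit 0x283712d602) (nat_lit 0x688a) (nat_lit 5)))
 (.n (.p (nat_lit 0x23a2239e239c239a23980e7d06) (nat_lit 0x100001303) (nat_lit 16))
 (.p (nat_lit 0x3a2c137502) (nat_lit 0x8240) (nat_lit 48))))
 (.n (.n (.p (nat_lit 0xe710d5102) (nat_lit 0x89a0) (nat_lit 19))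
 (.p (nat_lit 0x38a738a502) (nat_lit 0x8000000800) (nat_lit 35)))
 (.p (nat_lit 0x1af41af21af01aee1aec0f9f06) (nat_lit 0x200000105) (nat_lit 15))))
 (.n (.n (.n (.p (nat_lit 0xe310d1102) (nat_lit 0x4160) (nat_lit 19))
 (.p (nat_lit 0x8db004302) (nat_lit 0x6005) (nat_lit 31)))
 (.p (nat_lit 0x22a422a222a0229e229c0f0f06) (nat_lit 0x200000504) (nat_lit 14)))
 (.n (.n (.p (nat_lit 0x27f026d00fe03) (nat_lit 0x4052001) (nat_lit 22))
 (.p (nat_lit 0x39b5399502) (nat_lit 0x8000a000800) (nat_lit 35)))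
 (.p (nat_lit 0x186e186a186818641045103f06) (nat_lit 0x120000426) (nat_lit 17)))))
 (.n (.n (.n (.n (.p (nat_lit 0x23de23da23d823d60cfd0cf506) (nat_lit 0x110000040) (nat_lit 14))
 (.p (nat_lit 0x2aa3154202) (nat_lit 0x280f) (nat_lit 5)))
 (.n (.p (nat_lit 0x12cd0edd02) (nat_lit 0x8183) (nat_lit 19))
 (.p (nat_lit 0x3a0138c737ad03) (nat_lit 0x8d0000000a0) (nat_lit 44))))
 (.n (.n (.p (nat_lit 0x1802180017fe17fc17fa0d9d06) (nat_lit 0x10001561) (nat_lit 15))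
 (.p (nat_lit 0x3927391d02) (nat_lit 0x8b004000800) (nat_lit 35)))
 (.p (nat_lit 0x24b624b424b224b024ac0fd306) (nat_lit 0x20000b45) (nat_lit 14))))
 (.n (.n (.n (.p (nat_lit 0xd3b004602) (nat_lit 0xa880) (nat_lit 1))
 (.p (nat_lit 0x3833381f02) (nat_lit 0x79406000000) (nat_lit 35)))
 (.p (nat_lit 0xfd10f4102) (nat_lit 0xd44) (nat_lit 19)))
 (.n (.n (.p (nat_lit 0x23a90e4802) (nat_lit 0x4082) (nat_lit 5))
 (.p (nat_lit 0x3a113927380d03) (nat_lit 0x8d000004000) (nat_lit 43)))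
 (.p (nat_lit 0x173d107d02) (nat_lit 0x4866) (nat_lit 19)))))

def c512_389 : Tr :=
 .n (.n (.n (.n (.n (.p (nat_lit 0xfb70ce702) (nat_lit 0xa420) (nat_lit 19))
 (.p (nat_lit 0x1ec5141402) (nat_lit 0xd) (nat_lit 4)))
 (.n (.p (nat_lit 0x19570ea602) (nat_lit 0x2043) (nat_lit 4))
 (.p (nat_lit 0x3a3b399d387f03) (nat_lit 0x2140000a060) (nat_lit 43))))
 (.n (.n (.p (nat_lit 0x2d9b001302) (nat_lit 0x6041) (nat_lit 33))
 (.p (nat_lit 0x38dd38d702) (nat_lit 0x20402000800) (nat_lit 35)))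
 (.p (nat_lit 0x1a6d0fbc02) (nat_lit 0x4825) (nat_lit 4))))
 (.n (.n (.n (.p (nat_lit 0xf5b0d1b02) (nat_lit 0x2b60) (nat_lit 19))
 (.p (nat_lit 0x37c537b902) (nat_lit 0x40802000000) (nat_lit 35)))
 (.p (nat_lit 0x244a2446244424400f250f1f06) (nat_lit 0x120001424) (nat_lit 16)))
 (.n (.n (.p (nat_lit 0x2e35001d02) (nat_lit 0x4842) (nat_lit 33))
 (.p (nat_lit 0x38be38bc38b838b6379f05) (nat_lit 0x3400000000) (nat_lit 36)))
 (.p (nat_lit 0x177c177a17781776106b106106) (nat_lit 0x210000846) (nat_lit 15)))))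
 (.n (.n (.n (.n (.p (nat_lit 0x24562454245224500d030d0106) (nat_lit 0x30000d40) (nat_lit 16))
 (.p (nat_lit 0x171e171d171a17181716171400e107) (nat_lit 0x8052) (nat_lit 7)))
 (.p (nat_lit 0x223822362234223222300f0306) (nat_lit 0x2000018a3) (nat_lit 14)))
 (.n (.n (.p (nat_lit 0x25e225e025de25dc25da0db506) (nat_lit 0x10001381) (nat_lit 14))
 (.p (nat_lit 0x3977396502) (nat_lit 0x48008000800) (nat_lit 35)))
 (.p (nat_lit 0x30323030302e302c302a3028013c07) (nat_lit 0x8a5) (nat_lit 8))))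
 (.n (.n (.n (.p (nat_lit 0x1b0e1b081b061b040d450d4306) (nat_lit 0x1800002a0) (nat_lit 17))
 (.p (nat_lit 0x3870386e386c384c3846384417ad07) (nat_lit 0x8000040) (nat_lit 37)))
 (.p (nat_lit 0x253a25382536253225300f8106) (nat_lit 0x400012a4) (nat_lit 16)))
 (.n (.n (.p (nat_lit 0x190d0e5c02) (nat_lit 0xa2) (nat_lit 4))
 (.p (nat_lit 0x39d93975385703) (nat_lit 0x42400008020) (nat_lit 44)))
 (.p (nat_lit 0x26ed118c02) (nat_lit 0x68) (nat_lit 5)))))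

def c256_133 : Tr := .n c512_133 c512_389

def c128_5 : Tr := .n c256_5 c256_133

def c512_69 : Tr :=
 .n (.n (.n (.n (.n (.p (nat_lit 0xd5d0ccd02) (nat_lit 0x8000) (nat_lit 19))
 (.p (nat_lit 0x32c912b802) (nat_lit 0x86a) (nat_lit 32)))
 (.n (.p (nat_lit 0x2d102c502b702b5011005) (nat_lit 0x3034002) (nat_lit 26))
 (.p (nat_lit 0x39e212d702) (nat_lit 0x6940) (nat_lit 47))))
 (.n (.n (.p (nat_lit 0x1b161b141b121b100d530d5106) (nat_lit 0x300001aa0) (nat_lit 17))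
 (.p (nat_lit 0x389b388d02) (nat_lit 0x9b00a000000) (nat_lit 35)))
 (.p (nat_lit 0x13f0042003c03) (nat_lit 0x9000a005) (nat_lit 20))))
 (.n (.n (.n (.p (nat_lit 0x1a101a0e1a0c1a0a0d170d0d06) (nat_lit 0x210001360) (nat_lit 17))
 (.p (nat_lit 0x84e084c084a08460844011c000507) (nat_lit 0x4403) (nat_lit 28)))
 (.p (nat_lit 0xf0f0f0c0f0a0f080f060f04003b07) (nat_lit 0xa004) (nat_lit 7)))
 (.n (.n (.p (nat_lit 0x109f0dcf02) (nat_lit 0x24a1) (nat_lit 19))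
 (.p (nat_lit 0x3989397f02) (nat_lit 0x93408000800) (nat_lit 35)))
 (.p (nat_lit 0x2c962c942c922c902c8c103306) (nat_lit 0x20000b06) (nat_lit 16)))))
 (.n (.n (.n (.n (.p (nat_lit 0xd050ced02) (nat_lit 0x4820) (nat_lit 18))
 (.p (nat_lit 0x24aa24a824a624a424a214c906) (nat_lit 0x10001a2e) (nat_lit 14)))
 (.n (.p (nat_lit 0xedf0edc0eda0ed80ed60ed502f6002f002509) (nat_lit 0x50083) (nat_lit 13))
 (.p (nat_lit 0x39fd3973385903) (nat_lit 0x3a800008080) (nat_lit 44))))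
 (.n (.n (.p (nat_lit 0x223a2238223422300da30d9f06) (nat_lit 0xa0001061) (nat_lit 16))
 (.p (nat_lit 0x3919390b02) (nat_lit 0x50c04000800) (nat_lit 35)))
 (.p (nat_lit 0x15fb0fcb02) (nat_lit 0x6545) (nat_lit 19))))
 (.n (.n (.n (.p (nat_lit 0xdb90d2902) (nat_lit 0x4080) (nat_lit 19))
 (.p (nat_lit 0x3810380e380c37ec37e637e422a107) (nat_lit 0x40000a0) (nat_lit 38)))
 (.p (nat_lit 0x28ee28ec28ea28e628e40f3906) (nat_lit 0x40000044) (nat_lit 14)))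
 (.n (.n (.p (nat_lit 0x193a1934193219300e410e3f06) (nat_lit 0x180001862) (nat_lit 17))
 (.p (nat_lit 0x3a0c110902) (nat_lit 0x800) (nat_lit 48)))
 (.p (nat_lit 0x3091005102) (nat_lit 0x8866) (nat_lit 33)))))

def c512_325 : Tr :=
 .n (.n (.n (.n (.n (.p (nat_lit 0x22450ce402) (nat_lit 0x8020) (nat_lit 5))
 (.p (nat_lit 0x298a298829862982298013f506) (nat_lit 0x4000188c) (nat_lit 14)))
 (.n (.p (nat_lit 0xea20ea00e9e0e9c0e9a0e99002507) (nat_lit 0x823) (nat_lit 7))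
 (.p (nat_lit 0x39f13973385903) (nat_lit 0x3a800008060) (nat_lit 44))))
 (.n (.n (.p (nat_lit 0x2d930d8202) (nat_lit 0xa821) (nat_lit 32))
 (.p (nat_lit 0x38cf38c102) (nat_lit 0xab800000800) (nat_lit 35)))
 (.p (nat_lit 0x17ae17aa17a817a617a40fb506) (nat_lit 0x100000225) (nat_lit 15))))
 (.n (.n (.n (.p (nat_lit 0x24d824d624d424d224d00d2306) (nat_lit 0x200001c60) (nat_lit 14))
 (.p (nat_lit 0x37af37a502) (nat_lit 0xac000000000) (nat_lit 35)))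
 (.p (nat_lit 0xf1d002402) (nat_lit 0x24) (nat_lit 1)))
 (.n (.n (.p (nat_lit 0x18c50e1402) (nat_lit 0x42) (nat_lit 4))
 (.p (nat_lit 0x39c339af02) (nat_lit 0xbb40a000800) (nat_lit 35)))
 (.p (nat_lit 0x17e817e617e217e0105f105906) (nat_lit 0x240001446) (nat_lit 15)))))
 (.n (.n (.n (.n (.p (nat_lit 0x1950194c194a19480d0b0d0706) (nat_lit 0x280001940) (nat_lit 15))
 (.p (nat_lit 0x1ad21ad01ace1aca1ac8160506) (nat_lit 0x40001d50) (nat_lit 17)))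
 (.n (.p (nat_lit 0x22a622a422a0229e229c0ef306) (nat_lit 0x800005a3) (nat_lit 16))
 (.p (nat_lit 0x3a53399b388303) (nat_lit 0x19c0000a0a0) (nat_lit 43))))
 (.n (.n (.p (nat_lit 0x23170db602) (nat_lit 0x2081) (nat_lit 5))
 (.p (nat_lit 0x3955394502) (nat_lit 0x82006000800) (nat_lit 35)))
 (.p (nat_lit 0x109b100b02) (nat_lit 0xa885) (nat_lit 19))))
 (.n (.n (.n (.p (nat_lit 0x17f617f417f217f017ee17ec06) (nat_lit 0xa0) (nat_lit 2))
 (.p (nat_lit 0x3867385702) (nat_lit 0x8a408000000) (nat_lit 35)))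
 (.p (nat_lit 0x13f90f7902) (nat_lit 0x8a84) (nat_lit 19)))
 (.n (.n (.p (nat_lit 0x17c417c017be17bc0e5b0e5706) (nat_lit 0x280000b82) (nat_lit 15))
 (.p (nat_lit 0x3a1f3949382903) (nat_lit 0x52800006020) (nat_lit 43)))
 (.p (nat_lit 0x265110f002) (nat_lit 0x847) (nat_lit 5)))))

def c256_69 : Tr := .n c512_69 c512_325

def c512_197 : Tr :=
 .n (.n (.n (.n (.n (.p (nat_lit 0x18621860185e18580cd50cd306) (nat_lit 0x60001b00) (nat_lit 17))
 (.p (nat_lit 0x12f212f012ef12ec12ea12e8007f07) (nat_lit 0x68aa) (nat_lit 7)))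
 (.n (.p (nat_lit 0xe8a0e890e870e840e820e800318002d002b09) (nat_lit 0x46803) (nat_lit 13))
 (.p (nat_lit 0x39e938c537a503) (nat_lit 0x84000000060) (nat_lit 44))))
 (.n (.n (.p (nat_lit 0x18070d5602) (nat_lit 0x2001) (nat_lit 4))
 (.p (nat_lit 0x38c538ab02) (nat_lit 0x80c00000800) (nat_lit 35)))
 (.p (nat_lit 0x2fb50fa402) (nat_lit 0x4805) (nat_lit 32))))
 (.n (.n (.n (.p (nat_lit 0xd230d200d1e0d1c0d1a0d19021e000b000109) (nat_lit 0x50860) (nat_lit 13))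
 (.p (nat_lit 0x9df006302) (nat_lit 0x2088) (nat_lit 31)))
 (.p (nat_lit 0xf1b0f190f160f140f120f10036e003b003909) (nat_lit 0x58804) (nat_lit 13)))
 (.n (.n (.p (nat_lit 0x1c461c441c401c3e1c3c0deb06) (nat_lit 0x80000302) (nat_lit 17))
 (.p (nat_lit 0x39bb399b02) (nat_lit 0x98c0a000800) (nat_lit 35)))
 (.p (nat_lit 0x181a181818141812104f104906) (nat_lit 0x90001826) (nat_lit 15)))))
 (.n (.n (.n (.n (.p (nat_lit 0x19a419a219a0199e199c0cff06) (nat_lit 0x200000540) (nat_lit 17))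
 (.p (nat_lit 0x209115e002) (nat_lit 0x4030) (nat_lit 4)))
 (.n (.p (nat_lit 0x19e019de19dc19da19d80eeb06) (nat_lit 0x200001983) (nat_lit 17))
 (.p (nat_lit 0x3a07004e02) (nat_lit 0x60a0) (nat_lit 41))))
 (.n (.n (.p (nat_lit 0xdb20db10dae0dac0daa0da902640015000d09) (nat_lit 0x40861) (nat_lit 13))
 (.p (nat_lit 0x393f393502) (nat_lit 0x28006000800) (nat_lit 35)))
 (.p (nat_lit 0xfe60fe50fe20fe10fde0fdc039c0045004109) (nat_lit 0x44065) (nat_lit 13))))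
 (.n (.n (.n (.p (nat_lit 0x1a721a6e1a6c1a6a1a680d3906) (nat_lit 0x100001980) (nat_lit 17))
 (.p (nat_lit 0x3859384502) (nat_lit 0x50008000000) (nat_lit 35)))
 (.p (nat_lit 0xf6e0f6c0f6a0f680f660f65003107) (nat_lit 0x84) (nat_lit 7)))
 (.n (.n (.p (nat_lit 0x22822280227e22780e490e4706) (nat_lit 0x60001382) (nat_lit 14))
 (.p (nat_lit 0x3a14171d02) (nat_lit 0x8500) (nat_lit 48)))
 (.p (nat_lit 0x109a10981096109410931090004b07) (nat_lit 0x2886) (nat_lit 7)))))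

def c512_453 : Tr :=
 .n (.n (.n (.n (.n (.p (nat_lit 0x18a618a418a218a00cf30cf106) (nat_lit 0x300001820) (nat_lit 15))
 (.p (nat_lit 0x14ab004202) (nat_lit 0x600e) (nat_lit 1)))
 (.n (.p (nat_lit 0x19770ec602) (nat_lit 0xa063) (nat_lit 4))
 (.p (nat_lit 0x3a3d38b7379f03) (nat_lit 0x4b400000080) (nat_lit 43))))
 (.n (.n (.p (nat_lit 0x17170d8702) (nat_lit 0x2541) (nat_lit 19))
 (.p (nat_lit 0x38e738df02) (nat_lit 0x49402000800) (nat_lit 35)))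
 (.p (nat_lit 0x2280227e227c227a22780fc306) (nat_lit 0x200001b25) (nat_lit 14))))
 (.n (.n (.n (.p (nat_lit 0x1a5a1a581a561a541a520d2506) (nat_lit 0x10001080) (nat_lit 15))
 (.p (nat_lit 0x37cc37c637c437c037be37bc17d707) (nat_lit 0x2000080) (nat_lit 37)))
 (.p (nat_lit 0xf33002e02) (nat_lit 0xa824) (nat_lit 1)))
 (.n (.n (.p (nat_lit 0xe33002a02) (nat_lit 0x6062) (nat_lit 1))
 (.p (nat_lit 0x39423940393a382304) (nat_lit 0x1c06000000) (nat_lit 36)))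
 (.p (nat_lit 0x107b106302) (nat_lit 0x2846) (nat_lit 18)))))
 (.n (.n (.n (.n (.p (nat_lit 0xf4b0d0b02) (nat_lit 0xab40) (nat_lit 19))
 (.p (nat_lit 0x21e1173002) (nat_lit 0x4072) (nat_lit 4)))
 (.p (nat_lit 0xf030e8b02) (nat_lit 0xa8a3) (nat_lit 18)))
 (.n (.n (.p (nat_lit 0xdcb0dc80dc60dc40dc20dc0001707) (nat_lit 0xa881) (nat_lit 7))
 (.p (nat_lit 0x398d396b02) (nat_lit 0xa0c08000800) (nat_lit 35)))
 (.p (nat_lit 0x38703850381014004) (nat_lit 0x2c4005) (nat_lit 23))))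
 (.n (.n (.n (.p (nat_lit 0xef70d4702) (nat_lit 0xa2a0) (nat_lit 19))
 (.p (nat_lit 0x389d387902) (nat_lit 0xa080a000000) (nat_lit 35)))
 (.p (nat_lit 0x2fa3003b02) (nat_lit 0xa8a4) (nat_lit 33)))
 (.n (.n (.p (nat_lit 0x12dd0e5d02) (nat_lit 0x2a2) (nat_lit 19))
 (.p (nat_lit 0x3a22119702) (nat_lit 0xa020) (nat_lit 48)))
 (.p (nat_lit 0x1c5511a402) (nat_lit 0x88) (nat_lit 4)))))

def c256_197 : Tr := .n c512_197 c512_453

def c128_69 : Tr := .n c256_69 c256_197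

def c64_5 : Tr := .n c128_5 c128_69

def c512_37 : Tr :=
 .n (.n (.n (.n (.n (.p (nat_lit 0x184a1846184418400ccd0cc706) (nat_lit 0x120001200) (nat_lit 15))
 (.p (nat_lit 0x1916191419121910190e123506) (nat_lit 0x10000589) (nat_lit 15)))
 (.n (.p (nat_lit 0xf030e7302) (nat_lit 0xaba2) (nat_lit 19))
 (.p (nat_lit 0x39e012d502) (nat_lit 0x4940) (nat_lit 47))))
 (.n (.n (.p (nat_lit 0x25b025ae25aa25a80d530d4d06) (nat_lit 0x2400019a0) (nat_lit 14))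
 (.p (nat_lit 0x3891388702) (nat_lit 0x7240a000000) (nat_lit 35)))
 (.p (nat_lit 0x3550345012e03) (nat_lit 0x4042004) (nat_lit 22))))
 (.n (.n (.n (.p (nat_lit 0x24922490248c248a0d130d0d06) (nat_lit 0x90001160) (nat_lit 14))
 (.p (nat_lit 0x8040802080007fe07fc010c001707) (nat_lit 0xa402) (nat_lit 28)))
 (.p (nat_lit 0x12c003b00350033003105) (nat_lit 0x270008004) (nat_lit 21)))
 (.n (.n (.p (nat_lit 0x2de50dd402) (nat_lit 0x80a1) (nat_lit 32))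
 (.p (nat_lit 0x397f397902) (nat_lit 0x6a808000800) (nat_lit 35)))
 (.p (nat_lit 0x103a10381036103410331030004b07) (nat_lit 0x2806) (nat_lit 7)))))
 (.n (.n (.n (.n (.p (nat_lit 0x19061904190219000cf30cf106) (nat_lit 0x300001c20) (nat_lit 17))
 (.p (nat_lit 0x14d214d014ce14cc14ca14c900a907) (nat_lit 0x82e) (nat_lit 7)))
 (.n (.p (nat_lit 0xede0edc0eda0ed80ed70ed4002707) (nat_lit 0x2083) (nat_lit 7))
 (.p (nat_lit 0x3a43393f382703) (nat_lit 0x2a400006080) (nat_lit 43))))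
 (.n (.n (.p (nat_lit 0x22ff0d9e02) (nat_lit 0x2061) (nat_lit 5))
 (.p (nat_lit 0x3919390502) (nat_lit 0x50004000800) (nat_lit 35)))
 (.p (nat_lit 0x24782476247224700fcf0fc906) (nat_lit 0x240001045) (nat_lit 14))))
 (.n (.n (.n (.p (nat_lit 0x1aba1ab81ab41ab21ab00d2b06) (nat_lit 0x80001480) (nat_lit 17))
 (.p (nat_lit 0x3807380502) (nat_lit 0x8c004000000) (nat_lit 35)))
 (.p (nat_lit 0x2f47003302) (nat_lit 0x2044) (nat_lit 33)))
 (.n (.n (.p (nat_lit 0x2e4d001d02) (nat_lit 0x4862) (nat_lit 33))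
 (.p (nat_lit 0x3a0d38b937a103) (nat_lit 0x53800000000) (nat_lit 43)))
 (.p (nat_lit 0x1613107302) (nat_lit 0x6466) (nat_lit 19)))))

def c512_293 : Tr :=
 .n (.n (.n (.n (.n (.p (nat_lit 0xe870cd702) (nat_lit 0x6a00) (nat_lit 19))
 (.p (nat_lit 0x28f9139802) (nat_lit 0x880c) (nat_lit 5)))
 (.n (.p (nat_lit 0xe960e940e920e900e8f0e8d02ee0027002509) (nat_lit 0x10023) (nat_lit 13))
 (.p (nat_lit 0x39ef3947382f03) (nat_lit 0x4b400006060) (nat_lit 44))))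
 (.n (.n (.p (nat_lit 0x103d0d6d02) (nat_lit 0x421) (nat_lit 19))
 (.p (nat_lit 0x38bf38bb02) (nat_lit 0x6ac00000800) (nat_lit 35)))
 (.p (nat_lit 0x1a630fb202) (nat_lit 0x6025) (nat_lit 4))))
 (.n (.n (.n (.p (nat_lit 0x1a061a041a021a000d1b0d1906) (nat_lit 0x30000b60) (nat_lit 17))
 (.p (nat_lit 0x37a9379b02) (nat_lit 0x92c00000000) (nat_lit 35)))
 (.p (nat_lit 0x180217fe17fc17fa17f80f1906) (nat_lit 0x100001d04) (nat_lit 15)))
 (.n (.n (.p (nat_lit 0xe1f0e0702) (nat_lit 0xa022) (nat_lit 18))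
 (.p (nat_lit 0x39c139a702) (nat_lit 0xb240a000800) (nat_lit 35)))
 (.p (nat_lit 0x17ba17b617b417b217b0105d06) (nat_lit 0x100001246) (nat_lit 17)))))
 (.n (.n (.n (.n (.p (nat_lit 0x193a1936193419300d090d0306) (nat_lit 0x120001840) (nat_lit 15))
 (.p (nat_lit 0x361300c302) (nat_lit 0x2850) (nat_lit 33)))
 (.n (.p (nat_lit 0x226822662264226222600ef706) (nat_lit 0x2000012a3) (nat_lit 16))
 (.p (nat_lit 0x3a09398b387303) (nat_lit 0x9dc000080a0) (nat_lit 44))))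
 (.n (.n (.p (nat_lit 0x22b022ac22aa22a80db30daf06) (nat_lit 0x280001d61) (nat_lit 14))
 (.p (nat_lit 0x3945394102) (nat_lit 0x41806000800) (nat_lit 35)))
 (.p (nat_lit 0x100f0ff702) (nat_lit 0x2085) (nat_lit 18))))
 (.n (.n (.n (.p (nat_lit 0xdc90d3902) (nat_lit 0x8880) (nat_lit 19))
 (.p (nat_lit 0x386d385102) (nat_lit 0xa1808000000) (nat_lit 35)))
 (.p (nat_lit 0xf7a0f780f760f740f730f7103360033003109) (nat_lit 0x10884) (nat_lit 13)))
 (.n (.n (.p (nat_lit 0x223a2234223222300e590e5706) (nat_lit 0x180001882) (nat_lit 14))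
 (.p (nat_lit 0x39d4179102) (nat_lit 0x4020) (nat_lit 45)))
 (.p (nat_lit 0x3e503d503c9015004) (nat_lit 0x4210006) (nat_lit 23)))))

def c256_37 : Tr := .n c512_37 c512_293

def c512_165 : Tr :=
 .n (.n (.n (.n (.n (.p (nat_lit 0x22fa22f622f422f20cd90cd106) (nat_lit 0x110001a00) (nat_lit 14))
 (.p (nat_lit 0x1d9712e602) (nat_lit 0xa0aa) (nat_lit 4)))
 (.n (.p (nat_lit 0x23e10e8002) (nat_lit 0x803) (nat_lit 5))
 (.p (nat_lit 0x3a2f39ab389103) (nat_lit 0x5b80000a040) (nat_lit 43))))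
 (.n (.n (.p (nat_lit 0x23502330225021904) (nat_lit 0x5190000) (nat_lit 24))
 (.p (nat_lit 0x38c338a702) (nat_lit 0x78400000800) (nat_lit 35)))
 (.p (nat_lit 0x25fa25f625f225f00f9d0f9906) (nat_lit 0x140001405) (nat_lit 14))))
 (.n (.n (.n (.p (nat_lit 0x22790d1802) (nat_lit 0x860) (nat_lit 5))
 (.p (nat_lit 0x92f001202) (nat_lit 0x6026) (nat_lit 30)))
 (.p (nat_lit 0x19c30f1202) (nat_lit 0x2804) (nat_lit 4)))
 (.n (.n (.p (nat_lit 0x10f0022001a03) (nat_lit 0x22000a002) (nat_lit 20))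
 (.p (nat_lit 0x39a3399902) (nat_lit 0x3880a000800) (nat_lit 35)))
 (.p (nat_lit 0x25ad104c02) (nat_lit 0x4826) (nat_lit 5)))))
 (.n (.n (.n (.n (.p (nat_lit 0x19761974197219700cf70cf506) (nat_lit 0x30000340) (nat_lit 15))
 (.p (nat_lit 0x253a2538253625342532155906) (nat_lit 0x10001a2f) (nat_lit 14)))
 (.n (.p (nat_lit 0xeea0ee90ee60ee40ee20ee0002d07) (nat_lit 0x8883) (nat_lit 7))
 (.p (nat_lit 0x3a0217fb02) (nat_lit 0x28a0) (nat_lit 45))))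
 (.n (.n (.p (nat_lit 0x172f0d9f02) (nat_lit 0x2561) (nat_lit 19))
 (.p (nat_lit 0x392d392502) (nat_lit 0xa4004000800) (nat_lit 35)))
 (.p (nat_lit 0x2fed0fdc02) (nat_lit 0x65) (nat_lit 32))))
 (.n (.n (.n (.p (nat_lit 0x250a2508250225000d370d3506) (nat_lit 0xc0001880) (nat_lit 14))
 (.p (nat_lit 0x383f382502) (nat_lit 0xaa006000000) (nat_lit 35)))
 (.p (nat_lit 0xfe10f5102) (nat_lit 0x4564) (nat_lit 19)))
 (.n (.n (.p (nat_lit 0x17941792178e178c0e4f0e4906) (nat_lit 0x240000182) (nat_lit 17))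
 (.p (nat_lit 0x39cd396d385503) (nat_lit 0x22000008000) (nat_lit 44)))
 (.p (nat_lit 0x309f108e02) (nat_lit 0xa086) (nat_lit 32)))))

def c512_421 : Tr :=
 .n (.n (.n (.n (.n (.p (nat_lit 0xcf20cf00cef0ced0cea0ce802320007000509) (nat_lit 0x34820) (nat_lit 13))
 (.p (nat_lit 0x1ee7143602) (nat_lit 0xa02d) (nat_lit 4)))
 (.n (.p (nat_lit 0xebb0eb80eb70eb40eb20eb0031a002f002b09) (nat_lit 0x56843) (nat_lit 13))
 (.p (nat_lit 0x3a3b39bb389b03) (nat_lit 0x9cc0000a060) (nat_lit 43))))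
 (.n (.n (.p (nat_lit 0x190a19081906190419020d8506) (nat_lit 0x10001441) (nat_lit 15))
 (.p (nat_lit 0x390138d902) (nat_lit 0xb0802000800) (nat_lit 35)))
 (.p (nat_lit 0x178a1786178417800fc10fbb06) (nat_lit 0x120001825) (nat_lit 15))))
 (.n (.n (.n (.p (nat_lit 0x228917d902) (nat_lit 0x4080) (nat_lit 11))
 (.p (nat_lit 0x37c537bf02) (nat_lit 0x41402000000) (nat_lit 35)))
 (.p (nat_lit 0xfb70f2702) (nat_lit 0xa524) (nat_lit 19)))
 (.n (.n (.p (nat_lit 0x2846284428422840283c0e2306) (nat_lit 0x20000d42) (nat_lit 16))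
 (.p (nat_lit 0x390038fe38fa38f837e105) (nat_lit 0x5802000000) (nat_lit 36)))
 (.p (nat_lit 0x2282227e227c227a2278106906) (nat_lit 0x100001b46) (nat_lit 14)))))
 (.n (.n (.n (.n (.p (nat_lit 0x19b019ae19ac19a80d0b0d0306) (nat_lit 0x220001d40) (nat_lit 17))
 (.p (nat_lit 0x21d5172402) (nat_lit 0x4852) (nat_lit 4)))
 (.p (nat_lit 0x17d217d017ce17cc17ca0ef906) (nat_lit 0x10001ba3) (nat_lit 15)))
 (.n (.n (.p (nat_lit 0x17450db502) (nat_lit 0x581) (nat_lit 19))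
 (.p (nat_lit 0x3991396702) (nat_lit 0xb0408000800) (nat_lit 35)))
 (.p (nat_lit 0x2583102202) (nat_lit 0xa8a5) (nat_lit 5))))
 (.n (.n (.n (.p (nat_lit 0x25e025dc25da25d80d470d4306) (nat_lit 0x2800013a0) (nat_lit 14))
 (.p (nat_lit 0x3885387702) (nat_lit 0x4040a000000) (nat_lit 35)))
 (.p (nat_lit 0xf920f900f8e0f8c0f8a0f89003107) (nat_lit 0x8a4) (nat_lit 7)))
 (.n (.n (.p (nat_lit 0x180e180c180a180618040e6106) (nat_lit 0x400000a2) (nat_lit 15))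
 (.p (nat_lit 0x39db39c1387703) (nat_lit 0xb040000a020) (nat_lit 44)))
 (.p (nat_lit 0x11a5118d02) (nat_lit 0x68) (nat_lit 18)))))

def c256_165 : Tr := .n c512_165 c512_421

def c128_37 : Tr := .n c256_37 c256_165

def c512_101 : Tr :=
 .n (.n (.n (.n (.n (.p (nat_lit 0x17870cd602) (nat_lit 0x6800) (nat_lit 4))
 (.p (nat_lit 0x12ce12cc12cb12c812c612c4007f07) (nat_lit 0x608a) (nat_lit 7)))
 (.n (.p (nat_lit 0x23d70e7602) (nat_lit 0x2003) (nat_lit 5))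
 (.p (nat_lit 0x3a2d397b385b03) (nat_lit 0x5ac00008040) (nat_lit 43))))
 (.n (.n (.p (nat_lit 0x1b3c1b3a1b381b360d530d4906) (nat_lit 0x210000ca0) (nat_lit 15))
 (.p (nat_lit 0x38a3389502) (nat_lit 0xbc00a000000) (nat_lit 35)))
 (.p (nat_lit 0x1a490f9802) (nat_lit 0x4005) (nat_lit 4))))
 (.n (.n (.n (.p (nat_lit 0x1a361a301a2e1a2c0d150d1306) (nat_lit 0x180000560) (nat_lit 15))
 (.l (nat_lit 0x80415000000000200) (nat_lit 0x38504) (nat_lit 29)))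
 (.p (nat_lit 0x17c617c417c017be17bc0f0b06) (nat_lit 0x80000304) (nat_lit 17)))
 (.n (.n (.p (nat_lit 0x21e621e221e021de21dc0de106) (nat_lit 0x100000ba1) (nat_lit 15))
 (.p (nat_lit 0x398f398d02) (nat_lit 0xad008000800) (nat_lit 35)))
 (.p (nat_lit 0x1af5104402) (nat_lit 0x8026) (nat_lit 4)))))
 (.n (.n (.n (.n (.p (nat_lit 0xfc10cf102) (nat_lit 0x8c20) (nat_lit 19))
 (.p (nat_lit 0x298a298829862982298014d906) (nat_lit 0x4000104e) (nat_lit 14)))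
 (.n (.p (nat_lit 0x2490248e248c24880edf0ed706) (nat_lit 0x220001183) (nat_lit 16))
 (.p (nat_lit 0x39ff39c1387903) (nat_lit 0xb080000a080) (nat_lit 44))))
 (.n (.n (.p (nat_lit 0x227422722270226e226c0da706) (nat_lit 0x200000361) (nat_lit 16))
 (.p (nat_lit 0x3927391302) (nat_lit 0x89c04000800) (nat_lit 35)))
 (.p (nat_lit 0x2fe9004502) (nat_lit 0x8845) (nat_lit 33))))
 (.n (.n (.n (.p (nat_lit 0x108d0d2d02) (nat_lit 0x8580) (nat_lit 19))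
 (.p (nat_lit 0x3835381902) (nat_lit 0x80806000000) (nat_lit 35)))
 (.p (nat_lit 0x24a50f4402) (nat_lit 0x4844) (nat_lit 5)))
 (.n (.n (.p (nat_lit 0xe590e4102) (nat_lit 0x8862) (nat_lit 18))
 (.p (nat_lit 0x3a0f38ef37d103) (nat_lit 0x6b800002000) (nat_lit 43)))
 (.p (nat_lit 0x1a661a621a601a5e1a5c108106) (nat_lit 0x100000966) (nat_lit 15)))))

def c512_357 : Tr :=
 .n (.n (.n (.n (.n (.p (nat_lit 0x18fc18f818f618f40ce70ce306) (nat_lit 0x280000420) (nat_lit 17))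
 (.p (nat_lit 0x13ff138702) (nat_lit 0x20ac) (nat_lit 18)))
 (.n (.p (nat_lit 0x1d1e1d1c1d1a1d180e9b0e9906) (nat_lit 0x30000823) (nat_lit 15))
 (.p (nat_lit 0x39f1398f386f03) (nat_lit 0xad400008060) (nat_lit 44))))
 (.n (.n (.p (nat_lit 0xe0b0d7b02) (nat_lit 0x2a21) (nat_lit 19))
 (.p (nat_lit 0x38d038ce38cc38ac38a638a417b107) (nat_lit 0x840) (nat_lit 37)))
 (.p (nat_lit 0x22a422a222a0229e229c0fb706) (nat_lit 0x200000525) (nat_lit 14))))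
 (.n (.n (.n (.p (nat_lit 0x24f224ee24ec24ea0d210d1906) (nat_lit 0x110001d60) (nat_lit 14))
 (.p (nat_lit 0x37c937b502) (nat_lit 0x50002000000) (nat_lit 35)))
 (.p (nat_lit 0xf260f240f220f200f1f0f1d03360033003109) (nat_lit 0x10024) (nat_lit 13)))
 (.n (.n (.p (nat_lit 0x1d7e1d7c1d7a1d760e190e1506) (nat_lit 0x50000442) (nat_lit 15))
 (.p (nat_lit 0x39c339bd02) (nat_lit 0xbd00a000800) (nat_lit 35)))
 (.p (nat_lit 0x106a10681066106410621061004907) (nat_lit 0x846) (nat_lit 7)))))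
 (.n (.n (.n (.n (.p (nat_lit 0x243e243c243a24380d030d0106) (nat_lit 0x30000c40) (nat_lit 14))
 (.p (nat_lit 0x173516a502) (nat_lit 0x8171) (nat_lit 19)))
 (.n (.p (nat_lit 0x24590ef802) (nat_lit 0x8a3) (nat_lit 5))
 (.p (nat_lit 0x3a5339b7389903) (nat_lit 0x8c80000a0a0) (nat_lit 43))))
 (.n (.n (.p (nat_lit 0xdbf0dbd0dba0db80db60db402960017001509) (nat_lit 0x58081) (nat_lit 13))
 (.p (nat_lit 0x3959394d02) (nat_lit 0x93006000800) (nat_lit 35)))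
 (.p (nat_lit 0x1016101410121010100f100d037e003f003d09) (nat_lit 0x100a5) (nat_lit 13))))
 (.n (.n (.n (.p (nat_lit 0xd470d450d420d400d3e0d3c024e000b000909) (nat_lit 0x580a0) (nat_lit 13))
 (.p (nat_lit 0x3863385f02) (nat_lit 0x7b408000000) (nat_lit 35)))
 (.p (nat_lit 0xf87004602) (nat_lit 0xa0a4) (nat_lit 1)))
 (.n (.n (.p (nat_lit 0x22a422a2229e229c0e5b0e5506) (nat_lit 0x240000d82) (nat_lit 14))
 (.p (nat_lit 0x3a1f3959383f03) (nat_lit 0x95400006020) (nat_lit 43)))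
 (.p (nat_lit 0x118f10ff02) (nat_lit 0x2267) (nat_lit 19)))))

def c256_101 : Tr := .n c512_101 c512_357

def c512_229 : Tr :=
 .n (.n (.n (.n (.n (.p (nat_lit 0x186c186a186818640cdb0cd306) (nat_lit 0x220000c00) (nat_lit 15))
 (.p (nat_lit 0x28cf136e02) (nat_lit 0x20ab) (nat_lit 5)))
 (.n (.p (nat_lit 0x18fe18fc18fa18f818f40e8306) (nat_lit 0x20000c03) (nat_lit 15))
 (.p (nat_lit 0x3a320ed702) (nat_lit 0x2160) (nat_lit 48))))
 (.n (.n (.p (nat_lit 0x26622660265e265c0d6b0d6906) (nat_lit 0x300000b01) (nat_lit 16))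
 (.p (nat_lit 0x38b538b102) (nat_lit 0x41800000800) (nat_lit 35)))
 (.p (nat_lit 0x25b025ae25ac25aa25a80fab06) (nat_lit 0x200001905) (nat_lit 14))))
 (.n (.n (.n (.p (nat_lit 0x19c819c619c419c219c00d2306) (nat_lit 0x200001860) (nat_lit 17))
 (.p (nat_lit 0x37a1378502) (nat_lit 0x70000000000) (nat_lit 35)))
 (.p (nat_lit 0x226a2268226622620f150f1106) (nat_lit 0x50001a04) (nat_lit 14)))
 (.n (.n (.p (nat_lit 0x23570df602) (nat_lit 0x6802) (nat_lit 5))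
 (.p (nat_lit 0x39b3399f02) (nat_lit 0x7940a000800) (nat_lit 35)))
 (.p (nat_lit 0x1061104902) (nat_lit 0x826) (nat_lit 18)))))
 (.n (.n (.n (.n (.p (nat_lit 0xfc70cf702) (nat_lit 0x2440) (nat_lit 19))
 (.p (nat_lit 0x209f15ee02) (nat_lit 0x6830) (nat_lit 4)))
 (.n (.p (nat_lit 0xf790ee902) (nat_lit 0x8c83) (nat_lit 19))
 (.p (nat_lit 0x3a4e15e302) (nat_lit 0x64a0) (nat_lit 48))))
 (.n (.n (.p (nat_lit 0x17ae17ac17aa17a817a40dab06) (nat_lit 0x20000a61) (nat_lit 15))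
 (.p (nat_lit 0x3957393702) (nat_lit 0x88406000800) (nat_lit 35)))
 (.p (nat_lit 0x1a9d0fec02) (nat_lit 0x4865) (nat_lit 4))))
 (.n (.n (.n (.p (nat_lit 0x1a8a1a881a841a800d370d3306) (nat_lit 0xa0001a80) (nat_lit 15))
 (.p (nat_lit 0x384f384902) (nat_lit 0x28808000000) (nat_lit 35)))
 (.p (nat_lit 0x1f5e1f5a1f581f561f540f6d06) (nat_lit 0x100000084) (nat_lit 15)))
 (.n (.n (.p (nat_lit 0x1802180017fc17fa17f80e4b06) (nat_lit 0x80001582) (nat_lit 15))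
 (.p (nat_lit 0x3a1938c137a103) (nat_lit 0x73800000020) (nat_lit 43)))
 (.p (nat_lit 0x20ae20aa20a820a620a4109906) (nat_lit 0x100000a86) (nat_lit 15)))))

def c512_485 : Tr :=
 .n (.n (.n (.n (.n (.p (nat_lit 0x239623942390238e0cef0ce906) (nat_lit 0x90000b20) (nat_lit 14))
 (.p (nat_lit 0x1f6514b402) (nat_lit 0x480e) (nat_lit 4)))
 (.n (.p (nat_lit 0xed20ed00ece0ecc0eca0ec9002507) (nat_lit 0x863) (nat_lit 7))
 (.p (nat_lit 0x39f414b102) (nat_lit 0xb80) (nat_lit 47))))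
 (.n (.n (.p (nat_lit 0xd9a0d980d960d950d920d9102600011000d09) (nat_lit 0x20841) (nat_lit 13))
 (.p (nat_lit 0x38f538e502) (nat_lit 0x82002000800) (nat_lit 35)))
 (.p (nat_lit 0xfd30fbb02) (nat_lit 0x2825) (nat_lit 18))))
 (.n (.n (.n (.p (nat_lit 0x25222520251e251c251a0d2506) (nat_lit 0x10001180) (nat_lit 16))
 (.p (nat_lit 0x380937e902) (nat_lit 0x90804000000) (nat_lit 35)))
 (.p (nat_lit 0x243e243c243a24360f2d0f2906) (nat_lit 0x50000c24) (nat_lit 16)))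
 (.n (.n (.p (nat_lit 0x23e823e623e423e20e370e2d06) (nat_lit 0x210001062) (nat_lit 16))
 (.p (nat_lit 0x39823980397a386304) (nat_lit 0x3c08000000) (nat_lit 36)))
 (.p (nat_lit 0x3083004f02) (nat_lit 0x6066) (nat_lit 33)))))
 (.n (.n (.n (.n (.p (nat_lit 0x227317c302) (nat_lit 0x6060) (nat_lit 11))
 (.p (nat_lit 0x17421740173f173c173a173800df07) (nat_lit 0x6872) (nat_lit 7)))
 (.p (nat_lit 0x30102f5011e03) (nat_lit 0x8010003) (nat_lit 22)))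
 (.n (.n (.p (nat_lit 0x1b181b161b141b121b100dcb06) (nat_lit 0x200001a81) (nat_lit 15))
 (.p (nat_lit 0x3985396f02) (nat_lit 0x81408000800) (nat_lit 35)))
 (.p (nat_lit 0x14f0050004803) (nat_lit 0x11000a006) (nat_lit 20))))
 (.n (.n (.n (.p (nat_lit 0xd4f004e02) (nat_lit 0x68a0) (nat_lit 1))
 (.p (nat_lit 0x3897387d02) (nat_lit 0x8900a000000) (nat_lit 35)))
 (.p (nat_lit 0x252e252c252a25240f8d0f8b06) (nat_lit 0x60000aa4) (nat_lit 16)))
 (.n (.n (.p (nat_lit 0x2e810e7002) (nat_lit 0x88a2) (nat_lit 32))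
 (.p (nat_lit 0x3a24225502) (nat_lit 0x40) (nat_lit 46)))
 (.p (nat_lit 0x1c6a1c681c661c641c621c6006) (nat_lit 0x888) (nat_lit 2)))))

def c256_229 : Tr := .n c512_229 c512_485

def c128_101 : Tr := .n c256_101 c256_229

def c64_37 : Tr := .n c128_37 c128_101

def c32_5 : Tr := .n c64_5 c64_37

def c512_21 : Tr :=
 .n (.n (.n (.n (.n (.p (nat_lit 0x222f0cce02) (nat_lit 0xa000) (nat_lit 5))
 (.p (nat_lit 0x1235001802) (nat_lit 0x89) (nat_lit 1)))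
 (.n (.p (nat_lit 0x188418821880187e187c0e7306) (nat_lit 0x200000da2) (nat_lit 17))
 (.p (nat_lit 0x39de0e3b02) (nat_lit 0x2840) (nat_lit 47))))
 (.n (.n (.p (nat_lit 0x25a225a0259e259c0d530d5106) (nat_lit 0x3000009a0) (nat_lit 14))
 (.p (nat_lit 0x389b388302) (nat_lit 0x99c0a000000) (nat_lit 35)))
 (.p (nat_lit 0x3470337012e03) (nat_lit 0x2030004) (nat_lit 22))))
 (.n (.n (.n (.p (nat_lit 0x24762474247224700d170d1506) (nat_lit 0x300001060) (nat_lit 16))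
 (.p (nat_lit 0x7e7000f02) (nat_lit 0x2081) (nat_lit 31)))
 (.p (nat_lit 0x131003802) (nat_lit 0x10000c004) (nat_lit 20)))
 (.n (.n (.p (nat_lit 0x187f0dce02) (nat_lit 0x20a1) (nat_lit 4))
 (.p (nat_lit 0x3979397702) (nat_lit 0x52408000800) (nat_lit 35)))
 (.p (nat_lit 0x21e421e221de21dc102f102906) (nat_lit 0x240000306) (nat_lit 17)))))
 (.n (.n (.n (.n (.p (nat_lit 0x190a1908190619020ced0ce906) (nat_lit 0x50001c20) (nat_lit 17))
 (.p (nat_lit 0x246e246c24682466246414c306) (nat_lit 0x8000002e) (nat_lit 14)))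
 (.n (.p (nat_lit 0x12c30ed302) (nat_lit 0xa963) (nat_lit 19))
 (.p (nat_lit 0x39f9392f380f03) (nat_lit 0xad400004080) (nat_lit 44))))
 (.n (.n (.p (nat_lit 0x10650d9502) (nat_lit 0x4c41) (nat_lit 19))
 (.p (nat_lit 0x38ec38e638e438e038de38dc224b07) (nat_lit 0x2000820) (nat_lit 38)))
 (.p (nat_lit 0xfcf003a02) (nat_lit 0xa045) (nat_lit 1))))
 (.n (.n (.n (.p (nat_lit 0x254625442540253c0d2b0d2706) (nat_lit 0xa0000380) (nat_lit 14))
 (.p (nat_lit 0x381137fd02) (nat_lit 0xb3004000000) (nat_lit 35)))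
 (.p (nat_lit 0xfb90f2902) (nat_lit 0xd24) (nat_lit 19)))
 (.n (.n (.p (nat_lit 0xe39002402) (nat_lit 0x862) (nat_lit 1))
 (.p (nat_lit 0x39c538b1379703) (nat_lit 0x32400000000) (nat_lit 44)))
 (.p (nat_lit 0x1aae1aac1aa81aa61aa4107306) (nat_lit 0x80000466) (nat_lit 15)))))

def c512_277 : Tr :=
 .n (.n (.n (.n (.n (.p (nat_lit 0xcf30cdb02) (nat_lit 0xa800) (nat_lit 18))
 (.p (nat_lit 0x245624542450244e244c138b06) (nat_lit 0x8000050c) (nat_lit 14)))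
 (.n (.p (nat_lit 0x23f10e9002) (nat_lit 0x4023) (nat_lit 5))
 (.p (nat_lit 0x3a37393f382103) (nat_lit 0x29800006060) (nat_lit 43))))
 (.n (.n (.p (nat_lit 0x1c521c501c4e1c4c1c4a0d6d06) (nat_lit 0x10001321) (nat_lit 15))
 (.p (nat_lit 0x38d138b702) (nat_lit 0xb2400000800) (nat_lit 35)))
 (.p (nat_lit 0x15490fa902) (nat_lit 0x8c05) (nat_lit 19))))
 (.n (.n (.n (.p (nat_lit 0x19ec19ea19e619e40d230d1d06) (nat_lit 0x240000a60) (nat_lit 15))
 (.p (nat_lit 0x37a7379502) (nat_lit 0x8a000000000) (nat_lit 35)))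
 (.p (nat_lit 0x17e817e617e417e00f1b0f1306) (nat_lit 0x220001c04) (nat_lit 15)))
 (.n (.n (.p (nat_lit 0x2e13001f02) (nat_lit 0x6022) (nat_lit 33))
 (.p (nat_lit 0x39bb39a502) (nat_lit 0x9a00a000800) (nat_lit 35)))
 (.p (nat_lit 0x224622442240223e223c105b06) (nat_lit 0x80000146) (nat_lit 14)))))
 (.n (.n (.n (.n (.p (nat_lit 0x192c192a1928192619240d0b06) (nat_lit 0x200000840) (nat_lit 15))
 (.p (nat_lit 0x2516251425122510250e15f506) (nat_lit 0x10000150) (nat_lit 14)))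
 (.n (.p (nat_lit 0x17a0179e179c179a17980ef706) (nat_lit 0x2000011a3) (nat_lit 15))
 (.p (nat_lit 0x3a093983386303) (nat_lit 0x7bc000080a0) (nat_lit 44))))
 (.n (.n (.p (nat_lit 0x229a2294229222900db10daf06) (nat_lit 0x180001c61) (nat_lit 14))
 (.p (nat_lit 0x3947393f02) (nat_lit 0x49406000800) (nat_lit 35)))
 (.p (nat_lit 0x1aa50ff402) (nat_lit 0x85) (nat_lit 4))))
 (.n (.n (.n (.p (nat_lit 0x25822580257e25780d350d3306) (nat_lit 0x60001d80) (nat_lit 14))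
 (.p (nat_lit 0x385f384f02) (nat_lit 0x69408000000) (nat_lit 35)))
 (.p (nat_lit 0x2f870f7602) (nat_lit 0x6884) (nat_lit 32)))
 (.n (.n (.p (nat_lit 0x23b90e5802) (nat_lit 0x8882) (nat_lit 5))
 (.p (nat_lit 0x3a1d391f380703) (nat_lit 0x6c400004020) (nat_lit 43)))
 (.p (nat_lit 0x3cd03c9014e03) (nat_lit 0x44006) (nat_lit 22)))))

def c256_21 : Tr := .n c512_21 c512_277

def c512_149 : Tr :=
 .n (.n (.n (.n (.n (.p (nat_lit 0x22ee22ec22e622e40cd70cd506) (nat_lit 0xc0000a00) (nat_lit 14))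
 (.p (nat_lit 0x12f112d902) (nat_lit 0x888a) (nat_lit 18)))
 (.n (.p (nat_lit 0xe950e7d02) (nat_lit 0x8003) (nat_lit 18))
 (.p (nat_lit 0x3a2f39c1387703) (nat_lit 0xb040000a040) (nat_lit 43))))
 (.n (.n (.p (nat_lit 0x101d0d4d02) (nat_lit 0x4ca0) (nat_lit 19))
 (.p (nat_lit 0x38cb38a502) (nat_lit 0x98000000800) (nat_lit 35)))
 (.p (nat_lit 0x1b161b141b121b100f9f0f9d06) (nat_lit 0x300001205) (nat_lit 15))))
 (.n (.n (.n (.p (nat_lit 0xfdd0d0d02) (nat_lit 0x460) (nat_lit 19))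
 (.p (nat_lit 0x8ef003202) (nat_lit 0x2045) (nat_lit 30)))
 (.p (nat_lit 0x141f0f0f02) (nat_lit 0xa304) (nat_lit 19)))
 (.n (.n (.p (nat_lit 0x28b027300fe03) (nat_lit 0xa032001) (nat_lit 22))
 (.p (nat_lit 0x39ad399702) (nat_lit 0x6040a000800) (nat_lit 35)))
 (.p (nat_lit 0x25b225b025ae25ac25aa25a806) (nat_lit 0x826) (nat_lit 3)))))
 (.n (.n (.n (.n (.p (nat_lit 0x23f423f223f023ee0cff0cf506) (nat_lit 0x210000140) (nat_lit 14))
 (.p (nat_lit 0x200b155a02) (nat_lit 0x282f) (nat_lit 4)))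
 (.n (.p (nat_lit 0x24430ee202) (nat_lit 0x2883) (nat_lit 5))
 (.p (nat_lit 0x3a0338d737b703) (nat_lit 0x84000020a0) (nat_lit 44))))
 (.n (.n (.p (nat_lit 0x11050da502) (nat_lit 0x8061) (nat_lit 19))
 (.p (nat_lit 0x3925392102) (nat_lit 0x83804000800) (nat_lit 35)))
 (.p (nat_lit 0x10610fd102) (nat_lit 0x845) (nat_lit 19))))
 (.n (.n (.n (.p (nat_lit 0x24fe24fc24f624f40d370d3506) (nat_lit 0xc0000880) (nat_lit 14))
 (.p (nat_lit 0x3837382102) (nat_lit 0x89806000000) (nat_lit 35)))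
 (.p (nat_lit 0x1a050f5402) (nat_lit 0x8064) (nat_lit 4)))
 (.n (.n (.p (nat_lit 0xe4e0e4c0e4b0e480e470e4402b6001f001b09) (nat_lit 0x32082) (nat_lit 13))
 (.p (nat_lit 0x39cb393d382503) (nat_lit 0x22000006000) (nat_lit 44)))
 (.p (nat_lit 0x1b39108802) (nat_lit 0x4086) (nat_lit 4)))))

def c512_405 : Tr :=
 .n (.n (.n (.n (.n (.p (nat_lit 0x179f0cee02) (nat_lit 0x6820) (nat_lit 4))
 (.p (nat_lit 0x2983142202) (nat_lit 0x280d) (nat_lit 5)))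
 (.n (.p (nat_lit 0xf3b0eab02) (nat_lit 0x6443) (nat_lit 19))
 (.p (nat_lit 0x3a3b399f388703) (nat_lit 0x2a40000a060) (nat_lit 43))))
 (.n (.n (.p (nat_lit 0x235823562354235223500d8f06) (nat_lit 0x200001041) (nat_lit 14))
 (.p (nat_lit 0x38fd38d702) (nat_lit 0xa0402000800) (nat_lit 35)))
 (.p (nat_lit 0xfc30fc00fbe0fbc0fba0fb8004707) (nat_lit 0xa825) (nat_lit 7))))
 (.n (.n (.n (.p (nat_lit 0x10830d2302) (nat_lit 0xad60) (nat_lit 19))
 (.p (nat_lit 0x37c137bd02) (nat_lit 0x31002000000) (nat_lit 35)))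
 (.p (nat_lit 0xf350f1d02) (nat_lit 0x24) (nat_lit 18)))
 (.n (.n (.p (nat_lit 0x2e3b002302) (nat_lit 0xa842) (nat_lit 33))
 (.p (nat_lit 0x38e038de38da38d837c105) (nat_lit 0x1802000000) (nat_lit 36)))
 (.p (nat_lit 0x17a0179e179a1798106b106506) (nat_lit 0x240001946) (nat_lit 15)))))
 (.n (.n (.n (.n (.p (nat_lit 0x19b219b019ae19ac19a80d0306) (nat_lit 0x20001d40) (nat_lit 17))
 (.p (nat_lit 0x1862185e185c185a1858171d06) (nat_lit 0x100001352) (nat_lit 15)))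
 (.p (nat_lit 0x17ba17b817b617b40efb0ef906) (nat_lit 0x30001aa3) (nat_lit 17)))
 (.n (.n (.p (nat_lit 0x11a70db702) (nat_lit 0x2181) (nat_lit 19))
 (.p (nat_lit 0x396f396702) (nat_lit 0x28408000800) (nat_lit 35)))
 (.p (nat_lit 0x302d004102) (nat_lit 0x48a5) (nat_lit 33))))
 (.n (.n (.n (.p (nat_lit 0x25d625d425d025ce25cc0d4306) (nat_lit 0x800003a0) (nat_lit 14))
 (.p (nat_lit 0x3885387502) (nat_lit 0x4000a000000) (nat_lit 35)))
 (.p (nat_lit 0xf850f0d02) (nat_lit 0x80a4) (nat_lit 18)))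
 (.n (.n (.p (nat_lit 0xe660e640e630e600e5e0e5c001f07) (nat_lit 0x60a2) (nat_lit 7))
 (.p (nat_lit 0x39d93991387103) (nat_lit 0xb5800008020) (nat_lit 44)))
 (.p (nat_lit 0x1197002202) (nat_lit 0xa068) (nat_lit 1)))))

def c256_149 : Tr := .n c512_149 c512_405

def c128_21 : Tr := .n c256_21 c256_149

def c512_85 : Tr :=
 .n (.n (.n (.n (.n (.p (nat_lit 0xf9d0ccd02) (nat_lit 0x8400) (nat_lit 19))
 (.p (nat_lit 0x12c212c012bf12bd12ba12b80502007f007d09) (nat_lit 0x3486a) (nat_lit 13)))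
 (.n (.p (nat_lit 0x11d002c002a002804) (nat_lit 0x1c0008003) (nat_lit 20))
 (.p (nat_lit 0x3a2d3967384d03) (nat_lit 0x9000008040) (nat_lit 43))))
 (.n (.n (.p (nat_lit 0x1b321b301b2e1b2a1b280d4d06) (nat_lit 0x40001ba0) (nat_lit 15))
 (.p (nat_lit 0x3899389102) (nat_lit 0x9380a000000) (nat_lit 35)))
 (.p (nat_lit 0x13d00460042004004) (nat_lit 0x2c0008005) (nat_lit 20))))
 (.n (.n (.n (.p (nat_lit 0x1a2a1a281a261a221a200d1106) (nat_lit 0x40001460) (nat_lit 15))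
 (.p (nat_lit 0x877002702) (nat_lit 0x2083) (nat_lit 31)))
 (.p (nat_lit 0x17a217a0179e179a17980f0906) (nat_lit 0x40001104) (nat_lit 15)))
 (.n (.n (.p (nat_lit 0xde100e002) (nat_lit 0x88a1) (nat_lit 1))
 (.p (nat_lit 0x398f398502) (nat_lit 0xac008000800) (nat_lit 35)))
 (.p (nat_lit 0x304d103c02) (nat_lit 0x26) (nat_lit 32)))))
 (.n (.n (.n (.n (.p (nat_lit 0xe990ce902) (nat_lit 0xa20) (nat_lit 19))
 (.p (nat_lit 0x34e714d602) (nat_lit 0x204e) (nat_lit 32)))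
 (.n (.p (nat_lit 0x19c819c619c419c219c00edf06) (nat_lit 0x200001083) (nat_lit 15))
 (.p (nat_lit 0x39fd3987386703) (nat_lit 0x8c400008080) (nat_lit 44))))
 (.n (.n (.p (nat_lit 0x225e225c225a225822560d9d06) (nat_lit 0x10000261) (nat_lit 14))
 (.p (nat_lit 0x3927390f02) (nat_lit 0x89404000800) (nat_lit 35)))
 (.p (nat_lit 0xfd5003402) (nat_lit 0x4845) (nat_lit 1))))
 (.n (.n (.n (.p (nat_lit 0xf650d2502) (nat_lit 0x380) (nat_lit 19))
 (.p (nat_lit 0x383f381502) (nat_lit 0xa8006000000) (nat_lit 35)))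
 (.p (nat_lit 0x14db0f3b02) (nat_lit 0x6444) (nat_lit 19)))
 (.n (.n (.p (nat_lit 0x244a24462444244224400e4106) (nat_lit 0x100001c62) (nat_lit 14))
 (.p (nat_lit 0x39c738dd37bd03) (nat_lit 0x21000002000) (nat_lit 44)))
 (.p (nat_lit 0x10821081107f107c107a107803f00051004f09) (nat_lit 0x46866) (nat_lit 13)))))

def c512_341 : Tr :=
 .n (.n (.n (.n (.n (.p (nat_lit 0x18da18d818d218d00ce30ce106) (nat_lit 0xc0001220) (nat_lit 15))
 (.p (nat_lit 0x2967140602) (nat_lit 0xa0ac) (nat_lit 5)))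
 (.n (.p (nat_lit 0xea1008002) (nat_lit 0x8823) (nat_lit 1))
 (.p (nat_lit 0x39f13983386303) (nat_lit 0x7bc00008060) (nat_lit 44))))
 (.n (.n (.p (nat_lit 0x270e270a2708270627040d8106) (nat_lit 0x100000c21) (nat_lit 16))
 (.p (nat_lit 0x38d138c702) (nat_lit 0xb4400000800) (nat_lit 35)))
 (.p (nat_lit 0x17d017ce17cc17ca17c80fb706) (nat_lit 0x200001325) (nat_lit 15))))
 (.n (.n (.n (.p (nat_lit 0x24e624e224de24dc0d210d1d06) (nat_lit 0x140000d60) (nat_lit 14))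
 (.p (nat_lit 0x37ac37a637a437a0379e379c177507) (nat_lit 0x0) (nat_lit 37)))
 (.p (nat_lit 0x2f310f2002) (nat_lit 0x4024) (nat_lit 32)))
 (.n (.n (.p (nat_lit 0x2e2b001f02) (nat_lit 0x6042) (nat_lit 33))
 (.p (nat_lit 0x39c339b502) (nat_lit 0xbc00a000800) (nat_lit 35)))
 (.p (nat_lit 0x22b222ae22ac22aa22a8105d06) (nat_lit 0x100001546) (nat_lit 16)))))
 (.n (.n (.n (.n (.p (nat_lit 0x24262422241e241c0d090d0506) (nat_lit 0x140000b40) (nat_lit 14))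
 (.p (nat_lit 0x2be7168602) (nat_lit 0x2051) (nat_lit 5)))
 (.n (.p (nat_lit 0x12df0eef02) (nat_lit 0x21a3) (nat_lit 19))
 (.p (nat_lit 0x3a0b39ab389103) (nat_lit 0x5b80000a0a0) (nat_lit 44))))
 (.n (.n (.p (nat_lit 0xdbe0dbd0dba0db80db60db4001507) (nat_lit 0x8081) (nat_lit 7))
 (.p (nat_lit 0x3959394702) (nat_lit 0x92406000800) (nat_lit 35)))
 (.p (nat_lit 0x1016101410121011100e100c004107) (nat_lit 0x40a5) (nat_lit 7))))
 (.n (.n (.n (.p (nat_lit 0xd460d440d430d400d3e0d3c000707) (nat_lit 0x60a0) (nat_lit 7))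
 (.p (nat_lit 0x3871385902) (nat_lit 0xb2808000000) (nat_lit 35)))
 (.p (nat_lit 0x2f8f003302) (nat_lit 0x20a4) (nat_lit 33)))
 (.n (.n (.p (nat_lit 0x17de17da17d817d617d40e5906) (nat_lit 0x100000c82) (nat_lit 17))
 (.p (nat_lit 0x3a1f394f383503) (nat_lit 0x6c000006020) (nat_lit 43)))
 (.p (nat_lit 0x265d10fc02) (nat_lit 0x67) (nat_lit 5)))))

def c256_85 : Tr := .n c512_85 c512_341

def c512_213 : Tr :=
 .n (.n (.n (.n (.n (.p (nat_lit 0x186e186c186a186818660cd106) (nat_lit 0x10000c00) (nat_lit 15))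
 (.p (nat_lit 0x18e618e418e218e018de12e906) (nat_lit 0x10000baa) (nat_lit 15)))
 (.n (.p (nat_lit 0x239623942390238c0e870e8306) (nat_lit 0xa0000b03) (nat_lit 16))
 (.p (nat_lit 0x3a3338ff37b703) (nat_lit 0xa8400002060) (nat_lit 43))))
 (.n (.n (.p (nat_lit 0xdef0d5f02) (nat_lit 0xa201) (nat_lit 19))
 (.p (nat_lit 0x38cb38ad02) (nat_lit 0x99000000800) (nat_lit 35)))
 (.p (nat_lit 0xfab0fa80fa60fa40fa20fa0004707) (nat_lit 0xa805) (nat_lit 7))))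
 (.n (.n (.n (.p (nat_lit 0x246a2468246624640d230d2106) (nat_lit 0x300000860) (nat_lit 16))
 (.p (nat_lit 0xbff00c702) (nat_lit 0x6030) (nat_lit 31)))
 (.p (nat_lit 0x2252224c224a22480f190f1706) (nat_lit 0x180001904) (nat_lit 14)))
 (.n (.n (.p (nat_lit 0xe7f0def02) (nat_lit 0xa302) (nat_lit 19))
 (.p (nat_lit 0x39b5399d02) (nat_lit 0x8100a000800) (nat_lit 35)))
 (.p (nat_lit 0x2312230e230c230a2308105106) (nat_lit 0x100001b26) (nat_lit 14)))))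
 (.n (.n (.n (.n (.p (nat_lit 0xd870cf702) (nat_lit 0x2040) (nat_lit 19))
 (.p (nat_lit 0x1b0e1b0c1b0a1b061b0415e106) (nat_lit 0x40000230) (nat_lit 15)))
 (.n (.p (nat_lit 0x24f224f024ec24ea24e80ee706) (nat_lit 0x80001d83) (nat_lit 14))
 (.p (nat_lit 0x3a073941382303) (nat_lit 0x31c000060a0) (nat_lit 44))))
 (.n (.n (.p (nat_lit 0x178a1786178217800db10dad06) (nat_lit 0x140001861) (nat_lit 17))
 (.p (nat_lit 0x3963393502) (nat_lit 0xb8006000800) (nat_lit 35)))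
 (.p (nat_lit 0x10710fe102) (nat_lit 0x4065) (nat_lit 19))))
 (.n (.n (.n (.p (nat_lit 0x1a7e1a7c1a781a761a740d3706) (nat_lit 0x80000a80) (nat_lit 15))
 (.p (nat_lit 0x3859384702) (nat_lit 0x50408000000) (nat_lit 35)))
 (.p (nat_lit 0x1a1d0f6c02) (nat_lit 0x8084) (nat_lit 4)))
 (.n (.n (.p (nat_lit 0x17ea17e817e617e417e00e4706) (nat_lit 0x20001482) (nat_lit 17))
 (.p (nat_lit 0x39cf39b3389b03) (nat_lit 0x7cc0000a000) (nat_lit 44)))
 (.p (nat_lit 0x25fb109a02) (nat_lit 0xa886) (nat_lit 5)))))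

def c512_469 : Tr :=
 .n (.n (.n (.n (.n (.p (nat_lit 0x237c237a237623740cf30ced06) (nat_lit 0x240000a20) (nat_lit 14))
 (.p (nat_lit 0x1a7e1a7c1a7a1a781a7414a706) (nat_lit 0x2000020e) (nat_lit 15)))
 (.n (.p (nat_lit 0x1ec21ec01ebe1ebc1eb80ebf06) (nat_lit 0x20001563) (nat_lit 15))
 (.p (nat_lit 0x39f538bf37a703) (nat_lit 0x6c400000080) (nat_lit 44))))
 (.n (.n (.p (nat_lit 0xd9a0d980d960d950d920d90001107) (nat_lit 0x4841) (nat_lit 7))
 (.p (nat_lit 0x38e938e102) (nat_lit 0x51802000800) (nat_lit 35)))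
 (.p (nat_lit 0x17ea17e417e217e00fc10fbf06) (nat_lit 0x180001c25) (nat_lit 17))))
 (.n (.n (.n (.p (nat_lit 0x1a581a561a521a500d2f0d2906) (nat_lit 0x240001080) (nat_lit 15))
 (.p (nat_lit 0x380937e502) (nat_lit 0x90004000000) (nat_lit 35)))
 (.p (nat_lit 0x192e192a1928192619240f3106) (nat_lit 0x100000824) (nat_lit 15)))
 (.n (.n (.p (nat_lit 0xe360e340e330e300e2e0e2d02aa001f001909) (nat_lit 0x30062) (nat_lit 13))
 (.p (nat_lit 0x39623960395a384304) (nat_lit 0x5c06000000) (nat_lit 36)))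
 (.p (nat_lit 0x25cd106c02) (nat_lit 0x66) (nat_lit 5)))))
 (.n (.n (.n (.n (.p (nat_lit 0x226d0d0c02) (nat_lit 0x60) (nat_lit 5))
 (.p (nat_lit 0x25ca25c825c425c225c0173306) (nat_lit 0x80001272) (nat_lit 14)))
 (.p (nat_lit 0x30d02f1011e03) (nat_lit 0x4040003) (nat_lit 22)))
 (.n (.n (.p (nat_lit 0x25a625a425a0259e0dc70dc106) (nat_lit 0x90000981) (nat_lit 16))
 (.p (nat_lit 0x3989396d02) (nat_lit 0x91008000800) (nat_lit 35)))
 (.p (nat_lit 0x3ab039f013e03) (nat_lit 0xa034005) (nat_lit 22))))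
 (.n (.n (.n (.p (nat_lit 0x17f90d4802) (nat_lit 0x8a0) (nat_lit 4))
 (.p (nat_lit 0x3897387b02) (nat_lit 0x88c0a000000) (nat_lit 35)))
 (.p (nat_lit 0x250825062504250225000f9306) (nat_lit 0x2000018a4) (nat_lit 14)))
 (.n (.n (.p (nat_lit 0x2e7b0e6a02) (nat_lit 0x28a2) (nat_lit 32))
 (.p (nat_lit 0x3a2538c137a103) (nat_lit 0x73800000040) (nat_lit 43)))
 (.p (nat_lit 0x270f11ae02) (nat_lit 0xa088) (nat_lit 5)))))

def c256_213 : Tr := .n c512_213 c512_469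

def c128_85 : Tr := .n c256_85 c256_213

def c64_21 : Tr := .n c128_21 c128_85

def c512_53 : Tr :=
 .n (.n (.n (.n (.n (.p (nat_lit 0x231c231a231823160ccf0cc506) (nat_lit 0x210000400) (nat_lit 14))
 (.p (nat_lit 0x27b5125402) (nat_lit 0x80a9) (nat_lit 5)))
 (.n (.p (nat_lit 0x2d102b702ab011004) (nat_lit 0x6210002) (nat_lit 23))
 (.p (nat_lit 0x39e33941382103) (nat_lit 0x31800006040) (nat_lit 44))))
 (.n (.n (.p (nat_lit 0x25ba25b825b625b40d530d5106) (nat_lit 0x300000aa0) (nat_lit 16))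
 (.p (nat_lit 0x388d388b02) (nat_lit 0x62c0a000000) (nat_lit 35)))
 (.p (nat_lit 0x36f0349033d013004) (nat_lit 0x8290004) (nat_lit 23))))
 (.n (.n (.n (.p (nat_lit 0x249e249c249624940d130d1106) (nat_lit 0xc0000260) (nat_lit 14))
 (.l (nat_lit 0x80505000020) (nat_lit 0x26462) (nat_lit 29)))
 (.p (nat_lit 0x24670f0602) (nat_lit 0x2004) (nat_lit 5)))
 (.n (.n (.p (nat_lit 0x2ca22c9e2c9c2c9a2c980dd506) (nat_lit 0x1000013a1) (nat_lit 14))
 (.p (nat_lit 0x3991397b02) (nat_lit 0xb2c08000800) (nat_lit 35)))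
 (.p (nat_lit 0x259b103a02) (nat_lit 0xa806) (nat_lit 5)))))
 (.n (.n (.n (.n (.p (nat_lit 0x19221920191e191c0ceb0ce906) (nat_lit 0x30001d20) (nat_lit 15))
 (.p (nat_lit 0x1f8114d002) (nat_lit 0x882e) (nat_lit 4)))
 (.n (.p (nat_lit 0x198d0edc02) (nat_lit 0x8083) (nat_lit 4))
 (.p (nat_lit 0x39fd3967384703) (nat_lit 0x8400008080) (nat_lit 44))))
 (.n (.n (.p (nat_lit 0xda60da50da20da00d9e0d9c001507) (nat_lit 0x8061) (nat_lit 7))
 (.p (nat_lit 0x3925390702) (nat_lit 0x80404000800) (nat_lit 35)))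
 (.p (nat_lit 0x24f224f024ec24e80fcb0fc706) (nat_lit 0xa0001545) (nat_lit 16))))
 (.n (.n (.n (.p (nat_lit 0x1ad21ad01ace1acc1ac80d2706) (nat_lit 0x20001580) (nat_lit 15))
 (.p (nat_lit 0x3811380902) (nat_lit 0xb4804000000) (nat_lit 35)))
 (.p (nat_lit 0x19ed0f3c02) (nat_lit 0x8044) (nat_lit 4)))
 (.n (.n (.p (nat_lit 0xe420e400e3e0e3d0e3a0e3902a8001d001909) (nat_lit 0x20862) (nat_lit 13))
 (.p (nat_lit 0x39c538cb37ab03) (nat_lit 0x9cc00000000) (nat_lit 44)))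
 (.p (nat_lit 0x308b107a02) (nat_lit 0x2866) (nat_lit 32)))))

def c512_309 : Tr :=
 .n (.n (.n (.n (.n (.p (nat_lit 0x10330cd302) (nat_lit 0x2d00) (nat_lit 19))
 (.p (nat_lit 0x28ff139e02) (nat_lit 0x202c) (nat_lit 5)))
 (.n (.p (nat_lit 0x28522850284e284c28480e8f06) (nat_lit 0x20001523) (nat_lit 14))
 (.p (nat_lit 0x3a393967384703) (nat_lit 0x8400008060) (nat_lit 43))))
 (.n (.n (.p (nat_lit 0x22dd0d7c02) (nat_lit 0x4821) (nat_lit 5))
 (.p (nat_lit 0x38d138bd02) (nat_lit 0xb3000000800) (nat_lit 35)))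
 (.p (nat_lit 0x223a22382236223422320fad06) (nat_lit 0x10001025) (nat_lit 14))))
 (.n (.n (.n (.p (nat_lit 0x24ce24ca24c824c60d210d1906) (nat_lit 0x110000c60) (nat_lit 14))
 (.p (nat_lit 0x37ab379f02) (nat_lit 0x9b400000000) (nat_lit 35)))
 (.p (nat_lit 0x13950f1502) (nat_lit 0x4a04) (nat_lit 19)))
 (.n (.n (.p (nat_lit 0x18c30e1202) (nat_lit 0xa822) (nat_lit 4))
 (.p (nat_lit 0x39bd39ab02) (nat_lit 0xa2c0a000800) (nat_lit 35)))
 (.p (nat_lit 0x17d217d017cc17ca17c8105b06) (nat_lit 0x80001346) (nat_lit 15)))))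
 (.n (.n (.n (.n (.p (nat_lit 0x194419421940193c0d0b0d0306) (nat_lit 0x220000940) (nat_lit 15))
 (.p (nat_lit 0x361b160a02) (nat_lit 0xa850) (nat_lit 32)))
 (.n (.p (nat_lit 0x228e228c228a228822860eed06) (nat_lit 0x100004a3) (nat_lit 14))
 (.p (nat_lit 0x3a0b3995387703) (nat_lit 0x40000a0a0) (nat_lit 44))))
 (.n (.n (.p (nat_lit 0x107d0dad02) (nat_lit 0x4c61) (nat_lit 19))
 (.p (nat_lit 0x3945394302) (nat_lit 0x41c06000800) (nat_lit 35)))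
 (.p (nat_lit 0x1ab9100802) (nat_lit 0x8885) (nat_lit 4))))
 (.n (.n (.n (.p (nat_lit 0xf750d3502) (nat_lit 0x4b80) (nat_lit 19))
 (.p (nat_lit 0x3863385502) (nat_lit 0x7a008000000) (nat_lit 35)))
 (.p (nat_lit 0x1f821f801f7e1f7c1f7a0f7106) (nat_lit 0x10001984) (nat_lit 17)))
 (.n (.n (.p (nat_lit 0x17ae17ac17aa17a817a60e5106) (nat_lit 0x10000a82) (nat_lit 15))
 (.p (nat_lit 0x39d73937381d03) (nat_lit 0x9000006020) (nat_lit 44)))
 (.p (nat_lit 0x3db03cf014e03) (nat_lit 0xa010006) (nat_lit 22)))))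

def c256_53 : Tr := .n c512_53 c512_309

def c512_181 : Tr :=
 .n (.n (.n (.n (.n (.p (nat_lit 0x2306230422fe22fc0cd70cd506) (nat_lit 0xc0000b00) (nat_lit 16))
 (.p (nat_lit 0x23c623c423c223c023be12dd06) (nat_lit 0x100005aa) (nat_lit 16)))
 (.n (.p (nat_lit 0x2e970e8602) (nat_lit 0x6803) (nat_lit 32))
 (.p (nat_lit 0x39e739b9389b03) (nat_lit 0x94c0000a040) (nat_lit 44))))
 (.n (.n (.p (nat_lit 0xff0012001003) (nat_lit 0xc000a001) (nat_lit 20))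
 (.p (nat_lit 0x38bd38a902) (nat_lit 0x60800000800) (nat_lit 35)))
 (.p (nat_lit 0x2fba2fb82fb62fb42fb22fb0013c07) (nat_lit 0x805) (nat_lit 8))))
 (.n (.n (.n (.p (nat_lit 0x227f0d1e02) (nat_lit 0x6860) (nat_lit 5))
 (.l (nat_lit 0x55800000000000000200) (nat_lit 0x58346) (nat_lit 29)))
 (.p (nat_lit 0x19c90f1802) (nat_lit 0x8804) (nat_lit 4)))
 (.n (.n (.p (nat_lit 0x189b0dea02) (nat_lit 0x6002) (nat_lit 4))
 (.p (nat_lit 0x39c3399902) (nat_lit 0xb880a000800) (nat_lit 35)))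
 (.p (nat_lit 0x3061005102) (nat_lit 0x8826) (nat_lit 33)))))
 (.n (.n (.n (.n (.p (nat_lit 0x198e198a198819860cfd0cf506) (nat_lit 0x110000440) (nat_lit 15))
 (.p (nat_lit 0x207b15ca02) (nat_lit 0x6010) (nat_lit 4)))
 (.n (.p (nat_lit 0x246e246c2468246624640ee706) (nat_lit 0x80000883) (nat_lit 14))
 (.p (nat_lit 0x3a4d3927380903) (nat_lit 0x8c8000040a0) (nat_lit 43))))
 (.n (.n (.p (nat_lit 0x185f0dae02) (nat_lit 0x6861) (nat_lit 4))
 (.p (nat_lit 0x392f392d02) (nat_lit 0xad004000800) (nat_lit 35)))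
 (.p (nat_lit 0x25430fe202) (nat_lit 0x6065) (nat_lit 5))))
 (.n (.n (.n (.p (nat_lit 0x251625122510250c0d390d3306) (nat_lit 0x120000980) (nat_lit 16))
 (.p (nat_lit 0x382c382638243820381e381c224307) (nat_lit 0x6000020) (nat_lit 38)))
 (.p (nat_lit 0xf630f600f5e0f5c0f5a0f58003b07) (nat_lit 0xa864) (nat_lit 7)))
 (.n (.n (.p (nat_lit 0x226a22682266226422600e4706) (nat_lit 0x20001282) (nat_lit 14))
 (.p (nat_lit 0x3a153979385f03) (nat_lit 0x53400008000) (nat_lit 43)))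
 (.p (nat_lit 0x20942092208e208c108f108906) (nat_lit 0x240000186) (nat_lit 17)))))

def c512_437 : Tr :=
 .n (.n (.n (.n (.n (.p (nat_lit 0x18aa18a818a618a40ceb0ce906) (nat_lit 0x30001820) (nat_lit 15))
 (.p (nat_lit 0x2a262a242a202a1e2a1c149f06) (nat_lit 0x800009ad) (nat_lit 14)))
 (.n (.p (nat_lit 0x196f0ebe02) (nat_lit 0x2063) (nat_lit 4))
 (.p (nat_lit 0x3a3a227702) (nat_lit 0xa060) (nat_lit 46))))
 (.n (.n (.p (nat_lit 0xd9f0d8702) (nat_lit 0x2041) (nat_lit 18))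
 (.p (nat_lit 0x38eb38dd02) (nat_lit 0x59002000800) (nat_lit 35)))
 (.p (nat_lit 0x226a22682266226422600fbb06) (nat_lit 0x20001a25) (nat_lit 14))))
 (.n (.n (.n (.p (nat_lit 0xd2e0d2c0d2b0d280d260d25021a0007000109) (nat_lit 0x30080) (nat_lit 13))
 (.p (nat_lit 0x37cb37c502) (nat_lit 0x5a002000000) (nat_lit 35)))
 (.p (nat_lit 0x19dd0f2c02) (nat_lit 0x4824) (nat_lit 4)))
 (.n (.n (.p (nat_lit 0xebb0e2b02) (nat_lit 0xab42) (nat_lit 19))
 (.p (nat_lit 0x39223920391a380304) (nat_lit 0x3c04000000) (nat_lit 36)))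
 (.p (nat_lit 0x22a622a422a2229e229c106506) (nat_lit 0x40000d46) (nat_lit 16)))))
 (.n (.n (.n (.n (.p (nat_lit 0xe230d0302) (nat_lit 0x2940) (nat_lit 19))
 (.p (nat_lit 0x2312230e230c230a2308172906) (nat_lit 0x100001b52) (nat_lit 14)))
 (.p (nat_lit 0x17ea17e617e217e00f010efd06) (nat_lit 0x140001ca3) (nat_lit 15)))
 (.n (.n (.p (nat_lit 0xdca0dc80dc60dc50dc20dc0001107) (nat_lit 0x4881) (nat_lit 7))
 (.p (nat_lit 0x398b396902) (nat_lit 0x98808000800) (nat_lit 35)))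
 (.p (nat_lit 0x20ba20b820b620b220b0101d06) (nat_lit 0x40001aa5) (nat_lit 17))))
 (.n (.n (.n (.p (nat_lit 0x1b5e1b5c1b5a1b580d470d4506) (nat_lit 0x3000015a0) (nat_lit 17))
 (.p (nat_lit 0x387d387902) (nat_lit 0x2080a000000) (nat_lit 35)))
 (.p (nat_lit 0x24ef0f8e02) (nat_lit 0x68a4) (nat_lit 5)))
 (.n (.n (.p (nat_lit 0x23042302230022fe22fc0e6706) (nat_lit 0x2000003a2) (nat_lit 14))
 (.p (nat_lit 0x39db39af389103) (nat_lit 0x6b80000a020) (nat_lit 44)))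
 (.p (nat_lit 0x270111a002) (nat_lit 0x8868) (nat_lit 5)))))

def c256_181 : Tr := .n c512_181 c512_437

def c128_53 : Tr := .n c256_53 c256_181

def c512_117 : Tr :=
 .n (.n (.n (.n (.n (.p (nat_lit 0x180e180c180618040cd70cd506) (nat_lit 0xc0000800) (nat_lit 17))
 (.p (nat_lit 0x12df12c702) (nat_lit 0x208a) (nat_lit 18)))
 (.n (.p (nat_lit 0xe7e0e7c0e7b0e790e760e74030a002b002909) (nat_lit 0x34003) (nat_lit 13))
 (.p (nat_lit 0x39e53983386b03) (nat_lit 0x7cc00008040) (nat_lit 44))))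
 (.n (.n (.p (nat_lit 0xd490cd102) (nat_lit 0x8a0) (nat_lit 18))
 (.p (nat_lit 0x389e389c3898389638943874179707) (nat_lit 0xa000020) (nat_lit 37)))
 (.p (nat_lit 0x24ff0f9e02) (nat_lit 0xa005) (nat_lit 5))))
 (.n (.n (.n (.p (nat_lit 0x1a401a3c1a3a1a380d170d1306) (nat_lit 0x280001560) (nat_lit 15))
 (.p (nat_lit 0x8cb003e02) (nat_lit 0x20a4) (nat_lit 30)))
 (.p (nat_lit 0x228e228c228a228622840f0906) (nat_lit 0x40000404) (nat_lit 14)))
 (.n (.n (.p (nat_lit 0x267026300fe03) (nat_lit 0x56001) (nat_lit 22))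
 (.p (nat_lit 0x3990398e398c396c3966396422b107) (nat_lit 0x80008a0) (nat_lit 38)))
 (.p (nat_lit 0x1832182e182c182a1828104506) (nat_lit 0x100001126) (nat_lit 17)))))
 (.n (.n (.n (.n (.p (nat_lit 0x17a90cf802) (nat_lit 0x4040) (nat_lit 4))
 (.p (nat_lit 0x1fe3153202) (nat_lit 0xa8ae) (nat_lit 4)))
 (.n (.p (nat_lit 0x1a341a321a301a2e0edf0ed506) (nat_lit 0x210000583) (nat_lit 15))
 (.p (nat_lit 0x3a46155702) (nat_lit 0xa480) (nat_lit 48))))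
 (.n (.n (.p (nat_lit 0x17de17da17d817d40da50d9f06) (nat_lit 0x120000461) (nat_lit 15))
 (.p (nat_lit 0x3921391902) (nat_lit 0x72804000800) (nat_lit 35)))
 (.p (nat_lit 0x19ca19c819c619c419c20fd106) (nat_lit 0x10001845) (nat_lit 15))))
 (.n (.n (.n (.p (nat_lit 0xd35004002) (nat_lit 0x4880) (nat_lit 1))
 (.p (nat_lit 0x3837381d02) (nat_lit 0x89006000000) (nat_lit 35)))
 (.p (nat_lit 0xf4b0f480f460f440f430f40034a003b003309) (nat_lit 0x52844) (nat_lit 13)))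
 (.n (.n (.p (nat_lit 0xecd0e3d02) (nat_lit 0x4b62) (nat_lit 19))
 (.p (nat_lit 0x39c6104b02) (nat_lit 0x2c00) (nat_lit 47)))
 (.p (nat_lit 0x1a961a941a921a901a8e107906) (nat_lit 0x10000b66) (nat_lit 17)))))

def c512_373 : Tr :=
 .n (.n (.n (.n (.n (.p (nat_lit 0xd750ce502) (nat_lit 0x8020) (nat_lit 19))
 (.p (nat_lit 0x1413003a02) (nat_lit 0xa8ac) (nat_lit 1)))
 (.n (.p (nat_lit 0x1da21da01d9c1d9a1d980e9f06) (nat_lit 0x80001d23) (nat_lit 15))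
 (.p (nat_lit 0x3a380fd902) (nat_lit 0x8d60) (nat_lit 48))))
 (.n (.n (.p (nat_lit 0xd8e0d8c0d8a0d880d860d85000d07) (nat_lit 0x41) (nat_lit 7))
 (.p (nat_lit 0x38e738d502) (nat_lit 0x48002000800) (nat_lit 35)))
 (.p (nat_lit 0x14c50fb502) (nat_lit 0x8325) (nat_lit 19))))
 (.n (.n (.n (.p (nat_lit 0xdaf0d1f02) (nat_lit 0x6860) (nat_lit 19))
 (.p (nat_lit 0x37c737b702) (nat_lit 0x48402000000) (nat_lit 35)))
 (.p (nat_lit 0x1950194e194c19480f270f1f06) (nat_lit 0x220001124) (nat_lit 17)))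
 (.n (.n (.p (nat_lit 0xead0e1d02) (nat_lit 0x8342) (nat_lit 19))
 (.p (nat_lit 0x39c239c039be39ba39b839b239923990398e398a3988398239623960395e395a3958395239323930392e392a392839223902390038fe38fa38f838f238d238d038ce38ca38c838c224) (nat_lit 0x800) (nat_lit 39)))
 (.p (nat_lit 0x25c9106802) (nat_lit 0x8846) (nat_lit 5)))))
 (.n (.n (.n (.n (.p (nat_lit 0x244a2448244624420d050d0106) (nat_lit 0x50001c40) (nat_lit 14))
 (.p (nat_lit 0x21c5171402) (nat_lit 0x52) (nat_lit 4)))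
 (.n (.p (nat_lit 0xf030f000efe0efc0efa0ef8002f07) (nat_lit 0xa8a3) (nat_lit 7))
 (.p (nat_lit 0x3a520dcb02) (nat_lit 0xa9a0) (nat_lit 48))))
 (.n (.n (.p (nat_lit 0x25be25bc25ba25b625b40db906) (nat_lit 0x40000281) (nat_lit 14))
 (.p (nat_lit 0x3960395e395c393c3936393417b707) (nat_lit 0x6000840) (nat_lit 37)))
 (.p (nat_lit 0x20ae20ac20aa20a620a4101106) (nat_lit 0x400002a5) (nat_lit 17))))
 (.n (.n (.n (.p (nat_lit 0x1af21af01aee1aec0d470d4506) (nat_lit 0x3000001a0) (nat_lit 15))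
 (.p (nat_lit 0x3867386502) (nat_lit 0x8c008000000) (nat_lit 35)))
 (.p (nat_lit 0x1a5a1a561a541a521a500f8506) (nat_lit 0x1000010a4) (nat_lit 15)))
 (.n (.n (.p (nat_lit 0xe6d0e5502) (nat_lit 0x4882) (nat_lit 18))
 (.p (nat_lit 0x3a21002002) (nat_lit 0x8020) (nat_lit 42)))
 (.p (nat_lit 0x26e3118202) (nat_lit 0x2848) (nat_lit 5)))))

def c256_117 : Tr := .n c512_117 c512_373

def c512_245 : Tr :=
 .n (.n (.n (.n (.n (.p (nat_lit 0x187a1876187418700cd90cd306) (nat_lit 0x120001c00) (nat_lit 15))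
 (.p (nat_lit 0x28d9137802) (nat_lit 0x8ab) (nat_lit 5)))
 (.n (.p (nat_lit 0x191619141910190e190c0e8706) (nat_lit 0x80000d03) (nat_lit 15))
 (.p (nat_lit 0x39ed3927380703) (nat_lit 0x8c400004060) (nat_lit 44))))
 (.n (.n (.p (nat_lit 0x2d862d842d822d802d7e2d7c00fc07) (nat_lit 0x21) (nat_lit 8))
 (.p (nat_lit 0x38c138b302) (nat_lit 0x71c00000800) (nat_lit 35)))
 (.p (nat_lit 0x25d625d425d025ce25cc0fa706) (nat_lit 0x80000b05) (nat_lit 16))))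
 (.n (.n (.n (.p (nat_lit 0x19d419d219d019ce0d230d1906) (nat_lit 0x210000960) (nat_lit 15))
 (.p (nat_lit 0x37a9378902) (nat_lit 0x90800000000) (nat_lit 35)))
 (.p (nat_lit 0x227422722270226e226c0f1b06) (nat_lit 0x200000b04) (nat_lit 16)))
 (.n (.n (.p (nat_lit 0x26ea26e826e426e226e00df706) (nat_lit 0x80001a02) (nat_lit 14))
 (.p (nat_lit 0x39b139a102) (nat_lit 0x7180a000800) (nat_lit 35)))
 (.p (nat_lit 0x105e105c105a105810561055004907) (nat_lit 0x46) (nat_lit 7)))))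
 (.n (.n (.n (.n (.p (nat_lit 0x17b50d0402) (nat_lit 0x4840) (nat_lit 4))
 (.p (nat_lit 0x25e225e025de25dc25d815eb06) (nat_lit 0x20001b30) (nat_lit 14)))
 (.n (.p (nat_lit 0x19a30ef202) (nat_lit 0x60a3) (nat_lit 4))
 (.p (nat_lit 0x3a093969384b03) (nat_lit 0x10c000080a0) (nat_lit 44))))
 (.n (.n (.p (nat_lit 0x17b617b417b217b00db30db106) (nat_lit 0x300001a61) (nat_lit 15))
 (.p (nat_lit 0x3955393902) (nat_lit 0x80806000800) (nat_lit 35)))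
 (.p (nat_lit 0x25530ff202) (nat_lit 0xa865) (nat_lit 5))))
 (.n (.n (.n (.p (nat_lit 0x1a921a901a8e1a8c0d3b0d3906) (nat_lit 0x300000b80) (nat_lit 15))
 (.p (nat_lit 0x3873384902) (nat_lit 0xb8808000000) (nat_lit 35)))
 (.p (nat_lit 0xf810f6902) (nat_lit 0x4084) (nat_lit 18)))
 (.n (.n (.p (nat_lit 0x12370e4702) (nat_lit 0x2182) (nat_lit 19))
 (.p (nat_lit 0x3a1b38ff37b703) (nat_lit 0xa8400002020) (nat_lit 43)))
 (.p (nat_lit 0x1b5310a202) (nat_lit 0x60a6) (nat_lit 4)))))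

def c512_501 : Tr :=
 .n (.n (.n (.n (.n (.p (nat_lit 0x23a223a0239c23980cef0ceb06) (nat_lit 0xa0001b20) (nat_lit 14))
 (.p (nat_lit 0x25222520251e251c251814b306) (nat_lit 0x2000190e) (nat_lit 14)))
 (.n (.p (nat_lit 0x19810ed002) (nat_lit 0x8863) (nat_lit 4))
 (.p (nat_lit 0x39f7390137b903) (nat_lit 0xb0800002080) (nat_lit 44))))
 (.n (.n (.p (nat_lit 0x23ae23aa23a823a623a40d9906) (nat_lit 0x100000c41) (nat_lit 14))
 (.p (nat_lit 0x390138e902) (nat_lit 0xb2802000800) (nat_lit 35)))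
 (.p (nat_lit 0x155f0fbf02) (nat_lit 0x6c25) (nat_lit 19))))
 (.n (.n (.n (.p (nat_lit 0x2520251e251a25180d2f0d2906) (nat_lit 0x240001180) (nat_lit 16))
 (.p (nat_lit 0x380d37f102) (nat_lit 0xa1804000000) (nat_lit 35)))
 (.p (nat_lit 0x19961994199219900f330f3106) (nat_lit 0x300001c24) (nat_lit 17)))
 (.n (.n (.p (nat_lit 0x199819961994199219900e3706) (nat_lit 0x200001462) (nat_lit 15))
 (.p (nat_lit 0x39a239a0399a388304) (nat_lit 0x1c0a000000) (nat_lit 36)))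
 (.p (nat_lit 0x1077107410731070106e106c03f20053004f09) (nat_lit 0x56066) (nat_lit 13)))))
 (.n (.n (.n (.n (.p (nat_lit 0x19be19bc19ba19b819b40d0f06) (nat_lit 0x20000060) (nat_lit 17))
 (.p (nat_lit 0x21f7174602) (nat_lit 0x2092) (nat_lit 4)))
 (.p (nat_lit 0x30302f7011e03) (nat_lit 0xa010003) (nat_lit 22)))
 (.n (.n (.p (nat_lit 0x1b3e1b3c1b381b340dc70dc306) (nat_lit 0xa0000c81) (nat_lit 17))
 (.p (nat_lit 0x3983397102) (nat_lit 0x79808000800) (nat_lit 35)))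
 (.p (nat_lit 0x14d00520050004804) (nat_lit 0x310008006) (nat_lit 20))))
 (.n (.n (.n (.p (nat_lit 0xd530d500d4e0d4c0d4a0d48000b07) (nat_lit 0xa8a0) (nat_lit 7))
 (.p (nat_lit 0x389d387f02) (nat_lit 0xa140a000000) (nat_lit 35)))
 (.p (nat_lit 0x25822580257c25780f8f0f8b06) (nat_lit 0xa0001da4) (nat_lit 16)))
 (.n (.n (.p (nat_lit 0x22ee22ec22ea22e822e40e6b06) (nat_lit 0x20000aa2) (nat_lit 16))
 (.p (nat_lit 0x3a2738d737b903) (nat_lit 0x8800002040) (nat_lit 43)))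
 (.p (nat_lit 0x183e183c18381836183411b706) (nat_lit 0x80000a88) (nat_lit 15)))))

def c256_245 : Tr := .n c512_245 c512_501

def c128_117 : Tr := .n c256_117 c256_245

def c64_53 : Tr := .n c128_53 c128_117

def c32_21 : Tr := .n c64_21 c64_53

def c16_5 : Tr := .n c32_5 c32_21

def cb4_5 : Tr := c16_5

def c512_6 : Tr :=
 .n (.n (.n (.n (.n (.p (nat_lit 0xcc5000c02) (nat_lit 0x0) (nat_lit 1))
 (.p (nat_lit 0x125311c302) (nat_lit 0x62a8) (nat_lit 19)))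
 (.n (.p (nat_lit 0x18621860185c185a18580e6f06) (nat_lit 0x80001ba2) (nat_lit 15))
 (.p (nat_lit 0x39df38df37bf03) (nat_lit 0x29400002040) (nat_lit 44))))
 (.n (.n (.p (nat_lit 0x258c258a258625840d530d4d06) (nat_lit 0x2400008a0) (nat_lit 14))
 (.p (nat_lit 0x389d388102) (nat_lit 0xa180a000000) (nat_lit 35)))
 (.p (nat_lit 0x101f0f8f02) (nat_lit 0x6da4) (nat_lit 19))))
 (.n (.n (.n (.p (nat_lit 0x247a24782476247224700d1106) (nat_lit 0x40001060) (nat_lit 16))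
 (.p (nat_lit 0x7cb001702) (nat_lit 0xa021) (nat_lit 31)))
 (.p (nat_lit 0x327031b030f030304) (nat_lit 0xb1a2003) (nat_lit 24)))
 (.n (.n (.p (nat_lit 0xe550dc502) (nat_lit 0x4a81) (nat_lit 19))
 (.p (nat_lit 0x3977397502) (nat_lit 0x4a008000800) (nat_lit 35)))
 (.p (nat_lit 0x102f00e202) (nat_lit 0xa006) (nat_lit 1)))))
 (.n (.n (.n (.n (.p (nat_lit 0x23ae23ac23a823a40cef0ceb06) (nat_lit 0xa0000c20) (nat_lit 16))
 (.p (nat_lit 0x1f6f14be02) (nat_lit 0x202e) (nat_lit 4)))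
 (.n (.p (nat_lit 0x28ee28ea28e828e40ed10ecb06) (nat_lit 0x120000863) (nat_lit 16))
 (.p (nat_lit 0x3a3e229302) (nat_lit 0x2880) (nat_lit 46))))
 (.n (.n (.p (nat_lit 0xdad0d9502) (nat_lit 0x4841) (nat_lit 18))
 (.p (nat_lit 0x38ff38f702) (nat_lit 0xac402000800) (nat_lit 35)))
 (.p (nat_lit 0xfc9003402) (nat_lit 0x4045) (nat_lit 1))))
 (.n (.n (.n (.p (nat_lit 0x253a25382534253225300d2b06) (nat_lit 0x80001280) (nat_lit 14))
 (.p (nat_lit 0x37fd37f902) (nat_lit 0x62804000000) (nat_lit 35)))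
 (.p (nat_lit 0x19b219ae19aa19a80f310f2d06) (nat_lit 0x140001d24) (nat_lit 15)))
 (.n (.n (.p (nat_lit 0xe4d0e3502) (nat_lit 0x8062) (nat_lit 18))
 (.p (nat_lit 0x39c538a5378703) (nat_lit 0x400000000) (nat_lit 44)))
 (.p (nat_lit 0x25222520251e251c2518106f06) (nat_lit 0x20001166) (nat_lit 14)))))

def c512_262 : Tr :=
 .n (.n (.n (.n (.n (.p (nat_lit 0x18921890188e188c188a0cd106) (nat_lit 0x10001d00) (nat_lit 15))
 (.p (nat_lit 0x28e7138602) (nat_lit 0x200c) (nat_lit 5)))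
 (.n (.p (nat_lit 0xf150e8502) (nat_lit 0x4c03) (nat_lit 19))
 (.p (nat_lit 0x3a35392f381103) (nat_lit 0xad800004060) (nat_lit 43))))
 (.n (.n (.p (nat_lit 0x22d50d7402) (nat_lit 0x8021) (nat_lit 5))
 (.p (nat_lit 0x38cf38b502) (nat_lit 0xaa000000800) (nat_lit 35)))
 (.p (nat_lit 0xfbb0fa302) (nat_lit 0x2805) (nat_lit 18))))
 (.n (.n (.n (.p (nat_lit 0x19e219dc19da19d80d210d1f06) (nat_lit 0x180001960) (nat_lit 15))
 (.p (nat_lit 0x37a5378f02) (nat_lit 0x81400000000) (nat_lit 35)))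
 (.p (nat_lit 0x17de17dc17da17d617d40f1506) (nat_lit 0x40000c04) (nat_lit 15)))
 (.n (.n (.p (nat_lit 0xe890df902) (nat_lit 0x8b02) (nat_lit 19))
 (.p (nat_lit 0x39b939a302) (nat_lit 0x91c0a000800) (nat_lit 35)))
 (.p (nat_lit 0x306d105c02) (nat_lit 0x8046) (nat_lit 32)))))
 (.n (.n (.n (.n (.p (nat_lit 0xd0a0d080d070d040d020d01021a0007000109) (nat_lit 0x30840) (nat_lit 13))
 (.p (nat_lit 0x15fe15fc15fb15f815f615f400c707) (nat_lit 0x6050) (nat_lit 7)))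
 (.n (.p (nat_lit 0x177c177a177817760ef70eed06) (nat_lit 0x2100000a3) (nat_lit 15))
 (.p (nat_lit 0x3a513975385703) (nat_lit 0x424000080a0) (nat_lit 43))))
 (.n (.n (.p (nat_lit 0x228e228c228a22860dad0da906) (nat_lit 0x50000c61) (nat_lit 14))
 (.p (nat_lit 0x394d393d02) (nat_lit 0x61006000800) (nat_lit 35)))
 (.p (nat_lit 0x1f821f801f7e1f7a1f780fed06) (nat_lit 0x40001965) (nat_lit 15))))
 (.n (.n (.n (.p (nat_lit 0x1aae1aac1aa81aa60d370d3106) (nat_lit 0x90000c80) (nat_lit 17))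
 (.p (nat_lit 0x385d384d02) (nat_lit 0x61008000000) (nat_lit 35)))
 (.p (nat_lit 0xf7a0f780f760f740f730f70003307) (nat_lit 0x2884) (nat_lit 7)))
 (.n (.n (.p (nat_lit 0x23b10e5002) (nat_lit 0x882) (nat_lit 5))
 (.p (nat_lit 0x39d20d9302) (nat_lit 0x2d20) (nat_lit 47)))
 (.p (nat_lit 0x1b5d10ac02) (nat_lit 0x48a6) (nat_lit 4)))))

def c256_6 : Tr := .n c512_6 c512_262

def c512_134 : Tr :=
 .n (.n (.n (.n (.n (.p (nat_lit 0x22e222de22dc22d80cd90cd306) (nat_lit 0x120001900) (nat_lit 14))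
 (.p (nat_lit 0x1d8912d802) (nat_lit 0x888a) (nat_lit 4)))
 (.n (.p (nat_lit 0x23a2239e239a23980e7d0e7906) (nat_lit 0x140001303) (nat_lit 16))
 (.p (nat_lit 0x39e40f2502) (nat_lit 0x8440) (nat_lit 47))))
 (.n (.n (.p (nat_lit 0xe730d5302) (nat_lit 0xa9a0) (nat_lit 19))
 (.p (nat_lit 0x38ab38a502) (nat_lit 0x18000000800) (nat_lit 35)))
 (.p (nat_lit 0x1b021b001afe1afa1af80f9906) (nat_lit 0x40001105) (nat_lit 15))))
 (.n (.n (.n (.p (nat_lit 0xe330d1302) (nat_lit 0x6160) (nat_lit 19))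
 (.p (nat_lit 0x8dd005002) (nat_lit 0x8005) (nat_lit 30)))
 (.p (nat_lit 0x22a422a2229e229c0f0f0f0906) (nat_lit 0x240000504) (nat_lit 14)))
 (.n (.n (.p (nat_lit 0x27b026d0261010004) (nat_lit 0x4190001) (nat_lit 23))
 (.p (nat_lit 0x39b9399502) (nat_lit 0x9000a000800) (nat_lit 35)))
 (.p (nat_lit 0x186c186a186818661864104706) (nat_lit 0x200000426) (nat_lit 17)))))
 (.n (.n (.n (.n (.p (nat_lit 0x23da23d823d623d40cff0cfd06) (nat_lit 0x300000040) (nat_lit 14))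
 (.p (nat_lit 0x2aa7154602) (nat_lit 0x680f) (nat_lit 5)))
 (.n (.p (nat_lit 0x12cf0edf02) (nat_lit 0xa183) (nat_lit 19))
 (.p (nat_lit 0x3a0138cd37ad03) (nat_lit 0xa50000000a0) (nat_lit 44))))
 (.n (.n (.p (nat_lit 0x1802180017fe17fc17f80d9f06) (nat_lit 0x20001561) (nat_lit 15))
 (.p (nat_lit 0x3929391d02) (nat_lit 0x93004000800) (nat_lit 35)))
 (.p (nat_lit 0x24c224c024be24bc24ba0fd106) (nat_lit 0x10001b45) (nat_lit 14))))
 (.n (.n (.n (.p (nat_lit 0x17eb0d3a02) (nat_lit 0xa880) (nat_lit 4))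
 (.p (nat_lit 0x3835381f02) (nat_lit 0x81406000000) (nat_lit 35)))
 (.p (nat_lit 0xfd30f4302) (nat_lit 0x2d44) (nat_lit 19)))
 (.n (.n (.p (nat_lit 0xe4e0e4c0e4a0e490e460e44001d07) (nat_lit 0x4082) (nat_lit 7))
 (.p (nat_lit 0x3a11392d380d03) (nat_lit 0xa5000004000) (nat_lit 43)))
 (.p (nat_lit 0x173f107f02) (nat_lit 0x6866) (nat_lit 19)))))

def c512_390 : Tr :=
 .n (.n (.n (.n (.n (.p (nat_lit 0x10410ce102) (nat_lit 0x4520) (nat_lit 19))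
 (.p (nat_lit 0x1ec7141602) (nat_lit 0x200d) (nat_lit 4)))
 (.n (.p (nat_lit 0x24070ea602) (nat_lit 0x2043) (nat_lit 5))
 (.p (nat_lit 0x3a3b399f387f03) (nat_lit 0x2940000a060) (nat_lit 43))))
 (.n (.n (.p (nat_lit 0xd8d002002) (nat_lit 0x8041) (nat_lit 1))
 (.p (nat_lit 0x38df38d702) (nat_lit 0x28402000800) (nat_lit 35)))
 (.p (nat_lit 0x251d0fbc02) (nat_lit 0x4825) (nat_lit 5))))
 (.n (.n (.n (.p (nat_lit 0xf5d0d1d02) (nat_lit 0x4b60) (nat_lit 19))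
 (.p (nat_lit 0x37c737b902) (nat_lit 0x48802000000) (nat_lit 35)))
 (.p (nat_lit 0x24482446244424400f270f1f06) (nat_lit 0x220001424) (nat_lit 16)))
 (.n (.n (.p (nat_lit 0x238518d502d102c7010e05) (nat_lit 0x11d4842) (nat_lit 9))
 (.p (nat_lit 0x38c038be38ba38b837a105) (nat_lit 0x3800000000) (nat_lit 36)))
 (.p (nat_lit 0x178a1788178617841782106106) (nat_lit 0x10001846) (nat_lit 15)))))
 (.n (.n (.n (.n (.p (nat_lit 0x245624542452244c0d050d0306) (nat_lit 0x60000d40) (nat_lit 16))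
 (.p (nat_lit 0x372d00e102) (nat_lit 0x8052) (nat_lit 33)))
 (.p (nat_lit 0x224622442240223e223c0eff06) (nat_lit 0x800009a3) (nat_lit 14)))
 (.n (.n (.p (nat_lit 0x25e225e025de25dc25d80db706) (nat_lit 0x20001381) (nat_lit 14))
 (.p (nat_lit 0x3979396502) (nat_lit 0x50008000800) (nat_lit 35)))
 (.p (nat_lit 0x101900c002) (nat_lit 0x8a5) (nat_lit 1))))
 (.n (.n (.n (.p (nat_lit 0x1b0c1b0a1b081b061b040d4706) (nat_lit 0x2000002a0) (nat_lit 17))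
 (.p (nat_lit 0x3864385e385c385838563854225d07) (nat_lit 0x8000040) (nat_lit 38)))
 (.p (nat_lit 0x253a2538253625320f810f7d06) (nat_lit 0x500012a4) (nat_lit 16)))
 (.n (.n (.p (nat_lit 0x23bd0e5c02) (nat_lit 0xa2) (nat_lit 5))
 (.p (nat_lit 0x39d93977385703) (nat_lit 0x4a400008020) (nat_lit 44)))
 (.p (nat_lit 0x319d118c02) (nat_lit 0x68) (nat_lit 32)))))

def c256_134 : Tr := .n c512_134 c512_390

def c128_6 : Tr := .n c256_6 c256_134

def c512_70 : Tr :=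
 .n (.n (.n (.n (.n (.p (nat_lit 0xd5f0ccf02) (nat_lit 0xa000) (nat_lit 19))
 (.p (nat_lit 0x1d6b12ba02) (nat_lit 0x286a) (nat_lit 4)))
 (.n (.p (nat_lit 0x121002402) (nat_lit 0x1000c003) (nat_lit 20))
 (.p (nat_lit 0x3a2a137f02) (nat_lit 0x6a40) (nat_lit 48))))
 (.n (.n (.p (nat_lit 0x1b261b241b221b201b1c0d4b06) (nat_lit 0x20000ba0) (nat_lit 15))
 (.p (nat_lit 0x389f388d02) (nat_lit 0xab00a000000) (nat_lit 35)))
 (.p (nat_lit 0x13f0042004003) (nat_lit 0xc000a005) (nat_lit 20))))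
 (.n (.n (.n (.p (nat_lit 0x1a101a0e1a0a1a080d170d1106) (nat_lit 0x240001360) (nat_lit 17))
 (.p (nat_lit 0x84e084c084808460844011c000707) (nat_lit 0x6403) (nat_lit 28)))
 (.p (nat_lit 0x2f1f003b02) (nat_lit 0xa004) (nat_lit 33)))
 (.n (.n (.p (nat_lit 0x10a10dd102) (nat_lit 0x44a1) (nat_lit 19))
 (.p (nat_lit 0x398b397f02) (nat_lit 0x9b408000800) (nat_lit 35)))
 (.p (nat_lit 0x2c962c922c8e2c8c1039103506) (nat_lit 0x140000b06) (nat_lit 16)))))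
 (.n (.n (.n (.n (.p (nat_lit 0xd070cef02) (nat_lit 0x6820) (nat_lit 18))
 (.p (nat_lit 0x24aa24a824a624a224a014cd06) (nat_lit 0x40001a2e) (nat_lit 14)))
 (.n (.p (nat_lit 0xede0edd0eda0ed80ed70ed40300002d002709) (nat_lit 0x42083) (nat_lit 13))
 (.p (nat_lit 0x39fd3979385903) (nat_lit 0x52800008080) (nat_lit 44))))
 (.n (.n (.p (nat_lit 0x223a22362234223222300da506) (nat_lit 0x100001061) (nat_lit 16))
 (.p (nat_lit 0x391d390b02) (nat_lit 0x60c04000800) (nat_lit 35)))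
 (.p (nat_lit 0x15fd0fcd02) (nat_lit 0x8545) (nat_lit 19))))
 (.n (.n (.n (.p (nat_lit 0xdbb0d2b02) (nat_lit 0x6080) (nat_lit 19))
 (.p (nat_lit 0x38423840383e383c383a38383836383438323830382e382c382a38283826382438223820381e381c381a38183816381418) (nat_lit 0x6000000) (nat_lit 34)))
 (.p (nat_lit 0x28fa28f828f628f428f20f3506) (nat_lit 0x10001044) (nat_lit 14)))
 (.n (.n (.p (nat_lit 0x193819361934193219300e4306) (nat_lit 0x200001862) (nat_lit 17))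
 (.p (nat_lit 0x3a0c11b102) (nat_lit 0x900) (nat_lit 48)))
 (.p (nat_lit 0x1083004602) (nat_lit 0xa866) (nat_lit 1)))))

def c512_326 : Tr :=
 .n (.n (.n (.n (.n (.p (nat_lit 0xce7002202) (nat_lit 0xa020) (nat_lit 1))
 (.p (nat_lit 0x141313fb02) (nat_lit 0xa88c) (nat_lit 18)))
 (.n (.p (nat_lit 0x2ea90e9802) (nat_lit 0x823) (nat_lit 32))
 (.p (nat_lit 0x3a393977385903) (nat_lit 0x4a800008060) (nat_lit 43))))
 (.n (.n (.p (nat_lit 0x2d93001702) (nat_lit 0xa821) (nat_lit 33))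
 (.p (nat_lit 0x38d138c102) (nat_lit 0xb3800000800) (nat_lit 35)))
 (.p (nat_lit 0x17ae17aa17a817a60fb50fad06) (nat_lit 0x110000225) (nat_lit 15))))
 (.n (.n (.n (.p (nat_lit 0x24d824d624d424d20d230d1906) (nat_lit 0x210001c60) (nat_lit 14))
 (.p (nat_lit 0x37b137a502) (nat_lit 0xb4000000000) (nat_lit 35)))
 (.p (nat_lit 0x19cd0f1c02) (nat_lit 0x24) (nat_lit 4)))
 (.n (.n (.p (nat_lit 0x23750e1402) (nat_lit 0x42) (nat_lit 5))
 (.p (nat_lit 0x39b939b102) (nat_lit 0x9380a000800) (nat_lit 35)))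
 (.p (nat_lit 0x17e817e417e217e0105f105b06) (nat_lit 0x280001446) (nat_lit 15)))))
 (.n (.n (.n (.n (.p (nat_lit 0x194e194c194a19480d0b0d0906) (nat_lit 0x300001940) (nat_lit 15))
 (.p (nat_lit 0x1ad21ad01ace1aca1605160106) (nat_lit 0x50001d50) (nat_lit 17)))
 (.n (.p (nat_lit 0x22a622a222a0229e229c0ef506) (nat_lit 0x1000005a3) (nat_lit 16))
 (.p (nat_lit 0x3a0b399b388303) (nat_lit 0x19c0000a0a0) (nat_lit 44))))
 (.n (.n (.p (nat_lit 0xdbe0dbc0dba0db80db70db4000f07) (nat_lit 0x2081) (nat_lit 7))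
 (.p (nat_lit 0x3957394502) (nat_lit 0x8a006000800) (nat_lit 35)))
 (.p (nat_lit 0x3026302430223020301e301c013c07) (nat_lit 0xa5) (nat_lit 8))))
 (.n (.n (.n (.p (nat_lit 0x22a622a422a222a0229e229c06) (nat_lit 0xa0) (nat_lit 3))
 (.p (nat_lit 0x3869385702) (nat_lit 0x92408000000) (nat_lit 35)))
 (.p (nat_lit 0x10010f7102) (nat_lit 0xd84) (nat_lit 19)))
 (.n (.n (.p (nat_lit 0x17d217d017ce17cc17ca0e5106) (nat_lit 0x10001b82) (nat_lit 15))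
 (.p (nat_lit 0x3a1f3943382b03) (nat_lit 0x3ac00006020) (nat_lit 43)))
 (.p (nat_lit 0x1ba310f202) (nat_lit 0x2847) (nat_lit 4)))))

def c256_70 : Tr := .n c512_70 c512_326

def c512_198 : Tr :=
 .n (.n (.n (.n (.n (.p (nat_lit 0x18621860185c185a18580cd706) (nat_lit 0x80001b00) (nat_lit 17))
 (.p (nat_lit 0x32ff12ee02) (nat_lit 0x68aa) (nat_lit 32)))
 (.n (.p (nat_lit 0xe8b0e880e870e840e820e80031a002f002b09) (nat_lit 0x56803) (nat_lit 13))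
 (.p (nat_lit 0x39e938c537a703) (nat_lit 0x84400000060) (nat_lit 44))))
 (.n (.n (.p (nat_lit 0x22b70d5602) (nat_lit 0x2001) (nat_lit 5))
 (.p (nat_lit 0x38c738ab02) (nat_lit 0x88c00000800) (nat_lit 35)))
 (.p (nat_lit 0xfa7004e02) (nat_lit 0x6805) (nat_lit 1))))
 (.n (.n (.n (.p (nat_lit 0xd220d200d1e0d1d0d1b0d1802240005000309) (nat_lit 0x22860) (nat_lit 13))
 (.p (nat_lit 0x9e1001002) (nat_lit 0x4088) (nat_lit 30)))
 (.p (nat_lit 0x177e177c177a177817760f1106) (nat_lit 0x10000804) (nat_lit 17)))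
 (.n (.n (.p (nat_lit 0x1c461c421c401c3e1c3c0ded06) (nat_lit 0x100000302) (nat_lit 17))
 (.p (nat_lit 0x39bd399b02) (nat_lit 0xa0c0a000800) (nat_lit 35)))
 (.p (nat_lit 0x182618221820181e181c105106) (nat_lit 0x100000926) (nat_lit 17)))))
 (.n (.n (.n (.n (.p (nat_lit 0x19a419a219a0199e0cff0cf506) (nat_lit 0x210000540) (nat_lit 17))
 (.p (nat_lit 0x2b4115e002) (nat_lit 0x4030) (nat_lit 5)))
 (.n (.p (nat_lit 0x19e019de19dc19da0eeb0ee106) (nat_lit 0x210001983) (nat_lit 17))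
 (.p (nat_lit 0x3a073935381d03) (nat_lit 0x10000060a0) (nat_lit 44))))
 (.n (.n (.p (nat_lit 0xdb30db00dae0dac0daa0da902660017000d09) (nat_lit 0x50861) (nat_lit 13))
 (.p (nat_lit 0x3941393502) (nat_lit 0x30006000800) (nat_lit 35)))
 (.p (nat_lit 0x1f5e1f5c1f5a1f581f560fdd06) (nat_lit 0x10000065) (nat_lit 17))))
 (.n (.n (.n (.p (nat_lit 0x1a721a6e1a6c1a6a0d390d3106) (nat_lit 0x110001980) (nat_lit 17))
 (.p (nat_lit 0x385b384502) (nat_lit 0x58008000000) (nat_lit 35)))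
 (.p (nat_lit 0x2f75003102) (nat_lit 0x84) (nat_lit 33)))
 (.n (.n (.p (nat_lit 0x22822280227c227a22780e4b06) (nat_lit 0x80001382) (nat_lit 14))
 (.p (nat_lit 0x39cc178902) (nat_lit 0x8800) (nat_lit 45)))
 (.p (nat_lit 0x30a3109202) (nat_lit 0x2886) (nat_lit 32)))))

def c512_454 : Tr :=
 .n (.n (.n (.n (.n (.p (nat_lit 0x18b618b418b218b018ac0ceb06) (nat_lit 0x20000920) (nat_lit 17))
 (.p (nat_lit 0x1f5b14aa02) (nat_lit 0x600e) (nat_lit 4)))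
 (.n (.p (nat_lit 0x24270ec602) (nat_lit 0xa063) (nat_lit 5))
 (.p (nat_lit 0x3a3d38b9379f03) (nat_lit 0x53400000080) (nat_lit 43))))
 (.n (.n (.p (nat_lit 0x171b0d8b02) (nat_lit 0x6541) (nat_lit 19))
 (.p (nat_lit 0x38e938df02) (nat_lit 0x51402000800) (nat_lit 35)))
 (.p (nat_lit 0x2280227e227c22780fc30fbb06) (nat_lit 0x220001b25) (nat_lit 14))))
 (.n (.n (.n (.p (nat_lit 0x1a5a1a581a561a541a500d2706) (nat_lit 0x20001080) (nat_lit 15))
 (.p (nat_lit 0x37de37dc37d837d637d437b4228707) (nat_lit 0x2000080) (nat_lit 38)))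
 (.p (nat_lit 0x19e30f3202) (nat_lit 0xa824) (nat_lit 4)))
 (.n (.n (.p (nat_lit 0x18e30e3202) (nat_lit 0x6062) (nat_lit 4))
 (.p (nat_lit 0x3944393e393c382504) (nat_lit 0x2006000000) (nat_lit 36)))
 (.p (nat_lit 0x107d106502) (nat_lit 0x4846) (nat_lit 18)))))
 (.n (.n (.n (.n (.p (nat_lit 0xfd10d0102) (nat_lit 0xc40) (nat_lit 19))
 (.p (nat_lit 0x2c91173002) (nat_lit 0x4072) (nat_lit 5)))
 (.p (nat_lit 0x12ed0efd02) (nat_lit 0x49a3) (nat_lit 19)))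
 (.n (.n (.p (nat_lit 0x2ddb0dca02) (nat_lit 0xa881) (nat_lit 32))
 (.p (nat_lit 0x398f396b02) (nat_lit 0xa8c08000800) (nat_lit 35)))
 (.p (nat_lit 0x38f038d013e03) (nat_lit 0x2034005) (nat_lit 22))))
 (.n (.n (.n (.p (nat_lit 0xf810d4102) (nat_lit 0x43a0) (nat_lit 19))
 (.p (nat_lit 0x389f387902) (nat_lit 0xa880a000000) (nat_lit 35)))
 (.p (nat_lit 0xf920f900f8f0f8c0f8a0f89033a0037003109) (nat_lit 0x308a4) (nat_lit 13)))
 (.n (.n (.p (nat_lit 0x12e10e6102) (nat_lit 0x42a2) (nat_lit 19))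
 (.p (nat_lit 0x3a220d8f02) (nat_lit 0xa520) (nat_lit 48)))
 (.p (nat_lit 0x270511a402) (nat_lit 0x88) (nat_lit 5)))))

def c256_198 : Tr := .n c512_198 c512_454

def c128_70 : Tr := .n c256_70 c256_198

def c64_6 : Tr := .n c128_6 c128_70

def c512_38 : Tr :=
 .n (.n (.n (.n (.n (.p (nat_lit 0x18481846184418420ccf0cc506) (nat_lit 0x210001200) (nat_lit 15))
 (.p (nat_lit 0x1253123b02) (nat_lit 0x6089) (nat_lit 18)))
 (.n (.p (nat_lit 0x2ab02a9010e03) (nat_lit 0x34002) (nat_lit 22))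
 (.p (nat_lit 0x3a280f2d02) (nat_lit 0x4c40) (nat_lit 48))))
 (.n (.n (.p (nat_lit 0x25b025ac25aa25a80d530d4f06) (nat_lit 0x2800019a0) (nat_lit 14))
 (.p (nat_lit 0x3893388702) (nat_lit 0x7a40a000000) (nat_lit 35)))
 (.p (nat_lit 0x3570345012e03) (nat_lit 0x4052004) (nat_lit 22))))
 (.n (.n (.n (.p (nat_lit 0x24922490248c24880d130d0f06) (nat_lit 0xa0001160) (nat_lit 14))
 (.l (nat_lit 0x20000000000000000505000080) (nat_lit 0x34402) (nat_lit 29)))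
 (.p (nat_lit 0x12f003a003603) (nat_lit 0x28000a004) (nat_lit 20)))
 (.n (.n (.p (nat_lit 0xdd700e202) (nat_lit 0xa0a1) (nat_lit 1))
 (.p (nat_lit 0x3981397902) (nat_lit 0x72808000800) (nat_lit 35)))
 (.p (nat_lit 0x3043103202) (nat_lit 0x2806) (nat_lit 32)))))
 (.n (.n (.n (.n (.p (nat_lit 0x1916191419121910190e0ce906) (nat_lit 0x10000d20) (nat_lit 15))
 (.p (nat_lit 0x34d914c802) (nat_lit 0x82e) (nat_lit 32)))
 (.n (.p (nat_lit 0x2ee70ed602) (nat_lit 0x2083) (nat_lit 32))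
 (.p (nat_lit 0x3a433941382703) (nat_lit 0x32400006080) (nat_lit 43))))
 (.n (.n (.p (nat_lit 0xda60da40da20da00d9f0d9c000f07) (nat_lit 0x2061) (nat_lit 7))
 (.p (nat_lit 0x391b390502) (nat_lit 0x58004000800) (nat_lit 35)))
 (.p (nat_lit 0x248624822480247e247c0fcd06) (nat_lit 0x100000145) (nat_lit 14))))
 (.n (.n (.n (.p (nat_lit 0x1aba1ab81ab41ab00d2b0d2706) (nat_lit 0xa0001480) (nat_lit 17))
 (.p (nat_lit 0x3809380502) (nat_lit 0x94004000000) (nat_lit 35)))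
 (.p (nat_lit 0xf39009402) (nat_lit 0x4044) (nat_lit 1)))
 (.n (.n (.p (nat_lit 0xe3f002a02) (nat_lit 0x6862) (nat_lit 1))
 (.p (nat_lit 0x3a0d38bb37a103) (nat_lit 0x5b800000000) (nat_lit 43)))
 (.p (nat_lit 0x1617107702) (nat_lit 0xa466) (nat_lit 19)))))

def c512_294 : Tr :=
 .n (.n (.n (.n (.n (.p (nat_lit 0xe890cd902) (nat_lit 0x8a00) (nat_lit 19))
 (.p (nat_lit 0x1e4b139a02) (nat_lit 0xa80c) (nat_lit 4)))
 (.n (.p (nat_lit 0xe960e950e920e900e8e0e8d02f4002d002509) (nat_lit 0x40023) (nat_lit 13))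
 (.p (nat_lit 0x39ef394d382f03) (nat_lit 0x63400006060) (nat_lit 44))))
 (.n (.n (.p (nat_lit 0x103f0d6f02) (nat_lit 0x2421) (nat_lit 19))
 (.p (nat_lit 0x38c138bb02) (nat_lit 0x72c00000800) (nat_lit 35)))
 (.p (nat_lit 0x25130fb202) (nat_lit 0x6025) (nat_lit 5))))
 (.n (.n (.n (.p (nat_lit 0x1a061a041a0219fe19fc0d1d06) (nat_lit 0x40000b60) (nat_lit 17))
 (.p (nat_lit 0x37ad379b02) (nat_lit 0xa2c00000000) (nat_lit 35)))
 (.p (nat_lit 0x180217fe17fc17fa0f190f1106) (nat_lit 0x110001d04) (nat_lit 15)))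
 (.n (.n (.p (nat_lit 0xe8d0dfd02) (nat_lit 0x322) (nat_lit 19))
 (.p (nat_lit 0x39c339a702) (nat_lit 0xba40a000800) (nat_lit 35)))
 (.p (nat_lit 0x17b817b617b417b217b0105f06) (nat_lit 0x200001246) (nat_lit 17)))))
 (.n (.n (.n (.n (.p (nat_lit 0x193a1936193219300d090d0506) (nat_lit 0x140001840) (nat_lit 15))
 (.p (nat_lit 0x20b5160402) (nat_lit 0x4850) (nat_lit 4)))
 (.n (.p (nat_lit 0x22682266226422600ef70eef06) (nat_lit 0x2200012a3) (nat_lit 16))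
 (.p (nat_lit 0x3a093991387303) (nat_lit 0xb5c000080a0) (nat_lit 44))))
 (.n (.n (.p (nat_lit 0xdc10da902) (nat_lit 0x861) (nat_lit 18))
 (.p (nat_lit 0x3947394102) (nat_lit 0x49806000800) (nat_lit 35)))
 (.p (nat_lit 0x10110ff902) (nat_lit 0x4085) (nat_lit 18))))
 (.n (.n (.n (.p (nat_lit 0xdcb0d3b02) (nat_lit 0xa880) (nat_lit 19))
 (.p (nat_lit 0x386f385102) (nat_lit 0xa9808000000) (nat_lit 35)))
 (.p (nat_lit 0xf7a0f790f760f740f720f71033c0039003109) (nat_lit 0x40884) (nat_lit 13)))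
 (.n (.n (.p (nat_lit 0x223822362234223222300e5b06) (nat_lit 0x200001882) (nat_lit 14))
 (.p (nat_lit 0x3a1c119102) (nat_lit 0x4020) (nat_lit 48)))
 (.p (nat_lit 0x3e703e303c9015004) (nat_lit 0x42b0006) (nat_lit 23)))))

def c256_38 : Tr := .n c512_38 c512_294

def c512_166 : Tr :=
 .n (.n (.n (.n (.n (.p (nat_lit 0x22fa22f622f222f00cd90cd506) (nat_lit 0x140001a00) (nat_lit 14))
 (.p (nat_lit 0x284712e602) (nat_lit 0xa0aa) (nat_lit 5)))
 (.n (.p (nat_lit 0xe8a0e880e860e840e820e81002507) (nat_lit 0x803) (nat_lit 7))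
 (.p (nat_lit 0x3a2f39b1389103) (nat_lit 0x7380000a040) (nat_lit 43))))
 (.n (.n (.p (nat_lit 0x23702350233022504) (nat_lit 0x5632000) (nat_lit 24))
 (.p (nat_lit 0x38c538a702) (nat_lit 0x80400000800) (nat_lit 35)))
 (.p (nat_lit 0xfb50f9d02) (nat_lit 0x8005) (nat_lit 18))))
 (.n (.n (.n (.p (nat_lit 0xd220d200d1e0d1c0d1a0d19000107) (nat_lit 0x860) (nat_lit 7))
 (.p (nat_lit 0x92f004f02) (nat_lit 0x6026) (nat_lit 31)))
 (.p (nat_lit 0x24730f1202) (nat_lit 0x2804) (nat_lit 5)))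
 (.n (.n (.p (nat_lit 0x10d0022001a001804) (nat_lit 0x230008002) (nat_lit 20))
 (.p (nat_lit 0x39a5399902) (nat_lit 0x4080a000800) (nat_lit 35)))
 (.p (nat_lit 0x10521050104e104d104a1048004d07) (nat_lit 0x4826) (nat_lit 7)))))
 (.n (.n (.n (.n (.p (nat_lit 0x197619721970196e196c0cfd06) (nat_lit 0x100000340) (nat_lit 15))
 (.p (nat_lit 0x253a2538253625322530155d06) (nat_lit 0x40001a2f) (nat_lit 14)))
 (.n (.p (nat_lit 0x2ef90ee802) (nat_lit 0x8883) (nat_lit 32))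
 (.p (nat_lit 0x3a4a22ab02) (nat_lit 0x28a0) (nat_lit 46))))
 (.n (.n (.p (nat_lit 0x17310da102) (nat_lit 0x4561) (nat_lit 19))
 (.p (nat_lit 0x392f392502) (nat_lit 0xac004000800) (nat_lit 35)))
 (.p (nat_lit 0x2fed003d02) (nat_lit 0x65) (nat_lit 33))))
 (.n (.n (.n (.p (nat_lit 0x250a25062504250225000d3906) (nat_lit 0x100001880) (nat_lit 14))
 (.p (nat_lit 0x3841382502) (nat_lit 0xb2006000000) (nat_lit 35)))
 (.p (nat_lit 0xfe30f5302) (nat_lit 0x6564) (nat_lit 19)))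
 (.n (.n (.p (nat_lit 0x22522250224e224c224a0e4506) (nat_lit 0x10001182) (nat_lit 16))
 (.p (nat_lit 0x39cd3975385503) (nat_lit 0x42000008000) (nat_lit 44)))
 (.p (nat_lit 0x309f005302) (nat_lit 0xa086) (nat_lit 33)))))

def c512_422 : Tr :=
 .n (.n (.n (.n (.n (.p (nat_lit 0xcf20cf10cee0ced0cea0ce802340009000509) (nat_lit 0x44820) (nat_lit 13))
 (.p (nat_lit 0x14c7143702) (nat_lit 0xa52d) (nat_lit 19)))
 (.n (.p (nat_lit 0xec90eb102) (nat_lit 0x843) (nat_lit 18))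
 (.p (nat_lit 0x39f339bb389b03) (nat_lit 0x9cc0000a060) (nat_lit 44))))
 (.n (.n (.p (nat_lit 0x190a19081906190419000d8706) (nat_lit 0x20001441) (nat_lit 15))
 (.p (nat_lit 0x38dd38db02) (nat_lit 0x20c02000800) (nat_lit 35)))
 (.p (nat_lit 0x178a1786178217800fc10fbd06) (nat_lit 0x140001825) (nat_lit 15))))
 (.n (.n (.n (.p (nat_lit 0xd2b004202) (nat_lit 0x6080) (nat_lit 1))
 (.p (nat_lit 0x37c737bf02) (nat_lit 0x49402000000) (nat_lit 35)))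
 (.p (nat_lit 0x19e219e019de19dc19da19d806) (nat_lit 0x824) (nat_lit 2)))
 (.n (.n (.p (nat_lit 0x284428422840283e283c0e2b06) (nat_lit 0x200000d42) (nat_lit 16))
 (.p (nat_lit 0x3902390038fa37e304) (nat_lit 0x5c02000000) (nat_lit 36)))
 (.p (nat_lit 0x2282227c227a22781069106706) (nat_lit 0x180001b46) (nat_lit 14)))))
 (.n (.n (.n (.n (.p (nat_lit 0x19b019ae19aa19a80d0b0d0506) (nat_lit 0x240001d40) (nat_lit 17))
 (.p (nat_lit 0x2c85172402) (nat_lit 0x4852) (nat_lit 5)))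
 (.p (nat_lit 0x17d217d017ce17cc17c80efb06) (nat_lit 0x20001ba3) (nat_lit 15)))
 (.n (.n (.p (nat_lit 0x174d0dbd02) (nat_lit 0x8581) (nat_lit 19))
 (.p (nat_lit 0x3993396702) (nat_lit 0xb8408000800) (nat_lit 35)))
 (.p (nat_lit 0x3033102202) (nat_lit 0xa8a5) (nat_lit 32))))
 (.n (.n (.n (.p (nat_lit 0x25de25dc25da25d80d470d4506) (nat_lit 0x3000013a0) (nat_lit 14))
 (.p (nat_lit 0x3887387702) (nat_lit 0x4840a000000) (nat_lit 35)))
 (.p (nat_lit 0x2f990f8802) (nat_lit 0x8a4) (nat_lit 32)))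
 (.n (.n (.p (nat_lit 0x180c180a1808180618040e6706) (nat_lit 0x2000000a2) (nat_lit 15))
 (.p (nat_lit 0x3a233997387903) (nat_lit 0x880000a020) (nat_lit 43)))
 (.p (nat_lit 0x11a9119102) (nat_lit 0x4068) (nat_lit 18)))))

def c256_166 : Tr := .n c512_166 c512_422

def c128_38 : Tr := .n c256_38 c256_166

def c512_102 : Tr :=
 .n (.n (.n (.n (.n (.p (nat_lit 0x22370cd602) (nat_lit 0x6800) (nat_lit 5))
 (.p (nat_lit 0x1d7d12cc02) (nat_lit 0x808a) (nat_lit 4)))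
 (.n (.p (nat_lit 0x19290e7802) (nat_lit 0x4003) (nat_lit 4))
 (.p (nat_lit 0x39e53975385d03) (nat_lit 0x43000008040) (nat_lit 44))))
 (.n (.n (.p (nat_lit 0x1b3c1b3a1b381b340d530d4b06) (nat_lit 0x220000ca0) (nat_lit 15))
 (.p (nat_lit 0x389b389702) (nat_lit 0x9c40a000000) (nat_lit 35)))
 (.p (nat_lit 0x24f90f9802) (nat_lit 0x4005) (nat_lit 5))))
 (.n (.n (.n (.p (nat_lit 0x1a341a321a301a2e0d170d0d06) (nat_lit 0x210000560) (nat_lit 15))
 (.p (nat_lit 0x899003102) (nat_lit 0x24) (nat_lit 31)))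
 (.p (nat_lit 0x17c617c417be17bc0f0b0f0906) (nat_lit 0xc0000304) (nat_lit 17)))
 (.n (.n (.p (nat_lit 0x21e421e221e021de21dc0de306) (nat_lit 0x200000ba1) (nat_lit 15))
 (.p (nat_lit 0x3991398d02) (nat_lit 0xb5008000800) (nat_lit 35)))
 (.p (nat_lit 0x25a5104402) (nat_lit 0x8026) (nat_lit 5)))))
 (.n (.n (.n (.n (.p (nat_lit 0xfc30cf302) (nat_lit 0xac20) (nat_lit 19))
 (.p (nat_lit 0x1f421f401f3e1f3c14df14dd06) (nat_lit 0x30000054e) (nat_lit 17)))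
 (.n (.p (nat_lit 0x2490248e248a24880edf0ed906) (nat_lit 0x240001183) (nat_lit 16))
 (.p (nat_lit 0x39ff39c3387903) (nat_lit 0xb880000a080) (nat_lit 44))))
 (.n (.n (.p (nat_lit 0x17d217d017ce17cc17c80d9f06) (nat_lit 0x20001361) (nat_lit 17))
 (.p (nat_lit 0x3929391302) (nat_lit 0x91c04000800) (nat_lit 35)))
 (.p (nat_lit 0xfdb003a02) (nat_lit 0xa845) (nat_lit 1))))
 (.n (.n (.n (.p (nat_lit 0x108f0d2f02) (nat_lit 0xa580) (nat_lit 19))
 (.p (nat_lit 0x381d381b02) (nat_lit 0x20c06000000) (nat_lit 35)))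
 (.p (nat_lit 0xf4a0f480f460f450f420f40003507) (nat_lit 0x4844) (nat_lit 7)))
 (.n (.n (.p (nat_lit 0xe5b0e4302) (nat_lit 0xa862) (nat_lit 18))
 (.p (nat_lit 0x3a0f38f137d103) (nat_lit 0x73800002000) (nat_lit 43)))
 (.p (nat_lit 0x1a661a621a601a5e1081107906) (nat_lit 0x110000966) (nat_lit 15)))))

def c512_358 : Tr :=
 .n (.n (.n (.n (.n (.p (nat_lit 0x23ba23b823b623b223b00ce106) (nat_lit 0x40001420) (nat_lit 16))
 (.p (nat_lit 0x1407138f02) (nat_lit 0xa0ac) (nat_lit 18)))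
 (.n (.p (nat_lit 0x282e282c282a282828260e9906) (nat_lit 0x10000c23) (nat_lit 16))
 (.p (nat_lit 0x39f1398b387103) (nat_lit 0x9d800008060) (nat_lit 44))))
 (.n (.n (.p (nat_lit 0xe0f0d7f02) (nat_lit 0x6a21) (nat_lit 19))
 (.p (nat_lit 0x38c438be38bc38b838b638b4226107) (nat_lit 0x840) (nat_lit 38)))
 (.p (nat_lit 0x22a222a0229e229c0fb70fb506) (nat_lit 0x300000525) (nat_lit 14))))
 (.n (.n (.n (.p (nat_lit 0x24f224ee24ec24e80d210d1b06) (nat_lit 0x120001d60) (nat_lit 14))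
 (.p (nat_lit 0x37cb37b502) (nat_lit 0x58002000000) (nat_lit 35)))
 (.p (nat_lit 0xf260f250f220f200f1e0f1d033c0039003109) (nat_lit 0x40024) (nat_lit 13)))
 (.n (.n (.p (nat_lit 0x1d8a1d861d841d821d800e1d06) (nat_lit 0x100001442) (nat_lit 15))
 (.p (nat_lit 0x39c139bf02) (nat_lit 0xb540a000800) (nat_lit 35)))
 (.p (nat_lit 0x3071106002) (nat_lit 0x846) (nat_lit 32)))))
 (.n (.n (.n (.n (.p (nat_lit 0x243e243c243a24360d050d0106) (nat_lit 0x50000c40) (nat_lit 14))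
 (.p (nat_lit 0x20f00de00d803) (nat_lit 0x9000a012) (nat_lit 20)))
 (.n (.p (nat_lit 0xf020f000efe0efc0efa0ef9002507) (nat_lit 0x8a3) (nat_lit 7))
 (.p (nat_lit 0x3a5339b9389903) (nat_lit 0x9480000a0a0) (nat_lit 43))))
 (.n (.n (.p (nat_lit 0x1adc1ada1ad81ad61ad40dbf06) (nat_lit 0x200000081) (nat_lit 15))
 (.p (nat_lit 0x395b394d02) (nat_lit 0x9b006000800) (nat_lit 35)))
 (.p (nat_lit 0x1016101410131010100e100d03820043003d09) (nat_lit 0x300a5) (nat_lit 13))))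
 (.n (.n (.n (.p (nat_lit 0x1ade1adc1ada1ad61ad40d4106) (nat_lit 0x400000a0) (nat_lit 15))
 (.p (nat_lit 0x3867385f02) (nat_lit 0x8b408000000) (nat_lit 35)))
 (.p (nat_lit 0x1a370f8602) (nat_lit 0xa0a4) (nat_lit 4)))
 (.n (.n (.p (nat_lit 0x22a222a0229e229c0e5b0e5906) (nat_lit 0x300000d82) (nat_lit 14))
 (.p (nat_lit 0x3a1f395d383f03) (nat_lit 0xa5400006020) (nat_lit 43)))
 (.p (nat_lit 0x1195110502) (nat_lit 0x8267) (nat_lit 19)))))

def c256_102 : Tr := .n c512_102 c512_358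

def c512_230 : Tr :=
 .n (.n (.n (.n (.n (.p (nat_lit 0x186c186a186618640cdb0cd506) (nat_lit 0x240000c00) (nat_lit 15))
 (.p (nat_lit 0x1e21137002) (nat_lit 0x40ab) (nat_lit 4)))
 (.n (.p (nat_lit 0x18fe18fc18f818f40e870e8306) (nat_lit 0xa0000c03) (nat_lit 15))
 (.p (nat_lit 0x3a3213ff02) (nat_lit 0x2260) (nat_lit 48))))
 (.n (.n (.p (nat_lit 0xd790d6102) (nat_lit 0x801) (nat_lit 18))
 (.p (nat_lit 0x38b738b102) (nat_lit 0x49800000800) (nat_lit 35)))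
 (.p (nat_lit 0x25be25bc25ba25b825b60fa106) (nat_lit 0x10000a05) (nat_lit 14))))
 (.n (.n (.n (.p (nat_lit 0x19c819c619c419c20d230d1906) (nat_lit 0x210001860) (nat_lit 17))
 (.p (nat_lit 0x37a5378502) (nat_lit 0x80000000000) (nat_lit 35)))
 (.p (nat_lit 0x226a22682264226222600f1706) (nat_lit 0x80001a04) (nat_lit 14)))
 (.n (.n (.p (nat_lit 0xdfa0df80df70df40df20df0001f07) (nat_lit 0x6802) (nat_lit 7))
 (.p (nat_lit 0x39b5399f02) (nat_lit 0x8140a000800) (nat_lit 35)))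
 (.p (nat_lit 0x1063104b02) (nat_lit 0x2826) (nat_lit 18)))))
 (.n (.n (.n (.n (.p (nat_lit 0xfcd0cfd02) (nat_lit 0x8440) (nat_lit 19))
 (.p (nat_lit 0x2b4f15ee02) (nat_lit 0x6830) (nat_lit 5)))
 (.n (.p (nat_lit 0xf7b0eeb02) (nat_lit 0xac83) (nat_lit 19))
 (.p (nat_lit 0x3a0617ff02) (nat_lit 0x68a0) (nat_lit 45))))
 (.n (.n (.p (nat_lit 0x17ae17aa17a817a617a40db106) (nat_lit 0x100000a61) (nat_lit 15))
 (.p (nat_lit 0x3959393702) (nat_lit 0x90406000800) (nat_lit 35)))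
 (.p (nat_lit 0x254d0fec02) (nat_lit 0x4865) (nat_lit 5))))
 (.n (.n (.n (.p (nat_lit 0x1a8a1a881a821a800d370d3506) (nat_lit 0xc0001a80) (nat_lit 15))
 (.p (nat_lit 0x3851384902) (nat_lit 0x30808000000) (nat_lit 35)))
 (.p (nat_lit 0x1f6a1f681f661f641f600f6706) (nat_lit 0x20001084) (nat_lit 15)))
 (.n (.n (.p (nat_lit 0x1802180017fc17f80e4b0e4706) (nat_lit 0xa0001582) (nat_lit 15))
 (.p (nat_lit 0x39d138c137a103) (nat_lit 0x73800000020) (nat_lit 44)))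
 (.p (nat_lit 0x20ba20b820b620b420b0109306) (nat_lit 0x20001a86) (nat_lit 15)))))

def c512_486 : Tr :=
 .n (.n (.n (.n (.n (.p (nat_lit 0x239623922390238e0cf10ce906) (nat_lit 0x110000b20) (nat_lit 14))
 (.p (nat_lit 0x2a1514b402) (nat_lit 0x480e) (nat_lit 5)))
 (.n (.p (nat_lit 0x2ed90ec802) (nat_lit 0x863) (nat_lit 32))
 (.p (nat_lit 0x3a3c155902) (nat_lit 0xc80) (nat_lit 48))))
 (.n (.n (.p (nat_lit 0xd9a0d980d960d950d930d90026c0011000f09) (nat_lit 0x22841) (nat_lit 13))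
 (.p (nat_lit 0x38f738e502) (nat_lit 0x8a002000800) (nat_lit 35)))
 (.p (nat_lit 0xfd50fbd02) (nat_lit 0x4825) (nat_lit 18))))
 (.n (.n (.n (.p (nat_lit 0x25222520251e251c25180d2706) (nat_lit 0x20001180) (nat_lit 16))
 (.p (nat_lit 0x380d37e902) (nat_lit 0xa0804000000) (nat_lit 35)))
 (.p (nat_lit 0x243e243c243824360f2f0f2906) (nat_lit 0x90000c24) (nat_lit 16)))
 (.n (.n (.p (nat_lit 0x23e823e623e223e00e370e3106) (nat_lit 0x240001062) (nat_lit 16))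
 (.p (nat_lit 0x3984397e397c386504) (nat_lit 0x4008000000) (nat_lit 36)))
 (.p (nat_lit 0x1075004402) (nat_lit 0x8066) (nat_lit 1)))))
 (.n (.n (.n (.n (.p (nat_lit 0xd15003802) (nat_lit 0x8060) (nat_lit 1))
 (.p (nat_lit 0x21f1174002) (nat_lit 0x8872) (nat_lit 4)))
 (.p (nat_lit 0x30d02f5011e03) (nat_lit 0x8020003) (nat_lit 22)))
 (.n (.n (.p (nat_lit 0x1b181b161b141b100dcb0dc306) (nat_lit 0x220001a81) (nat_lit 15))
 (.p (nat_lit 0x3987396f02) (nat_lit 0x89408000800) (nat_lit 35)))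
 (.p (nat_lit 0x14f0050004a03) (nat_lit 0x12000a006) (nat_lit 20))))
 (.n (.n (.n (.p (nat_lit 0x17ff0d4e02) (nat_lit 0x68a0) (nat_lit 4))
 (.p (nat_lit 0x3899387d02) (nat_lit 0x9100a000000) (nat_lit 35)))
 (.p (nat_lit 0x252e252c2528252625240f8f06) (nat_lit 0x80000aa4) (nat_lit 16)))
 (.n (.n (.p (nat_lit 0x2e81002102) (nat_lit 0x88a2) (nat_lit 33))
 (.p (nat_lit 0x3a240e2d02) (nat_lit 0x40) (nat_lit 48)))
 (.p (nat_lit 0x1c6111b002) (nat_lit 0x888) (nat_lit 4)))))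

def c256_230 : Tr := .n c512_230 c512_486

def c128_102 : Tr := .n c256_102 c256_230

def c64_38 : Tr := .n c128_38 c128_102

def c32_6 : Tr := .n c64_6 c64_38

def c512_22 : Tr :=
 .n (.n (.n (.n (.n (.p (nat_lit 0x222f177f02) (nat_lit 0xa000) (nat_lit 11))
 (.p (nat_lit 0x1ce5123402) (nat_lit 0x89) (nat_lit 4)))
 (.n (.p (nat_lit 0xe690df102) (nat_lit 0x8a2) (nat_lit 18))
 (.p (nat_lit 0x3a26137b02) (nat_lit 0x2a40) (nat_lit 48))))
 (.n (.n (.p (nat_lit 0x25b225b025ae25ac25aa0d4906) (nat_lit 0x100019a0) (nat_lit 14))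
 (.p (nat_lit 0x389d388302) (nat_lit 0xa1c0a000000) (nat_lit 35)))
 (.p (nat_lit 0x3490337012e03) (nat_lit 0x2040004) (nat_lit 22))))
 (.n (.n (.n (.p (nat_lit 0x2486248424822480247e0d0d06) (nat_lit 0x10000160) (nat_lit 14))
 (.p (nat_lit 0x7e9004c02) (nat_lit 0x4081) (nat_lit 30)))
 (.p (nat_lit 0x12f0038003003) (nat_lit 0x11000a004) (nat_lit 20)))
 (.n (.n (.p (nat_lit 0x232f0dce02) (nat_lit 0x20a1) (nat_lit 5))
 (.p (nat_lit 0x397b397702) (nat_lit 0x5a408000800) (nat_lit 35)))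
 (.p (nat_lit 0x21e421e021de21dc102f102b06) (nat_lit 0x280000306) (nat_lit 17)))))
 (.n (.n (.n (.n (.p (nat_lit 0x190a1908190619000ced0ceb06) (nat_lit 0x60001c20) (nat_lit 17))
 (.p (nat_lit 0x247a247824762472247014c106) (nat_lit 0x4000102e) (nat_lit 14)))
 (.n (.p (nat_lit 0xf590ec902) (nat_lit 0xc63) (nat_lit 19))
 (.p (nat_lit 0x39f8107102) (nat_lit 0x4080) (nat_lit 47))))
 (.n (.n (.p (nat_lit 0x10670d9702) (nat_lit 0x6c41) (nat_lit 19))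
 (.p (nat_lit 0x390038fe38fc38dc38d638d417b307) (nat_lit 0x2000840) (nat_lit 37)))
 (.p (nat_lit 0x1a7f0fce02) (nat_lit 0xa045) (nat_lit 4))))
 (.n (.n (.n (.p (nat_lit 0x25462544253e253c0d2b0d2906) (nat_lit 0xc0000380) (nat_lit 14))
 (.p (nat_lit 0x380537ff02) (nat_lit 0x83404000000) (nat_lit 35)))
 (.p (nat_lit 0xfbb0f2b02) (nat_lit 0x2d24) (nat_lit 19)))
 (.n (.n (.p (nat_lit 0x18e90e3802) (nat_lit 0x862) (nat_lit 4))
 (.p (nat_lit 0x39c538b5379703) (nat_lit 0x42400000000) (nat_lit 44)))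
 (.p (nat_lit 0x1aba1ab41ab21ab01075107306) (nat_lit 0x180001466) (nat_lit 15)))))

def c512_278 : Tr :=
 .n (.n (.n (.n (.n (.p (nat_lit 0xd610cd102) (nat_lit 0x800) (nat_lit 19))
 (.p (nat_lit 0x24622460245e245c245a138506) (nat_lit 0x1000150c) (nat_lit 14)))
 (.n (.p (nat_lit 0x2ea10e9002) (nat_lit 0x4023) (nat_lit 32))
 (.p (nat_lit 0x3a373941382103) (nat_lit 0x31800006060) (nat_lit 43))))
 (.n (.n (.p (nat_lit 0x1c521c4e1c4c1c4a1c480d7506) (nat_lit 0x100001321) (nat_lit 15))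
 (.p (nat_lit 0x38d338b702) (nat_lit 0xba400000800) (nat_lit 35)))
 (.p (nat_lit 0x15d10fa102) (nat_lit 0xd05) (nat_lit 19))))
 (.n (.n (.n (.p (nat_lit 0x19fa19f819f619f419f20d1906) (nat_lit 0x10001a60) (nat_lit 15))
 (.p (nat_lit 0x37ad379502) (nat_lit 0xa2000000000) (nat_lit 35)))
 (.p (nat_lit 0x17e817e617e217e00f1b0f1506) (nat_lit 0x240001c04) (nat_lit 15)))
 (.n (.n (.p (nat_lit 0x18b50e0402) (nat_lit 0x8022) (nat_lit 4))
 (.p (nat_lit 0x39bd39a502) (nat_lit 0xa200a000800) (nat_lit 35)))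
 (.p (nat_lit 0x22442240223e223c105f105b06) (nat_lit 0x280000146) (nat_lit 14)))))
 (.n (.n (.n (.n (.p (nat_lit 0x192c192a192819240d0b0d0306) (nat_lit 0x220000840) (nat_lit 15))
 (.p (nat_lit 0x251625122510250e250c15fd06) (nat_lit 0x100000150) (nat_lit 14)))
 (.n (.p (nat_lit 0x17ae17ac17aa17a817a60eed06) (nat_lit 0x100002a3) (nat_lit 17))
 (.p (nat_lit 0x3a51397d386503) (nat_lit 0x640000080a0) (nat_lit 43))))
 (.n (.n (.p (nat_lit 0x229822962294229222900db306) (nat_lit 0x200001c61) (nat_lit 14))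
 (.p (nat_lit 0x3949393f02) (nat_lit 0x51406000800) (nat_lit 35)))
 (.p (nat_lit 0x25550ff402) (nat_lit 0x85) (nat_lit 5))))
 (.n (.n (.n (.p (nat_lit 0x25822580257c257a0d370d3106) (nat_lit 0x90001d80) (nat_lit 14))
 (.p (nat_lit 0x3861384f02) (nat_lit 0x71408000000) (nat_lit 35)))
 (.p (nat_lit 0x1a290f7802) (nat_lit 0x8884) (nat_lit 4)))
 (.n (.n (.p (nat_lit 0xe5a0e590e560e540e520e50002107) (nat_lit 0x8882) (nat_lit 7))
 (.p (nat_lit 0x3a1d3921380703) (nat_lit 0x74400004020) (nat_lit 43)))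
 (.p (nat_lit 0x3cd03cb014e03) (nat_lit 0x46006) (nat_lit 22)))))

def c256_22 : Tr := .n c512_22 c512_278

def c512_150 : Tr :=
 .n (.n (.n (.n (.n (.p (nat_lit 0x22ee22ea22e822e622e40cd906) (nat_lit 0x100000a00) (nat_lit 14))
 (.p (nat_lit 0x12f312db02) (nat_lit 0xa88a) (nat_lit 18)))
 (.n (.p (nat_lit 0xe970e7f02) (nat_lit 0xa003) (nat_lit 18))
 (.p (nat_lit 0x3a2f3997387903) (nat_lit 0x880000a040) (nat_lit 43))))
 (.n (.n (.p (nat_lit 0x101f0d4f02) (nat_lit 0x6ca0) (nat_lit 19))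
 (.p (nat_lit 0x38d138a502) (nat_lit 0xb0000000800) (nat_lit 35)))
 (.p (nat_lit 0x1b261b241b221b1e1b1c0f9906) (nat_lit 0x40000305) (nat_lit 17))))
 (.n (.n (.n (.p (nat_lit 0xfdf0d0f02) (nat_lit 0x2460) (nat_lit 19))
 (.p (nat_lit 0x8f1004102) (nat_lit 0x4045) (nat_lit 31)))
 (.p (nat_lit 0x14ab0f0b02) (nat_lit 0x6404) (nat_lit 19)))
 (.n (.n (.p (nat_lit 0x27f02730267010004) (nat_lit 0xa110001) (nat_lit 23))
 (.p (nat_lit 0x39af399702) (nat_lit 0x6840a000800) (nat_lit 35)))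
 (.p (nat_lit 0x30623060305e305c305a3058014c07) (nat_lit 0x826) (nat_lit 8)))))
 (.n (.n (.n (.n (.p (nat_lit 0x23f223f023ee23ec0cff0cfd06) (nat_lit 0x300000140) (nat_lit 14))
 (.p (nat_lit 0x2abb155a02) (nat_lit 0x282f) (nat_lit 5)))
 (.n (.p (nat_lit 0xeea0ee80ee60ee40ee30ee0002707) (nat_lit 0x2883) (nat_lit 7))
 (.p (nat_lit 0x3a0338ff37b703) (nat_lit 0xa84000020a0) (nat_lit 44))))
 (.n (.n (.p (nat_lit 0x118f0d9f02) (nat_lit 0x2161) (nat_lit 19))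
 (.p (nat_lit 0x3927392102) (nat_lit 0x8b804000800) (nat_lit 35)))
 (.p (nat_lit 0x10630fd302) (nat_lit 0x2845) (nat_lit 19))))
 (.n (.n (.n (.p (nat_lit 0x24fe24fa24f824f624f40d3906) (nat_lit 0x100000880) (nat_lit 14))
 (.p (nat_lit 0x383d382102) (nat_lit 0xa1806000000) (nat_lit 35)))
 (.p (nat_lit 0x24b50f5402) (nat_lit 0x8064) (nat_lit 5)))
 (.n (.n (.p (nat_lit 0xe4e0e4d0e4a0e480e470e4402b80021001b09) (nat_lit 0x42082) (nat_lit 13))
 (.p (nat_lit 0x39cb3945382703) (nat_lit 0x42400006000) (nat_lit 44)))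
 (.p (nat_lit 0x25e9108802) (nat_lit 0x4086) (nat_lit 5)))))

def c512_406 : Tr :=
 .n (.n (.n (.n (.n (.p (nat_lit 0x224f0cee02) (nat_lit 0x6820) (nat_lit 5))
 (.p (nat_lit 0x2985142402) (nat_lit 0x480d) (nat_lit 5)))
 (.n (.p (nat_lit 0xf3f0eaf02) (nat_lit 0xa443) (nat_lit 19))
 (.p (nat_lit 0x3a3b39a5388703) (nat_lit 0x4240000a060) (nat_lit 43))))
 (.n (.n (.p (nat_lit 0x236423622360235e235c0d8f06) (nat_lit 0x200000141) (nat_lit 14))
 (.p (nat_lit 0x38ff38d702) (nat_lit 0xa8402000800) (nat_lit 35)))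
 (.p (nat_lit 0x2fd30fc202) (nat_lit 0xa825) (nat_lit 32))))
 (.n (.n (.n (.p (nat_lit 0x228e228c228a22882286228406) (nat_lit 0x80) (nat_lit 3))
 (.p (nat_lit 0x37c337bd02) (nat_lit 0x39002000000) (nat_lit 35)))
 (.p (nat_lit 0xf370f1f02) (nat_lit 0x2024) (nat_lit 18)))
 (.n (.n (.p (nat_lit 0xe2a0e280e260e250e220e2102a8001d001909) (nat_lit 0x20842) (nat_lit 13))
 (.p (nat_lit 0x38e238e038da37c304) (nat_lit 0x1c02000000) (nat_lit 36)))
 (.p (nat_lit 0x17a0179c179a1798106b106706) (nat_lit 0x280001946) (nat_lit 15)))))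
 (.n (.n (.n (.n (.p (nat_lit 0x19b219b019ae19ac0d030d0106) (nat_lit 0x30001d40) (nat_lit 17))
 (.p (nat_lit 0x1862185c185a1858171d171b06) (nat_lit 0x180001352) (nat_lit 15)))
 (.p (nat_lit 0x17ba17b817b617b217b00efd06) (nat_lit 0x40001aa3) (nat_lit 17)))
 (.n (.n (.p (nat_lit 0x11a90db902) (nat_lit 0x4181) (nat_lit 19))
 (.p (nat_lit 0x3971396702) (nat_lit 0x30408000800) (nat_lit 35)))
 (.p (nat_lit 0x1acf101e02) (nat_lit 0x68a5) (nat_lit 4))))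
 (.n (.n (.n (.p (nat_lit 0x25d625d425ce25cc0d430d4106) (nat_lit 0xc00003a0) (nat_lit 14))
 (.p (nat_lit 0x3887387502) (nat_lit 0x4800a000000) (nat_lit 35)))
 (.p (nat_lit 0xf870f0f02) (nat_lit 0xa0a4) (nat_lit 18)))
 (.n (.n (.p (nat_lit 0x2e73001f02) (nat_lit 0x60a2) (nat_lit 33))
 (.p (nat_lit 0x39d80e7d02) (nat_lit 0x8320) (nat_lit 47)))
 (.p (nat_lit 0x1c47119602) (nat_lit 0xa068) (nat_lit 4)))))

def c256_150 : Tr := .n c512_150 c512_406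

def c128_22 : Tr := .n c256_22 c256_150

def c512_86 : Tr :=
 .n (.n (.n (.n (.n (.p (nat_lit 0xf9f0ccf02) (nat_lit 0xa400) (nat_lit 19))
 (.p (nat_lit 0x28d628d228d028ce28cc12c106) (nat_lit 0x100000d6a) (nat_lit 14)))
 (.n (.p (nat_lit 0x121002e02) (nat_lit 0x20000c003) (nat_lit 20))
 (.p (nat_lit 0x3a2d396d384d03) (nat_lit 0x21000008040) (nat_lit 43))))
 (.n (.n (.p (nat_lit 0x1b321b301b2e1b2a0d4d0d4906) (nat_lit 0x50001ba0) (nat_lit 15))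
 (.p (nat_lit 0x389b389102) (nat_lit 0x9b80a000000) (nat_lit 35)))
 (.p (nat_lit 0x13f0046004403) (nat_lit 0x30000a005) (nat_lit 20))))
 (.n (.n (.n (.p (nat_lit 0x1a2a1a281a261a200d110d0f06) (nat_lit 0x60001460) (nat_lit 15))
 (.p (nat_lit 0x879003402) (nat_lit 0x4083) (nat_lit 30)))
 (.p (nat_lit 0x17a217a0179c179a17980f0b06) (nat_lit 0x80001104) (nat_lit 15)))
 (.n (.n (.p (nat_lit 0x18910de002) (nat_lit 0x88a1) (nat_lit 4))
 (.p (nat_lit 0x3991398502) (nat_lit 0xb4008000800) (nat_lit 35)))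
 (.p (nat_lit 0x304d004902) (nat_lit 0x26) (nat_lit 33)))))
 (.n (.n (.n (.n (.p (nat_lit 0xe9b0ceb02) (nat_lit 0x2a20) (nat_lit 19))
 (.p (nat_lit 0x1f8914d802) (nat_lit 0x404e) (nat_lit 4)))
 (.n (.p (nat_lit 0x19c819c619c419c00edf0ed706) (nat_lit 0x220001083) (nat_lit 15))
 (.p (nat_lit 0x39fd398b386b03) (nat_lit 0x9cc00008080) (nat_lit 44))))
 (.n (.n (.p (nat_lit 0x225e225c225a225822540d9f06) (nat_lit 0x20000261) (nat_lit 14))
 (.p (nat_lit 0x3929390f02) (nat_lit 0x91404000800) (nat_lit 35)))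
 (.p (nat_lit 0x1a850fd402) (nat_lit 0x4845) (nat_lit 4))))
 (.n (.n (.n (.p (nat_lit 0xf670d2702) (nat_lit 0x2380) (nat_lit 19))
 (.p (nat_lit 0x3841381502) (nat_lit 0xb0006000000) (nat_lit 35)))
 (.p (nat_lit 0xfc70f3702) (nat_lit 0x2544) (nat_lit 19)))
 (.n (.n (.p (nat_lit 0x244824462444244224400e4306) (nat_lit 0x200001c62) (nat_lit 14))
 (.p (nat_lit 0x39c738d737bf03) (nat_lit 0x9400002000) (nat_lit 44)))
 (.p (nat_lit 0x24fe24fc24fa24f624f4107d06) (nat_lit 0x40000866) (nat_lit 16)))))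

def c512_342 : Tr :=
 .n (.n (.n (.n (.n (.p (nat_lit 0x18d818d618d218d00ce70ce106) (nat_lit 0x240001220) (nat_lit 15))
 (.p (nat_lit 0x19be19bc19b819b619b4140306) (nat_lit 0x800000ac) (nat_lit 15)))
 (.n (.p (nat_lit 0x19510ea002) (nat_lit 0x8823) (nat_lit 4))
 (.p (nat_lit 0x39f1397d386503) (nat_lit 0x64000008060) (nat_lit 44))))
 (.n (.n (.p (nat_lit 0x270e270a270827060d810d7906) (nat_lit 0x110000c21) (nat_lit 16))
 (.p (nat_lit 0x38d338c702) (nat_lit 0xbc400000800) (nat_lit 35)))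
 (.p (nat_lit 0x17d017ce17cc17c80fb70faf06) (nat_lit 0x220001325) (nat_lit 15))))
 (.n (.n (.n (.p (nat_lit 0x24e624e024de24dc0d210d1f06) (nat_lit 0x180000d60) (nat_lit 14))
 (.p (nat_lit 0x37b037ae37ac378c3786378417a507) (nat_lit 0x40) (nat_lit 37)))
 (.p (nat_lit 0x19d30f2202) (nat_lit 0x6024) (nat_lit 4)))
 (.n (.n (.p (nat_lit 0x18cd0e1c02) (nat_lit 0x8042) (nat_lit 4))
 (.p (nat_lit 0x39bb39b702) (nat_lit 0x9c40a000800) (nat_lit 35)))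
 (.p (nat_lit 0x22b022ae22ac22aa22a8105f06) (nat_lit 0x200001546) (nat_lit 16)))))
 (.n (.n (.n (.n (.p (nat_lit 0x24242420241e241c0d0b0d0706) (nat_lit 0x280000b40) (nat_lit 14))
 (.p (nat_lit 0x2be9168802) (nat_lit 0x4051) (nat_lit 5)))
 (.n (.p (nat_lit 0x12e30ef302) (nat_lit 0x61a3) (nat_lit 19))
 (.p (nat_lit 0x3a5339af389103) (nat_lit 0x6b80000a0a0) (nat_lit 43))))
 (.n (.n (.p (nat_lit 0x2dcd0dbc02) (nat_lit 0x8081) (nat_lit 32))
 (.p (nat_lit 0x395b394702) (nat_lit 0x9a406000800) (nat_lit 35)))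
 (.p (nat_lit 0x3021101002) (nat_lit 0x40a5) (nat_lit 32))))
 (.n (.n (.n (.p (nat_lit 0x22a317f302) (nat_lit 0x60a0) (nat_lit 11))
 (.p (nat_lit 0x385d385b02) (nat_lit 0x62c08000000) (nat_lit 35)))
 (.p (nat_lit 0xf81004002) (nat_lit 0x40a4) (nat_lit 1)))
 (.n (.n (.p (nat_lit 0x17de17da17d817d40e590e5306) (nat_lit 0x120000c82) (nat_lit 17))
 (.p (nat_lit 0x3a1f3955383503) (nat_lit 0x84000006020) (nat_lit 43)))
 (.p (nat_lit 0x1baf10fe02) (nat_lit 0x2067) (nat_lit 4)))))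

def c256_86 : Tr := .n c512_86 c512_342

def c512_214 : Tr :=
 .n (.n (.n (.n (.n (.p (nat_lit 0x186e186c186a18680cd30cd106) (nat_lit 0x30000c00) (nat_lit 15))
 (.p (nat_lit 0x18e618e218e018de18dc12f106) (nat_lit 0x100000baa) (nat_lit 15)))
 (.n (.p (nat_lit 0x239623922390238e238c0e8906) (nat_lit 0x100000b03) (nat_lit 16))
 (.p (nat_lit 0x3a33390137b703) (nat_lit 0xb0400002060) (nat_lit 43))))
 (.n (.n (.p (nat_lit 0x10290d5902) (nat_lit 0x4401) (nat_lit 19))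
 (.p (nat_lit 0x38cd38ad02) (nat_lit 0xa1000000800) (nat_lit 35)))
 (.p (nat_lit 0x2fbb0faa02) (nat_lit 0xa805) (nat_lit 32))))
 (.n (.n (.n (.p (nat_lit 0x19ca19c819c619c419c20d1906) (nat_lit 0x10001860) (nat_lit 17))
 (.p (nat_lit 0xc03005202) (nat_lit 0xa030) (nat_lit 30)))
 (.p (nat_lit 0x2250224e224c224a22480f1b06) (nat_lit 0x200001904) (nat_lit 14)))
 (.n (.n (.p (nat_lit 0x2e0a2e082e062e042e022e00010c07) (nat_lit 0x802) (nat_lit 8))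
 (.p (nat_lit 0x39b9399d02) (nat_lit 0x9100a000800) (nat_lit 35)))
 (.p (nat_lit 0x2312230e230c230a1051104906) (nat_lit 0x110001b26) (nat_lit 14)))))
 (.n (.n (.n (.n (.p (nat_lit 0xd8d0cfd02) (nat_lit 0x8040) (nat_lit 19))
 (.p (nat_lit 0x1b1a1b181b141b121b1015e306) (nat_lit 0x80001230) (nat_lit 15)))
 (.n (.p (nat_lit 0xef90ee102) (nat_lit 0x883) (nat_lit 18))
 (.p (nat_lit 0x3a4f393f382503) (nat_lit 0x2a0000060a0) (nat_lit 43))))
 (.n (.n (.p (nat_lit 0x178a1784178217800db10daf06) (nat_lit 0x180001861) (nat_lit 17))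
 (.p (nat_lit 0x3939393702) (nat_lit 0x10406000800) (nat_lit 35)))
 (.p (nat_lit 0x10730fe302) (nat_lit 0x6065) (nat_lit 19))))
 (.n (.n (.n (.p (nat_lit 0x1a7e1a7c1a781a760d370d3106) (nat_lit 0x90000a80) (nat_lit 15))
 (.p (nat_lit 0x385b384702) (nat_lit 0x58408000000) (nat_lit 35)))
 (.p (nat_lit 0x24cd0f6c02) (nat_lit 0x8084) (nat_lit 5)))
 (.n (.n (.p (nat_lit 0x17ea17e817e417e217e00e4b06) (nat_lit 0x80001482) (nat_lit 17))
 (.p (nat_lit 0x39cf39b9389b03) (nat_lit 0x94c0000a000) (nat_lit 44)))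
 (.p (nat_lit 0x109b10981096109410921090005307) (nat_lit 0xa886) (nat_lit 7)))))

def c512_470 : Tr :=
 .n (.n (.n (.n (.n (.p (nat_lit 0x238a23882386238423820ce906) (nat_lit 0x10001a20) (nat_lit 14))
 (.p (nat_lit 0x1a8a1a881a861a841a8214a506) (nat_lit 0x1000120e) (nat_lit 15)))
 (.n (.p (nat_lit 0xed50ebd02) (nat_lit 0x63) (nat_lit 18))
 (.p (nat_lit 0x39f538c137a703) (nat_lit 0x74400000080) (nat_lit 44))))
 (.n (.n (.p (nat_lit 0x2da5001102) (nat_lit 0x4841) (nat_lit 33))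
 (.p (nat_lit 0x38ef38e102) (nat_lit 0x69802000800) (nat_lit 35)))
 (.p (nat_lit 0x17e817e617e417e217e00fc306) (nat_lit 0x200001c25) (nat_lit 17))))
 (.n (.n (.n (.p (nat_lit 0x1a581a541a521a500d2f0d2b06) (nat_lit 0x280001080) (nat_lit 15))
 (.p (nat_lit 0x380b37e502) (nat_lit 0x98004000000) (nat_lit 35)))
 (.p (nat_lit 0x192e192a192619240f310f2d06) (nat_lit 0x140000824) (nat_lit 15)))
 (.n (.n (.p (nat_lit 0xe360e350e320e300e2e0e2d02ac0021001909) (nat_lit 0x40062) (nat_lit 13))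
 (.p (nat_lit 0x398e398c3964384504) (nat_lit 0x8000000) (nat_lit 36)))
 (.p (nat_lit 0x307d106c02) (nat_lit 0x66) (nat_lit 32)))))
 (.n (.n (.n (.n (.p (nat_lit 0x226d17bd02) (nat_lit 0x60) (nat_lit 11))
 (.p (nat_lit 0x25c825c625c425c225c0173706) (nat_lit 0x200001272) (nat_lit 14)))
 (.p (nat_lit 0x30d030b011e03) (nat_lit 0x4046003) (nat_lit 22)))
 (.n (.n (.p (nat_lit 0x25a625a225a0259c0dc90dc306) (nat_lit 0x120000981) (nat_lit 16))
 (.p (nat_lit 0x398b396d02) (nat_lit 0x99008000800) (nat_lit 35)))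
 (.p (nat_lit 0x3b703ab013e03) (nat_lit 0xa046005) (nat_lit 22))))
 (.n (.n (.n (.p (nat_lit 0x22a90d4802) (nat_lit 0x8a0) (nat_lit 5))
 (.p (nat_lit 0x3899387b02) (nat_lit 0x90c0a000000) (nat_lit 35)))
 (.p (nat_lit 0x25082504250225000f930f8f06) (nat_lit 0x2800018a4) (nat_lit 14)))
 (.n (.n (.p (nat_lit 0x2e7b001b02) (nat_lit 0x28a2) (nat_lit 33))
 (.p (nat_lit 0x3a2538c137a303) (nat_lit 0x73c00000040) (nat_lit 43)))
 (.p (nat_lit 0x11ae11ad11aa11a811a611a5045c0069006109) (nat_lit 0x40088) (nat_lit 13)))))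

def c256_214 : Tr := .n c512_214 c512_470

def c128_86 : Tr := .n c256_86 c256_214

def c64_22 : Tr := .n c128_22 c128_86

def c512_54 : Tr :=
 .n (.n (.n (.n (.n (.p (nat_lit 0x231c231a231823140ccf0cc706) (nat_lit 0x220000400) (nat_lit 14))
 (.p (nat_lit 0x27b7125602) (nat_lit 0xa0a9) (nat_lit 5)))
 (.n (.p (nat_lit 0x2d302b702ab011004) (nat_lit 0x6290002) (nat_lit 23))
 (.p (nat_lit 0x39e3393f382503) (nat_lit 0x2a000006040) (nat_lit 44))))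
 (.n (.n (.p (nat_lit 0x1b1a1b181b161b141b120d4906) (nat_lit 0x10001aa0) (nat_lit 17))
 (.p (nat_lit 0x388f388b02) (nat_lit 0x6ac0a000000) (nat_lit 35)))
 (.p (nat_lit 0x36103550349013004) (nat_lit 0x81a2004) (nat_lit 23))))
 (.n (.n (.n (.p (nat_lit 0x249e2498249624940d150d1306) (nat_lit 0x180000260) (nat_lit 14))
 (.l (nat_lit 0x505020080) (nat_lit 0x26582) (nat_lit 29)))
 (.p (nat_lit 0x2f170f0602) (nat_lit 0x2004) (nat_lit 32)))
 (.n (.n (.p (nat_lit 0x2cae2cac2ca82ca40dd30dcf06) (nat_lit 0xa00004a1) (nat_lit 14))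
 (.p (nat_lit 0x397f397d02) (nat_lit 0x6b008000800) (nat_lit 35)))
 (.p (nat_lit 0x103b10381036103410321030005307) (nat_lit 0xa806) (nat_lit 7)))))
 (.n (.n (.n (.n (.p (nat_lit 0x19221920191e191a0ced0ce906) (nat_lit 0x50001d20) (nat_lit 15))
 (.p (nat_lit 0x2a3114d002) (nat_lit 0x882e) (nat_lit 5)))
 (.n (.p (nat_lit 0x243d0edc02) (nat_lit 0x8083) (nat_lit 5))
 (.p (nat_lit 0x3a453991384703) (nat_lit 0xb0400008080) (nat_lit 43))))
 (.n (.n (.p (nat_lit 0x2db50da402) (nat_lit 0x8061) (nat_lit 32))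
 (.p (nat_lit 0x3927390702) (nat_lit 0x88404000800) (nat_lit 35)))
 (.p (nat_lit 0x24f024ec24ea24e80fcf0fcb06) (nat_lit 0x280001545) (nat_lit 16))))
 (.n (.n (.n (.p (nat_lit 0x1ad21ad01ace1acc0d270d2506) (nat_lit 0x30001580) (nat_lit 15))
 (.p (nat_lit 0x3813380902) (nat_lit 0xbc804000000) (nat_lit 35)))
 (.p (nat_lit 0x249d0f3c02) (nat_lit 0x8044) (nat_lit 5)))
 (.n (.n (.p (nat_lit 0xe420e400e3f0e3c0e3a0e3902aa001f001909) (nat_lit 0x30862) (nat_lit 13))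
 (.p (nat_lit 0x3a0d38c537ad03) (nat_lit 0x85000000000) (nat_lit 43)))
 (.p (nat_lit 0x107d004002) (nat_lit 0x4866) (nat_lit 1)))))

def c512_310 : Tr :=
 .n (.n (.n (.n (.n (.p (nat_lit 0x10350cd502) (nat_lit 0x4d00) (nat_lit 19))
 (.p (nat_lit 0x290113a002) (nat_lit 0x402c) (nat_lit 5)))
 (.n (.p (nat_lit 0x2850284e284c284a28480e9706) (nat_lit 0x200001523) (nat_lit 14))
 (.p (nat_lit 0x3a39398f384703) (nat_lit 0xa8400008060) (nat_lit 43))))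
 (.n (.n (.p (nat_lit 0x2d8d0d7c02) (nat_lit 0x4821) (nat_lit 32))
 (.p (nat_lit 0x38d338bd02) (nat_lit 0xbb000000800) (nat_lit 35)))
 (.p (nat_lit 0x223a22382236223422300faf06) (nat_lit 0x20001025) (nat_lit 14))))
 (.n (.n (.n (.p (nat_lit 0x24ce24ca24c824c40d210d1b06) (nat_lit 0x120000c60) (nat_lit 14))
 (.p (nat_lit 0x37ad379f02) (nat_lit 0xa3400000000) (nat_lit 35)))
 (.p (nat_lit 0x13990f1902) (nat_lit 0x8a04) (nat_lit 19)))
 (.n (.n (.p (nat_lit 0x23730e1202) (nat_lit 0xa822) (nat_lit 5))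
 (.p (nat_lit 0x39bf39ab02) (nat_lit 0xaac0a000800) (nat_lit 35)))
 (.p (nat_lit 0x17d217d017ca17c8105b105906) (nat_lit 0xc0001346) (nat_lit 15)))))
 (.n (.n (.n (.n (.p (nat_lit 0x19421940193e193c0d0b0d0906) (nat_lit 0x300000940) (nat_lit 15))
 (.p (nat_lit 0x160a1608160616051603160006a400c500c309) (nat_lit 0x22850) (nat_lit 13)))
 (.n (.p (nat_lit 0x228e228c228a228622840ef106) (nat_lit 0x400004a3) (nat_lit 14))
 (.p (nat_lit 0x3a0b3997387703) (nat_lit 0x840000a0a0) (nat_lit 44))))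
 (.n (.n (.p (nat_lit 0x107f0daf02) (nat_lit 0x6c61) (nat_lit 19))
 (.p (nat_lit 0x3947394302) (nat_lit 0x49c06000800) (nat_lit 35)))
 (.p (nat_lit 0x2569100802) (nat_lit 0x8885) (nat_lit 5))))
 (.n (.n (.n (.p (nat_lit 0xf770d3702) (nat_lit 0x6b80) (nat_lit 19))
 (.p (nat_lit 0x3865385502) (nat_lit 0x82008000000) (nat_lit 35)))
 (.p (nat_lit 0x1f821f801f7e1f7a0f750f7106) (nat_lit 0x50001984) (nat_lit 17)))
 (.n (.n (.p (nat_lit 0x17ae17ac17aa17a817a40e5306) (nat_lit 0x20000a82) (nat_lit 15))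
 (.p (nat_lit 0x39d7393d381d03) (nat_lit 0x21000006020) (nat_lit 44)))
 (.p (nat_lit 0x3f303cf014e03) (nat_lit 0xa030006) (nat_lit 22)))))

def c256_54 : Tr := .n c512_54 c512_310

def c512_182 : Tr :=
 .n (.n (.n (.n (.n (.p (nat_lit 0x23062302230022fe0cd90cd106) (nat_lit 0x110000b00) (nat_lit 16))
 (.p (nat_lit 0x19221920191e191c191812df06) (nat_lit 0x200015aa) (nat_lit 17)))
 (.n (.p (nat_lit 0x2e97002b02) (nat_lit 0x6803) (nat_lit 33))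
 (.p (nat_lit 0x3a2f39bb389b03) (nat_lit 0x9cc0000a040) (nat_lit 43))))
 (.n (.n (.p (nat_lit 0x101001402) (nat_lit 0x10000c001) (nat_lit 20))
 (.p (nat_lit 0x38bf38a902) (nat_lit 0x68800000800) (nat_lit 35)))
 (.p (nat_lit 0xfa1004802) (nat_lit 0x805) (nat_lit 1))))
 (.n (.n (.n (.p (nat_lit 0xd220d200d1f0d1c0d1a0d18000707) (nat_lit 0x6860) (nat_lit 7))
 (.l (nat_lit 0x145020000000000000800) (nat_lit 0x2a346) (nat_lit 29)))
 (.p (nat_lit 0x24790f1802) (nat_lit 0x8804) (nat_lit 5)))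
 (.n (.n (.p (nat_lit 0xdee0dec0deb0de80de60de4001f07) (nat_lit 0x6002) (nat_lit 7))
 (.p (nat_lit 0x399d399b02) (nat_lit 0x20c0a000800) (nat_lit 35)))
 (.p (nat_lit 0x1053001602) (nat_lit 0xa826) (nat_lit 1)))))
 (.n (.n (.n (.n (.p (nat_lit 0x198e198a198819840cfd0cf706) (nat_lit 0x120000440) (nat_lit 15))
 (.p (nat_lit 0x207d15cc02) (nat_lit 0x8010) (nat_lit 4)))
 (.n (.p (nat_lit 0x246e246a2468246624640ee906) (nat_lit 0x100000883) (nat_lit 14))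
 (.p (nat_lit 0x3a053927380903) (nat_lit 0x8c8000040a0) (nat_lit 44))))
 (.n (.n (.p (nat_lit 0x230f0dae02) (nat_lit 0x6861) (nat_lit 5))
 (.p (nat_lit 0x3931392d02) (nat_lit 0xb5004000800) (nat_lit 35)))
 (.p (nat_lit 0x2ff3004302) (nat_lit 0x6065) (nat_lit 33))))
 (.n (.n (.n (.p (nat_lit 0x251425122510250e250c0d3b06) (nat_lit 0x200000980) (nat_lit 16))
 (.p (nat_lit 0x3824381e381c38183816381417c307) (nat_lit 0x6000060) (nat_lit 37)))
 (.p (nat_lit 0xf630f600f5e0f5c0f5b0f58034a003b003309) (nat_lit 0x52864) (nat_lit 13)))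
 (.n (.n (.p (nat_lit 0x226a22682266226222600e4906) (nat_lit 0x40001282) (nat_lit 14))
 (.p (nat_lit 0x3a15397d385f03) (nat_lit 0x63400008000) (nat_lit 43)))
 (.p (nat_lit 0x2b5e2b5c2b582b562b54108b06) (nat_lit 0x80000286) (nat_lit 14)))))

def c512_438 : Tr :=
 .n (.n (.n (.n (.n (.p (nat_lit 0x18aa18a818a618a218a00ced06) (nat_lit 0x40001820) (nat_lit 15))
 (.p (nat_lit 0x2a322a302a2e2a2c2a2a149906) (nat_lit 0x100019ad) (nat_lit 14)))
 (.n (.p (nat_lit 0x241f0ebe02) (nat_lit 0x2063) (nat_lit 5))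
 (.p (nat_lit 0x3a3a0edf02) (nat_lit 0xa160) (nat_lit 48))))
 (.n (.n (.p (nat_lit 0xda10d8902) (nat_lit 0x4041) (nat_lit 18))
 (.p (nat_lit 0x38ed38dd02) (nat_lit 0x61002000800) (nat_lit 35)))
 (.p (nat_lit 0x226a22682264226222600fbf06) (nat_lit 0x80001a25) (nat_lit 14))))
 (.n (.n (.n (.p (nat_lit 0xd2e0d2c0d2b0d280d270d2402260007000309) (nat_lit 0x32080) (nat_lit 13))
 (.p (nat_lit 0x37cd37c502) (nat_lit 0x62002000000) (nat_lit 35)))
 (.p (nat_lit 0x248d0f2c02) (nat_lit 0x4824) (nat_lit 5)))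
 (.n (.n (.p (nat_lit 0x2e462e442e422e402e3e2e3c010c07) (nat_lit 0x62) (nat_lit 8))
 (.p (nat_lit 0x3924391e391c380504) (nat_lit 0x4004000000) (nat_lit 36)))
 (.p (nat_lit 0x22a622a422a0229e229c106706) (nat_lit 0x80000d46) (nat_lit 16)))))
 (.n (.n (.n (.n (.p (nat_lit 0xe250d0502) (nat_lit 0x4940) (nat_lit 19))
 (.p (nat_lit 0x231e231a231823162314172906) (nat_lit 0x100000c52) (nat_lit 14)))
 (.p (nat_lit 0x17e817e617e417e217e00f0306) (nat_lit 0x200001ca3) (nat_lit 15)))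
 (.n (.n (.p (nat_lit 0x2dd50dc402) (nat_lit 0x4881) (nat_lit 32))
 (.p (nat_lit 0x398d396902) (nat_lit 0xa0808000800) (nat_lit 35)))
 (.p (nat_lit 0x20ba20b820b620b2101d101906) (nat_lit 0x50001aa5) (nat_lit 17))))
 (.n (.n (.n (.p (nat_lit 0xd3d0cc502) (nat_lit 0xa0) (nat_lit 18))
 (.p (nat_lit 0x387f387902) (nat_lit 0x2880a000000) (nat_lit 35)))
 (.p (nat_lit 0xf920f900f8f0f8c0f8a0f88003707) (nat_lit 0x68a4) (nat_lit 7)))
 (.n (.n (.p (nat_lit 0x23122310230c230a23080e6306) (nat_lit 0x800013a2) (nat_lit 14))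
 (.p (nat_lit 0x39db39b1389103) (nat_lit 0x7380000a020) (nat_lit 44)))
 (.p (nat_lit 0x1c5311a202) (nat_lit 0xa868) (nat_lit 4)))))

def c256_182 : Tr := .n c512_182 c512_438

def c128_54 : Tr := .n c256_54 c256_182

def c512_118 : Tr :=
 .n (.n (.n (.n (.n (.p (nat_lit 0x180e180a1808180618040cd906) (nat_lit 0x100000800) (nat_lit 17))
 (.p (nat_lit 0x12e112c902) (nat_lit 0x408a) (nat_lit 18)))
 (.n (.p (nat_lit 0xe7e0e7d0e7a0e790e760e74030c002d002909) (nat_lit 0x44003) (nat_lit 13))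
 (.p (nat_lit 0x39e53989386b03) (nat_lit 0x94c00008040) (nat_lit 44))))
 (.n (.n (.p (nat_lit 0xd4b0cd302) (nat_lit 0x28a0) (nat_lit 18))
 (.p (nat_lit 0x388c388638843880387e387c224707) (nat_lit 0xa000020) (nat_lit 38)))
 (.p (nat_lit 0xf9f0f9c0f9a0f980f960f94004707) (nat_lit 0xa005) (nat_lit 7))))
 (.n (.n (.n (.p (nat_lit 0x1a3e1a3c1a3a1a380d170d1506) (nat_lit 0x300001560) (nat_lit 15))
 (.p (nat_lit 0x8cb003302) (nat_lit 0x20a4) (nat_lit 31)))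
 (.p (nat_lit 0x228e228c2288228622840f0b06) (nat_lit 0x80000404) (nat_lit 14)))
 (.n (.n (.p (nat_lit 0x267026500fe03) (nat_lit 0x58001) (nat_lit 22))
 (.p (nat_lit 0x3997399502) (nat_lit 0x800a000800) (nat_lit 35)))
 (.p (nat_lit 0x1832182e182c18281045103f06) (nat_lit 0x120001126) (nat_lit 17)))))
 (.n (.n (.n (.n (.p (nat_lit 0x22590cf802) (nat_lit 0x4040) (nat_lit 5))
 (.p (nat_lit 0x2a93153202) (nat_lit 0xa8ae) (nat_lit 5)))
 (.n (.p (nat_lit 0x1a421a401a3c1a3a1a380edb06) (nat_lit 0x80001583) (nat_lit 15))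
 (.p (nat_lit 0x39fe15ff02) (nat_lit 0xa580) (nat_lit 47))))
 (.n (.n (.p (nat_lit 0x17dc17da17d817d617d40da706) (nat_lit 0x200000461) (nat_lit 15))
 (.p (nat_lit 0x3923391902) (nat_lit 0x7a804000800) (nat_lit 35)))
 (.p (nat_lit 0x19ca19c819c619c219c00fd506) (nat_lit 0x40001845) (nat_lit 15))))
 (.n (.n (.n (.p (nat_lit 0x17e50d3402) (nat_lit 0x4880) (nat_lit 4))
 (.p (nat_lit 0x3839381d02) (nat_lit 0x91006000000) (nat_lit 35)))
 (.p (nat_lit 0xf4b0f480f460f450f420f400356003b003509) (nat_lit 0x54844) (nat_lit 13)))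
 (.n (.n (.p (nat_lit 0xecf0e3f02) (nat_lit 0x6b62) (nat_lit 19))
 (.p (nat_lit 0x39c6172302) (nat_lit 0x2d00) (nat_lit 47)))
 (.p (nat_lit 0x1a961a941a921a8e1a8c107d06) (nat_lit 0x40000b66) (nat_lit 17)))))

def c512_374 : Tr :=
 .n (.n (.n (.n (.n (.p (nat_lit 0xd770ce702) (nat_lit 0xa020) (nat_lit 19))
 (.p (nat_lit 0x1ec3141202) (nat_lit 0xa8ac) (nat_lit 4)))
 (.n (.p (nat_lit 0x1da01d9e1d9c1d9a1d980ea306) (nat_lit 0x200001d23) (nat_lit 15))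
 (.p (nat_lit 0x3a3a39f2003b03) (nat_lit 0xa060) (nat_lit 40))))
 (.n (.n (.p (nat_lit 0x2d95000d02) (nat_lit 0x41) (nat_lit 33))
 (.p (nat_lit 0x38e938d502) (nat_lit 0x50002000800) (nat_lit 35)))
 (.p (nat_lit 0x14c70fb702) (nat_lit 0xa325) (nat_lit 19))))
 (.n (.n (.n (.p (nat_lit 0xdb10d2102) (nat_lit 0x8860) (nat_lit 19))
 (.p (nat_lit 0x37c937b702) (nat_lit 0x50402000000) (nat_lit 35)))
 (.p (nat_lit 0x195c195a1958195619540f2706) (nat_lit 0x200000224) (nat_lit 15)))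
 (.n (.n (.p (nat_lit 0xeaf0e1f02) (nat_lit 0xa342) (nat_lit 19))
 (.p (nat_lit 0x39c239c039ba399a3998399639923990398a396a3968396639623960395a393a3938393639323930392a390a390839063902390038fa38da38d838d638d238d038ca38aa38a838a624) (nat_lit 0x900) (nat_lit 39)))
 (.p (nat_lit 0x106a10691066106410621060005107) (nat_lit 0x8846) (nat_lit 7)))))
 (.n (.n (.n (.n (.p (nat_lit 0x244a2448244624400d050d0306) (nat_lit 0x60001c40) (nat_lit 14))
 (.p (nat_lit 0x2c75171402) (nat_lit 0x52) (nat_lit 5)))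
 (.n (.p (nat_lit 0x246319b3030102f7011e05) (nat_lit 0x108a8a3) (nat_lit 9))
 (.p (nat_lit 0x3a0a0fab02) (nat_lit 0xaba0) (nat_lit 47))))
 (.n (.n (.p (nat_lit 0x25be25ba25b825b625b40dbd06) (nat_lit 0x100000281) (nat_lit 14))
 (.p (nat_lit 0x3954394e394c394839463944226707) (nat_lit 0x6000840) (nat_lit 38)))
 (.p (nat_lit 0x20ae20ac20a820a620a4101306) (nat_lit 0x800002a5) (nat_lit 17))))
 (.n (.n (.n (.p (nat_lit 0x1b021b001afe1afa1af80d4106) (nat_lit 0x400011a0) (nat_lit 15))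
 (.p (nat_lit 0x3869386502) (nat_lit 0x94008000000) (nat_lit 35)))
 (.p (nat_lit 0x1a581a561a541a521a500f8706) (nat_lit 0x2000010a4) (nat_lit 15)))
 (.n (.n (.p (nat_lit 0xe710e5902) (nat_lit 0x8882) (nat_lit 18))
 (.p (nat_lit 0x3a21398d384503) (nat_lit 0xa0000008020) (nat_lit 43)))
 (.p (nat_lit 0x1c35118402) (nat_lit 0x4848) (nat_lit 4)))))

def c256_118 : Tr := .n c512_118 c512_374

def c512_246 : Tr :=
 .n (.n (.n (.n (.n (.p (nat_lit 0x187a1876187218700cd90cd506) (nat_lit 0x140001c00) (nat_lit 15))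
 (.p (nat_lit 0x28db137a02) (nat_lit 0x28ab) (nat_lit 5)))
 (.n (.p (nat_lit 0x191619121910190e190c0e8906) (nat_lit 0x100000d03) (nat_lit 15))
 (.p (nat_lit 0x3a353923380903) (nat_lit 0x7c800004060) (nat_lit 43))))
 (.n (.n (.p (nat_lit 0xd6d006002) (nat_lit 0x21) (nat_lit 1))
 (.p (nat_lit 0x38c538b302) (nat_lit 0x81c00000800) (nat_lit 35)))
 (.p (nat_lit 0x25d625d425d025cc0fa70fa306) (nat_lit 0xa0000b05) (nat_lit 16))))
 (.n (.n (.n (.p (nat_lit 0x19d419d219d019cc0d230d1b06) (nat_lit 0x220000960) (nat_lit 15))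
 (.p (nat_lit 0x37ad378902) (nat_lit 0xa0800000000) (nat_lit 35)))
 (.p (nat_lit 0x22742272226e226c0f1b0f1506) (nat_lit 0x240000b04) (nat_lit 16)))
 (.n (.n (.p (nat_lit 0x26f626f426f026ee26ec0df706) (nat_lit 0x80000b02) (nat_lit 16))
 (.p (nat_lit 0x39b339a102) (nat_lit 0x7980a000800) (nat_lit 35)))
 (.p (nat_lit 0x3065004902) (nat_lit 0x46) (nat_lit 33)))))
 (.n (.n (.n (.n (.p (nat_lit 0x22650d0402) (nat_lit 0x4840) (nat_lit 5))
 (.p (nat_lit 0x25e225e025de25da25d815ed06) (nat_lit 0x40001b30) (nat_lit 14)))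
 (.n (.p (nat_lit 0x24530ef202) (nat_lit 0x60a3) (nat_lit 5))
 (.p (nat_lit 0x3a09396b384b03) (nat_lit 0x18c000080a0) (nat_lit 44))))
 (.n (.n (.p (nat_lit 0x17c617c417c217c017bc0dab06) (nat_lit 0x20000b61) (nat_lit 17))
 (.p (nat_lit 0x395d393902) (nat_lit 0xa0806000800) (nat_lit 35)))
 (.p (nat_lit 0xff30ff00fee0fec0fea0fe8004707) (nat_lit 0xa865) (nat_lit 7))))
 (.n (.n (.n (.p (nat_lit 0x1aa21aa01a9e1a9c0d330d3106) (nat_lit 0x30001b80) (nat_lit 15))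
 (.p (nat_lit 0x384d384b02) (nat_lit 0x20c08000000) (nat_lit 35)))
 (.p (nat_lit 0xf850f6d02) (nat_lit 0x8084) (nat_lit 18)))
 (.n (.n (.p (nat_lit 0x123b0e4b02) (nat_lit 0x6182) (nat_lit 19))
 (.p (nat_lit 0x3a1b390137b703) (nat_lit 0xb0400002020) (nat_lit 43)))
 (.p (nat_lit 0x30b310a202) (nat_lit 0x60a6) (nat_lit 32)))))

def c512_502 : Tr :=
 .n (.n (.n (.n (.n (.p (nat_lit 0x23a2239e239c239a23980cf106) (nat_lit 0x100001b20) (nat_lit 14))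
 (.p (nat_lit 0x2522251e251c251a251814b906) (nat_lit 0x10000190e) (nat_lit 14)))
 (.n (.p (nat_lit 0x24310ed002) (nat_lit 0x8863) (nat_lit 5))
 (.p (nat_lit 0x3a3f390337b903) (nat_lit 0xb8800002080) (nat_lit 43))))
 (.n (.n (.p (nat_lit 0x23ae23aa23a823a40d990d9306) (nat_lit 0x120000c41) (nat_lit 14))
 (.p (nat_lit 0x38fd38eb02) (nat_lit 0xa2c02000800) (nat_lit 35)))
 (.p (nat_lit 0x15630fc302) (nat_lit 0xac25) (nat_lit 19))))
 (.n (.n (.n (.p (nat_lit 0x2520251c251a25180d2f0d2b06) (nat_lit 0x280001180) (nat_lit 16))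
 (.p (nat_lit 0x380f37f102) (nat_lit 0xa9804000000) (nat_lit 35)))
 (.p (nat_lit 0x19a619a419a219a0199e0f2906) (nat_lit 0x10000d24) (nat_lit 15)))
 (.n (.n (.p (nat_lit 0x19981994199219900e370e3306) (nat_lit 0x280001462) (nat_lit 15))
 (.p (nat_lit 0x39a4399e399c388504) (nat_lit 0x200a000000) (nat_lit 36)))
 (.p (nat_lit 0x1a4e1a4a1a481a461a44107506) (nat_lit 0x100000066) (nat_lit 17)))))
 (.n (.n (.n (.n (.p (nat_lit 0x19be19bc19ba19b619b40d1106) (nat_lit 0x40000060) (nat_lit 17))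
 (.p (nat_lit 0x2ca7174602) (nat_lit 0x2092) (nat_lit 5)))
 (.p (nat_lit 0x30f02f7011e03) (nat_lit 0xa020003) (nat_lit 22)))
 (.n (.n (.p (nat_lit 0x1b3e1b3a1b381b361b340dc906) (nat_lit 0x100000c81) (nat_lit 17))
 (.p (nat_lit 0x3985397102) (nat_lit 0x81808000800) (nat_lit 35)))
 (.p (nat_lit 0x14d00520050004a04) (nat_lit 0x320008006) (nat_lit 20))))
 (.n (.n (.n (.p (nat_lit 0x22b3180302) (nat_lit 0xa8a0) (nat_lit 11))
 (.p (nat_lit 0x389f387f02) (nat_lit 0xa940a000000) (nat_lit 35)))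
 (.p (nat_lit 0x2582257c257a25780f910f8f06) (nat_lit 0x180001da4) (nat_lit 16)))
 (.n (.n (.p (nat_lit 0x22ee22ec22ea22e40e6d0e6b06) (nat_lit 0x60000aa2) (nat_lit 16))
 (.p (nat_lit 0x3a2738d937b903) (nat_lit 0x10800002040) (nat_lit 43)))
 (.p (nat_lit 0x184a184818461842184011b506) (nat_lit 0x40001a88) (nat_lit 15)))))

def c256_246 : Tr := .n c512_246 c512_502

def c128_118 : Tr := .n c256_118 c256_246

def c64_54 : Tr := .n c128_54 c128_118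

def c32_22 : Tr := .n c64_22 c64_54

def c16_6 : Tr := .n c32_6 c32_22

def cb4_6 : Tr := c16_6

def c512_7 : Tr :=
 .n (.n (.n (.n (.n (.p (nat_lit 0x17750cc402) (nat_lit 0x0) (nat_lit 4))
 (.p (nat_lit 0x125511c502) (nat_lit 0x82a8) (nat_lit 19)))
 (.n (.p (nat_lit 0x1862185e185c185a18580e7106) (nat_lit 0x100001ba2) (nat_lit 15))
 (.p (nat_lit 0x3a2738d937c103) (nat_lit 0x11800002040) (nat_lit 43))))
 (.n (.n (.p (nat_lit 0x258c2588258625840d530d4f06) (nat_lit 0x2800008a0) (nat_lit 14))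
 (.p (nat_lit 0x389f388102) (nat_lit 0xa980a000000) (nat_lit 35)))
 (.p (nat_lit 0x10210f9102) (nat_lit 0x8da4) (nat_lit 19))))
 (.n (.n (.n (.p (nat_lit 0x247a2478247624720d110d0d06) (nat_lit 0x50001060) (nat_lit 16))
 (.p (nat_lit 0x7ca07c607c407c207c000fc002107) (nat_lit 0x8321) (nat_lit 28)))
 (.p (nat_lit 0x30f030d02f702f5012005) (nat_lit 0x858003) (nat_lit 26)))
 (.n (.n (.p (nat_lit 0xe570dc702) (nat_lit 0x6a81) (nat_lit 19))
 (.p (nat_lit 0x3979397502) (nat_lit 0x52008000800) (nat_lit 35)))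
 (.p (nat_lit 0x1adf102e02) (nat_lit 0xa006) (nat_lit 4)))))
 (.n (.n (.n (.n (.p (nat_lit 0x23ae23aa23a823a623a40cf106) (nat_lit 0x100000c20) (nat_lit 16))
 (.p (nat_lit 0x2a1f14be02) (nat_lit 0x202e) (nat_lit 5)))
 (.n (.p (nat_lit 0x28ec28ea28e828e40ed30ecb06) (nat_lit 0x220000863) (nat_lit 16))
 (.p (nat_lit 0x3a3e107b02) (nat_lit 0x2880) (nat_lit 48))))
 (.n (.n (.p (nat_lit 0xdaf0d9702) (nat_lit 0x6841) (nat_lit 18))
 (.p (nat_lit 0x390138f702) (nat_lit 0xb4402000800) (nat_lit 35)))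
 (.p (nat_lit 0x1a790fc802) (nat_lit 0x4045) (nat_lit 4))))
 (.n (.n (.n (.p (nat_lit 0x253a2538253425320d2b0d2506) (nat_lit 0x90001280) (nat_lit 14))
 (.p (nat_lit 0x37ff37f902) (nat_lit 0x6a804000000) (nat_lit 35)))
 (.p (nat_lit 0x19b019ae19ac19aa19a80f3306) (nat_lit 0x200001d24) (nat_lit 15)))
 (.n (.n (.p (nat_lit 0xe4f0e3702) (nat_lit 0xa062) (nat_lit 18))
 (.p (nat_lit 0x39c538a7378703) (nat_lit 0x8400000000) (nat_lit 44)))
 (.p (nat_lit 0x25222520251c251a2518107306) (nat_lit 0x80001166) (nat_lit 14)))))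

def c512_263 : Tr :=
 .n (.n (.n (.n (.n (.p (nat_lit 0x18921890188e188c0cd30cd106) (nat_lit 0x30001d00) (nat_lit 15))
 (.p (nat_lit 0x1e39138802) (nat_lit 0x400c) (nat_lit 4)))
 (.n (.p (nat_lit 0xf170e8702) (nat_lit 0x6c03) (nat_lit 19))
 (.p (nat_lit 0x39ec17c102) (nat_lit 0x4060) (nat_lit 45))))
 (.n (.n (.p (nat_lit 0xd760d750d720d700d6e0d6c001507) (nat_lit 0x8021) (nat_lit 7))
 (.p (nat_lit 0x38d138b502) (nat_lit 0xb2000000800) (nat_lit 35)))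
 (.p (nat_lit 0xfbf0fa702) (nat_lit 0x6805) (nat_lit 18))))
 (.n (.n (.n (.p (nat_lit 0x19e019de19dc19da19d80d2306) (nat_lit 0x200001960) (nat_lit 15))
 (.p (nat_lit 0x37a7378f02) (nat_lit 0x89400000000) (nat_lit 35)))
 (.p (nat_lit 0x17de17dc17d817d617d40f1706) (nat_lit 0x80000c04) (nat_lit 15)))
 (.n (.n (.p (nat_lit 0xe8b0dfb02) (nat_lit 0xab02) (nat_lit 19))
 (.p (nat_lit 0x39bb39a302) (nat_lit 0x99c0a000800) (nat_lit 35)))
 (.p (nat_lit 0x1b0f105e02) (nat_lit 0xa046) (nat_lit 4)))))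
 (.n (.n (.n (.n (.p (nat_lit 0xd0a0d090d060d040d020d01021c0009000109) (nat_lit 0x40840) (nat_lit 13))
 (.p (nat_lit 0x15fd004402) (nat_lit 0x8050) (nat_lit 1)))
 (.n (.p (nat_lit 0x178a17881786178417820eed06) (nat_lit 0x100010a3) (nat_lit 15))
 (.p (nat_lit 0x3a513971385903) (nat_lit 0x328000080a0) (nat_lit 43))))
 (.n (.n (.p (nat_lit 0x228e228c2288228622840daf06) (nat_lit 0x80000c61) (nat_lit 14))
 (.p (nat_lit 0x394f393d02) (nat_lit 0x69006000800) (nat_lit 35)))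
 (.p (nat_lit 0x1f821f801f7e1f780fed0feb06) (nat_lit 0x60001965) (nat_lit 15))))
 (.n (.n (.n (.p (nat_lit 0x1aae1aac1aa61aa40d370d3506) (nat_lit 0xc0000c80) (nat_lit 17))
 (.p (nat_lit 0x385f384d02) (nat_lit 0x69008000000) (nat_lit 35)))
 (.p (nat_lit 0x2f830f7202) (nat_lit 0x2884) (nat_lit 32)))
 (.n (.n (.p (nat_lit 0xe5a0e580e560e540e520e51001907) (nat_lit 0x882) (nat_lit 7))
 (.p (nat_lit 0x3a1d390537e503) (nat_lit 0x4020) (nat_lit 43)))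
 (.p (nat_lit 0x260d10ac02) (nat_lit 0x48a6) (nat_lit 5)))))

def c256_7 : Tr := .n c512_7 c512_263

def c512_135 : Tr :=
 .n (.n (.n (.n (.n (.p (nat_lit 0x22e222de22da22d80cd90cd506) (nat_lit 0x140001900) (nat_lit 14))
 (.p (nat_lit 0x283912d802) (nat_lit 0x888a) (nat_lit 5)))
 (.n (.p (nat_lit 0x23a0239e239a23980e7f0e7906) (nat_lit 0x240001303) (nat_lit 16))
 (.p (nat_lit 0x39e417b902) (nat_lit 0x8840) (nat_lit 45))))
 (.n (.n (.p (nat_lit 0xef90d4902) (nat_lit 0xaa0) (nat_lit 19))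
 (.p (nat_lit 0x38af38a502) (nat_lit 0x28000000800) (nat_lit 35)))
 (.p (nat_lit 0x1b021b001afa1af80f9b0f9906) (nat_lit 0xc0001105) (nat_lit 15))))
 (.n (.n (.n (.p (nat_lit 0xe350d1502) (nat_lit 0x8160) (nat_lit 19))
 (.p (nat_lit 0x8dd004502) (nat_lit 0x8005) (nat_lit 31)))
 (.p (nat_lit 0x22a422a0229e229c0f0f0f0b06) (nat_lit 0x280000504) (nat_lit 14)))
 (.n (.n (.p (nat_lit 0x26f026300fe03) (nat_lit 0x6010001) (nat_lit 22))
 (.p (nat_lit 0x39bb399502) (nat_lit 0x9800a000800) (nat_lit 35)))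
 (.p (nat_lit 0x186c186a186818641047103f06) (nat_lit 0x220000426) (nat_lit 17)))))
 (.n (.n (.n (.n (.p (nat_lit 0x23ea23e823e623e423e00cf706) (nat_lit 0x20001040) (nat_lit 14))
 (.p (nat_lit 0x2aa9154802) (nat_lit 0x880f) (nat_lit 5)))
 (.n (.p (nat_lit 0xf650ed502) (nat_lit 0x483) (nat_lit 19))
 (.p (nat_lit 0x3a00172d02) (nat_lit 0xa0) (nat_lit 47))))
 (.n (.n (.p (nat_lit 0x1802180017fe17fa17f80da106) (nat_lit 0x40001561) (nat_lit 15))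
 (.p (nat_lit 0x392b391d02) (nat_lit 0x9b004000800) (nat_lit 35)))
 (.p (nat_lit 0x24da24d824d624d424d20fd106) (nat_lit 0x10001c45) (nat_lit 14))))
 (.n (.n (.n (.p (nat_lit 0x229b0d3a02) (nat_lit 0xa880) (nat_lit 5))
 (.p (nat_lit 0x3837381f02) (nat_lit 0x89406000000) (nat_lit 35)))
 (.p (nat_lit 0xfd50f4502) (nat_lit 0x4d44) (nat_lit 19)))
 (.n (.n (.p (nat_lit 0x2e59001d02) (nat_lit 0x4082) (nat_lit 33))
 (.p (nat_lit 0x3a10110102) (nat_lit 0x4000) (nat_lit 48)))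
 (.p (nat_lit 0x1741108102) (nat_lit 0x8866) (nat_lit 19)))))

def c512_391 : Tr :=
 .n (.n (.n (.n (.n (.p (nat_lit 0x10430ce302) (nat_lit 0x6520) (nat_lit 19))
 (.p (nat_lit 0x2977141602) (nat_lit 0x200d) (nat_lit 5)))
 (.n (.p (nat_lit 0x19590ea802) (nat_lit 0x4043) (nat_lit 4))
 (.p (nat_lit 0x3a3b3999388103) (nat_lit 0x1180000a060) (nat_lit 43))))
 (.n (.n (.p (nat_lit 0x183d0d8c02) (nat_lit 0x8041) (nat_lit 4))
 (.p (nat_lit 0x38e138d702) (nat_lit 0x30402000800) (nat_lit 35)))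
 (.p (nat_lit 0xfc20fc00fbe0fbd0fba0fb8004107) (nat_lit 0x4825) (nat_lit 7))))
 (.n (.n (.n (.p (nat_lit 0xf5f0d1f02) (nat_lit 0x6b60) (nat_lit 19))
 (.p (nat_lit 0x37c937b902) (nat_lit 0x50802000000) (nat_lit 35)))
 (.p (nat_lit 0x24462444244224400f270f2506) (nat_lit 0x300001424) (nat_lit 16)))
 (.n (.n (.p (nat_lit 0xe27007e02) (nat_lit 0x6842) (nat_lit 1))
 (.p (nat_lit 0x38c238c038ba37a304) (nat_lit 0x3c00000000) (nat_lit 36)))
 (.p (nat_lit 0x178a1788178617841780106306) (nat_lit 0x20001846) (nat_lit 15)))))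
 (.n (.n (.n (.n (.p (nat_lit 0x245624542450244e244c0d0706) (nat_lit 0x80000d40) (nat_lit 16))
 (.p (nat_lit 0x2c7d21cd07430739020e05) (nat_lit 0xd18052) (nat_lit 9)))
 (.p (nat_lit 0x22442240223e223c0f030eff06) (nat_lit 0x2800009a3) (nat_lit 14)))
 (.n (.n (.p (nat_lit 0x25e225e025dc25d80dbb0db706) (nat_lit 0xa0001381) (nat_lit 14))
 (.p (nat_lit 0x397b396502) (nat_lit 0x58008000800) (nat_lit 35)))
 (.p (nat_lit 0x1ac9101802) (nat_lit 0x8a5) (nat_lit 4))))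
 (.n (.n (.n (.p (nat_lit 0x1b0c1b0a1b061b040d470d4106) (nat_lit 0x2400002a0) (nat_lit 17))
 (.p (nat_lit 0x3854384e384c38483846384417c507) (nat_lit 0x8000060) (nat_lit 37)))
 (.p (nat_lit 0x253a2538253625300f810f7f06) (nat_lit 0x600012a4) (nat_lit 16)))
 (.n (.n (.p (nat_lit 0xe660e640e620e600e5e0e5d001907) (nat_lit 0xa2) (nat_lit 7))
 (.p (nat_lit 0x39d93971385903) (nat_lit 0x32800008020) (nat_lit 44)))
 (.p (nat_lit 0x1c3f118e02) (nat_lit 0x2068) (nat_lit 4)))))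

def c256_135 : Tr := .n c512_135 c512_391

def c128_7 : Tr := .n c256_7 c256_135

def c512_71 : Tr :=
 .n (.n (.n (.n (.n (.p (nat_lit 0xde50cc502) (nat_lit 0x100) (nat_lit 19))
 (.p (nat_lit 0x281b12ba02) (nat_lit 0x286a) (nat_lit 5)))
 (.n (.p (nat_lit 0x121002602) (nat_lit 0x2000c003) (nat_lit 20))
 (.p (nat_lit 0x3a2a139702) (nat_lit 0x6b40) (nat_lit 48))))
 (.n (.n (.p (nat_lit 0x1b261b241b201b1e1b1c0d4f06) (nat_lit 0x80000ba0) (nat_lit 15))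
 (.p (nat_lit 0x38a1388d02) (nat_lit 0xb300a000000) (nat_lit 35)))
 (.p (nat_lit 0x141004402) (nat_lit 0x10000c005) (nat_lit 20))))
 (.n (.n (.n (.p (nat_lit 0x1a0e1a0c1a0a1a080d170d1506) (nat_lit 0x300001360) (nat_lit 17))
 (.p (nat_lit 0x851002502) (nat_lit 0x23) (nat_lit 31)))
 (.p (nat_lit 0x246f19bf03630349012e05) (nat_lit 0x10ba004) (nat_lit 9)))
 (.n (.n (.p (nat_lit 0x10a30dd302) (nat_lit 0x64a1) (nat_lit 19))
 (.p (nat_lit 0x398d397f02) (nat_lit 0xa3408000800) (nat_lit 35)))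
 (.p (nat_lit 0x21f221f021ee21ec21e8103306) (nat_lit 0x20001b06) (nat_lit 17)))))
 (.n (.n (.n (.n (.p (nat_lit 0xd090cf102) (nat_lit 0x8820) (nat_lit 18))
 (.p (nat_lit 0x24b624b424b224b024ac14cb06) (nat_lit 0x20000b2e) (nat_lit 14)))
 (.n (.p (nat_lit 0xedf0edc0eda0ed80ed70ed40302002f002709) (nat_lit 0x52083) (nat_lit 13))
 (.p (nat_lit 0x39fd3973385b03) (nat_lit 0x3ac00008080) (nat_lit 44))))
 (.n (.n (.p (nat_lit 0x223822362234223222300da706) (nat_lit 0x200001061) (nat_lit 16))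
 (.p (nat_lit 0x391f390b02) (nat_lit 0x68c04000800) (nat_lit 35)))
 (.p (nat_lit 0x1a8a1a881a861a841a821a8006) (nat_lit 0x845) (nat_lit 2))))
 (.n (.n (.n (.p (nat_lit 0xdbd0d2d02) (nat_lit 0x8080) (nat_lit 19))
 (.p (nat_lit 0x381b381502) (nat_lit 0x18006000000) (nat_lit 35)))
 (.p (nat_lit 0x28fa28f828f428f228f00f3b06) (nat_lit 0x80001044) (nat_lit 14)))
 (.n (.n (.p (nat_lit 0x19381936193419320e430e3906) (nat_lit 0x210001862) (nat_lit 17))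
 (.p (nat_lit 0x3a0c0e6902) (nat_lit 0xa00) (nat_lit 48)))
 (.p (nat_lit 0x1b33108202) (nat_lit 0xa866) (nat_lit 4)))))

def c512_327 : Tr :=
 .n (.n (.n (.n (.n (.p (nat_lit 0x17970ce602) (nat_lit 0xa020) (nat_lit 4))
 (.p (nat_lit 0x1eb61eb41eb21eb01eae1eac06) (nat_lit 0xac) (nat_lit 2)))
 (.n (.p (nat_lit 0xe9b007a02) (nat_lit 0x2823) (nat_lit 1))
 (.p (nat_lit 0x39f13977385903) (nat_lit 0x4a800008060) (nat_lit 44))))
 (.n (.n (.p (nat_lit 0xd820d800d7f0d7c0d7a0d7902620013000d09) (nat_lit 0x30821) (nat_lit 13))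
 (.p (nat_lit 0x38d338c102) (nat_lit 0xbb800000800) (nat_lit 35)))
 (.p (nat_lit 0x17ac17aa17a817a60fb70fad06) (nat_lit 0x210000225) (nat_lit 15))))
 (.n (.n (.n (.p (nat_lit 0x24d824d624d424d00d230d1b06) (nat_lit 0x220001c60) (nat_lit 14))
 (.p (nat_lit 0x37b337a502) (nat_lit 0xbc000000000) (nat_lit 35)))
 (.p (nat_lit 0x247d0f1c02) (nat_lit 0x24) (nat_lit 5)))
 (.n (.n (.p (nat_lit 0xe1e0e1c0e1a0e180e160e15001907) (nat_lit 0x42) (nat_lit 7))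
 (.p (nat_lit 0x39bb39b102) (nat_lit 0x9b80a000800) (nat_lit 35)))
 (.p (nat_lit 0x17f617f417f217ee17ec105906) (nat_lit 0x40000546) (nat_lit 17)))))
 (.n (.n (.n (.n (.p (nat_lit 0x195e195c195a195819540d0306) (nat_lit 0x20000a40) (nat_lit 17))
 (.p (nat_lit 0x2b6d160c02) (nat_lit 0x70) (nat_lit 5)))
 (.n (.p (nat_lit 0x22a422a222a0229e229c0ef706) (nat_lit 0x2000005a3) (nat_lit 16))
 (.p (nat_lit 0x3a5339a1388303) (nat_lit 0x31c0000a0a0) (nat_lit 43))))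
 (.n (.n (.p (nat_lit 0x2dc7000f02) (nat_lit 0x2081) (nat_lit 33))
 (.p (nat_lit 0x3959394502) (nat_lit 0x92006000800) (nat_lit 35)))
 (.p (nat_lit 0x100d00c002) (nat_lit 0xa5) (nat_lit 1))))
 (.n (.n (.n (.p (nat_lit 0x17ed0d3c02) (nat_lit 0xa0) (nat_lit 4))
 (.p (nat_lit 0x386b385702) (nat_lit 0x9a408000000) (nat_lit 35)))
 (.p (nat_lit 0x10050f7502) (nat_lit 0x4d84) (nat_lit 19)))
 (.n (.n (.p (nat_lit 0x17d217d017ce17cc17c80e5306) (nat_lit 0x20001b82) (nat_lit 15))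
 (.p (nat_lit 0x3a1f3949382b03) (nat_lit 0x52c00006020) (nat_lit 43)))
 (.p (nat_lit 0x265310f202) (nat_lit 0x2847) (nat_lit 5)))))

def c256_71 : Tr := .n c512_71 c512_327

def c512_199 : Tr :=
 .n (.n (.n (.n (.n (.p (nat_lit 0x18621860185c185a0cd70cd106) (nat_lit 0x90001b00) (nat_lit 17))
 (.p (nat_lit 0x12f1002002) (nat_lit 0x88aa) (nat_lit 1)))
 (.n (.p (nat_lit 0xe8b0e890e860e840e820e800326002f002d09) (nat_lit 0x58803) (nat_lit 13))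
 (.p (nat_lit 0x39e938c737a703) (nat_lit 0x8c400000060) (nat_lit 44))))
 (.n (.n (.p (nat_lit 0x18090d5802) (nat_lit 0x4001) (nat_lit 4))
 (.p (nat_lit 0x38c938ab02) (nat_lit 0x90c00000800) (nat_lit 35)))
 (.p (nat_lit 0x1a570fa602) (nat_lit 0x6805) (nat_lit 4))))
 (.n (.n (.n (.p (nat_lit 0xd220d200d1f0d1c0d1b0d1802260007000309) (nat_lit 0x32860) (nat_lit 13))
 (.p (nat_lit 0x9e3001202) (nat_lit 0x6088) (nat_lit 30)))
 (.p (nat_lit 0x177e177a177817760f190f1106) (nat_lit 0x110000804) (nat_lit 17)))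
 (.n (.n (.p (nat_lit 0x1c461c401c3e1c3c0ded0deb06) (nat_lit 0x180000302) (nat_lit 17))
 (.p (nat_lit 0x39bf399b02) (nat_lit 0xa8c0a000800) (nat_lit 35)))
 (.p (nat_lit 0x182618221820181e1051104906) (nat_lit 0x110000926) (nat_lit 17)))))
 (.n (.n (.n (.n (.p (nat_lit 0x19a419a219a0199c0cff0cf706) (nat_lit 0x220000540) (nat_lit 17))
 (.p (nat_lit 0x15e615e415e215e115de15dc00c507) (nat_lit 0x4030) (nat_lit 7)))
 (.n (.p (nat_lit 0x19e019de19dc19d80eeb0ee306) (nat_lit 0x220001983) (nat_lit 17))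
 (.p (nat_lit 0x3a073937381d03) (nat_lit 0x90000060a0) (nat_lit 44))))
 (.n (.n (.p (nat_lit 0xdb20db10daf0dac0daa0da802880015001309) (nat_lit 0x46861) (nat_lit 13))
 (.p (nat_lit 0x3943393502) (nat_lit 0x38006000800) (nat_lit 35)))
 (.p (nat_lit 0x1f5e1f5c1f5a1f561f540fe106) (nat_lit 0x40000065) (nat_lit 17))))
 (.n (.n (.n (.p (nat_lit 0x1a721a6e1a6c1a680d390d3306) (nat_lit 0x120001980) (nat_lit 17))
 (.p (nat_lit 0x385f384502) (nat_lit 0x68008000000) (nat_lit 35)))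
 (.p (nat_lit 0x1a170f6602) (nat_lit 0x2084) (nat_lit 4)))
 (.n (.n (.p (nat_lit 0x22822280227c227a0e4b0e4506) (nat_lit 0x90001382) (nat_lit 14))
 (.p (nat_lit 0x3a14223902) (nat_lit 0x8800) (nat_lit 46)))
 (.p (nat_lit 0x109500c402) (nat_lit 0x4886) (nat_lit 1)))))

def c512_455 : Tr :=
 .n (.n (.n (.n (.n (.p (nat_lit 0x18b618b418b218b00ceb0ce906) (nat_lit 0x30000920) (nat_lit 17))
 (.p (nat_lit 0x2a0b14aa02) (nat_lit 0x600e) (nat_lit 5)))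
 (.n (.p (nat_lit 0xec70ec40ec20ec00ebe0ebc002f07) (nat_lit 0xa063) (nat_lit 7))
 (.p (nat_lit 0x3a3d38bd379f03) (nat_lit 0x63400000080) (nat_lit 43))))
 (.n (.n (.p (nat_lit 0x22fa22f822f622f422f222f006) (nat_lit 0x841) (nat_lit 3))
 (.p (nat_lit 0x38eb38df02) (nat_lit 0x59402000800) (nat_lit 35)))
 (.p (nat_lit 0x228e228c228a228822860fb906) (nat_lit 0x10000c25) (nat_lit 16))))
 (.n (.n (.n (.p (nat_lit 0x1a5a1a581a561a540d270d2506) (nat_lit 0x30001080) (nat_lit 15))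
 (.p (nat_lit 0x38123810380e380c380a3808380638043802380037fe37fc37fa37f837f637f437f237f037ee37ec37ea37e837e637e418) (nat_lit 0x4000000) (nat_lit 34)))
 (.p (nat_lit 0x24930f3202) (nat_lit 0xa824) (nat_lit 5)))
 (.n (.n (.p (nat_lit 0x23930e3202) (nat_lit 0x6062) (nat_lit 5))
 (.p (nat_lit 0x394639443940393e382705) (nat_lit 0x2406000000) (nat_lit 36)))
 (.p (nat_lit 0x107f106702) (nat_lit 0x6846) (nat_lit 18)))))
 (.n (.n (.n (.n (.p (nat_lit 0xfd30d0302) (nat_lit 0x2c40) (nat_lit 19))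
 (.p (nat_lit 0x21e3173202) (nat_lit 0x6072) (nat_lit 4)))
 (.p (nat_lit 0x137d0efd02) (nat_lit 0x4aa3) (nat_lit 19)))
 (.n (.n (.p (nat_lit 0x2ddb001702) (nat_lit 0xa881) (nat_lit 33))
 (.p (nat_lit 0x3991396b02) (nat_lit 0xb0c08000800) (nat_lit 35)))
 (.p (nat_lit 0x393038f013e03) (nat_lit 0x2056005) (nat_lit 22))))
 (.n (.n (.n (.p (nat_lit 0xf830d4302) (nat_lit 0x63a0) (nat_lit 19))
 (.p (nat_lit 0x38a1387902) (nat_lit 0xb080a000000) (nat_lit 35)))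
 (.p (nat_lit 0xf920f900f8f0f8c0f8b0f8803460037003309) (nat_lit 0x328a4) (nat_lit 13)))
 (.n (.n (.p (nat_lit 0xeed0e5d02) (nat_lit 0x3a2) (nat_lit 19))
 (.p (nat_lit 0x39da17a302) (nat_lit 0xa820) (nat_lit 45)))
 (.p (nat_lit 0x11ae11ac11aa11a811a611a5006107) (nat_lit 0x88) (nat_lit 7)))))

def c256_199 : Tr := .n c512_199 c512_455

def c128_71 : Tr := .n c256_71 c256_199

def c64_7 : Tr := .n c128_7 c128_71

def c512_39 : Tr :=
 .n (.n (.n (.n (.n (.p (nat_lit 0x18561854185218500cc70cc506) (nat_lit 0x30000300) (nat_lit 17))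
 (.p (nat_lit 0x1257123f02) (nat_lit 0xa089) (nat_lit 18)))
 (.n (.p (nat_lit 0x2ad02a9010e03) (nat_lit 0x44002) (nat_lit 22))
 (.p (nat_lit 0x3a2a39e2002b03) (nat_lit 0x6040) (nat_lit 40))))
 (.n (.n (.p (nat_lit 0x25ae25ac25aa25a80d530d5106) (nat_lit 0x3000019a0) (nat_lit 14))
 (.p (nat_lit 0x3897388702) (nat_lit 0x8a40a000000) (nat_lit 35)))
 (.p (nat_lit 0x3570355012e03) (nat_lit 0x4058004) (nat_lit 22))))
 (.n (.n (.n (.p (nat_lit 0x24922490248a24880d130d1106) (nat_lit 0xc0001160) (nat_lit 14))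
 (.l (nat_lit 0x80000000000000000505000020) (nat_lit 0x26402) (nat_lit 29)))
 (.p (nat_lit 0x12d003a0036003004) (nat_lit 0x290008004) (nat_lit 20)))
 (.n (.n (.p (nat_lit 0x18870dd602) (nat_lit 0xa0a1) (nat_lit 4))
 (.p (nat_lit 0x3983397902) (nat_lit 0x7a808000800) (nat_lit 35)))
 (.p (nat_lit 0x1ae5103402) (nat_lit 0x4806) (nat_lit 4)))))
 (.n (.n (.n (.n (.p (nat_lit 0x19161914191219100ceb0ce906) (nat_lit 0x30000d20) (nat_lit 15))
 (.p (nat_lit 0x14cb003202) (nat_lit 0x282e) (nat_lit 1)))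
 (.n (.p (nat_lit 0x2ee7002702) (nat_lit 0x2083) (nat_lit 33))
 (.p (nat_lit 0x3a433945382703) (nat_lit 0x42400006080) (nat_lit 43))))
 (.n (.n (.p (nat_lit 0x2daf000f02) (nat_lit 0x2061) (nat_lit 33))
 (.p (nat_lit 0x391d390502) (nat_lit 0x60004000800) (nat_lit 35)))
 (.p (nat_lit 0x24922490248e248a24880fc906) (nat_lit 0x40001145) (nat_lit 14))))
 (.n (.n (.n (.p (nat_lit 0x1aba1ab81ab21ab00d2b0d2906) (nat_lit 0xc0001480) (nat_lit 17))
 (.p (nat_lit 0x380b380502) (nat_lit 0x9c004000000) (nat_lit 35)))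
 (.p (nat_lit 0x19e90f3802) (nat_lit 0x4044) (nat_lit 4)))
 (.n (.n (.p (nat_lit 0x18ef0e3e02) (nat_lit 0x6862) (nat_lit 4))
 (.p (nat_lit 0x3a0d38bf37a103) (nat_lit 0x6b800000000) (nat_lit 43)))
 (.p (nat_lit 0x16a3107302) (nat_lit 0x6566) (nat_lit 19)))))

def c512_295 : Tr :=
 .n (.n (.n (.n (.n (.p (nat_lit 0xe8b0cdb02) (nat_lit 0xaa00) (nat_lit 19))
 (.p (nat_lit 0x28fb139a02) (nat_lit 0xa80c) (nat_lit 5)))
 (.n (.p (nat_lit 0xe970e940e920e900e8e0e8d02f6002f002509) (nat_lit 0x50023) (nat_lit 13))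
 (.p (nat_lit 0x39ee17c302) (nat_lit 0x6060) (nat_lit 45))))
 (.n (.n (.p (nat_lit 0x10450d7502) (nat_lit 0x8421) (nat_lit 19))
 (.p (nat_lit 0x38c538bb02) (nat_lit 0x82c00000800) (nat_lit 35)))
 (.p (nat_lit 0x2fc30fb202) (nat_lit 0x6025) (nat_lit 32))))
 (.n (.n (.n (.p (nat_lit 0x1a061a041a0219fe0d1d0d1906) (nat_lit 0x50000b60) (nat_lit 17))
 (.p (nat_lit 0x379f379d02) (nat_lit 0x6b000000000) (nat_lit 35)))
 (.p (nat_lit 0x180217fe17fc17f80f190f1306) (nat_lit 0x120001d04) (nat_lit 15)))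
 (.n (.n (.p (nat_lit 0xe8f0dff02) (nat_lit 0x2322) (nat_lit 19))
 (.p (nat_lit 0x39ad39a902) (nat_lit 0x6280a000800) (nat_lit 35)))
 (.p (nat_lit 0x17b817b617b217b0105f105906) (nat_lit 0x240001246) (nat_lit 17)))))
 (.n (.n (.n (.n (.p (nat_lit 0x193a1934193219300d090d0706) (nat_lit 0x180001840) (nat_lit 15))
 (.p (nat_lit 0x2b65160402) (nat_lit 0x4850) (nat_lit 5)))
 (.n (.p (nat_lit 0x22662264226222600ef70ef506) (nat_lit 0x3000012a3) (nat_lit 16))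
 (.p (nat_lit 0x3a093993387303) (nat_lit 0xbdc000080a0) (nat_lit 44))))
 (.n (.n (.p (nat_lit 0xdc70daf02) (nat_lit 0x6861) (nat_lit 18))
 (.p (nat_lit 0x3949394102) (nat_lit 0x51806000800) (nat_lit 35)))
 (.p (nat_lit 0x10170fff02) (nat_lit 0xa085) (nat_lit 18))))
 (.n (.n (.n (.p (nat_lit 0xe510d3102) (nat_lit 0x980) (nat_lit 19))
 (.p (nat_lit 0x3871385102) (nat_lit 0xb1808000000) (nat_lit 35)))
 (.p (nat_lit 0xf7a0f780f760f750f730f7003440035003309) (nat_lit 0x22884) (nat_lit 13)))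
 (.n (.n (.p (nat_lit 0x224622442240223e223c0e5706) (nat_lit 0x80000982) (nat_lit 16))
 (.p (nat_lit 0x3a1c123902) (nat_lit 0x4120) (nat_lit 48)))
 (.p (nat_lit 0x3d703cb014e03) (nat_lit 0x6010006) (nat_lit 22)))))

def c256_39 : Tr := .n c512_39 c512_295

def c512_167 : Tr :=
 .n (.n (.n (.n (.n (.p (nat_lit 0x22fa22f422f222f00cd90cd706) (nat_lit 0x180001a00) (nat_lit 14))
 (.p (nat_lit 0x12e712e412e212e112de12dc05060083007d09) (nat_lit 0x540aa) (nat_lit 13)))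
 (.n (.p (nat_lit 0x2e910e8002) (nat_lit 0x803) (nat_lit 32))
 (.p (nat_lit 0x39e739b1389103) (nat_lit 0x7380000a040) (nat_lit 44))))
 (.n (.n (.p (nat_lit 0x24102330227021b04) (nat_lit 0x7110000) (nat_lit 24))
 (.p (nat_lit 0x38c738a702) (nat_lit 0x88400000800) (nat_lit 35)))
 (.p (nat_lit 0xfb70f9f02) (nat_lit 0xa005) (nat_lit 18))))
 (.n (.n (.n (.p (nat_lit 0x227917c902) (nat_lit 0x860) (nat_lit 11))
 (.p (nat_lit 0x931001402) (nat_lit 0x8026) (nat_lit 30)))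
 (.p (nat_lit 0xf1a0f180f160f140f130f10003307) (nat_lit 0x2804) (nat_lit 7)))
 (.n (.n (.p (nat_lit 0x10f0022002003) (nat_lit 0x30000a002) (nat_lit 20))
 (.p (nat_lit 0x39a7399902) (nat_lit 0x4880a000800) (nat_lit 35)))
 (.p (nat_lit 0x305d104c02) (nat_lit 0x4826) (nat_lit 32)))))
 (.n (.n (.n (.n (.p (nat_lit 0x197619721970196e0cfd0cf506) (nat_lit 0x110000340) (nat_lit 15))
 (.p (nat_lit 0x25382536253425322530156306) (nat_lit 0x200001a2f) (nat_lit 14)))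
 (.n (.p (nat_lit 0x2ef9002d02) (nat_lit 0x8883) (nat_lit 33))
 (.p (nat_lit 0x3a4a173b02) (nat_lit 0x28a0) (nat_lit 48))))
 (.n (.n (.p (nat_lit 0x17350da502) (nat_lit 0x8561) (nat_lit 19))
 (.p (nat_lit 0x3931392502) (nat_lit 0xb4004000800) (nat_lit 35)))
 (.p (nat_lit 0x253d1a8d03930385013e05) (nat_lit 0x14c0065) (nat_lit 9))))
 (.n (.n (.n (.p (nat_lit 0x250a2506250425020d390d3106) (nat_lit 0x110001880) (nat_lit 14))
 (.p (nat_lit 0x3843382502) (nat_lit 0xba006000000) (nat_lit 35)))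
 (.p (nat_lit 0xfe50f5502) (nat_lit 0x8564) (nat_lit 19)))
 (.n (.n (.p (nat_lit 0x22522250224e224c22480e4706) (nat_lit 0x20001182) (nat_lit 16))
 (.p (nat_lit 0x39cd396f385703) (nat_lit 0x2a400008000) (nat_lit 44)))
 (.p (nat_lit 0x108e108c108a10881087108503c6004b004909) (nat_lit 0x10086) (nat_lit 13)))))

def c512_423 : Tr :=
 .n (.n (.n (.n (.n (.p (nat_lit 0xcf30cf00cee0ced0cea0ce80236000b000509) (nat_lit 0x54820) (nat_lit 13))
 (.p (nat_lit 0x1f3d148c02) (nat_lit 0xad) (nat_lit 4)))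
 (.n (.p (nat_lit 0xecb0eb302) (nat_lit 0x2843) (nat_lit 18))
 (.p (nat_lit 0x39f339b7389f03) (nat_lit 0x8d40000a060) (nat_lit 44))))
 (.n (.n (.p (nat_lit 0x190a19081904190219000d8b06) (nat_lit 0x80001441) (nat_lit 15))
 (.p (nat_lit 0x38df38db02) (nat_lit 0x28c02000800) (nat_lit 35)))
 (.p (nat_lit 0x178817861784178217800fc306) (nat_lit 0x200001825) (nat_lit 15))))
 (.n (.n (.n (.p (nat_lit 0x17db0d2a02) (nat_lit 0x6080) (nat_lit 4))
 (.p (nat_lit 0x37c937bf02) (nat_lit 0x51402000000) (nat_lit 35)))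
 (.p (nat_lit 0x2f422f402f3e2f3c2f3a2f38012c07) (nat_lit 0x824) (nat_lit 8)))
 (.n (.n (.p (nat_lit 0x1da21da01d9c1d9a0e270e2106) (nat_lit 0x90001d42) (nat_lit 17))
 (.p (nat_lit 0x392e392c390437e504) (nat_lit 0x4000000) (nat_lit 36)))
 (.p (nat_lit 0x2280227e227c227a2278106b06) (nat_lit 0x200001b46) (nat_lit 14)))))
 (.n (.n (.n (.n (.p (nat_lit 0x19ae19ac19aa19a80d0b0d0906) (nat_lit 0x300001d40) (nat_lit 17))
 (.p (nat_lit 0x1727001202) (nat_lit 0x6852) (nat_lit 1)))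
 (.p (nat_lit 0x17d217d017ce17ca17c80efd06) (nat_lit 0x40001ba3) (nat_lit 15)))
 (.n (.n (.p (nat_lit 0x2dda2dd82dd62dd42dd22dd000fc07) (nat_lit 0x881) (nat_lit 8))
 (.p (nat_lit 0x396b396902) (nat_lit 0x18808000800) (nat_lit 35)))
 (.p (nat_lit 0x25831ad303930381013e05) (nat_lit 0x81a8a5) (nat_lit 9))))
 (.n (.n (.n (.p (nat_lit 0x25ee25ec25e825e625e40d4306) (nat_lit 0x800004a0) (nat_lit 14))
 (.p (nat_lit 0x3889387702) (nat_lit 0x5040a000000) (nat_lit 35)))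
 (.p (nat_lit 0x2f99003102) (nat_lit 0x8a4) (nat_lit 33)))
 (.n (.n (.p (nat_lit 0x181a1818181618120e610e5d06) (nat_lit 0x500010a2) (nat_lit 15))
 (.p (nat_lit 0x3a233999387903) (nat_lit 0x1080000a020) (nat_lit 43)))
 (.p (nat_lit 0x11ab119302) (nat_lit 0x6068) (nat_lit 18)))))

def c256_167 : Tr := .n c512_167 c512_423

def c128_39 : Tr := .n c256_39 c256_167

def c512_103 : Tr :=
 .n (.n (.n (.n (.n (.p (nat_lit 0x2237178702) (nat_lit 0x6800) (nat_lit 11))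
 (.p (nat_lit 0x282d12cc02) (nat_lit 0x808a) (nat_lit 5)))
 (.n (.p (nat_lit 0x23d90e7802) (nat_lit 0x4003) (nat_lit 5))
 (.p (nat_lit 0x39e53979385f03) (nat_lit 0x53400008040) (nat_lit 44))))
 (.n (.n (.p (nat_lit 0x1b3c1b3a1b361b340d530d4d06) (nat_lit 0x240000ca0) (nat_lit 15))
 (.p (nat_lit 0x389f389702) (nat_lit 0xac40a000000) (nat_lit 35)))
 (.p (nat_lit 0xf9e0f9c0f9a0f990f960f94004107) (nat_lit 0x4005) (nat_lit 7))))
 (.n (.n (.n (.p (nat_lit 0x1a341a321a301a2c0d170d0f06) (nat_lit 0x220000560) (nat_lit 15))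
 (.p (nat_lit 0x89b003302) (nat_lit 0x2024) (nat_lit 31)))
 (.p (nat_lit 0x17c617c217c017be17bc0f0d06) (nat_lit 0x100000304) (nat_lit 17)))
 (.n (.n (.p (nat_lit 0x21fa21f821f621f40de30de106) (nat_lit 0x300000ca1) (nat_lit 15))
 (.p (nat_lit 0x3993398d02) (nat_lit 0xbd008000800) (nat_lit 35)))
 (.p (nat_lit 0x1046104510421040103e103c005107) (nat_lit 0x8026) (nat_lit 7)))))
 (.n (.n (.n (.n (.p (nat_lit 0x10490ce902) (nat_lit 0xd20) (nat_lit 19))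
 (.p (nat_lit 0x2a0229fe29fc29fa29f814dd06) (nat_lit 0x10000154e) (nat_lit 16)))
 (.n (.p (nat_lit 0x248e248c248a24880edf0edd06) (nat_lit 0x300001183) (nat_lit 16))
 (.p (nat_lit 0x39ff3999387b03) (nat_lit 0x10c0000a080) (nat_lit 44))))
 (.n (.n (.p (nat_lit 0x17d217d017ce17ca17c80da106) (nat_lit 0x40001361) (nat_lit 17))
 (.p (nat_lit 0x392d391302) (nat_lit 0xa1c04000800) (nat_lit 35)))
 (.p (nat_lit 0x1a8b0fda02) (nat_lit 0xa845) (nat_lit 4))))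
 (.n (.n (.n (.p (nat_lit 0x17ea17e817e617e417e217e006) (nat_lit 0x880) (nat_lit 2))
 (.p (nat_lit 0x381f381b02) (nat_lit 0x28c06000000) (nat_lit 35)))
 (.p (nat_lit 0x2f550f4402) (nat_lit 0x4844) (nat_lit 32)))
 (.n (.n (.p (nat_lit 0x11990e3902) (nat_lit 0x862) (nat_lit 19))
 (.p (nat_lit 0x3a0f38ef37d703) (nat_lit 0x6c400002000) (nat_lit 43)))
 (.p (nat_lit 0x1a641a621a601a5e1a5c108306) (nat_lit 0x200000966) (nat_lit 15)))))

def c512_359 : Tr :=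
 .n (.n (.n (.n (.n (.p (nat_lit 0x23ba23b823b223b00ce30ce106) (nat_lit 0xc0001420) (nat_lit 16))
 (.p (nat_lit 0x1ec21ec01ebe1ebc1eba1eb806) (nat_lit 0x8ac) (nat_lit 2)))
 (.n (.p (nat_lit 0x282e282c282a282828240e9b06) (nat_lit 0x20000c23) (nat_lit 16))
 (.p (nat_lit 0x3a39398f387103) (nat_lit 0xad800008060) (nat_lit 43))))
 (.n (.n (.p (nat_lit 0xe110d8102) (nat_lit 0x8a21) (nat_lit 19))
 (.p (nat_lit 0x38b438ae38ac38a838a638a417c907) (nat_lit 0x860) (nat_lit 37)))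
 (.p (nat_lit 0x22b222b022ae22ac22aa0fad06) (nat_lit 0x10001525) (nat_lit 14))))
 (.n (.n (.n (.p (nat_lit 0x24f224ee24ea24e80d210d1d06) (nat_lit 0x140001d60) (nat_lit 14))
 (.p (nat_lit 0x37cd37b502) (nat_lit 0x60002000000) (nat_lit 35)))
 (.p (nat_lit 0xf270f240f220f200f1e0f1d033e003b003109) (nat_lit 0x50024) (nat_lit 13)))
 (.n (.n (.p (nat_lit 0x1d881d861d841d821d800e1f06) (nat_lit 0x200001442) (nat_lit 15))
 (.p (nat_lit 0x39c339bf02) (nat_lit 0xbd40a000800) (nat_lit 35)))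
 (.p (nat_lit 0x3071004902) (nat_lit 0x846) (nat_lit 33)))))
 (.n (.n (.n (.n (.p (nat_lit 0x243e243c243a24340d050d0306) (nat_lit 0x60000c40) (nat_lit 14))
 (.p (nat_lit 0x20d00de00dc00d804) (nat_lit 0xd0008012) (nat_lit 20)))
 (.n (.p (nat_lit 0x19ab0efa02) (nat_lit 0x28a3) (nat_lit 4))
 (.p (nat_lit 0x3a5339b3389b03) (nat_lit 0x7cc0000a0a0) (nat_lit 43))))
 (.n (.n (.p (nat_lit 0x1aea1ae81ae41ae21ae00dbb06) (nat_lit 0x80001081) (nat_lit 15))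
 (.p (nat_lit 0x395d394d02) (nat_lit 0xa3006000800) (nat_lit 35)))
 (.p (nat_lit 0x1017101410121010100e100d03860047003d09) (nat_lit 0x500a5) (nat_lit 13))))
 (.n (.n (.n (.p (nat_lit 0x1ade1adc1ad61ad40d430d4106) (nat_lit 0xc00000a0) (nat_lit 15))
 (.p (nat_lit 0x3869385f02) (nat_lit 0x93408000000) (nat_lit 35)))
 (.p (nat_lit 0x24e70f8602) (nat_lit 0xa0a4) (nat_lit 5)))
 (.n (.n (.p (nat_lit 0x22b222b022ae22ac22aa0e5106) (nat_lit 0x10001d82) (nat_lit 14))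
 (.p (nat_lit 0x3a1f395f383f03) (nat_lit 0xad400006020) (nat_lit 43)))
 (.p (nat_lit 0x2669110802) (nat_lit 0x867) (nat_lit 5)))))

def c256_103 : Tr := .n c512_103 c512_359

def c512_231 : Tr :=
 .n (.n (.n (.n (.n (.p (nat_lit 0x186c1868186618640cdb0cd706) (nat_lit 0x280000c00) (nat_lit 15))
 (.p (nat_lit 0x28d1137002) (nat_lit 0x40ab) (nat_lit 5)))
 (.n (.p (nat_lit 0x18fe18fa18f818f618f40e8906) (nat_lit 0x100000c03) (nat_lit 15))
 (.p (nat_lit 0x3a32141702) (nat_lit 0x2360) (nat_lit 48))))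
 (.n (.n (.p (nat_lit 0xd7b0d6302) (nat_lit 0x2801) (nat_lit 18))
 (.p (nat_lit 0x38b938b102) (nat_lit 0x51800000800) (nat_lit 35)))
 (.p (nat_lit 0x25be25bc25ba25b625b40fa506) (nat_lit 0x40000a05) (nat_lit 14))))
 (.n (.n (.n (.p (nat_lit 0x19c819c619c419c00d230d1b06) (nat_lit 0x220001860) (nat_lit 17))
 (.p (nat_lit 0x37a7378502) (nat_lit 0x88000000000) (nat_lit 35)))
 (.p (nat_lit 0x226a2268226422620f170f1106) (nat_lit 0x90001a04) (nat_lit 14)))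
 (.n (.n (.p (nat_lit 0x2e07001f02) (nat_lit 0x6802) (nat_lit 33))
 (.p (nat_lit 0x39b7399f02) (nat_lit 0x8940a000800) (nat_lit 35)))
 (.p (nat_lit 0x1065104d02) (nat_lit 0x4826) (nat_lit 18)))))
 (.n (.n (.n (.n (.p (nat_lit 0xfcf0cff02) (nat_lit 0xa440) (nat_lit 19))
 (.p (nat_lit 0x20a115f002) (nat_lit 0x8830) (nat_lit 4)))
 (.n (.p (nat_lit 0x19a619a419a219a0199e199c06) (nat_lit 0xa3) (nat_lit 2))
 (.p (nat_lit 0x3a4e22af02) (nat_lit 0x68a0) (nat_lit 46))))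
 (.n (.n (.p (nat_lit 0x17ae17aa17a817a40db10dab06) (nat_lit 0x120000a61) (nat_lit 15))
 (.p (nat_lit 0x395d393702) (nat_lit 0xa0406000800) (nat_lit 35)))
 (.p (nat_lit 0xff20ff00fee0fed0fea0fe8004107) (nat_lit 0x4865) (nat_lit 7))))
 (.n (.n (.n (.p (nat_lit 0x1a8a1a861a841a821a800d3906) (nat_lit 0x100001a80) (nat_lit 15))
 (.p (nat_lit 0x3853384902) (nat_lit 0x38808000000) (nat_lit 35)))
 (.p (nat_lit 0x1f6a1f681f641f621f600f6b06) (nat_lit 0x80001084) (nat_lit 15)))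
 (.n (.n (.p (nat_lit 0x180217fe17fc17fa17f80e4d06) (nat_lit 0x100001582) (nat_lit 15))
 (.p (nat_lit 0x3a1938c537ad03) (nat_lit 0x85000000020) (nat_lit 43)))
 (.p (nat_lit 0x20ba20b820b620b220b0109506) (nat_lit 0x40001a86) (nat_lit 15)))))

def c512_487 : Tr :=
 .n (.n (.n (.n (.n (.p (nat_lit 0x23962392238e238c0cf10ced06) (nat_lit 0x140000b20) (nat_lit 14))
 (.p (nat_lit 0x14b7004202) (nat_lit 0x680e) (nat_lit 1)))
 (.n (.p (nat_lit 0x197b0eca02) (nat_lit 0x2863) (nat_lit 4))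
 (.p (nat_lit 0x3a3c160102) (nat_lit 0xd80) (nat_lit 48))))
 (.n (.n (.p (nat_lit 0xd9a0d980d970d950d920d90027a0013001109) (nat_lit 0x34841) (nat_lit 13))
 (.p (nat_lit 0x38f938e502) (nat_lit 0x92002000800) (nat_lit 35)))
 (.p (nat_lit 0xfd70fbf02) (nat_lit 0x6825) (nat_lit 18))))
 (.n (.n (.n (.p (nat_lit 0x25222520251e251c0d270d2506) (nat_lit 0x30001180) (nat_lit 16))
 (.p (nat_lit 0x380f37e902) (nat_lit 0xa8804000000) (nat_lit 35)))
 (.p (nat_lit 0x243e243a2438243624340f3106) (nat_lit 0x100000c24) (nat_lit 16)))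
 (.n (.n (.p (nat_lit 0x23e823e423e223e00e370e3306) (nat_lit 0x280001062) (nat_lit 16))
 (.p (nat_lit 0x398639843980397e386705) (nat_lit 0x4408000000) (nat_lit 36)))
 (.p (nat_lit 0x1b25107402) (nat_lit 0x8066) (nat_lit 4)))))
 (.n (.n (.n (.n (.p (nat_lit 0x17c50d1402) (nat_lit 0x8060) (nat_lit 4))
 (.p (nat_lit 0x2ca1174002) (nat_lit 0x8872) (nat_lit 5)))
 (.p (nat_lit 0x31902f5011e03) (nat_lit 0x8030003) (nat_lit 22)))
 (.n (.n (.p (nat_lit 0x1b261b241b221b201b1c0dc306) (nat_lit 0x20000b81) (nat_lit 15))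
 (.p (nat_lit 0x3989396f02) (nat_lit 0x91408000800) (nat_lit 35)))
 (.p (nat_lit 0x14d0050004a004804) (nat_lit 0x130008006) (nat_lit 20))))
 (.n (.n (.n (.p (nat_lit 0x22af0d4e02) (nat_lit 0x68a0) (nat_lit 5))
 (.p (nat_lit 0x389b387d02) (nat_lit 0x9900a000000) (nat_lit 35)))
 (.p (nat_lit 0x252e252c252825260f8f0f8906) (nat_lit 0x90000aa4) (nat_lit 16)))
 (.n (.n (.p (nat_lit 0xe73001602) (nat_lit 0xa8a2) (nat_lit 1))
 (.p (nat_lit 0x39dc138502) (nat_lit 0x340) (nat_lit 47)))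
 (.p (nat_lit 0x271111b002) (nat_lit 0x888) (nat_lit 5)))))

def c256_231 : Tr := .n c512_231 c512_487

def c128_103 : Tr := .n c256_103 c256_231

def c64_39 : Tr := .n c128_39 c128_103

def c32_7 : Tr := .n c64_7 c64_39

def c512_23 : Tr :=
 .n (.n (.n (.n (.n (.p (nat_lit 0xcce0ccc0cca0cc80cc70cc502160003000109) (nat_lit 0x10000) (nat_lit 13))
 (.p (nat_lit 0x2795123402) (nat_lit 0x89) (nat_lit 5)))
 (.n (.p (nat_lit 0xe6b0df302) (nat_lit 0x28a2) (nat_lit 18))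
 (.p (nat_lit 0x3a26139302) (nat_lit 0x2b40) (nat_lit 48))))
 (.n (.n (.p (nat_lit 0x25b225b025ae25ac25a80d4b06) (nat_lit 0x200019a0) (nat_lit 14))
 (.p (nat_lit 0x389f388302) (nat_lit 0xa9c0a000000) (nat_lit 35)))
 (.p (nat_lit 0x34b0337012e03) (nat_lit 0x2050004) (nat_lit 22))))
 (.n (.n (.n (.p (nat_lit 0x24862484248224800d0f0d0d06) (nat_lit 0x30000160) (nat_lit 14))
 (.p (nat_lit 0x7e9001102) (nat_lit 0x4081) (nat_lit 31)))
 (.p (nat_lit 0x12f0038003203) (nat_lit 0x12000a004) (nat_lit 20)))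
 (.n (.n (.p (nat_lit 0xdd60dd40dd20dd00dcf0dcc000f07) (nat_lit 0x20a1) (nat_lit 7))
 (.p (nat_lit 0x397d397702) (nat_lit 0x62408000800) (nat_lit 35)))
 (.p (nat_lit 0x2ca22ca02c9e2c9a2c98102906) (nat_lit 0x40001306) (nat_lit 16)))))
 (.n (.n (.n (.n (.p (nat_lit 0x190a19081904190219000cef06) (nat_lit 0x80001c20) (nat_lit 17))
 (.p (nat_lit 0x2478247624742472247014c706) (nat_lit 0x20000102e) (nat_lit 14)))
 (.n (.p (nat_lit 0xf5b0ecb02) (nat_lit 0x2c63) (nat_lit 19))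
 (.p (nat_lit 0x39f815f902) (nat_lit 0x4580) (nat_lit 47))))
 (.n (.n (.p (nat_lit 0x10690d9902) (nat_lit 0x8c41) (nat_lit 19))
 (.p (nat_lit 0x38f438ee38ec38e838e638e4226307) (nat_lit 0x2000840) (nat_lit 38)))
 (.p (nat_lit 0x252f0fce02) (nat_lit 0xa045) (nat_lit 5))))
 (.n (.n (.n (.p (nat_lit 0x254625422540253e0d2d0d2506) (nat_lit 0x110000380) (nat_lit 14))
 (.p (nat_lit 0x380737ff02) (nat_lit 0x8b404000000) (nat_lit 35)))
 (.p (nat_lit 0xfbf0f2f02) (nat_lit 0x6d24) (nat_lit 19)))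
 (.n (.n (.p (nat_lit 0x23990e3802) (nat_lit 0x862) (nat_lit 5))
 (.p (nat_lit 0x39c538b7379703) (nat_lit 0x4a400000000) (nat_lit 44)))
 (.p (nat_lit 0x1ab81ab41ab21ab01077107306) (nat_lit 0x280001466) (nat_lit 15)))))

def c512_279 : Tr :=
 .n (.n (.n (.n (.n (.p (nat_lit 0xd630cd302) (nat_lit 0x2800) (nat_lit 19))
 (.p (nat_lit 0x24622460245e245a2458138906) (nat_lit 0x4000150c) (nat_lit 14)))
 (.n (.p (nat_lit 0x19430e9202) (nat_lit 0x6023) (nat_lit 4))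
 (.p (nat_lit 0x39ef3941382103) (nat_lit 0x31800006060) (nat_lit 44))))
 (.n (.n (.p (nat_lit 0x1c5e1c5c1c5a1c581c560d6d06) (nat_lit 0x10000421) (nat_lit 17))
 (.p (nat_lit 0x38bb38b902) (nat_lit 0x5a800000800) (nat_lit 35)))
 (.p (nat_lit 0x15d90fa902) (nat_lit 0x8d05) (nat_lit 19))))
 (.n (.n (.n (.p (nat_lit 0x19fa19f819f619f419f00d1b06) (nat_lit 0x20001a60) (nat_lit 15))
 (.p (nat_lit 0x379f379702) (nat_lit 0x6a400000000) (nat_lit 35)))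
 (.p (nat_lit 0x17e617e417e217e00f1b0f1906) (nat_lit 0x300001c04) (nat_lit 15)))
 (.n (.n (.p (nat_lit 0x23650e0402) (nat_lit 0x8022) (nat_lit 5))
 (.p (nat_lit 0x39bf39a502) (nat_lit 0xaa00a000800) (nat_lit 35)))
 (.p (nat_lit 0x22522250224e224c224a105506) (nat_lit 0x10001146) (nat_lit 14)))))
 (.n (.n (.n (.n (.p (nat_lit 0x192c192a192619240d0b0d0506) (nat_lit 0x240000840) (nat_lit 15))
 (.p (nat_lit 0x251425122510250e250c15ff06) (nat_lit 0x200000150) (nat_lit 14)))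
 (.n (.p (nat_lit 0x17ae17ac17aa17a817a40eef06) (nat_lit 0x200002a3) (nat_lit 17))
 (.p (nat_lit 0x3a513985386503) (nat_lit 0x840000080a0) (nat_lit 43))))
 (.n (.n (.p (nat_lit 0x22982296229422920db30da906) (nat_lit 0x210001c61) (nat_lit 14))
 (.p (nat_lit 0x394b393f02) (nat_lit 0x59406000800) (nat_lit 35)))
 (.p (nat_lit 0x1aa70ff602) (nat_lit 0x2085) (nat_lit 4))))
 (.n (.n (.n (.p (nat_lit 0x25822580257c25780d370d3306) (nat_lit 0xa0001d80) (nat_lit 14))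
 (.p (nat_lit 0x3863384f02) (nat_lit 0x79408000000) (nat_lit 35)))
 (.p (nat_lit 0x24d90f7802) (nat_lit 0x8884) (nat_lit 5)))
 (.n (.n (.p (nat_lit 0x2e69002102) (nat_lit 0x8882) (nat_lit 33))
 (.p (nat_lit 0x3a1d3925380703) (nat_lit 0x84400004020) (nat_lit 43)))
 (.p (nat_lit 0x3cf03cd014e03) (nat_lit 0x58006) (nat_lit 22)))))

def c256_23 : Tr := .n c512_23 c512_279

def c512_151 : Tr :=
 .n (.n (.n (.n (.n (.p (nat_lit 0x22ee22ea22e622e40cd90cd506) (nat_lit 0x140000a00) (nat_lit 14))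
 (.p (nat_lit 0x1d961d941d921d901d8e1d8c06) (nat_lit 0xaa) (nat_lit 2)))
 (.n (.p (nat_lit 0x12690e7902) (nat_lit 0x4103) (nat_lit 19))
 (.p (nat_lit 0x3a2f3999387903) (nat_lit 0x1080000a040) (nat_lit 43))))
 (.n (.n (.p (nat_lit 0x10210d5102) (nat_lit 0x8ca0) (nat_lit 19))
 (.p (nat_lit 0x38d338a502) (nat_lit 0xb8000000800) (nat_lit 35)))
 (.p (nat_lit 0x1b261b241b201b1e1b1c0f9b06) (nat_lit 0x80000305) (nat_lit 17))))
 (.n (.n (.n (.p (nat_lit 0xfe10d1102) (nat_lit 0x4460) (nat_lit 19))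
 (.p (nat_lit 0x8f3004302) (nat_lit 0x6045) (nat_lit 31)))
 (.p (nat_lit 0x14ad0f0d02) (nat_lit 0x8404) (nat_lit 19)))
 (.n (.n (.p (nat_lit 0x29702730267010004) (nat_lit 0xa210001) (nat_lit 23))
 (.p (nat_lit 0x39b1399702) (nat_lit 0x7040a000800) (nat_lit 35)))
 (.p (nat_lit 0x1af9104802) (nat_lit 0x826) (nat_lit 4)))))
 (.n (.n (.n (.n (.p (nat_lit 0x2402240023fe23fc23f80cf706) (nat_lit 0x20001140) (nat_lit 14))
 (.p (nat_lit 0x200d155c02) (nat_lit 0x482f) (nat_lit 4)))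
 (.n (.p (nat_lit 0x2ef3002702) (nat_lit 0x2883) (nat_lit 33))
 (.p (nat_lit 0x3a03390137b703) (nat_lit 0xb04000020a0) (nat_lit 44))))
 (.n (.n (.p (nat_lit 0x11910da102) (nat_lit 0x4161) (nat_lit 19))
 (.p (nat_lit 0x3929392102) (nat_lit 0x93804000800) (nat_lit 35)))
 (.p (nat_lit 0x10650fd502) (nat_lit 0x4845) (nat_lit 19))))
 (.n (.n (.n (.p (nat_lit 0x24fe24fa24f624f40d390d3506) (nat_lit 0x140000880) (nat_lit 14))
 (.p (nat_lit 0x3825382302) (nat_lit 0x41c06000000) (nat_lit 35)))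
 (.p (nat_lit 0x1a070f5602) (nat_lit 0xa064) (nat_lit 4)))
 (.n (.n (.p (nat_lit 0xe4f0e4c0e4a0e480e470e4402ba0023001b09) (nat_lit 0x52082) (nat_lit 13))
 (.p (nat_lit 0x3a133947382d03) (nat_lit 0x4b000006000) (nat_lit 43)))
 (.p (nat_lit 0x108e108c108a108910861084004d07) (nat_lit 0x4086) (nat_lit 7)))))

def c512_407 : Tr :=
 .n (.n (.n (.n (.n (.p (nat_lit 0x224f179f02) (nat_lit 0x6820) (nat_lit 11))
 (.p (nat_lit 0x1427003602) (nat_lit 0x680d) (nat_lit 1)))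
 (.n (.p (nat_lit 0x19610eb002) (nat_lit 0x843) (nat_lit 4))
 (.p (nat_lit 0x3a3b39a1388903) (nat_lit 0x3280000a060) (nat_lit 43))))
 (.n (.n (.p (nat_lit 0x23722370236c23680d8b0d8706) (nat_lit 0xa0001141) (nat_lit 14))
 (.p (nat_lit 0x390138d702) (nat_lit 0xb0402000800) (nat_lit 35)))
 (.p (nat_lit 0x2fd3004702) (nat_lit 0xa825) (nat_lit 33))))
 (.n (.n (.n (.p (nat_lit 0xd25003c02) (nat_lit 0x80) (nat_lit 1))
 (.p (nat_lit 0x37c737bd02) (nat_lit 0x49002000000) (nat_lit 35)))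
 (.p (nat_lit 0xf3d0f2502) (nat_lit 0x8024) (nat_lit 18)))
 (.n (.n (.p (nat_lit 0xe2a0e280e270e240e220e2102aa001f001909) (nat_lit 0x30842) (nat_lit 13))
 (.p (nat_lit 0x38e438de38dc37c504) (nat_lit 0x2002000000) (nat_lit 36)))
 (.p (nat_lit 0x17ae17ac17aa17a817a6106106) (nat_lit 0x10000a46) (nat_lit 17)))))
 (.n (.n (.n (.n (.p (nat_lit 0x19b219b019ae19aa19a80d0506) (nat_lit 0x40001d40) (nat_lit 17))
 (.p (nat_lit 0x1860185e185c185a1858171f06) (nat_lit 0x200001352) (nat_lit 15)))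
 (.p (nat_lit 0x17ba17b817b617b00efd0efb06) (nat_lit 0x60001aa3) (nat_lit 17)))
 (.n (.n (.p (nat_lit 0x11ab0dbb02) (nat_lit 0x6181) (nat_lit 19))
 (.p (nat_lit 0x3973396702) (nat_lit 0x38408000800) (nat_lit 35)))
 (.p (nat_lit 0x257f101e02) (nat_lit 0x68a5) (nat_lit 5))))
 (.n (.n (.n (.p (nat_lit 0x25d625d225d025ce25cc0d4506) (nat_lit 0x1000003a0) (nat_lit 14))
 (.p (nat_lit 0x3889387502) (nat_lit 0x5000a000000) (nat_lit 35)))
 (.p (nat_lit 0x13fd0f7d02) (nat_lit 0x2a4) (nat_lit 19)))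
 (.n (.n (.p (nat_lit 0xe65001402) (nat_lit 0x80a2) (nat_lit 1))
 (.p (nat_lit 0x3a200d8d02) (nat_lit 0x8520) (nat_lit 48)))
 (.p (nat_lit 0x26f7119602) (nat_lit 0xa068) (nat_lit 5)))))

def c256_151 : Tr := .n c512_151 c512_407

def c128_23 : Tr := .n c256_23 c256_151

def c512_87 : Tr :=
 .n (.n (.n (.n (.n (.p (nat_lit 0x10250cc502) (nat_lit 0x500) (nat_lit 19))
 (.p (nat_lit 0x28e228e028de28dc28da12b906) (nat_lit 0x10001d6a) (nat_lit 14)))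
 (.n (.p (nat_lit 0x11f002e002603) (nat_lit 0x22000a003) (nat_lit 20))
 (.p (nat_lit 0x3a2d3967384f03) (nat_lit 0x9400008040) (nat_lit 43))))
 (.n (.n (.p (nat_lit 0x1b321b301b2e1b280d4d0d4b06) (nat_lit 0x60001ba0) (nat_lit 15))
 (.p (nat_lit 0x389f389102) (nat_lit 0xab80a000000) (nat_lit 35)))
 (.p (nat_lit 0x13d00460044003c04) (nat_lit 0x310008005) (nat_lit 20))))
 (.n (.n (.n (.p (nat_lit 0x1a2a1a281a241a220d130d0d06) (nat_lit 0x90001460) (nat_lit 15))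
 (.p (nat_lit 0x879002902) (nat_lit 0x4083) (nat_lit 31)))
 (.p (nat_lit 0x17a2179e179c179a17980f0d06) (nat_lit 0x100001104) (nat_lit 15)))
 (.n (.n (.p (nat_lit 0x23410de002) (nat_lit 0x88a1) (nat_lit 5))
 (.p (nat_lit 0x3993398502) (nat_lit 0xbc008000800) (nat_lit 35)))
 (.p (nat_lit 0x1aef103e02) (nat_lit 0x2026) (nat_lit 4)))))
 (.n (.n (.n (.n (.p (nat_lit 0xe9d0ced02) (nat_lit 0x4a20) (nat_lit 19))
 (.p (nat_lit 0x2a3914d802) (nat_lit 0x404e) (nat_lit 5)))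
 (.n (.p (nat_lit 0x19d619d419d219d019ce0ed506) (nat_lit 0x10000183) (nat_lit 17))
 (.p (nat_lit 0x39fd3985386d03) (nat_lit 0x85000008080) (nat_lit 44))))
 (.n (.n (.p (nat_lit 0x225e225a2258225622540da506) (nat_lit 0x100000261) (nat_lit 14))
 (.p (nat_lit 0x392d390f02) (nat_lit 0xa1404000800) (nat_lit 35)))
 (.p (nat_lit 0x25350fd402) (nat_lit 0x4845) (nat_lit 5))))
 (.n (.n (.n (.p (nat_lit 0xf690d2902) (nat_lit 0x4380) (nat_lit 19))
 (.p (nat_lit 0x3843381502) (nat_lit 0xb8006000000) (nat_lit 35)))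
 (.p (nat_lit 0xfc90f3902) (nat_lit 0x4544) (nat_lit 19)))
 (.n (.n (.p (nat_lit 0x2456245424522450244c0e3b06) (nat_lit 0x20000d62) (nat_lit 14))
 (.p (nat_lit 0x39c738d937bf03) (nat_lit 0x11400002000) (nat_lit 44)))
 (.p (nat_lit 0x24fe24fc24f624f4107f107d06) (nat_lit 0xc0000866) (nat_lit 16)))))

def c512_343 : Tr :=
 .n (.n (.n (.n (.n (.p (nat_lit 0x18d818d418d218d00ce70ce306) (nat_lit 0x280001220) (nat_lit 15))
 (.p (nat_lit 0x19bc19ba19b819b619b4140706) (nat_lit 0x2000000ac) (nat_lit 15)))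
 (.n (.p (nat_lit 0x24010ea002) (nat_lit 0x8823) (nat_lit 5))
 (.p (nat_lit 0x39f13985386503) (nat_lit 0x84000008060) (nat_lit 44))))
 (.n (.n (.p (nat_lit 0x270c270a2708270627040d8306) (nat_lit 0x200000c21) (nat_lit 16))
 (.p (nat_lit 0x38cd38c902) (nat_lit 0xa4800000800) (nat_lit 35)))
 (.p (nat_lit 0x17de17dc17da17d817d40faf06) (nat_lit 0x20000425) (nat_lit 17))))
 (.n (.n (.n (.p (nat_lit 0x24e424e224e024de0d230d1906) (nat_lit 0x210000d60) (nat_lit 14))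
 (.p (nat_lit 0x37a4379e379c379837963794225507) (nat_lit 0x40) (nat_lit 38)))
 (.p (nat_lit 0x24830f2202) (nat_lit 0x6024) (nat_lit 5)))
 (.n (.n (.p (nat_lit 0x237d0e1c02) (nat_lit 0x8042) (nat_lit 5))
 (.p (nat_lit 0x39bd39b702) (nat_lit 0xa440a000800) (nat_lit 35)))
 (.p (nat_lit 0x22b022ae22aa22a8105f105906) (nat_lit 0x240001546) (nat_lit 16)))))
 (.n (.n (.n (.n (.p (nat_lit 0x24322430242e242c242a0d0106) (nat_lit 0x10001b40) (nat_lit 14))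
 (.p (nat_lit 0x2beb168a02) (nat_lit 0x6051) (nat_lit 5)))
 (.n (.p (nat_lit 0x12e70ef702) (nat_lit 0xa1a3) (nat_lit 19))
 (.p (nat_lit 0x3a5339b1389103) (nat_lit 0x7380000a0a0) (nat_lit 43))))
 (.n (.n (.p (nat_lit 0x2dcd001502) (nat_lit 0x8081) (nat_lit 33))
 (.p (nat_lit 0x395d394702) (nat_lit 0xa2406000800) (nat_lit 35)))
 (.p (nat_lit 0x3021004102) (nat_lit 0x40a5) (nat_lit 33))))
 (.n (.n (.n (.p (nat_lit 0xd45005002) (nat_lit 0x80a0) (nat_lit 1))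
 (.p (nat_lit 0x385f385b02) (nat_lit 0x6ac08000000) (nat_lit 35)))
 (.p (nat_lit 0x1a310f8002) (nat_lit 0x40a4) (nat_lit 4)))
 (.n (.n (.p (nat_lit 0x17de17da17d617d40e590e5506) (nat_lit 0x140000c82) (nat_lit 17))
 (.p (nat_lit 0x3a1f394f383703) (nat_lit 0x6c400006020) (nat_lit 43)))
 (.p (nat_lit 0x265f10fe02) (nat_lit 0x2067) (nat_lit 5)))))

def c256_87 : Tr := .n c512_87 c512_343

def c512_215 : Tr :=
 .n (.n (.n (.n (.n (.p (nat_lit 0x186e186c186a186618640cd506) (nat_lit 0x40000c00) (nat_lit 15))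
 (.p (nat_lit 0x18e418e218e018de18dc12f306) (nat_lit 0x200000baa) (nat_lit 15)))
 (.n (.p (nat_lit 0x239623922390238c0e890e8306) (nat_lit 0x120000b03) (nat_lit 16))
 (.p (nat_lit 0x3a3338d737b903) (nat_lit 0x8800002060) (nat_lit 43))))
 (.n (.n (.p (nat_lit 0x102b0d5b02) (nat_lit 0x6401) (nat_lit 19))
 (.p (nat_lit 0x38d338ad02) (nat_lit 0xb9000000800) (nat_lit 35)))
 (.p (nat_lit 0x2fbb004702) (nat_lit 0xa805) (nat_lit 33))))
 (.n (.n (.n (.p (nat_lit 0x19ca19c819c619c419c00d1b06) (nat_lit 0x20001860) (nat_lit 17))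
 (.p (nat_lit 0xc020bfe0bfc0bfa0bf801ec000907) (nat_lit 0x8230) (nat_lit 28)))
 (.p (nat_lit 0x2250224e224c224a0f1b0f1106) (nat_lit 0x210001904) (nat_lit 14)))
 (.n (.n (.p (nat_lit 0x18a10df002) (nat_lit 0x802) (nat_lit 4))
 (.p (nat_lit 0x39bb399d02) (nat_lit 0x9900a000800) (nat_lit 35)))
 (.p (nat_lit 0x2310230e230c230a2308105306) (nat_lit 0x200001b26) (nat_lit 14)))))
 (.n (.n (.n (.n (.p (nat_lit 0xd8f0cff02) (nat_lit 0xa040) (nat_lit 19))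
 (.p (nat_lit 0x1b181b161b141b121b1015e706) (nat_lit 0x200001230) (nat_lit 15)))
 (.n (.p (nat_lit 0xefd0ee502) (nat_lit 0x4883) (nat_lit 18))
 (.p (nat_lit 0x3a4f3945382503) (nat_lit 0x420000060a0) (nat_lit 43))))
 (.n (.n (.p (nat_lit 0x178817861784178217800db306) (nat_lit 0x200001861) (nat_lit 17))
 (.p (nat_lit 0x393b393702) (nat_lit 0x18406000800) (nat_lit 35)))
 (.p (nat_lit 0x10750fe502) (nat_lit 0x8065) (nat_lit 19))))
 (.n (.n (.n (.p (nat_lit 0x1a7e1a7c1a781a740d370d3306) (nat_lit 0xa0000a80) (nat_lit 15))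
 (.p (nat_lit 0x385d384702) (nat_lit 0x60408000000) (nat_lit 35)))
 (.p (nat_lit 0xf6e0f6d0f6a0f680f660f64003907) (nat_lit 0x8084) (nat_lit 7)))
 (.n (.n (.p (nat_lit 0x17ea17e817e417e00e4b0e4706) (nat_lit 0xa0001482) (nat_lit 17))
 (.p (nat_lit 0x39cf39bb389b03) (nat_lit 0x9cc0000a000) (nat_lit 44)))
 (.p (nat_lit 0x30ab109a02) (nat_lit 0xa886) (nat_lit 32)))))

def c512_471 : Tr :=
 .n (.n (.n (.n (.n (.p (nat_lit 0x238a2388238623840ceb0ce906) (nat_lit 0x30001a20) (nat_lit 14))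
 (.p (nat_lit 0x1a8a1a881a861a821a8014a906) (nat_lit 0x4000120e) (nat_lit 15)))
 (.n (.p (nat_lit 0xed70ebf02) (nat_lit 0x2063) (nat_lit 18))
 (.p (nat_lit 0x39f538c537a703) (nat_lit 0x84400000080) (nat_lit 44))))
 (.n (.n (.p (nat_lit 0x18470d9602) (nat_lit 0x6841) (nat_lit 4))
 (.p (nat_lit 0x38fd38e102) (nat_lit 0xa1802000800) (nat_lit 35)))
 (.p (nat_lit 0x17e817e617e417e20fc30fb906) (nat_lit 0x210001c25) (nat_lit 17))))
 (.n (.n (.n (.p (nat_lit 0x1a661a641a621a601a5e0d2506) (nat_lit 0x10000180) (nat_lit 17))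
 (.p (nat_lit 0x380f37e502) (nat_lit 0xa8004000000) (nat_lit 35)))
 (.p (nat_lit 0x192c192a192619240f330f2d06) (nat_lit 0x240000824) (nat_lit 15)))
 (.n (.n (.p (nat_lit 0xe370e340e320e310e2e0e2c02c60023001d09) (nat_lit 0x54062) (nat_lit 13))
 (.p (nat_lit 0x3990398e39663964384705) (nat_lit 0x408000000) (nat_lit 36)))
 (.p (nat_lit 0x106f003e02) (nat_lit 0x2066) (nat_lit 1)))))
 (.n (.n (.n (.n (.p (nat_lit 0xd0f003202) (nat_lit 0x2060) (nat_lit 1))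
 (.p (nat_lit 0x1b321b301b2e1b2c1b2a172d06) (nat_lit 0x10001372) (nat_lit 17)))
 (.p (nat_lit 0x30f030b011e03) (nat_lit 0x4056003) (nat_lit 22)))
 (.n (.n (.p (nat_lit 0x25a425a225a0259c0dcb0dc306) (nat_lit 0x220000981) (nat_lit 16))
 (.p (nat_lit 0x398d396d02) (nat_lit 0xa1008000800) (nat_lit 35)))
 (.p (nat_lit 0x151004802) (nat_lit 0x1000c006) (nat_lit 20))))
 (.n (.n (.n (.p (nat_lit 0xd520d500d4e0d4c0d4a0d49000107) (nat_lit 0x8a0) (nat_lit 7))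
 (.p (nat_lit 0x389b387b02) (nat_lit 0x98c0a000000) (nat_lit 35)))
 (.p (nat_lit 0x2516251425122510250e0f8906) (nat_lit 0x100009a4) (nat_lit 14)))
 (.n (.n (.p (nat_lit 0x23cb191b02d302b5010e05) (nat_lit 0x15a28a2) (nat_lit 9))
 (.p (nat_lit 0x39dd38bd37a503) (nat_lit 0x64000000040) (nat_lit 44)))
 (.p (nat_lit 0x180c180a18081806180411af06) (nat_lit 0x200000088) (nat_lit 15)))))

def c256_215 : Tr := .n c512_215 c512_471

def c128_87 : Tr := .n c256_87 c256_215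

def c64_23 : Tr := .n c128_23 c128_87

def c512_55 : Tr :=
 .n (.n (.n (.n (.n (.p (nat_lit 0x232a2328232623240cc70cc506) (nat_lit 0x30001400) (nat_lit 14))
 (.p (nat_lit 0x2702270026fe26fa26f8125106) (nat_lit 0x400013a9) (nat_lit 14)))
 (.n (.p (nat_lit 0x2c502ad010e03) (nat_lit 0x8020002) (nat_lit 22))
 (.p (nat_lit 0x39e33945382503) (nat_lit 0x42000006040) (nat_lit 44))))
 (.n (.n (.p (nat_lit 0x1b1a1b181b161b141b100d4b06) (nat_lit 0x20001aa0) (nat_lit 17))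
 (.p (nat_lit 0x3891388b02) (nat_lit 0x72c0a000000) (nat_lit 35)))
 (.p (nat_lit 0x34b033f012e03) (nat_lit 0xa010004) (nat_lit 22))))
 (.n (.n (.n (.p (nat_lit 0x249c249a2498249624940d1706) (nat_lit 0x200000260) (nat_lit 14))
 (.p (nat_lit 0x839001902) (nat_lit 0xa2) (nat_lit 31)))
 (.p (nat_lit 0x19b90f0802) (nat_lit 0x4004) (nat_lit 4)))
 (.n (.n (.p (nat_lit 0x2cac2caa2ca82ca62ca40dd706) (nat_lit 0x2000004a1) (nat_lit 14))
 (.p (nat_lit 0x3981397d02) (nat_lit 0x73008000800) (nat_lit 35)))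
 (.p (nat_lit 0x304b005302) (nat_lit 0xa806) (nat_lit 33)))))
 (.n (.n (.n (.n (.p (nat_lit 0x19221920191e19180ced0ceb06) (nat_lit 0x60001d20) (nat_lit 15))
 (.p (nat_lit 0x34e114d002) (nat_lit 0x882e) (nat_lit 32)))
 (.n (.p (nat_lit 0xede0edd0eda0ed80ed60ed4002d07) (nat_lit 0x8083) (nat_lit 7))
 (.p (nat_lit 0x39fd3991384703) (nat_lit 0xb0400008080) (nat_lit 44))))
 (.n (.n (.p (nat_lit 0x18570da602) (nat_lit 0xa061) (nat_lit 4))
 (.p (nat_lit 0x3929390702) (nat_lit 0x90404000800) (nat_lit 35)))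
 (.p (nat_lit 0xfe10fc902) (nat_lit 0x4045) (nat_lit 18))))
 (.n (.n (.n (.p (nat_lit 0x1ad21ad01ace1aca1ac80d2906) (nat_lit 0x40001580) (nat_lit 15))
 (.p (nat_lit 0x380d380b02) (nat_lit 0xa4c04000000) (nat_lit 35)))
 (.p (nat_lit 0x2f4d0f3c02) (nat_lit 0x8044) (nat_lit 32)))
 (.n (.n (.p (nat_lit 0xe430e400e3e0e3c0e3a0e3902ae0023001909) (nat_lit 0x50862) (nat_lit 13))
 (.p (nat_lit 0x3a0d38c737ad03) (nat_lit 0x8d000000000) (nat_lit 43)))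
 (.p (nat_lit 0x1b2d107c02) (nat_lit 0x4866) (nat_lit 4)))))

def c512_311 : Tr :=
 .n (.n (.n (.n (.n (.p (nat_lit 0x10370cd702) (nat_lit 0x6d00) (nat_lit 19))
 (.p (nat_lit 0x1e5313a202) (nat_lit 0x602c) (nat_lit 4)))
 (.n (.p (nat_lit 0x284e284c284a28480e970e9506) (nat_lit 0x300001523) (nat_lit 14))
 (.p (nat_lit 0x3a393991384703) (nat_lit 0xb0400008060) (nat_lit 43))))
 (.n (.n (.p (nat_lit 0x2d8d001102) (nat_lit 0x4821) (nat_lit 33))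
 (.p (nat_lit 0x38c138bf02) (nat_lit 0x73400000800) (nat_lit 35)))
 (.p (nat_lit 0x223a22362234223222300fb506) (nat_lit 0x100001025) (nat_lit 14))))
 (.n (.n (.n (.p (nat_lit 0x24ce24ca24c624c40d210d1d06) (nat_lit 0x140000c60) (nat_lit 14))
 (.p (nat_lit 0x37af379f02) (nat_lit 0xab400000000) (nat_lit 35)))
 (.p (nat_lit 0x139b0f1b02) (nat_lit 0xaa04) (nat_lit 19)))
 (.n (.n (.p (nat_lit 0xe130e100e0e0e0d0e0a0e0802c60023001d09) (nat_lit 0x54822) (nat_lit 13))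
 (.p (nat_lit 0x39c139ab02) (nat_lit 0xb2c0a000800) (nat_lit 35)))
 (.p (nat_lit 0x17d217ce17cc17ca17c8105d06) (nat_lit 0x100001346) (nat_lit 15)))))
 (.n (.n (.n (.n (.p (nat_lit 0x19521950194e194c19480d0306) (nat_lit 0x20001940) (nat_lit 15))
 (.p (nat_lit 0x1a4e1a4c1a481a461a44160706) (nat_lit 0x80000850) (nat_lit 15)))
 (.n (.p (nat_lit 0x228e228c2288228622840ef306) (nat_lit 0x800004a3) (nat_lit 14))
 (.p (nat_lit 0x3a0b39bf387703) (nat_lit 0xa840000a0a0) (nat_lit 44))))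
 (.n (.n (.p (nat_lit 0x10810db102) (nat_lit 0x8c61) (nat_lit 19))
 (.p (nat_lit 0x394d394302) (nat_lit 0x61c06000800) (nat_lit 35)))
 (.p (nat_lit 0x1abb100a02) (nat_lit 0xa885) (nat_lit 4))))
 (.n (.n (.n (.p (nat_lit 0xf790d3902) (nat_lit 0x8b80) (nat_lit 19))
 (.p (nat_lit 0x3867385502) (nat_lit 0x8a008000000) (nat_lit 35)))
 (.p (nat_lit 0x1f821f801f7c1f7a0f770f7106) (nat_lit 0x90001984) (nat_lit 17)))
 (.n (.n (.p (nat_lit 0x17ae17aa17a817a617a40e5906) (nat_lit 0x100000a82) (nat_lit 15))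
 (.p (nat_lit 0x39d73937381f03) (nat_lit 0x9400006020) (nat_lit 44)))
 (.p (nat_lit 0x3e703db014e03) (nat_lit 0xa022006) (nat_lit 22)))))

def c256_55 : Tr := .n c512_55 c512_311

def c512_183 : Tr :=
 .n (.n (.n (.n (.n (.p (nat_lit 0x23062302230022fc0cd90cd306) (nat_lit 0x120000b00) (nat_lit 16))
 (.p (nat_lit 0x1da21da01d9e1d9c1d9a1d9806) (nat_lit 0x8aa) (nat_lit 2)))
 (.n (.p (nat_lit 0x23e71937031902f7011e05) (nat_lit 0x1446803) (nat_lit 9))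
 (.p (nat_lit 0x39e739bb389b03) (nat_lit 0x9cc0000a040) (nat_lit 44))))
 (.n (.n (.p (nat_lit 0xff0014001003) (nat_lit 0x14000a001) (nat_lit 20))
 (.p (nat_lit 0x38c138a902) (nat_lit 0x70800000800) (nat_lit 35)))
 (.p (nat_lit 0x1a510fa002) (nat_lit 0x805) (nat_lit 4))))
 (.n (.n (.n (.p (nat_lit 0x227f17cf02) (nat_lit 0x6860) (nat_lit 11))
 (.l (nat_lit 0x55200000000000000800) (nat_lit 0x4a346) (nat_lit 29)))
 (.p (nat_lit 0xf1a0f190f160f140f120f10003907) (nat_lit 0x8804) (nat_lit 7)))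
 (.n (.n (.p (nat_lit 0x2dfb001f02) (nat_lit 0x6002) (nat_lit 33))
 (.p (nat_lit 0x399f399b02) (nat_lit 0x28c0a000800) (nat_lit 35)))
 (.p (nat_lit 0x1b03105202) (nat_lit 0xa826) (nat_lit 4)))))
 (.n (.n (.n (.n (.p (nat_lit 0x198a1988198619840cff0cfd06) (nat_lit 0x300000440) (nat_lit 15))
 (.p (nat_lit 0x207f15ce02) (nat_lit 0xa010) (nat_lit 4)))
 (.n (.p (nat_lit 0x246c246a2468246624640eeb06) (nat_lit 0x200000883) (nat_lit 14))
 (.p (nat_lit 0x3a4d3929380903) (nat_lit 0x948000040a0) (nat_lit 43))))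
 (.n (.n (.p (nat_lit 0xdb20db00daf0dac0daa0da8001307) (nat_lit 0x6861) (nat_lit 7))
 (.p (nat_lit 0x3933392d02) (nat_lit 0xbd004000800) (nat_lit 35)))
 (.p (nat_lit 0xfe500b002) (nat_lit 0x8065) (nat_lit 1))))
 (.n (.n (.n (.p (nat_lit 0x251425122510250e0d3b0d3106) (nat_lit 0x210000980) (nat_lit 16))
 (.p (nat_lit 0x383c383638343830382e382c227307) (nat_lit 0x6000060) (nat_lit 38)))
 (.p (nat_lit 0x1ee61ee41ee01ede0f5f0f5906) (nat_lit 0x90000964) (nat_lit 15)))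
 (.n (.n (.p (nat_lit 0x226a22682264226222600e4b06) (nat_lit 0x80001282) (nat_lit 14))
 (.p (nat_lit 0x3a15397f385f03) (nat_lit 0x6b400008000) (nat_lit 43)))
 (.p (nat_lit 0x2b6a2b682b662b642b60108706) (nat_lit 0x20001286) (nat_lit 14)))))

def c512_439 : Tr :=
 .n (.n (.n (.n (.n (.p (nat_lit 0x18aa18a818a618a20ced0ce906) (nat_lit 0x50001820) (nat_lit 15))
 (.p (nat_lit 0x2a922a902a8e2a8a2a88149d06) (nat_lit 0x40001dad) (nat_lit 16)))
 (.n (.p (nat_lit 0xec60ec40ec20ec00ebf0ebc002707) (nat_lit 0x2063) (nat_lit 7))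
 (.p (nat_lit 0x3a3a140702) (nat_lit 0xa260) (nat_lit 48))))
 (.n (.n (.p (nat_lit 0xda30d8b02) (nat_lit 0x6041) (nat_lit 18))
 (.p (nat_lit 0x38ef38dd02) (nat_lit 0x69002000800) (nat_lit 35)))
 (.p (nat_lit 0x226a22662264226222600fc106) (nat_lit 0x100001a25) (nat_lit 14))))
 (.n (.n (.n (.p (nat_lit 0xd2f0d2c0d2a0d280d270d24022a000b000309) (nat_lit 0x52080) (nat_lit 13))
 (.p (nat_lit 0x37d137c502) (nat_lit 0x72002000000) (nat_lit 35)))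
 (.p (nat_lit 0xf320f300f2e0f2d0f2a0f28003507) (nat_lit 0x4824) (nat_lit 7)))
 (.n (.n (.p (nat_lit 0x18dd0e2c02) (nat_lit 0x62) (nat_lit 4))
 (.p (nat_lit 0x392639243920391e380705) (nat_lit 0x4404000000) (nat_lit 36)))
 (.p (nat_lit 0x22a622a4229e229c1067106506) (nat_lit 0xc0000d46) (nat_lit 16)))))
 (.n (.n (.n (.n (.p (nat_lit 0xe270d0702) (nat_lit 0x6940) (nat_lit 19))
 (.p (nat_lit 0x232a2326232423222320172906) (nat_lit 0x100001c52) (nat_lit 14)))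
 (.p (nat_lit 0x17f617f417f217ee17ec0efd06) (nat_lit 0x40000da3) (nat_lit 17)))
 (.n (.n (.p (nat_lit 0xdc7004e02) (nat_lit 0x6881) (nat_lit 1))
 (.p (nat_lit 0x398f396902) (nat_lit 0xa8808000800) (nat_lit 35)))
 (.p (nat_lit 0x20ba20b820b620b0101d101b06) (nat_lit 0x60001aa5) (nat_lit 17))))
 (.n (.n (.n (.p (nat_lit 0xd3f0cc702) (nat_lit 0x20a0) (nat_lit 18))
 (.p (nat_lit 0x3881387902) (nat_lit 0x3080a000000) (nat_lit 35)))
 (.p (nat_lit 0x2f9f003702) (nat_lit 0x68a4) (nat_lit 33)))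
 (.n (.n (.p (nat_lit 0x23122310230c230a0e630e5d06) (nat_lit 0x900013a2) (nat_lit 14))
 (.p (nat_lit 0x3a2339af389703) (nat_lit 0x6c40000a020) (nat_lit 43)))
 (.p (nat_lit 0x270311a202) (nat_lit 0xa868) (nat_lit 5)))))

def c256_183 : Tr := .n c512_183 c512_439

def c128_55 : Tr := .n c256_55 c256_183

def c512_119 : Tr :=
 .n (.n (.n (.n (.n (.p (nat_lit 0x180e180a180818060cd90cd106) (nat_lit 0x110000800) (nat_lit 17))
 (.p (nat_lit 0x12e512cd02) (nat_lit 0x808a) (nat_lit 18)))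
 (.n (.p (nat_lit 0xe7f0e7c0e7a0e790e760e74030e002f002909) (nat_lit 0x54003) (nat_lit 13))
 (.p (nat_lit 0x39e5398b386b03) (nat_lit 0x9cc00008040) (nat_lit 44))))
 (.n (.n (.p (nat_lit 0xd4d0cd502) (nat_lit 0x48a0) (nat_lit 18))
 (.p (nat_lit 0x38a0389e389c387c3876387417af07) (nat_lit 0xa000040) (nat_lit 37)))
 (.p (nat_lit 0x2faf0f9e02) (nat_lit 0xa005) (nat_lit 32))))
 (.n (.n (.n (.p (nat_lit 0xd250d0d02) (nat_lit 0x60) (nat_lit 18))
 (.p (nat_lit 0x8cd003502) (nat_lit 0x40a4) (nat_lit 31)))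
 (.p (nat_lit 0x228e228a2288228622840f0d06) (nat_lit 0x100000404) (nat_lit 14)))
 (.n (.n (.p (nat_lit 0x26502630261010004) (nat_lit 0x234001) (nat_lit 23))
 (.p (nat_lit 0x3999399502) (nat_lit 0x1000a000800) (nat_lit 35)))
 (.p (nat_lit 0x1830182e182c182a1828104706) (nat_lit 0x200001126) (nat_lit 17)))))
 (.n (.n (.n (.n (.p (nat_lit 0x17ab0cfa02) (nat_lit 0x6040) (nat_lit 4))
 (.p (nat_lit 0x15331531152e152c152a1528063e00b300b109) (nat_lit 0x588ae) (nat_lit 13)))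
 (.n (.p (nat_lit 0x1a421a3e1a3c1a3a1a380edd06) (nat_lit 0x100001583) (nat_lit 15))
 (.p (nat_lit 0x39fe17eb02) (nat_lit 0xa880) (nat_lit 45))))
 (.n (.n (.p (nat_lit 0x17dc17da17d817d40da70d9f06) (nat_lit 0x220000461) (nat_lit 15))
 (.p (nat_lit 0x3925391902) (nat_lit 0x82804000800) (nat_lit 35)))
 (.p (nat_lit 0x19ca19c819c619c20fd50fd106) (nat_lit 0x50001845) (nat_lit 15))))
 (.n (.n (.n (.p (nat_lit 0x22950d3402) (nat_lit 0x4880) (nat_lit 5))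
 (.p (nat_lit 0x383b381d02) (nat_lit 0x99006000000) (nat_lit 35)))
 (.p (nat_lit 0xf4a0f490f470f440f420f4003600039003709) (nat_lit 0x46844) (nat_lit 13)))
 (.n (.n (.p (nat_lit 0xed10e4102) (nat_lit 0x8b62) (nat_lit 19))
 (.p (nat_lit 0x39c9392f37e503) (nat_lit 0xa8000004000) (nat_lit 44)))
 (.p (nat_lit 0x1a961a941a921a8e107d107906) (nat_lit 0x50000b66) (nat_lit 17)))))

def c512_375 : Tr :=
 .n (.n (.n (.n (.n (.p (nat_lit 0xe010ce102) (nat_lit 0x4120) (nat_lit 19))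
 (.p (nat_lit 0x2973141202) (nat_lit 0xa8ac) (nat_lit 5)))
 (.n (.p (nat_lit 0xeb10e9902) (nat_lit 0x823) (nat_lit 18))
 (.p (nat_lit 0x3a3b3995387503) (nat_lit 0xa060) (nat_lit 43))))
 (.n (.n (.p (nat_lit 0xd87001a02) (nat_lit 0x2041) (nat_lit 1))
 (.p (nat_lit 0x38eb38d502) (nat_lit 0x58002000800) (nat_lit 35)))
 (.p (nat_lit 0x154d0fad02) (nat_lit 0x425) (nat_lit 19))))
 (.n (.n (.n (.p (nat_lit 0xdb30d2302) (nat_lit 0xa860) (nat_lit 19))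
 (.p (nat_lit 0x37cb37b702) (nat_lit 0x58402000000) (nat_lit 35)))
 (.p (nat_lit 0x196a19681966196419600f1f06) (nat_lit 0x20001224) (nat_lit 15)))
 (.n (.n (.p (nat_lit 0x2e3a2e382e362e342e322e30010c07) (nat_lit 0x842) (nat_lit 8))
 (.p (nat_lit 0x39c239a239a0399e399a3998399239723970396e396a3968396239423940393e393a3938393239123910390e390a3908390238e238e038de38da38d838d238b238b038ae38aa38a824) (nat_lit 0xa00) (nat_lit 39)))
 (.p (nat_lit 0x3079106802) (nat_lit 0x8846) (nat_lit 32)))))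
 (.n (.n (.n (.n (.p (nat_lit 0x244a24482444244224400d0706) (nat_lit 0x80001c40) (nat_lit 14))
 (.p (nat_lit 0x3725171402) (nat_lit 0x52) (nat_lit 32)))
 (.p (nat_lit 0x246319b3030d02f7011e05) (nat_lit 0x110a8a3) (nat_lit 9)))
 (.n (.n (.p (nat_lit 0x25bc25ba25b825b625b40dbf06) (nat_lit 0x200000281) (nat_lit 14))
 (.p (nat_lit 0x3944393e393c39383936393417cf07) (nat_lit 0x6000860) (nat_lit 37)))
 (.p (nat_lit 0x20ae20ac20a820a61013100d06) (nat_lit 0x900002a5) (nat_lit 17))))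
 (.n (.n (.n (.p (nat_lit 0x1b021b001afc1afa1af80d4306) (nat_lit 0x800011a0) (nat_lit 15))
 (.p (nat_lit 0x386b386502) (nat_lit 0x9c008000000) (nat_lit 35)))
 (.p (nat_lit 0x1a661a641a621a601a5e0f7d06) (nat_lit 0x100001a4) (nat_lit 15)))
 (.n (.n (.p (nat_lit 0xe730e5b02) (nat_lit 0xa882) (nat_lit 18))
 (.p (nat_lit 0x3a21398f384503) (nat_lit 0xa8000008020) (nat_lit 43)))
 (.p (nat_lit 0x26e5118402) (nat_lit 0x4848) (nat_lit 5)))))

def c256_119 : Tr := .n c512_119 c512_375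

def c512_247 : Tr :=
 .n (.n (.n (.n (.n (.p (nat_lit 0x187a1874187218700cd90cd706) (nat_lit 0x180001c00) (nat_lit 15))
 (.p (nat_lit 0x28dd137c02) (nat_lit 0x48ab) (nat_lit 5)))
 (.n (.p (nat_lit 0x191419121910190c0e8b0e8306) (nat_lit 0x220000d03) (nat_lit 15))
 (.p (nat_lit 0x39ed3927380903) (nat_lit 0x8c800004060) (nat_lit 44))))
 (.n (.n (.p (nat_lit 0x181d0d6c02) (nat_lit 0x21) (nat_lit 4))
 (.p (nat_lit 0x38c738b302) (nat_lit 0x89c00000800) (nat_lit 35)))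
 (.p (nat_lit 0x25d625d225d025ce25cc0fa906) (nat_lit 0x100000b05) (nat_lit 16))))
 (.n (.n (.n (.p (nat_lit 0x19d419d219ce19cc0d230d1d06) (nat_lit 0x240000960) (nat_lit 15))
 (.p (nat_lit 0x37af378902) (nat_lit 0xa8800000000) (nat_lit 35)))
 (.p (nat_lit 0x17d217d017ce17cc17ca0f1106) (nat_lit 0x10001b04) (nat_lit 17)))
 (.n (.n (.p (nat_lit 0x1c521c501c4e1c4a1c480df506) (nat_lit 0x40001b02) (nat_lit 17))
 (.p (nat_lit 0x39b539a102) (nat_lit 0x8180a000800) (nat_lit 35)))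
 (.p (nat_lit 0x1b07105602) (nat_lit 0x2046) (nat_lit 4)))))
 (.n (.n (.n (.n (.p (nat_lit 0x226517b502) (nat_lit 0x4840) (nat_lit 11))
 (.p (nat_lit 0x1b561b521b501b4e1b4c15f106) (nat_lit 0x100000d30) (nat_lit 15)))
 (.n (.p (nat_lit 0xef60ef40ef30ef00eee0eec002b07) (nat_lit 0x60a3) (nat_lit 7))
 (.p (nat_lit 0x3a093993384b03) (nat_lit 0xb8c000080a0) (nat_lit 44))))
 (.n (.n (.p (nat_lit 0x17c617c417c017be17bc0daf06) (nat_lit 0x80000b61) (nat_lit 17))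
 (.p (nat_lit 0x395f393902) (nat_lit 0xa8806000800) (nat_lit 35)))
 (.p (nat_lit 0x30030ff202) (nat_lit 0xa865) (nat_lit 32))))
 (.n (.n (.n (.p (nat_lit 0x1aa21aa01a9e1a980d350d3306) (nat_lit 0x60001b80) (nat_lit 15))
 (.p (nat_lit 0x384f384b02) (nat_lit 0x28c08000000) (nat_lit 35)))
 (.p (nat_lit 0xf870f6f02) (nat_lit 0xa084) (nat_lit 18)))
 (.n (.n (.p (nat_lit 0x123d0e4d02) (nat_lit 0x8182) (nat_lit 19))
 (.p (nat_lit 0x3a1b38d737b903) (nat_lit 0x8800002020) (nat_lit 43)))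
 (.p (nat_lit 0x1b5510a402) (nat_lit 0x80a6) (nat_lit 4)))))

def c512_503 : Tr :=
 .n (.n (.n (.n (.n (.p (nat_lit 0x23a2239e239c239a0cf10ce906) (nat_lit 0x110001b20) (nat_lit 14))
 (.p (nat_lit 0x2520251e251c251a251814bb06) (nat_lit 0x20000190e) (nat_lit 14)))
 (.n (.p (nat_lit 0xed20ed10ece0ecc0eca0ec8002d07) (nat_lit 0x8863) (nat_lit 7))
 (.p (nat_lit 0x3a3f38d737bd03) (nat_lit 0x9000002080) (nat_lit 43))))
 (.n (.n (.p (nat_lit 0x23ae23aa23a623a40d990d9506) (nat_lit 0x140000c41) (nat_lit 14))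
 (.p (nat_lit 0x38ff38eb02) (nat_lit 0xaac02000800) (nat_lit 35)))
 (.p (nat_lit 0x15eb0fbb02) (nat_lit 0x2d25) (nat_lit 19))))
 (.n (.n (.n (.p (nat_lit 0x252e252c252a252825240d2706) (nat_lit 0x20000280) (nat_lit 14))
 (.p (nat_lit 0x380537f302) (nat_lit 0x81c04000000) (nat_lit 35)))
 (.p (nat_lit 0x19a619a419a219a0199c0f2b06) (nat_lit 0x20000d24) (nat_lit 15)))
 (.n (.n (.p (nat_lit 0x19a619a419a219a0199e0e2d06) (nat_lit 0x10000562) (nat_lit 15))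
 (.p (nat_lit 0x39a639a439a0399e388705) (nat_lit 0x240a000000) (nat_lit 36)))
 (.p (nat_lit 0x1a4e1a481a461a441075107306) (nat_lit 0x180000066) (nat_lit 17)))))
 (.n (.n (.n (.n (.p (nat_lit 0x19be19bc19ba19b40d110d0f06) (nat_lit 0x60000060) (nat_lit 17))
 (.p (nat_lit 0x2ca9174802) (nat_lit 0x4092) (nat_lit 5)))
 (.p (nat_lit 0x31b02f7011e03) (nat_lit 0xa030003) (nat_lit 22)))
 (.n (.n (.p (nat_lit 0x1b3e1b3a1b381b360dc90dc106) (nat_lit 0x110000c81) (nat_lit 17))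
 (.p (nat_lit 0x3989397102) (nat_lit 0x91808000800) (nat_lit 35)))
 (.p (nat_lit 0x1ad5102402) (nat_lit 0x6) (nat_lit 4))))
 (.n (.n (.n (.p (nat_lit 0xd520d500d4e0d4d0d4a0d4902180005000109) (nat_lit 0x208a0) (nat_lit 13))
 (.p (nat_lit 0x38a1387f02) (nat_lit 0xb140a000000) (nat_lit 35)))
 (.p (nat_lit 0xf8b0f1302) (nat_lit 0x28a4) (nat_lit 18)))
 (.n (.n (.p (nat_lit 0x22ee22ec22e822e622e40e6f06) (nat_lit 0x80000aa2) (nat_lit 16))
 (.p (nat_lit 0x39df38d937b903) (nat_lit 0x10800002040) (nat_lit 44)))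
 (.p (nat_lit 0x185618541852184e184c11b506) (nat_lit 0x40000b88) (nat_lit 15)))))

def c256_247 : Tr := .n c512_247 c512_503

def c128_119 : Tr := .n c256_119 c256_247

def c64_55 : Tr := .n c128_55 c128_119

def c32_23 : Tr := .n c64_23 c64_55

def c16_7 : Tr := .n c32_7 c32_23

def cb4_7 : Tr := c16_7

def c512_8 : Tr :=
 .n (.n (.n (.n (.n (.p (nat_lit 0x2225177502) (nat_lit 0x0) (nat_lit 11))
 (.p (nat_lit 0x2789122802) (nat_lit 0x869) (nat_lit 5)))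
 (.n (.p (nat_lit 0x1862185c185a18580e710e6f06) (nat_lit 0x180001ba2) (nat_lit 15))
 (.p (nat_lit 0x39df38d937c103) (nat_lit 0x11800002040) (nat_lit 44))))
 (.n (.n (.p (nat_lit 0x259a25982594259225900d4f06) (nat_lit 0x800018a0) (nat_lit 14))
 (.p (nat_lit 0x38a1388102) (nat_lit 0xb180a000000) (nat_lit 35)))
 (.p (nat_lit 0x10230f9302) (nat_lit 0xada4) (nat_lit 19))))
 (.n (.n (.n (.p (nat_lit 0x247a2478247624700d110d0f06) (nat_lit 0x60001060) (nat_lit 16))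
 (.p (nat_lit 0x7cd000d02) (nat_lit 0x41) (nat_lit 31)))
 (.p (nat_lit 0x131003002) (nat_lit 0x1000c004) (nat_lit 20)))
 (.n (.n (.p (nat_lit 0xe590dc902) (nat_lit 0x8a81) (nat_lit 19))
 (.p (nat_lit 0x397b397502) (nat_lit 0x5a008000800) (nat_lit 35)))
 (.p (nat_lit 0x258f102e02) (nat_lit 0xa006) (nat_lit 5)))))
 (.n (.n (.n (.n (.p (nat_lit 0x23ae23aa23a823a60cf10ce906) (nat_lit 0x110000c20) (nat_lit 16))
 (.p (nat_lit 0x14c614c414c214c014bf14bc00ab07) (nat_lit 0x202e) (nat_lit 7)))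
 (.n (.p (nat_lit 0x1e4a1e481e441e420ecf0ec906) (nat_lit 0x90001863) (nat_lit 17))
 (.p (nat_lit 0x39f60f8b02) (nat_lit 0x2a80) (nat_lit 47))))
 (.n (.n (.p (nat_lit 0xdb10d9902) (nat_lit 0x8841) (nat_lit 18))
 (.p (nat_lit 0x390338f702) (nat_lit 0xbc402000800) (nat_lit 35)))
 (.p (nat_lit 0x25290fc802) (nat_lit 0x4045) (nat_lit 5))))
 (.n (.n (.n (.p (nat_lit 0x253a2538253225300d2b0d2906) (nat_lit 0xc0001280) (nat_lit 14))
 (.p (nat_lit 0x380137f902) (nat_lit 0x72804000000) (nat_lit 35)))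
 (.p (nat_lit 0x19b019ae19ac19aa0f330f2906) (nat_lit 0x210001d24) (nat_lit 15)))
 (.n (.n (.p (nat_lit 0x118d0e2d02) (nat_lit 0x62) (nat_lit 19))
 (.p (nat_lit 0x39c538cf378703) (nat_lit 0xa8400000000) (nat_lit 44)))
 (.p (nat_lit 0x2522251e251c25181075106f06) (nat_lit 0x120001166) (nat_lit 14)))))

def c512_264 : Tr :=
 .n (.n (.n (.n (.n (.p (nat_lit 0x18921890188c188a18880cd706) (nat_lit 0x80001d00) (nat_lit 15))
 (.p (nat_lit 0x28e9138802) (nat_lit 0x400c) (nat_lit 5)))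
 (.n (.p (nat_lit 0xf190e8902) (nat_lit 0x8c03) (nat_lit 19))
 (.p (nat_lit 0x3a34227102) (nat_lit 0x4060) (nat_lit 46))))
 (.n (.n (.p (nat_lit 0x2d850d7402) (nat_lit 0x8021) (nat_lit 32))
 (.p (nat_lit 0x38d338b502) (nat_lit 0xba000000800) (nat_lit 35)))
 (.p (nat_lit 0xfc10fa902) (nat_lit 0x8805) (nat_lit 18))))
 (.n (.n (.n (.p (nat_lit 0x19e019de19dc19da0d230d1906) (nat_lit 0x210001960) (nat_lit 15))
 (.p (nat_lit 0x37ad378f02) (nat_lit 0xa1400000000) (nat_lit 35)))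
 (.p (nat_lit 0x17de17dc17d817d40f170f1306) (nat_lit 0xa0000c04) (nat_lit 15)))
 (.n (.n (.p (nat_lit 0x2e162e142e122e102e0e2e0c010c07) (nat_lit 0x22) (nat_lit 8))
 (.p (nat_lit 0x39bd39a302) (nat_lit 0xa1c0a000800) (nat_lit 35)))
 (.p (nat_lit 0x25bf105e02) (nat_lit 0xa046) (nat_lit 5)))))
 (.n (.n (.n (.n (.p (nat_lit 0xd0b0d080d060d040d020d01021e000b000109) (nat_lit 0x50840) (nat_lit 13))
 (.p (nat_lit 0x20ad15fc02) (nat_lit 0x8050) (nat_lit 4)))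
 (.n (.p (nat_lit 0x178a17881786178417800eef06) (nat_lit 0x200010a3) (nat_lit 15))
 (.p (nat_lit 0x3a513973385903) (nat_lit 0x3a8000080a0) (nat_lit 43))))
 (.n (.n (.p (nat_lit 0x228e228c228822860daf0da906) (nat_lit 0x90000c61) (nat_lit 14))
 (.p (nat_lit 0x3951393d02) (nat_lit 0x71006000800) (nat_lit 35)))
 (.p (nat_lit 0x1f8c1f8a1f861f840ff30fed06) (nat_lit 0x240000a65) (nat_lit 15))))
 (.n (.n (.n (.p (nat_lit 0x1aae1aaa1aa81aa40d390d3306) (nat_lit 0x120000c80) (nat_lit 17))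
 (.p (nat_lit 0x3861384d02) (nat_lit 0x71008000000) (nat_lit 35)))
 (.p (nat_lit 0x2f83003302) (nat_lit 0x2884) (nat_lit 33)))
 (.n (.n (.p (nat_lit 0x2e610e5002) (nat_lit 0x882) (nat_lit 32))
 (.p (nat_lit 0x3a1d392d37e503) (nat_lit 0xa0000004020) (nat_lit 43)))
 (.p (nat_lit 0x30bd10ac02) (nat_lit 0x48a6) (nat_lit 32)))))

def c256_8 : Tr := .n c512_8 c512_264

def c512_136 : Tr :=
 .n (.n (.n (.n (.n (.p (nat_lit 0x22e222dc22da22d80cd90cd706) (nat_lit 0x180001900) (nat_lit 14))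
 (.p (nat_lit 0x12db002e02) (nat_lit 0xa88a) (nat_lit 1)))
 (.n (.p (nat_lit 0x239e239c239a23980e7f0e7d06) (nat_lit 0x300001303) (nat_lit 16))
 (.p (nat_lit 0x3a2c226902) (nat_lit 0x8840) (nat_lit 46))))
 (.n (.n (.p (nat_lit 0xefb0d4b02) (nat_lit 0x2aa0) (nat_lit 19))
 (.p (nat_lit 0x38b138a502) (nat_lit 0x30000000800) (nat_lit 35)))
 (.p (nat_lit 0x1b021afe1afc1afa1af80f9d06) (nat_lit 0x100001105) (nat_lit 15))))
 (.n (.n (.n (.p (nat_lit 0xe370d1702) (nat_lit 0xa160) (nat_lit 19))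
 (.p (nat_lit 0x8df005202) (nat_lit 0xa005) (nat_lit 30)))
 (.p (nat_lit 0x22a222a0229e229c0f0f0f0d06) (nat_lit 0x300000504) (nat_lit 14)))
 (.n (.n (.p (nat_lit 0x289026300fe03) (nat_lit 0x6040001) (nat_lit 22))
 (.p (nat_lit 0x39bf399502) (nat_lit 0xa800a000800) (nat_lit 35)))
 (.p (nat_lit 0x186a1868186618641047104506) (nat_lit 0x300000426) (nat_lit 17)))))
 (.n (.n (.n (.n (.p (nat_lit 0x23ea23e823e623e40cf70cf506) (nat_lit 0x30001040) (nat_lit 14))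
 (.p (nat_lit 0x2aab154a02) (nat_lit 0xa80f) (nat_lit 5)))
 (.n (.p (nat_lit 0xf670ed702) (nat_lit 0x2483) (nat_lit 19))
 (.p (nat_lit 0x3a000db502) (nat_lit 0x1a0) (nat_lit 47))))
 (.n (.n (.p (nat_lit 0x1802180017fe17fa0da10d9d06) (nat_lit 0x50001561) (nat_lit 15))
 (.p (nat_lit 0x392d391d02) (nat_lit 0xa3004000800) (nat_lit 35)))
 (.p (nat_lit 0x24da24d824d624d224d00fd506) (nat_lit 0x40001c45) (nat_lit 14))))
 (.n (.n (.n (.p (nat_lit 0xd3b0d380d360d340d320d30000b07) (nat_lit 0xa880) (nat_lit 7))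
 (.p (nat_lit 0x3839381f02) (nat_lit 0x91406000000) (nat_lit 35)))
 (.p (nat_lit 0xfd70f4702) (nat_lit 0x6d44) (nat_lit 19)))
 (.n (.n (.p (nat_lit 0x18fb0e4a02) (nat_lit 0x6082) (nat_lit 4))
 (.p (nat_lit 0x39c8178502) (nat_lit 0x4800) (nat_lit 45)))
 (.p (nat_lit 0x1743108302) (nat_lit 0xa866) (nat_lit 19)))))

def c512_392 : Tr :=
 .n (.n (.n (.n (.n (.p (nat_lit 0x10450ce502) (nat_lit 0x8520) (nat_lit 19))
 (.p (nat_lit 0x2979141802) (nat_lit 0x400d) (nat_lit 5)))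
 (.n (.p (nat_lit 0x24090ea802) (nat_lit 0x4043) (nat_lit 5))
 (.p (nat_lit 0x3a3b399b388103) (nat_lit 0x1980000a060) (nat_lit 43))))
 (.n (.n (.p (nat_lit 0x22ed0d8c02) (nat_lit 0x8041) (nat_lit 5))
 (.p (nat_lit 0x38e338d702) (nat_lit 0x38402000800) (nat_lit 35)))
 (.p (nat_lit 0x2fcd0fbc02) (nat_lit 0x4825) (nat_lit 32))))
 (.n (.n (.n (.p (nat_lit 0xf610d2102) (nat_lit 0x8b60) (nat_lit 19))
 (.p (nat_lit 0x37cb37b902) (nat_lit 0x58802000000) (nat_lit 35)))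
 (.p (nat_lit 0x2456245424522450244c0f1f06) (nat_lit 0x20000524) (nat_lit 14)))
 (.n (.n (.p (nat_lit 0x18d70e2602) (nat_lit 0x6842) (nat_lit 4))
 (.p (nat_lit 0x38c438be38bc37a504) (nat_lit 0x4000000000) (nat_lit 36)))
 (.p (nat_lit 0x178a1788178617821780106506) (nat_lit 0x40001846) (nat_lit 15)))))
 (.n (.n (.n (.n (.p (nat_lit 0x245624542450244e0d070d0106) (nat_lit 0x90000d40) (nat_lit 16))
 (.p (nat_lit 0x171f001602) (nat_lit 0xa052) (nat_lit 1)))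
 (.p (nat_lit 0x22522250224e224c224a0ef906) (nat_lit 0x100019a3) (nat_lit 14)))
 (.n (.n (.p (nat_lit 0x25e225de25dc25da25d80dbd06) (nat_lit 0x100001381) (nat_lit 14))
 (.p (nat_lit 0x397d396502) (nat_lit 0x60008000800) (nat_lit 35)))
 (.p (nat_lit 0x2579101802) (nat_lit 0x8a5) (nat_lit 5))))
 (.n (.n (.n (.p (nat_lit 0x1b0c1b081b061b040d470d4306) (nat_lit 0x2800002a0) (nat_lit 17))
 (.p (nat_lit 0x386c386638643860385e385c227507) (nat_lit 0x8000060) (nat_lit 38)))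
 (.p (nat_lit 0x253a2536253225300f850f8106) (nat_lit 0x1400012a4) (nat_lit 16)))
 (.n (.n (.p (nat_lit 0x2e6d001902) (nat_lit 0xa2) (nat_lit 33))
 (.p (nat_lit 0x3a213973385903) (nat_lit 0x3a800008020) (nat_lit 43)))
 (.p (nat_lit 0x26ef118e02) (nat_lit 0x2068) (nat_lit 5)))))

def c256_136 : Tr := .n c512_136 c512_392

def c128_8 : Tr := .n c256_8 c256_136

def c512_72 : Tr :=
 .n (.n (.n (.n (.n (.p (nat_lit 0xde70cc702) (nat_lit 0x2100) (nat_lit 19))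
 (.p (nat_lit 0x32cb12ba02) (nat_lit 0x286a) (nat_lit 32)))
 (.n (.p (nat_lit 0x11f0026002403) (nat_lit 0x3000a003) (nat_lit 20))
 (.p (nat_lit 0x3a2a0f2f02) (nat_lit 0x6c40) (nat_lit 48))))
 (.n (.n (.p (nat_lit 0x1b261b241b201b1e0d4f0d4906) (nat_lit 0x90000ba0) (nat_lit 15))
 (.p (nat_lit 0x38a3388d02) (nat_lit 0xbb00a000000) (nat_lit 35)))
 (.p (nat_lit 0x13f0044003c03) (nat_lit 0x11000a005) (nat_lit 20))))
 (.n (.n (.n (.p (nat_lit 0x1a1e1a1c1a1a1a180d0f0d0d06) (nat_lit 0x30000460) (nat_lit 15))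
 (.p (nat_lit 0x853002702) (nat_lit 0x2023) (nat_lit 31)))
 (.p (nat_lit 0x246f19bf03630355012e05) (nat_lit 0x113a004) (nat_lit 9)))
 (.n (.n (.p (nat_lit 0x10a50dd502) (nat_lit 0x84a1) (nat_lit 19))
 (.p (nat_lit 0x398f397f02) (nat_lit 0xab408000800) (nat_lit 35)))
 (.p (nat_lit 0x21f221ee21ec21e81039103306) (nat_lit 0x120001b06) (nat_lit 17)))))
 (.n (.n (.n (.n (.p (nat_lit 0xd0b0cf302) (nat_lit 0xa820) (nat_lit 18))
 (.p (nat_lit 0x1a281a261a221a2014d314cd06) (nat_lit 0x240001c2e) (nat_lit 17)))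
 (.n (.p (nat_lit 0xede0edc0edb0ed90ed60ed4030a002b002909) (nat_lit 0x34083) (nat_lit 13))
 (.p (nat_lit 0x39fd3979385b03) (nat_lit 0x52c00008080) (nat_lit 44))))
 (.n (.n (.p (nat_lit 0x22382236223422300da70d9f06) (nat_lit 0x220001061) (nat_lit 16))
 (.p (nat_lit 0x3921390b02) (nat_lit 0x70c04000800) (nat_lit 35)))
 (.p (nat_lit 0x2fea2fe82fe62fe42fe22fe0013c07) (nat_lit 0x845) (nat_lit 8))))
 (.n (.n (.n (.p (nat_lit 0xdbf0d2f02) (nat_lit 0xa080) (nat_lit 19))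
 (.p (nat_lit 0x381d381502) (nat_lit 0x20006000000) (nat_lit 35)))
 (.p (nat_lit 0x29062904290028fe28fc0f3b06) (nat_lit 0x80000144) (nat_lit 14)))
 (.n (.n (.p (nat_lit 0x194419421940193e193c0e4306) (nat_lit 0x200000962) (nat_lit 15))
 (.p (nat_lit 0x39c738d537b503) (nat_lit 0x2000) (nat_lit 44)))
 (.p (nat_lit 0x25e3108202) (nat_lit 0xa866) (nat_lit 5)))))

def c512_328 : Tr :=
 .n (.n (.n (.n (.n (.p (nat_lit 0x22470ce602) (nat_lit 0xa020) (nat_lit 5))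
 (.p (nat_lit 0x1ead13fc02) (nat_lit 0xac) (nat_lit 4)))
 (.n (.p (nat_lit 0x194b0e9a02) (nat_lit 0x2823) (nat_lit 4))
 (.p (nat_lit 0x3a393979385903) (nat_lit 0x52800008060) (nat_lit 43))))
 (.n (.n (.p (nat_lit 0xd820d810d7e0d7c0d7a0d7902640015000d09) (nat_lit 0x40821) (nat_lit 13))
 (.p (nat_lit 0x38c538c302) (nat_lit 0x83c00000800) (nat_lit 35)))
 (.p (nat_lit 0x17ba17b817b617b417b20fad06) (nat_lit 0x10001225) (nat_lit 15))))
 (.n (.n (.n (.p (nat_lit 0x24d824d624d224d00d230d1d06) (nat_lit 0x240001c60) (nat_lit 14))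
 (.p (nat_lit 0x37a937a702) (nat_lit 0x94400000000) (nat_lit 35)))
 (.p (nat_lit 0xf260f240f220f200f1e0f1d003107) (nat_lit 0x24) (nat_lit 7)))
 (.n (.n (.p (nat_lit 0x2e250e1402) (nat_lit 0x42) (nat_lit 32))
 (.p (nat_lit 0x39bd39b102) (nat_lit 0xa380a000800) (nat_lit 35)))
 (.p (nat_lit 0x17f617f417f017ee17ec105b06) (nat_lit 0x80000546) (nat_lit 17)))))
 (.n (.n (.n (.n (.p (nat_lit 0x195e195c195a19580d030d0106) (nat_lit 0x30000a40) (nat_lit 17))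
 (.p (nat_lit 0x20bf160e02) (nat_lit 0x2070) (nat_lit 4)))
 (.n (.p (nat_lit 0x22a222a0229e229c0ef70ef506) (nat_lit 0x3000005a3) (nat_lit 16))
 (.p (nat_lit 0x3a0b39a1388303) (nat_lit 0x31c0000a0a0) (nat_lit 44))))
 (.n (.n (.p (nat_lit 0xdb9004c02) (nat_lit 0x4081) (nat_lit 1))
 (.p (nat_lit 0x395b394502) (nat_lit 0x9a006000800) (nat_lit 35)))
 (.p (nat_lit 0x1abd100c02) (nat_lit 0xa5) (nat_lit 4))))
 (.n (.n (.n (.p (nat_lit 0x229d0d3c02) (nat_lit 0xa0) (nat_lit 5))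
 (.p (nat_lit 0x386d385702) (nat_lit 0xa2408000000) (nat_lit 35)))
 (.p (nat_lit 0x10090f7902) (nat_lit 0x8d84) (nat_lit 19)))
 (.n (.n (.p (nat_lit 0x17d217d017ce17ca17c80e5506) (nat_lit 0x40001b82) (nat_lit 15))
 (.p (nat_lit 0x3a1f394b382b03) (nat_lit 0x5ac00006020) (nat_lit 43)))
 (.p (nat_lit 0x1ba510f402) (nat_lit 0x4847) (nat_lit 4)))))

def c256_72 : Tr := .n c512_72 c512_328

def c512_200 : Tr :=
 .n (.n (.n (.n (.n (.p (nat_lit 0x18621860185c18580cd70cd306) (nat_lit 0xa0001b00) (nat_lit 17))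
 (.p (nat_lit 0x1da112f002) (nat_lit 0x88aa) (nat_lit 4)))
 (.n (.p (nat_lit 0x189e189c1898189618940e8706) (nat_lit 0x80000803) (nat_lit 17))
 (.p (nat_lit 0x39e938c537ad03) (nat_lit 0x85000000060) (nat_lit 44))))
 (.n (.n (.p (nat_lit 0x22b90d5802) (nat_lit 0x4001) (nat_lit 5))
 (.p (nat_lit 0x38cd38ab02) (nat_lit 0xa0c00000800) (nat_lit 35)))
 (.p (nat_lit 0x25070fa602) (nat_lit 0x6805) (nat_lit 5))))
 (.n (.n (.n (.p (nat_lit 0xd220d210d1e0d1c0d1b0d1802280009000309) (nat_lit 0x42860) (nat_lit 13))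
 (.p (nat_lit 0x9e7006b02) (nat_lit 0xa088) (nat_lit 31)))
 (.p (nat_lit 0x177c177a177817760f1b0f1106) (nat_lit 0x210000804) (nat_lit 17)))
 (.n (.n (.p (nat_lit 0x1c441c421c401c3e1c3c0def06) (nat_lit 0x200000302) (nat_lit 17))
 (.p (nat_lit 0x39c1399b02) (nat_lit 0xb0c0a000800) (nat_lit 35)))
 (.p (nat_lit 0x182618221820181c1051104b06) (nat_lit 0x120000926) (nat_lit 17)))))
 (.n (.n (.n (.n (.p (nat_lit 0x19a219a0199e199c0cff0cfd06) (nat_lit 0x300000540) (nat_lit 17))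
 (.p (nat_lit 0x15e3004e02) (nat_lit 0x6030) (nat_lit 1)))
 (.n (.p (nat_lit 0x19de19dc19da19d80eeb0ee906) (nat_lit 0x300001983) (nat_lit 17))
 (.p (nat_lit 0x3a07393d381d03) (nat_lit 0x210000060a0) (nat_lit 44))))
 (.n (.n (.p (nat_lit 0xdb30db10dae0dac0daa0da802960017001509) (nat_lit 0x58861) (nat_lit 13))
 (.p (nat_lit 0x3945393502) (nat_lit 0x40006000800) (nat_lit 35)))
 (.p (nat_lit 0x1f5e1f5c1f5a1f560fe10fdd06) (nat_lit 0x50000065) (nat_lit 17))))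
 (.n (.n (.n (.p (nat_lit 0x1a721a6e1a6a1a680d390d3506) (nat_lit 0x140001980) (nat_lit 17))
 (.p (nat_lit 0x3861384502) (nat_lit 0x70008000000) (nat_lit 35)))
 (.p (nat_lit 0x24c70f6602) (nat_lit 0x2084) (nat_lit 5)))
 (.n (.n (.p (nat_lit 0x2282227e227c227a22780e4d06) (nat_lit 0x100001382) (nat_lit 14))
 (.p (nat_lit 0x3a1411b902) (nat_lit 0x8900) (nat_lit 48)))
 (.p (nat_lit 0x1b45109402) (nat_lit 0x4886) (nat_lit 4)))))

def c512_456 : Tr :=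
 .n (.n (.n (.n (.n (.p (nat_lit 0x18b618b418b018ae18ac0cef06) (nat_lit 0x80000920) (nat_lit 17))
 (.p (nat_lit 0x1f5d14ac02) (nat_lit 0x800e) (nat_lit 4)))
 (.n (.p (nat_lit 0x2ed7002f02) (nat_lit 0xa063) (nat_lit 33))
 (.p (nat_lit 0x3a3d38bf379f03) (nat_lit 0x6b400000080) (nat_lit 43))))
 (.n (.n (.p (nat_lit 0x2daa2da82da62da42da22da000fc07) (nat_lit 0x841) (nat_lit 8))
 (.p (nat_lit 0x38ed38df02) (nat_lit 0x61402000800) (nat_lit 35)))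
 (.p (nat_lit 0x228e228c228a228822840fbb06) (nat_lit 0x20000c25) (nat_lit 16))))
 (.n (.n (.n (.p (nat_lit 0x1a5a1a581a561a521a500d2906) (nat_lit 0x40001080) (nat_lit 15))
 (.p (nat_lit 0x37e737e502) (nat_lit 0x8004000000) (nat_lit 35)))
 (.p (nat_lit 0xf330f300f2e0f2c0f2a0f28003b07) (nat_lit 0xa824) (nat_lit 7)))
 (.n (.n (.p (nat_lit 0xe360e340e330e300e2e0e2c001f07) (nat_lit 0x6062) (nat_lit 7))
 (.p (nat_lit 0x3948394639423940382905) (nat_lit 0x2806000000) (nat_lit 36)))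
 (.p (nat_lit 0x1081106902) (nat_lit 0x8846) (nat_lit 18)))))
 (.n (.n (.n (.n (.p (nat_lit 0xfd50d0502) (nat_lit 0x4c40) (nat_lit 19))
 (.p (nat_lit 0x2c93173202) (nat_lit 0x6072) (nat_lit 5)))
 (.p (nat_lit 0x140d0efd02) (nat_lit 0x4ba3) (nat_lit 19)))
 (.n (.n (.p (nat_lit 0x232b187b026d026700fe05) (nat_lit 0x88a881) (nat_lit 9))
 (.p (nat_lit 0x396f396d02) (nat_lit 0x29008000800) (nat_lit 35)))
 (.p (nat_lit 0x38d0381013e03) (nat_lit 0x4010005) (nat_lit 22))))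
 (.n (.n (.n (.p (nat_lit 0xf850d4502) (nat_lit 0x83a0) (nat_lit 19))
 (.p (nat_lit 0x387d387b02) (nat_lit 0x20c0a000000) (nat_lit 35)))
 (.p (nat_lit 0xf930f900f8e0f8c0f8b0f88034a003b003309) (nat_lit 0x528a4) (nat_lit 13)))
 (.n (.n (.p (nat_lit 0xeef0e5f02) (nat_lit 0x23a2) (nat_lit 19))
 (.p (nat_lit 0x3a22225302) (nat_lit 0xa820) (nat_lit 46)))
 (.p (nat_lit 0x27051c550483045d016e05) (nat_lit 0x15c0088) (nat_lit 9)))))

def c256_200 : Tr := .n c512_200 c512_456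

def c128_72 : Tr := .n c256_72 c256_200

def c64_8 : Tr := .n c128_8 c128_72

def c512_40 : Tr :=
 .n (.n (.n (.n (.n (.p (nat_lit 0x185618521850184e0ccd0cc506) (nat_lit 0x110000300) (nat_lit 17))
 (.p (nat_lit 0x12cb123b02) (nat_lit 0x6389) (nat_lit 19)))
 (.n (.p (nat_lit 0x2af02a9010e03) (nat_lit 0x54002) (nat_lit 22))
 (.p (nat_lit 0x3a2b3935381d03) (nat_lit 0x1000006040) (nat_lit 43))))
 (.n (.n (.p (nat_lit 0x25be25bc25ba25b625b40d4d06) (nat_lit 0x40000aa0) (nat_lit 16))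
 (.p (nat_lit 0x3899388702) (nat_lit 0x9240a000000) (nat_lit 35)))
 (.p (nat_lit 0x35503450339013004) (nat_lit 0x4210004) (nat_lit 23))))
 (.n (.n (.n (.p (nat_lit 0x2492248e248c248a24880d1506) (nat_lit 0x100001160) (nat_lit 14))
 (.p (nat_lit 0x7d00220020001a0018000706) (nat_lit 0x34442) (nat_lit 29)))
 (.p (nat_lit 0x12d003a0036003404) (nat_lit 0x2c0008004) (nat_lit 20)))
 (.n (.n (.p (nat_lit 0x23370dd602) (nat_lit 0xa0a1) (nat_lit 5))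
 (.p (nat_lit 0x3985397902) (nat_lit 0x82808000800) (nat_lit 35)))
 (.p (nat_lit 0x2595103402) (nat_lit 0x4806) (nat_lit 5)))))
 (.n (.n (.n (.n (.p (nat_lit 0x191619141912190e190c0ced06) (nat_lit 0x40000d20) (nat_lit 15))
 (.p (nat_lit 0x1f7b14ca02) (nat_lit 0x282e) (nat_lit 4)))
 (.n (.p (nat_lit 0xed9003402) (nat_lit 0x4083) (nat_lit 1))
 (.p (nat_lit 0x3a433947382703) (nat_lit 0x4a400006080) (nat_lit 43))))
 (.n (.n (.p (nat_lit 0x18510da002) (nat_lit 0x4061) (nat_lit 4))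
 (.p (nat_lit 0x391f390502) (nat_lit 0x68004000800) (nat_lit 35)))
 (.p (nat_lit 0x24922490248c248a24880fcb06) (nat_lit 0x80001145) (nat_lit 14))))
 (.n (.n (.n (.p (nat_lit 0x1aba1ab61ab41ab21ab00d2d06) (nat_lit 0x100001480) (nat_lit 17))
 (.p (nat_lit 0x380d380502) (nat_lit 0xa4004000000) (nat_lit 35)))
 (.p (nat_lit 0x24990f3802) (nat_lit 0x4044) (nat_lit 5)))
 (.n (.n (.p (nat_lit 0x239f0e3e02) (nat_lit 0x6862) (nat_lit 5))
 (.p (nat_lit 0x3a0d38c137a103) (nat_lit 0x73800000000) (nat_lit 43)))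
 (.p (nat_lit 0x16a7107702) (nat_lit 0xa566) (nat_lit 19)))))

def c512_296 : Tr :=
 .n (.n (.n (.n (.n (.p (nat_lit 0xf110cd102) (nat_lit 0xb00) (nat_lit 19))
 (.p (nat_lit 0x192e192c192a19261924139506) (nat_lit 0x4000080c) (nat_lit 17)))
 (.n (.p (nat_lit 0xe970e940e920e900e8f0e8c0302002f002709) (nat_lit 0x52023) (nat_lit 13))
 (.p (nat_lit 0x3a36227302) (nat_lit 0x6060) (nat_lit 46))))
 (.n (.n (.p (nat_lit 0x10470d7702) (nat_lit 0xa421) (nat_lit 19))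
 (.p (nat_lit 0x38c738bb02) (nat_lit 0x8ac00000800) (nat_lit 35)))
 (.p (nat_lit 0x1a650fb402) (nat_lit 0x8025) (nat_lit 4))))
 (.n (.n (.n (.p (nat_lit 0x1a061a041a0019fe19fc0d1f06) (nat_lit 0x80000b60) (nat_lit 17))
 (.p (nat_lit 0x37a1379d02) (nat_lit 0x73000000000) (nat_lit 35)))
 (.p (nat_lit 0x180217fe17fa17f80f190f1506) (nat_lit 0x140001d04) (nat_lit 15)))
 (.n (.n (.p (nat_lit 0xe950e0502) (nat_lit 0x8322) (nat_lit 19))
 (.p (nat_lit 0x39af39a902) (nat_lit 0x6a80a000800) (nat_lit 35)))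
 (.p (nat_lit 0x17c617c417c217c017bc105706) (nat_lit 0x20000346) (nat_lit 15)))))
 (.n (.n (.n (.n (.p (nat_lit 0x193819361934193219300d0b06) (nat_lit 0x200001840) (nat_lit 15))
 (.p (nat_lit 0x160a1608160616051602160000c507) (nat_lit 0x4850) (nat_lit 7)))
 (.n (.p (nat_lit 0x2276227422722270226e0eed06) (nat_lit 0x100003a3) (nat_lit 14))
 (.p (nat_lit 0x3a0817f502) (nat_lit 0x80a0) (nat_lit 45))))
 (.n (.n (.p (nat_lit 0xdc90db102) (nat_lit 0x8861) (nat_lit 18))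
 (.p (nat_lit 0x394b394102) (nat_lit 0x59806000800) (nat_lit 35)))
 (.p (nat_lit 0x10850ff502) (nat_lit 0x85) (nat_lit 19))))
 (.n (.n (.n (.p (nat_lit 0xe530d3302) (nat_lit 0x2980) (nat_lit 19))
 (.p (nat_lit 0x3855385302) (nat_lit 0x41c08000000) (nat_lit 35)))
 (.p (nat_lit 0xf7a0f790f760f740f730f7003480039003309) (nat_lit 0x42884) (nat_lit 13)))
 (.n (.n (.p (nat_lit 0x22462240223e223c0e590e5706) (nat_lit 0x180000982) (nat_lit 16))
 (.p (nat_lit 0x3a1c0d8902) (nat_lit 0x4520) (nat_lit 48)))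
 (.p (nat_lit 0x3f103cb014e03) (nat_lit 0x6040006) (nat_lit 22)))))

def c256_40 : Tr := .n c512_40 c512_296

def c512_168 : Tr :=
 .n (.n (.n (.n (.n (.p (nat_lit 0x22f822f622f422f222f00cdb06) (nat_lit 0x200001a00) (nat_lit 14))
 (.p (nat_lit 0x18aa18a818a418a218a012e306) (nat_lit 0x800010aa) (nat_lit 15)))
 (.n (.p (nat_lit 0x2e91002502) (nat_lit 0x803) (nat_lit 33))
 (.p (nat_lit 0x3a2f39ab389303) (nat_lit 0x5bc0000a040) (nat_lit 43))))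
 (.n (.n (.p (nat_lit 0x24302410233021b04) (nat_lit 0x7620000) (nat_lit 24))
 (.p (nat_lit 0x38c938a702) (nat_lit 0x90400000800) (nat_lit 35)))
 (.p (nat_lit 0x10290f9902) (nat_lit 0x4005) (nat_lit 19))))
 (.n (.n (.n (.p (nat_lit 0xd1b003202) (nat_lit 0x2860) (nat_lit 1))
 (.p (nat_lit 0x931005102) (nat_lit 0x8026) (nat_lit 31)))
 (.p (nat_lit 0x2f230f1202) (nat_lit 0x2804) (nat_lit 32)))
 (.n (.n (.p (nat_lit 0x10d00220020001804) (nat_lit 0x310008002) (nat_lit 20))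
 (.p (nat_lit 0x39a9399902) (nat_lit 0x5080a000800) (nat_lit 35)))
 (.p (nat_lit 0x305d004d02) (nat_lit 0x4826) (nat_lit 33)))))
 (.n (.n (.n (.n (.p (nat_lit 0x197619721970196c0cfd0cf706) (nat_lit 0x120000340) (nat_lit 15))
 (.p (nat_lit 0x1ad21ad01ace1aca1ac8155d06) (nat_lit 0x40001d2f) (nat_lit 15)))
 (.n (.p (nat_lit 0x24491999030302f5011e05) (nat_lit 0x1488883) (nat_lit 9))
 (.p (nat_lit 0x3a4a0dc302) (nat_lit 0x29a0) (nat_lit 48))))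
 (.n (.n (.p (nat_lit 0x18621860185e185c185a185806) (nat_lit 0x861) (nat_lit 2))
 (.p (nat_lit 0x3933392502) (nat_lit 0xbc004000800) (nat_lit 35)))
 (.p (nat_lit 0xfdf00aa02) (nat_lit 0x2065) (nat_lit 1))))
 (.n (.n (.n (.p (nat_lit 0x250a2506250425000d390d3306) (nat_lit 0x120001880) (nat_lit 14))
 (.p (nat_lit 0x3829382702) (nat_lit 0x52406000000) (nat_lit 35)))
 (.p (nat_lit 0x1a090f5802) (nat_lit 0x864) (nat_lit 4)))
 (.n (.n (.p (nat_lit 0x22522250224c224a22480e4b06) (nat_lit 0x80001182) (nat_lit 16))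
 (.p (nat_lit 0x3a153971385703) (nat_lit 0x32400008000) (nat_lit 43)))
 (.p (nat_lit 0x108e108d108a10881086108503cc0051004909) (nat_lit 0x40086) (nat_lit 13)))))

def c512_424 : Tr :=
 .n (.n (.n (.n (.n (.p (nat_lit 0xcf20cf10cef0cec0cea0ce802400009000709) (nat_lit 0x46820) (nat_lit 13))
 (.p (nat_lit 0x1f3f148e02) (nat_lit 0x20ad) (nat_lit 4)))
 (.n (.p (nat_lit 0xecd0eb502) (nat_lit 0x4843) (nat_lit 18))
 (.p (nat_lit 0x39f339b9389f03) (nat_lit 0x9540000a060) (nat_lit 44))))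
 (.n (.n (.p (nat_lit 0x190a1908190419020d8b0d8506) (nat_lit 0x90001441) (nat_lit 15))
 (.p (nat_lit 0x38e538db02) (nat_lit 0x40c02000800) (nat_lit 35)))
 (.p (nat_lit 0x17881786178417800fc30fbb06) (nat_lit 0x220001825) (nat_lit 15))))
 (.n (.n (.n (.p (nat_lit 0x228b0d2a02) (nat_lit 0x6080) (nat_lit 5))
 (.p (nat_lit 0x37cb37bf02) (nat_lit 0x59402000000) (nat_lit 35)))
 (.p (nat_lit 0xf29002402) (nat_lit 0x824) (nat_lit 1)))
 (.n (.n (.p (nat_lit 0x1da01d9e1d9c1d9a1d980e2b06) (nat_lit 0x200001d42) (nat_lit 17))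
 (.p (nat_lit 0x3930392e3906390437e705) (nat_lit 0x404000000) (nat_lit 36)))
 (.p (nat_lit 0x2280227e227a2278106b106506) (nat_lit 0x240001b46) (nat_lit 14)))))
 (.n (.n (.n (.n (.p (nat_lit 0xd190d0102) (nat_lit 0x840) (nat_lit 18))
 (.p (nat_lit 0x21d7172602) (nat_lit 0x6852) (nat_lit 4)))
 (.p (nat_lit 0x17d217d017cc17ca17c80eff06) (nat_lit 0x80001ba3) (nat_lit 15)))
 (.n (.n (.p (nat_lit 0xdc1004802) (nat_lit 0x881) (nat_lit 1))
 (.p (nat_lit 0x396d396902) (nat_lit 0x20808000800) (nat_lit 35)))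
 (.p (nat_lit 0x25831ad3039d0393013e05) (nat_lit 0x111a8a5) (nat_lit 9))))
 (.n (.n (.n (.p (nat_lit 0x25ee25ea25e625e40d450d4106) (nat_lit 0x1400004a0) (nat_lit 14))
 (.p (nat_lit 0x388b387702) (nat_lit 0x5840a000000) (nat_lit 35)))
 (.p (nat_lit 0x1a3b0f8a02) (nat_lit 0x28a4) (nat_lit 4)))
 (.n (.n (.p (nat_lit 0x183e183c183a183618340e6106) (nat_lit 0x400002a2) (nat_lit 17))
 (.p (nat_lit 0x3a2339c1387903) (nat_lit 0xb080000a020) (nat_lit 43)))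
 (.p (nat_lit 0x11af119702) (nat_lit 0xa068) (nat_lit 18)))))

def c256_168 : Tr := .n c512_168 c512_424

def c128_40 : Tr := .n c256_40 c256_168

def c512_104 : Tr :=
 .n (.n (.n (.n (.n (.p (nat_lit 0xcd9001402) (nat_lit 0x8800) (nat_lit 1))
 (.p (nat_lit 0x12ce12cd12ca12c812c612c4008107) (nat_lit 0x808a) (nat_lit 7)))
 (.n (.p (nat_lit 0xe7e0e7c0e7a0e790e760e74002907) (nat_lit 0x4003) (nat_lit 7))
 (.p (nat_lit 0x39e5397f385f03) (nat_lit 0x6b400008040) (nat_lit 44))))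
 (.n (.n (.p (nat_lit 0x1b4a1b481b461b440d4b0d4906) (nat_lit 0x30001ca0) (nat_lit 15))
 (.p (nat_lit 0x38a1389702) (nat_lit 0xb440a000000) (nat_lit 35)))
 (.p (nat_lit 0x2fa9004102) (nat_lit 0x4005) (nat_lit 33))))
 (.n (.n (.n (.p (nat_lit 0x1a341a321a2e1a2c0d170d1106) (nat_lit 0x240000560) (nat_lit 15))
 (.p (nat_lit 0x89d002802) (nat_lit 0x4024) (nat_lit 30)))
 (.p (nat_lit 0x17c617c017be17bc0f0d0f0b06) (nat_lit 0x180000304) (nat_lit 17)))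
 (.n (.n (.p (nat_lit 0xdd90d6102) (nat_lit 0x8a1) (nat_lit 18))
 (.p (nat_lit 0x3991398f02) (nat_lit 0xb5408000800) (nat_lit 35)))
 (.p (nat_lit 0x3055104402) (nat_lit 0x8026) (nat_lit 32)))))
 (.n (.n (.n (.n (.p (nat_lit 0x104b0ceb02) (nat_lit 0x2d20) (nat_lit 19))
 (.p (nat_lit 0x156d14dd02) (nat_lit 0x854e) (nat_lit 19)))
 (.n (.p (nat_lit 0x24c224be24bc24ba0edd0ed506) (nat_lit 0x110001383) (nat_lit 14))
 (.p (nat_lit 0x39ff399b387b03) (nat_lit 0x18c0000a080) (nat_lit 44))))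
 (.n (.n (.p (nat_lit 0x17d217d017ce17c80da10d9f06) (nat_lit 0x60001361) (nat_lit 17))
 (.p (nat_lit 0x392f391302) (nat_lit 0xa9c04000800) (nat_lit 35)))
 (.p (nat_lit 0x253b0fda02) (nat_lit 0xa845) (nat_lit 5))))
 (.n (.n (.n (.p (nat_lit 0x229a2298229622942292229006) (nat_lit 0x880) (nat_lit 3))
 (.p (nat_lit 0x3825381b02) (nat_lit 0x40c06000000) (nat_lit 35)))
 (.p (nat_lit 0x19f70f4602) (nat_lit 0x6844) (nat_lit 4)))
 (.n (.n (.p (nat_lit 0x119b0e3b02) (nat_lit 0x2862) (nat_lit 19))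
 (.p (nat_lit 0x3a0f38f137d703) (nat_lit 0x74400002000) (nat_lit 43)))
 (.p (nat_lit 0x1a641a621a601a5e1083107906) (nat_lit 0x210000966) (nat_lit 15)))))

def c512_360 : Tr :=
 .n (.n (.n (.n (.n (.p (nat_lit 0x23ba23b623b223b00ce50ce106) (nat_lit 0x140001420) (nat_lit 16))
 (.p (nat_lit 0x1eb9140802) (nat_lit 0x8ac) (nat_lit 4)))
 (.n (.p (nat_lit 0x282e282a2828282628240ea106) (nat_lit 0x100000c23) (nat_lit 16))
 (.p (nat_lit 0x39f1398f387103) (nat_lit 0xad800008060) (nat_lit 44))))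
 (.n (.n (.p (nat_lit 0xe130d8302) (nat_lit 0xaa21) (nat_lit 19))
 (.p (nat_lit 0x38cc38c638c438c038be38bc227907) (nat_lit 0x860) (nat_lit 38)))
 (.p (nat_lit 0x22b222b022ae22ac22a80faf06) (nat_lit 0x20001525) (nat_lit 14))))
 (.n (.n (.n (.p (nat_lit 0x24f024ee24ec24ea24e80d2306) (nat_lit 0x200001d60) (nat_lit 14))
 (.p (nat_lit 0x37d137b502) (nat_lit 0x70002000000) (nat_lit 35)))
 (.p (nat_lit 0xf260f250f220f200f1f0f1c03480039003309) (nat_lit 0x42024) (nat_lit 13)))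
 (.n (.n (.p (nat_lit 0x1d961d941d921d8e1d8c0e1906) (nat_lit 0x40000542) (nat_lit 17))
 (.p (nat_lit 0x39c339c102) (nat_lit 0xbd80a000800) (nat_lit 35)))
 (.p (nat_lit 0x1b13106202) (nat_lit 0x2846) (nat_lit 4)))))
 (.n (.n (.n (.n (.p (nat_lit 0x243e243c2438243624340d0706) (nat_lit 0x80000c40) (nat_lit 14))
 (.p (nat_lit 0x20f00e200d803) (nat_lit 0x21000a012) (nat_lit 20)))
 (.n (.p (nat_lit 0x245b0efa02) (nat_lit 0x28a3) (nat_lit 5))
 (.p (nat_lit 0x3a0b39b3389b03) (nat_lit 0x7cc0000a0a0) (nat_lit 44))))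
 (.n (.n (.p (nat_lit 0x1af61af41af21af01aec0db706) (nat_lit 0x20000181) (nat_lit 17))
 (.p (nat_lit 0x395f394d02) (nat_lit 0xab006000800) (nat_lit 35)))
 (.p (nat_lit 0x1016101410121011100f100c038c0041003f09) (nat_lit 0x220a5) (nat_lit 13))))
 (.n (.n (.n (.p (nat_lit 0x1ade1ada1ad61ad40d450d4106) (nat_lit 0x1400000a0) (nat_lit 15))
 (.p (nat_lit 0x386b385f02) (nat_lit 0x9b408000000) (nat_lit 35)))
 (.p (nat_lit 0x2f970f8602) (nat_lit 0xa0a4) (nat_lit 32)))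
 (.n (.n (.p (nat_lit 0x22b222b022ae22ac22a80e5306) (nat_lit 0x20001d82) (nat_lit 14))
 (.p (nat_lit 0x3a1f3959384103) (nat_lit 0x95800006020) (nat_lit 43)))
 (.p (nat_lit 0x266d110c02) (nat_lit 0x4867) (nat_lit 5)))))

def c256_104 : Tr := .n c512_104 c512_360

def c512_232 : Tr :=
 .n (.n (.n (.n (.n (.p (nat_lit 0x186a1868186618640cdb0cd906) (nat_lit 0x300000c00) (nat_lit 15))
 (.p (nat_lit 0x1e23137202) (nat_lit 0x60ab) (nat_lit 4)))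
 (.n (.p (nat_lit 0x18fe18fa18f818f40e890e8306) (nat_lit 0x120000c03) (nat_lit 15))
 (.p (nat_lit 0x3a32227b02) (nat_lit 0x2860) (nat_lit 46))))
 (.n (.n (.p (nat_lit 0xd7f0d6702) (nat_lit 0x6801) (nat_lit 18))
 (.p (nat_lit 0x38bd38b102) (nat_lit 0x61800000800) (nat_lit 35)))
 (.p (nat_lit 0x25be25bc25ba25b60fa50fa106) (nat_lit 0x50000a05) (nat_lit 14))))
 (.n (.n (.n (.p (nat_lit 0x19c819c619c219c00d230d1d06) (nat_lit 0x240001860) (nat_lit 17))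
 (.p (nat_lit 0x37a9378502) (nat_lit 0x90000000000) (nat_lit 35)))
 (.p (nat_lit 0x226a22662264226222600f1906) (nat_lit 0x100001a04) (nat_lit 14)))
 (.n (.n (.p (nat_lit 0xdf9006802) (nat_lit 0x8802) (nat_lit 1))
 (.p (nat_lit 0x39b9399f02) (nat_lit 0x9140a000800) (nat_lit 35)))
 (.p (nat_lit 0x1067104f02) (nat_lit 0x6826) (nat_lit 18)))))
 (.n (.n (.n (.n (.p (nat_lit 0x10550cf502) (nat_lit 0x540) (nat_lit 19))
 (.p (nat_lit 0x2b5115f002) (nat_lit 0x8830) (nat_lit 5)))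
 (.n (.p (nat_lit 0x2456245424522450244e244c06) (nat_lit 0xa3) (nat_lit 3))
 (.p (nat_lit 0x3a4e173f02) (nat_lit 0x68a0) (nat_lit 48))))
 (.n (.n (.p (nat_lit 0x17ac17aa17a817a60db30da906) (nat_lit 0x210000a61) (nat_lit 15))
 (.p (nat_lit 0x395f393702) (nat_lit 0xa8406000800) (nat_lit 35)))
 (.p (nat_lit 0x2ffd0fec02) (nat_lit 0x4865) (nat_lit 32))))
 (.n (.n (.n (.p (nat_lit 0x1a8a1a861a841a800d390d3306) (nat_lit 0x120001a80) (nat_lit 15))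
 (.p (nat_lit 0x3855384902) (nat_lit 0x40808000000) (nat_lit 35)))
 (.p (nat_lit 0x1f6a1f661f641f621f600f6d06) (nat_lit 0x100001084) (nat_lit 15)))
 (.n (.n (.p (nat_lit 0x180217fe17fa17f80e4d0e4906) (nat_lit 0x140001582) (nat_lit 15))
 (.p (nat_lit 0x3a1938c737ad03) (nat_lit 0x8d000000020) (nat_lit 43)))
 (.p (nat_lit 0x20b820b620b420b0109b109306) (nat_lit 0x220001a86) (nat_lit 15)))))

def c512_488 : Tr :=
 .n (.n (.n (.n (.n (.p (nat_lit 0x23962390238e238c0cf10cef06) (nat_lit 0x180000b20) (nat_lit 14))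
 (.p (nat_lit 0x1f6714b602) (nat_lit 0x680e) (nat_lit 4)))
 (.n (.p (nat_lit 0x242b0eca02) (nat_lit 0x2863) (nat_lit 5))
 (.p (nat_lit 0x39f738d537b503) (nat_lit 0x2080) (nat_lit 44))))
 (.n (.n (.p (nat_lit 0xd9b0d980d960d950d920d90027e0017001109) (nat_lit 0x54841) (nat_lit 13))
 (.p (nat_lit 0x38fb38e502) (nat_lit 0x9a002000800) (nat_lit 35)))
 (.p (nat_lit 0xfd90fc102) (nat_lit 0x8825) (nat_lit 18))))
 (.n (.n (.n (.p (nat_lit 0x25222520251e251a25180d2906) (nat_lit 0x40001180) (nat_lit 16))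
 (.p (nat_lit 0x380537eb02) (nat_lit 0x80c04000000) (nat_lit 35)))
 (.p (nat_lit 0x243e243a243824360f310f2906) (nat_lit 0x110000c24) (nat_lit 16)))
 (.n (.n (.p (nat_lit 0x23f423f223f023ee0e370e2d06) (nat_lit 0x210000162) (nat_lit 14))
 (.p (nat_lit 0x3988398639823980386905) (nat_lit 0x4808000000) (nat_lit 36)))
 (.p (nat_lit 0x25d5107402) (nat_lit 0x8066) (nat_lit 5)))))
 (.n (.n (.n (.n (.p (nat_lit 0x22750d1402) (nat_lit 0x8060) (nat_lit 5))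
 (.p (nat_lit 0x1743005202) (nat_lit 0xa872) (nat_lit 1)))
 (.p (nat_lit 0x32702f5011e03) (nat_lit 0x8050003) (nat_lit 22)))
 (.n (.n (.p (nat_lit 0x1b261b241b201b1e1b1c0dc706) (nat_lit 0x80000b81) (nat_lit 15))
 (.p (nat_lit 0x398b396f02) (nat_lit 0x99408000800) (nat_lit 35)))
 (.p (nat_lit 0x14d0050004c004a04) (nat_lit 0x160008006) (nat_lit 20))))
 (.n (.n (.n (.p (nat_lit 0x22ae17fe0d4f03) (nat_lit 0x68a0) (nat_lit 6))
 (.p (nat_lit 0x38a1387d02) (nat_lit 0xb100a000000) (nat_lit 35)))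
 (.p (nat_lit 0x252e252c252825240f8f0f8b06) (nat_lit 0xa0000aa4) (nat_lit 16)))
 (.n (.n (.p (nat_lit 0x19230e7202) (nat_lit 0xa8a2) (nat_lit 4))
 (.p (nat_lit 0x39dc0f1d02) (nat_lit 0x440) (nat_lit 47)))
 (.p (nat_lit 0x1c6311b202) (nat_lit 0x2888) (nat_lit 4)))))

def c256_232 : Tr := .n c512_232 c512_488

def c128_104 : Tr := .n c256_104 c256_232

def c64_40 : Tr := .n c128_40 c128_104

def c32_8 : Tr := .n c64_8 c64_40

def c512_24 : Tr :=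
 .n (.n (.n (.n (.n (.p (nat_lit 0x22be22bc22ba22b822b40cc706) (nat_lit 0x20000000) (nat_lit 16))
 (.p (nat_lit 0x1ce7123602) (nat_lit 0x2089) (nat_lit 4)))
 (.n (.p (nat_lit 0xe6f0df702) (nat_lit 0x68a2) (nat_lit 18))
 (.p (nat_lit 0x3a260f2b02) (nat_lit 0x2c40) (nat_lit 48))))
 (.n (.n (.p (nat_lit 0x25b225b025ae25ac0d4b0d4906) (nat_lit 0x300019a0) (nat_lit 14))
 (.p (nat_lit 0x38a1388302) (nat_lit 0xb1c0a000000) (nat_lit 35)))
 (.p (nat_lit 0x3490345012e03) (nat_lit 0x2044004) (nat_lit 22))))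
 (.n (.n (.n (.p (nat_lit 0x248624842480247e247c0d1306) (nat_lit 0x80000160) (nat_lit 14))
 (.p (nat_lit 0x7eb004e02) (nat_lit 0x6081) (nat_lit 30)))
 (.p (nat_lit 0x12f0038003403) (nat_lit 0x14000a004) (nat_lit 20)))
 (.n (.n (.p (nat_lit 0x2ddf000f02) (nat_lit 0x20a1) (nat_lit 33))
 (.p (nat_lit 0x397f397702) (nat_lit 0x6a408000800) (nat_lit 35)))
 (.p (nat_lit 0x1045102d02) (nat_lit 0x8006) (nat_lit 18)))))
 (.n (.n (.n (.n (.p (nat_lit 0x190a1908190419020cef0ce906) (nat_lit 0x90001c20) (nat_lit 17))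
 (.p (nat_lit 0x19e219e019de19dc19da14bd06) (nat_lit 0x1000112e) (nat_lit 17)))
 (.n (.p (nat_lit 0xf5d0ecd02) (nat_lit 0x4c63) (nat_lit 19))
 (.p (nat_lit 0x39f817e502) (nat_lit 0x4880) (nat_lit 45))))
 (.n (.n (.p (nat_lit 0x106b0d9b02) (nat_lit 0xac41) (nat_lit 19))
 (.p (nat_lit 0x38e438de38dc38d838d638d417cb07) (nat_lit 0x2000860) (nat_lit 37)))
 (.p (nat_lit 0xfcf0fcc0fca0fc80fc60fc4004707) (nat_lit 0xa045) (nat_lit 7))))
 (.n (.n (.n (.p (nat_lit 0x254425422540253e0d2f0d2506) (nat_lit 0x210000380) (nat_lit 14))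
 (.p (nat_lit 0x380937ff02) (nat_lit 0x93404000000) (nat_lit 35)))
 (.p (nat_lit 0xfc10f3102) (nat_lit 0x8d24) (nat_lit 19)))
 (.n (.n (.p (nat_lit 0xe420e400e3e0e3c0e3a0e39001907) (nat_lit 0x862) (nat_lit 7))
 (.p (nat_lit 0x39c538b1379903) (nat_lit 0x32800000000) (nat_lit 44)))
 (.p (nat_lit 0x1ac61ac41ac01abe1abc107306) (nat_lit 0x80000566) (nat_lit 15)))))

def c512_280 : Tr :=
 .n (.n (.n (.n (.n (.p (nat_lit 0xd650cd502) (nat_lit 0x4800) (nat_lit 19))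
 (.p (nat_lit 0x141d138d02) (nat_lit 0x840c) (nat_lit 19)))
 (.n (.p (nat_lit 0x23f30e9202) (nat_lit 0x6023) (nat_lit 5))
 (.p (nat_lit 0x3a37393d382503) (nat_lit 0x22000006060) (nat_lit 43))))
 (.n (.n (.p (nat_lit 0x1c5e1c5c1c5a1c581c540d6f06) (nat_lit 0x20000421) (nat_lit 17))
 (.p (nat_lit 0x38bd38b902) (nat_lit 0x62800000800) (nat_lit 35)))
 (.p (nat_lit 0x1a661a641a621a601a5e1a5c06) (nat_lit 0x25) (nat_lit 2))))
 (.n (.n (.n (.p (nat_lit 0x19fa19f819f619f40d1b0d1906) (nat_lit 0x30001a60) (nat_lit 15))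
 (.p (nat_lit 0x37a1379702) (nat_lit 0x72400000000) (nat_lit 35)))
 (.p (nat_lit 0x17f617f417f217ee17ec0f1506) (nat_lit 0x40000d04) (nat_lit 15)))
 (.n (.n (.p (nat_lit 0x2e150e0402) (nat_lit 0x8022) (nat_lit 32))
 (.p (nat_lit 0x39c139a502) (nat_lit 0xb200a000800) (nat_lit 35)))
 (.p (nat_lit 0x22522250224e224c2248105706) (nat_lit 0x20001146) (nat_lit 14)))))
 (.n (.n (.n (.n (.p (nat_lit 0x192c1928192619240d0b0d0706) (nat_lit 0x280000840) (nat_lit 15))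
 (.p (nat_lit 0x25222520251e251c251815f706) (nat_lit 0x20001150) (nat_lit 14)))
 (.n (.p (nat_lit 0x17ae17aa17a817a617a40ef506) (nat_lit 0x1000002a3) (nat_lit 17))
 (.p (nat_lit 0x3a093983386b03) (nat_lit 0x7cc000080a0) (nat_lit 44))))
 (.n (.n (.p (nat_lit 0x22962294229222900db30db106) (nat_lit 0x300001c61) (nat_lit 14))
 (.p (nat_lit 0x394d393f02) (nat_lit 0x61406000800) (nat_lit 35)))
 (.p (nat_lit 0x25570ff602) (nat_lit 0x2085) (nat_lit 5))))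
 (.n (.n (.n (.p (nat_lit 0x2582257e257c25780d390d3306) (nat_lit 0x120001d80) (nat_lit 14))
 (.p (nat_lit 0x3865384f02) (nat_lit 0x81408000000) (nat_lit 35)))
 (.p (nat_lit 0xf7a0f790f760f740f720f70003907) (nat_lit 0x8884) (nat_lit 7)))
 (.n (.n (.p (nat_lit 0x190b0e5a02) (nat_lit 0xa882) (nat_lit 4))
 (.p (nat_lit 0x3a1d3927380703) (nat_lit 0x8c400004020) (nat_lit 43)))
 (.p (nat_lit 0x3d703c7014e03) (nat_lit 0x2030006) (nat_lit 22)))))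

def c256_24 : Tr := .n c512_24 c512_280

def c512_152 : Tr :=
 .n (.n (.n (.n (.n (.p (nat_lit 0x22ee22e822e622e40cd90cd706) (nat_lit 0x180000a00) (nat_lit 14))
 (.p (nat_lit 0x1d8d12dc02) (nat_lit 0xaa) (nat_lit 4)))
 (.n (.p (nat_lit 0x126d0e7d02) (nat_lit 0x8103) (nat_lit 19))
 (.p (nat_lit 0x3a2f39c1387903) (nat_lit 0xb080000a040) (nat_lit 43))))
 (.n (.n (.p (nat_lit 0x10230d5302) (nat_lit 0xaca0) (nat_lit 19))
 (.p (nat_lit 0x38a938a702) (nat_lit 0x10400000800) (nat_lit 35)))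
 (.p (nat_lit 0x1b261b221b201b1e1b1c0f9d06) (nat_lit 0x100000305) (nat_lit 17))))
 (.n (.n (.n (.p (nat_lit 0xfe30d1302) (nat_lit 0x6460) (nat_lit 19))
 (.p (nat_lit 0x8f5003802) (nat_lit 0x8045) (nat_lit 30)))
 (.p (nat_lit 0x14af0f0f02) (nat_lit 0xa404) (nat_lit 19)))
 (.n (.n (.p (nat_lit 0x28b027f0273010004) (nat_lit 0xa1a2001) (nat_lit 23))
 (.p (nat_lit 0x39b3399702) (nat_lit 0x7840a000800) (nat_lit 35)))
 (.p (nat_lit 0x25a9104802) (nat_lit 0x826) (nat_lit 5)))))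
 (.n (.n (.n (.n (.p (nat_lit 0x2402240023fe23fc0cf70cf506) (nat_lit 0x30001140) (nat_lit 14))
 (.p (nat_lit 0x2abd155c02) (nat_lit 0x482f) (nat_lit 5)))
 (.n (.p (nat_lit 0x24431993030102f7011e05) (nat_lit 0x1442883) (nat_lit 9))
 (.p (nat_lit 0x3a0338d737b903) (nat_lit 0x88000020a0) (nat_lit 44))))
 (.n (.n (.p (nat_lit 0x11950da502) (nat_lit 0x8161) (nat_lit 19))
 (.p (nat_lit 0x392b392102) (nat_lit 0x9b804000800) (nat_lit 35)))
 (.p (nat_lit 0x10670fd702) (nat_lit 0x6845) (nat_lit 19))))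
 (.n (.n (.n (.p (nat_lit 0x24fe24f824f624f40d390d3706) (nat_lit 0x180000880) (nat_lit 14))
 (.p (nat_lit 0x3827382302) (nat_lit 0x49c06000000) (nat_lit 35)))
 (.p (nat_lit 0x24b70f5602) (nat_lit 0xa064) (nat_lit 5)))
 (.n (.n (.p (nat_lit 0xe4f0e4c0e4b0e480e460e4402d20023001f09) (nat_lit 0x56082) (nat_lit 13))
 (.p (nat_lit 0x3a13394d382d03) (nat_lit 0x63000006000) (nat_lit 43)))
 (.p (nat_lit 0x3099108802) (nat_lit 0x4086) (nat_lit 32)))))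

def c512_408 : Tr :=
 .n (.n (.n (.n (.n (.p (nat_lit 0xcf1002002) (nat_lit 0x8820) (nat_lit 1))
 (.p (nat_lit 0x2987142602) (nat_lit 0x680d) (nat_lit 5)))
 (.n (.p (nat_lit 0x24110eb002) (nat_lit 0x843) (nat_lit 5))
 (.p (nat_lit 0x3a3b39a3388903) (nat_lit 0x3a80000a060) (nat_lit 43))))
 (.n (.n (.p (nat_lit 0x2370236e236c236a23680d8f06) (nat_lit 0x200001141) (nat_lit 14))
 (.p (nat_lit 0x390338d702) (nat_lit 0xb8402000800) (nat_lit 35)))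
 (.p (nat_lit 0x25231a7303930385013e05) (nat_lit 0x101a825) (nat_lit 9))))
 (.n (.n (.n (.p (nat_lit 0x17d50d2402) (nat_lit 0x80) (nat_lit 4))
 (.p (nat_lit 0x37c937bd02) (nat_lit 0x51002000000) (nat_lit 35)))
 (.p (nat_lit 0xf3f0f2702) (nat_lit 0xa024) (nat_lit 18)))
 (.n (.n (.p (nat_lit 0xe2b0e280e260e240e220e2102ae0023001909) (nat_lit 0x50842) (nat_lit 13))
 (.p (nat_lit 0x38e638e438e038de37c705) (nat_lit 0x2402000000) (nat_lit 36)))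
 (.p (nat_lit 0x17ae17ac17aa17a817a4106306) (nat_lit 0x20000a46) (nat_lit 17)))))
 (.n (.n (.n (.n (.p (nat_lit 0x19b219b019ae19aa0d050d0106) (nat_lit 0x50001d40) (nat_lit 17))
 (.p (nat_lit 0x185e185c185a1858171f171d06) (nat_lit 0x300001352) (nat_lit 15)))
 (.p (nat_lit 0x17ba17b817b417b217b00eff06) (nat_lit 0x80001aa3) (nat_lit 17)))
 (.n (.n (.p (nat_lit 0x11ad0dbd02) (nat_lit 0x8181) (nat_lit 19))
 (.p (nat_lit 0x3975396702) (nat_lit 0x40408000800) (nat_lit 35)))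
 (.p (nat_lit 0x10221020101f101c101a1018004307) (nat_lit 0x68a5) (nat_lit 7))))
 (.n (.n (.n (.p (nat_lit 0x25d625d225ce25cc0d450d4106) (nat_lit 0x1400003a0) (nat_lit 14))
 (.p (nat_lit 0x388d387502) (nat_lit 0x6000a000000) (nat_lit 35)))
 (.p (nat_lit 0x13ff0f7f02) (nat_lit 0x22a4) (nat_lit 19)))
 (.n (.n (.p (nat_lit 0x19150e6402) (nat_lit 0x80a2) (nat_lit 4))
 (.p (nat_lit 0x39d817a102) (nat_lit 0x8820) (nat_lit 45)))
 (.p (nat_lit 0x1197119411921190118e118c006b07) (nat_lit 0xa068) (nat_lit 7)))))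

def c256_152 : Tr := .n c512_152 c512_408

def c128_24 : Tr := .n c256_24 c256_152

def c512_88 : Tr :=
 .n (.n (.n (.n (.n (.p (nat_lit 0x10270cc702) (nat_lit 0x2500) (nat_lit 19))
 (.p (nat_lit 0x28e228de28dc28da28d812c106) (nat_lit 0x100001d6a) (nat_lit 14)))
 (.n (.p (nat_lit 0x11f002e002803) (nat_lit 0x24000a003) (nat_lit 20))
 (.p (nat_lit 0x3a2d396d384f03) (nat_lit 0x21400008040) (nat_lit 43))))
 (.n (.n (.p (nat_lit 0x1b321b301b2c1b2a0d4f0d4906) (nat_lit 0x90001ba0) (nat_lit 15))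
 (.p (nat_lit 0x38a1389102) (nat_lit 0xb380a000000) (nat_lit 35)))
 (.p (nat_lit 0x13d00460044003e04) (nat_lit 0x320008005) (nat_lit 20))))
 (.n (.n (.n (.p (nat_lit 0x1a2a1a241a221a200d150d1306) (nat_lit 0x180001460) (nat_lit 15))
 (.p (nat_lit 0x87b003602) (nat_lit 0x6083) (nat_lit 30)))
 (.p (nat_lit 0x17a2179c179a17980f0d0f0b06) (nat_lit 0x180001104) (nat_lit 15)))
 (.n (.n (.p (nat_lit 0xde20de10dde0ddc0dda0dd8001507) (nat_lit 0x88a1) (nat_lit 7))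
 (.p (nat_lit 0x398b398702) (nat_lit 0x9c408000800) (nat_lit 35)))
 (.p (nat_lit 0x259f103e02) (nat_lit 0x2026) (nat_lit 5)))))
 (.n (.n (.n (.n (.p (nat_lit 0xe9f0cef02) (nat_lit 0x6a20) (nat_lit 19))
 (.p (nat_lit 0x34e914d802) (nat_lit 0x404e) (nat_lit 32)))
 (.n (.p (nat_lit 0x19d619d419d219d019cc0ed706) (nat_lit 0x20000183) (nat_lit 17))
 (.p (nat_lit 0x39fd398b387303) (nat_lit 0x9dc00008080) (nat_lit 44))))
 (.n (.n (.p (nat_lit 0x225c225a2258225622540da706) (nat_lit 0x200000261) (nat_lit 14))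
 (.p (nat_lit 0x392f390f02) (nat_lit 0xa9404000800) (nat_lit 35)))
 (.p (nat_lit 0xfda0fd80fd60fd50fd20fd0004107) (nat_lit 0x4845) (nat_lit 7))))
 (.n (.n (.n (.p (nat_lit 0xf6b0d2b02) (nat_lit 0x6380) (nat_lit 19))
 (.p (nat_lit 0x381d381702) (nat_lit 0x20406000000) (nat_lit 35)))
 (.p (nat_lit 0xfcb0f3b02) (nat_lit 0x6544) (nat_lit 19)))
 (.n (.n (.p (nat_lit 0x245624542450244e244c0e3f06) (nat_lit 0x80000d62) (nat_lit 14))
 (.p (nat_lit 0x39c738dd37bf03) (nat_lit 0x21400002000) (nat_lit 44)))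
 (.p (nat_lit 0x24fe24fa24f824f624f4108106) (nat_lit 0x100000866) (nat_lit 16)))))

def c512_344 : Tr :=
 .n (.n (.n (.n (.n (.p (nat_lit 0x18e618e418e218de18dc0ce106) (nat_lit 0x40000320) (nat_lit 15))
 (.p (nat_lit 0x19ca19c819c619c419c013ff06) (nat_lit 0x200010ac) (nat_lit 15)))
 (.n (.p (nat_lit 0xea20ea10e9e0e9c0e9a0e98002d07) (nat_lit 0x8823) (nat_lit 7))
 (.p (nat_lit 0x39f1397f386703) (nat_lit 0x6c400008060) (nat_lit 44))))
 (.n (.n (.p (nat_lit 0x1c6a1c681c661c641c600d7b06) (nat_lit 0x20001c21) (nat_lit 17))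
 (.p (nat_lit 0x38cf38c902) (nat_lit 0xac800000800) (nat_lit 35)))
 (.p (nat_lit 0x17de17dc17da17d80faf0fad06) (nat_lit 0x30000425) (nat_lit 17))))
 (.n (.n (.n (.p (nat_lit 0x24e424e224e024dc0d230d1b06) (nat_lit 0x220000d60) (nat_lit 14))
 (.p (nat_lit 0x37ac37a637a437a0379e379c226d07) (nat_lit 0x60) (nat_lit 38)))
 (.p (nat_lit 0x2f330f2202) (nat_lit 0x6024) (nat_lit 32)))
 (.n (.n (.p (nat_lit 0xe1e0e1d0e1a0e180e160e14002107) (nat_lit 0x8042) (nat_lit 7))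
 (.p (nat_lit 0x39bf39b702) (nat_lit 0xac40a000800) (nat_lit 35)))
 (.p (nat_lit 0x106f105702) (nat_lit 0x2046) (nat_lit 18)))))
 (.n (.n (.n (.n (.p (nat_lit 0x24322430242e242c0d030d0106) (nat_lit 0x30001b40) (nat_lit 14))
 (.p (nat_lit 0x2bed168c02) (nat_lit 0x8051) (nat_lit 5)))
 (.n (.p (nat_lit 0x13730ef302) (nat_lit 0x62a3) (nat_lit 19))
 (.p (nat_lit 0x3a0b39b1389103) (nat_lit 0x7380000a0a0) (nat_lit 44))))
 (.n (.n (.p (nat_lit 0x231d186d026d026500fe05) (nat_lit 0x888081) (nat_lit 9))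
 (.p (nat_lit 0x395f394702) (nat_lit 0xaa406000800) (nat_lit 35)))
 (.p (nat_lit 0x101300c602) (nat_lit 0x60a5) (nat_lit 1))))
 (.n (.n (.n (.p (nat_lit 0x17f50d4402) (nat_lit 0x80a0) (nat_lit 4))
 (.p (nat_lit 0x3865385b02) (nat_lit 0x82c08000000) (nat_lit 35)))
 (.p (nat_lit 0x24e10f8002) (nat_lit 0x40a4) (nat_lit 5)))
 (.n (.n (.p (nat_lit 0x17de17d817d617d40e590e5706) (nat_lit 0x180000c82) (nat_lit 17))
 (.p (nat_lit 0x3a1f3951383703) (nat_lit 0x74400006020) (nat_lit 43)))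
 (.p (nat_lit 0x1bb1110002) (nat_lit 0x4067) (nat_lit 4)))))

def c256_88 : Tr := .n c512_88 c512_344

def c512_216 : Tr :=
 .n (.n (.n (.n (.n (.p (nat_lit 0x186e186c186a18660cd50cd106) (nat_lit 0x50000c00) (nat_lit 15))
 (.p (nat_lit 0x18f218f018ee18ec18e812eb06) (nat_lit 0x20001baa) (nat_lit 15)))
 (.n (.p (nat_lit 0x23962390238e238c0e890e8706) (nat_lit 0x180000b03) (nat_lit 16))
 (.p (nat_lit 0x3a3338d937b903) (nat_lit 0x10800002060) (nat_lit 43))))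
 (.n (.n (.p (nat_lit 0x18130d6202) (nat_lit 0x2801) (nat_lit 4))
 (.p (nat_lit 0x38b738af02) (nat_lit 0x49400000800) (nat_lit 35)))
 (.p (nat_lit 0xfaa0fa80fa70fa40fa20fa103820043003d09) (nat_lit 0x30805) (nat_lit 13))))
 (.n (.n (.n (.p (nat_lit 0x19ca19c819c619c40d1b0d1906) (nat_lit 0x30001860) (nat_lit 17))
 (.p (nat_lit 0xc0500c102) (nat_lit 0x50) (nat_lit 31)))
 (.p (nat_lit 0x2250224e224c22480f1b0f1306) (nat_lit 0x220001904) (nat_lit 14)))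
 (.n (.n (.p (nat_lit 0x23510df002) (nat_lit 0x802) (nat_lit 5))
 (.p (nat_lit 0x39bd399d02) (nat_lit 0xa100a000800) (nat_lit 35)))
 (.p (nat_lit 0x231e231c23182316104f104906) (nat_lit 0x90000c26) (nat_lit 16)))))
 (.n (.n (.n (.n (.p (nat_lit 0xe150cf502) (nat_lit 0x140) (nat_lit 19))
 (.p (nat_lit 0x1b261b241b201b1e1b1c15e306) (nat_lit 0x80000330) (nat_lit 15)))
 (.n (.p (nat_lit 0xf030eeb02) (nat_lit 0xa883) (nat_lit 18))
 (.p (nat_lit 0x3a4f393f382703) (nat_lit 0x2a4000060a0) (nat_lit 43))))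
 (.n (.n (.p (nat_lit 0x17881786178417820db30da906) (nat_lit 0x210001861) (nat_lit 17))
 (.p (nat_lit 0x393d393702) (nat_lit 0x20406000800) (nat_lit 35)))
 (.p (nat_lit 0x10770fe702) (nat_lit 0xa065) (nat_lit 19))))
 (.n (.n (.n (.p (nat_lit 0x1a7e1a7c1a761a740d370d3506) (nat_lit 0xc0000a80) (nat_lit 15))
 (.p (nat_lit 0x385f384702) (nat_lit 0x68408000000) (nat_lit 35)))
 (.p (nat_lit 0x2f7d0f6c02) (nat_lit 0x8084) (nat_lit 32)))
 (.n (.n (.p (nat_lit 0x17ea17e617e417e217e00e4d06) (nat_lit 0x100001482) (nat_lit 17))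
 (.p (nat_lit 0x39ce177f02) (nat_lit 0xa000) (nat_lit 45)))
 (.p (nat_lit 0x109a1098109610951092109103c8004d004909) (nat_lit 0x20886) (nat_lit 13)))))

def c512_472 : Tr :=
 .n (.n (.n (.n (.n (.p (nat_lit 0x238a2388238623800ced0ceb06) (nat_lit 0x60001a20) (nat_lit 14))
 (.p (nat_lit 0x1a961a941a921a8e1a8c14a906) (nat_lit 0x4000030e) (nat_lit 17)))
 (.n (.p (nat_lit 0xed90ec102) (nat_lit 0x4063) (nat_lit 18))
 (.p (nat_lit 0x39f538c737a703) (nat_lit 0x8c400000080) (nat_lit 44))))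
 (.n (.n (.p (nat_lit 0x22f70d9602) (nat_lit 0x6841) (nat_lit 5))
 (.p (nat_lit 0x38ff38e102) (nat_lit 0xa9802000800) (nat_lit 35)))
 (.p (nat_lit 0x17e817e617e417e00fc30fbb06) (nat_lit 0x220001c25) (nat_lit 17))))
 (.n (.n (.n (.p (nat_lit 0x1a661a641a621a601a5c0d2706) (nat_lit 0x20000180) (nat_lit 17))
 (.p (nat_lit 0x381137e502) (nat_lit 0xb0004000000) (nat_lit 35)))
 (.p (nat_lit 0x193a19381936193419320f2906) (nat_lit 0x10001824) (nat_lit 15)))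
 (.n (.n (.p (nat_lit 0xe360e350e330e300e2e0e2c02d00021001f09) (nat_lit 0x46062) (nat_lit 13))
 (.p (nat_lit 0x3992399039683966384905) (nat_lit 0x808000000) (nat_lit 36)))
 (.p (nat_lit 0x1b1f106e02) (nat_lit 0x2066) (nat_lit 4)))))
 (.n (.n (.n (.n (.p (nat_lit 0x17bf0d0e02) (nat_lit 0x2060) (nat_lit 4))
 (.p (nat_lit 0x1745172d02) (nat_lit 0x72) (nat_lit 18)))
 (.p (nat_lit 0x30f030d011e03) (nat_lit 0x4058003) (nat_lit 22)))
 (.n (.n (.p (nat_lit 0x1b021b001afe1afc1afa0dc106) (nat_lit 0x10001981) (nat_lit 17))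
 (.p (nat_lit 0x398f396d02) (nat_lit 0xa9008000800) (nat_lit 35)))
 (.p (nat_lit 0x151004a02) (nat_lit 0x2000c006) (nat_lit 20))))
 (.n (.n (.n (.p (nat_lit 0x22a917f902) (nat_lit 0x8a0) (nat_lit 11))
 (.p (nat_lit 0x389d387b02) (nat_lit 0xa0c0a000000) (nat_lit 35)))
 (.p (nat_lit 0x251625122510250e250c0f9106) (nat_lit 0x1000009a4) (nat_lit 14)))
 (.n (.n (.p (nat_lit 0xe6d001002) (nat_lit 0x48a2) (nat_lit 1))
 (.p (nat_lit 0x39dd38bf37a503) (nat_lit 0x6c000000040) (nat_lit 44)))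
 (.p (nat_lit 0x182618221820181e11ad11a506) (nat_lit 0x110000188) (nat_lit 17)))))

def c256_216 : Tr := .n c512_216 c512_472

def c128_88 : Tr := .n c256_88 c256_216

def c64_24 : Tr := .n c128_24 c128_88

def c512_56 : Tr :=
 .n (.n (.n (.n (.n (.p (nat_lit 0x23282326232423220ccf0cc506) (nat_lit 0x210001400) (nat_lit 14))
 (.p (nat_lit 0x12df124f02) (nat_lit 0x23a9) (nat_lit 19)))
 (.n (.p (nat_lit 0x2d102b9010e03) (nat_lit 0x8032002) (nat_lit 22))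
 (.p (nat_lit 0x39e3393f382703) (nat_lit 0x2a400006040) (nat_lit 44))))
 (.n (.n (.p (nat_lit 0x1b1a1b181b161b140d4b0d4906) (nat_lit 0x30001aa0) (nat_lit 17))
 (.p (nat_lit 0x3893388b02) (nat_lit 0x7ac0a000000) (nat_lit 35)))
 (.p (nat_lit 0x357033f012e03) (nat_lit 0xa020004) (nat_lit 22))))
 (.n (.n (.n (.p (nat_lit 0x249c249a249824960d170d0d06) (nat_lit 0x210000260) (nat_lit 14))
 (.p (nat_lit 0x83d001d02) (nat_lit 0x40a2) (nat_lit 31)))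
 (.p (nat_lit 0x24690f0802) (nat_lit 0x4004) (nat_lit 5)))
 (.n (.n (.p (nat_lit 0xdd30d5b02) (nat_lit 0x60a1) (nat_lit 18))
 (.p (nat_lit 0x3983397d02) (nat_lit 0x7b008000800) (nat_lit 35)))
 (.p (nat_lit 0x259b1aeb03f103cf014e05) (nat_lit 0x118a806) (nat_lit 9)))))
 (.n (.n (.n (.n (.p (nat_lit 0x19221920191c191a19180cef06) (nat_lit 0x80001d20) (nat_lit 15))
 (.p (nat_lit 0x14d3003a02) (nat_lit 0xa82e) (nat_lit 1)))
 (.n (.p (nat_lit 0x2eed0edc02) (nat_lit 0x8083) (nat_lit 32))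
 (.p (nat_lit 0x39fd3967384903) (nat_lit 0x8800008080) (nat_lit 44))))
 (.n (.n (.p (nat_lit 0x23070da602) (nat_lit 0xa061) (nat_lit 5))
 (.p (nat_lit 0x392d390702) (nat_lit 0xa0404000800) (nat_lit 35)))
 (.p (nat_lit 0xfe70fcf02) (nat_lit 0xa045) (nat_lit 18))))
 (.n (.n (.n (.p (nat_lit 0x1ad21ad01ace1ac80d290d2706) (nat_lit 0x60001580) (nat_lit 15))
 (.p (nat_lit 0x380f380b02) (nat_lit 0xacc04000000) (nat_lit 35)))
 (.p (nat_lit 0x19ef0f3e02) (nat_lit 0xa044) (nat_lit 4)))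
 (.n (.n (.p (nat_lit 0xe430e400e3e0e3c0e3b0e3802ba0023001b09) (nat_lit 0x52862) (nat_lit 13))
 (.p (nat_lit 0x3a0d38cd37ad03) (nat_lit 0xa5000000000) (nat_lit 43)))
 (.p (nat_lit 0x25dd107c02) (nat_lit 0x4866) (nat_lit 5)))))

def c512_312 : Tr :=
 .n (.n (.n (.n (.n (.p (nat_lit 0x10390cd902) (nat_lit 0x8d00) (nat_lit 19))
 (.p (nat_lit 0x1e5513a402) (nat_lit 0x802c) (nat_lit 4)))
 (.n (.p (nat_lit 0xea50e8d02) (nat_lit 0x23) (nat_lit 18))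
 (.p (nat_lit 0x3a393967384903) (nat_lit 0x8800008060) (nat_lit 43))))
 (.n (.n (.p (nat_lit 0xd7f006602) (nat_lit 0x6821) (nat_lit 1))
 (.p (nat_lit 0x38c338bf02) (nat_lit 0x7b400000800) (nat_lit 35)))
 (.p (nat_lit 0x223a2236223422320fb50fad06) (nat_lit 0x110001025) (nat_lit 14))))
 (.n (.n (.n (.p (nat_lit 0x24ce24c824c624c40d210d1f06) (nat_lit 0x180000c60) (nat_lit 14))
 (.p (nat_lit 0x37b1379f02) (nat_lit 0xb3400000000) (nat_lit 35)))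
 (.p (nat_lit 0x14250f1502) (nat_lit 0x4b04) (nat_lit 19)))
 (.n (.n (.p (nat_lit 0x2792278e278c278a27880e1106) (nat_lit 0x100001b22) (nat_lit 14))
 (.p (nat_lit 0x39c339ab02) (nat_lit 0xbac0a000800) (nat_lit 35)))
 (.p (nat_lit 0x17d017ce17cc17ca17c8105f06) (nat_lit 0x200001346) (nat_lit 15)))))
 (.n (.n (.n (.n (.p (nat_lit 0x19521950194e194c0d030d0106) (nat_lit 0x30001940) (nat_lit 15))
 (.p (nat_lit 0x1a4e1a4a1a481a461a44160906) (nat_lit 0x100000850) (nat_lit 15)))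
 (.n (.p (nat_lit 0x228e228c228822840ef30eef06) (nat_lit 0xa00004a3) (nat_lit 14))
 (.p (nat_lit 0x3a0b39c1387703) (nat_lit 0xb040000a0a0) (nat_lit 44))))
 (.n (.n (.p (nat_lit 0x10830db302) (nat_lit 0xac61) (nat_lit 19))
 (.p (nat_lit 0x394f394302) (nat_lit 0x69c06000800) (nat_lit 35)))
 (.p (nat_lit 0x256b100a02) (nat_lit 0xa885) (nat_lit 5))))
 (.n (.n (.n (.p (nat_lit 0xf7b0d3b02) (nat_lit 0xab80) (nat_lit 19))
 (.p (nat_lit 0x3869385502) (nat_lit 0x92008000000) (nat_lit 35)))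
 (.p (nat_lit 0x1f821f7e1f7c1f7a1f780f7906) (nat_lit 0x100001984) (nat_lit 17)))
 (.n (.n (.p (nat_lit 0x17ba17b817b617b417b20e5106) (nat_lit 0x10001a82) (nat_lit 15))
 (.p (nat_lit 0x39d7393d381f03) (nat_lit 0x21400006020) (nat_lit 44)))
 (.p (nat_lit 0x3f303db014e03) (nat_lit 0xa032006) (nat_lit 22)))))

def c256_56 : Tr := .n c512_56 c512_312

def c512_184 : Tr :=
 .n (.n (.n (.n (.n (.p (nat_lit 0x2306230222fe22fc0cd90cd506) (nat_lit 0x140000b00) (nat_lit 16))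
 (.p (nat_lit 0x3302330032fe32fc32fa32f8018c07) (nat_lit 0x8aa) (nat_lit 8)))
 (.n (.p (nat_lit 0xe89002002) (nat_lit 0x8803) (nat_lit 1))
 (.p (nat_lit 0x3a2f39bb38a103) (nat_lit 0x9d80000a040) (nat_lit 43))))
 (.n (.n (.p (nat_lit 0xff0014001203) (nat_lit 0x18000a001) (nat_lit 20))
 (.p (nat_lit 0x38c538a902) (nat_lit 0x80800000800) (nat_lit 35)))
 (.p (nat_lit 0x25010fa002) (nat_lit 0x805) (nat_lit 5))))
 (.n (.n (.n (.p (nat_lit 0xd21003802) (nat_lit 0x8860) (nat_lit 1))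
 (.p (nat_lit 0xcb004e004c004a0048000906) (nat_lit 0x58446) (nat_lit 29)))
 (.p (nat_lit 0x2f290f1802) (nat_lit 0x8804) (nat_lit 32)))
 (.n (.n (.p (nat_lit 0x189d0dec02) (nat_lit 0x8002) (nat_lit 4))
 (.p (nat_lit 0x39a1399b02) (nat_lit 0x30c0a000800) (nat_lit 35)))
 (.p (nat_lit 0x25b3105202) (nat_lit 0xa826) (nat_lit 5)))))
 (.n (.n (.n (.n (.p (nat_lit 0x199a19981996199419900cf706) (nat_lit 0x20001440) (nat_lit 15))
 (.p (nat_lit 0x215621542152214e214c15c906) (nat_lit 0x40000310) (nat_lit 17)))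
 (.n (.p (nat_lit 0x246c2468246624640eeb0ee706) (nat_lit 0x280000883) (nat_lit 14))
 (.p (nat_lit 0x3a053927380d03) (nat_lit 0x8d0000040a0) (nat_lit 44))))
 (.n (.n (.p (nat_lit 0x2dbf0dae02) (nat_lit 0x6861) (nat_lit 32))
 (.p (nat_lit 0x3931392f02) (nat_lit 0xb5404000800) (nat_lit 35)))
 (.p (nat_lit 0x1a950fe402) (nat_lit 0x8065) (nat_lit 4))))
 (.n (.n (.n (.p (nat_lit 0x251425122510250c0d3b0d3306) (nat_lit 0x220000980) (nat_lit 16))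
 (.p (nat_lit 0x382c382638243820381e381c17db07) (nat_lit 0x6000080) (nat_lit 37)))
 (.p (nat_lit 0xf710f5902) (nat_lit 0x864) (nat_lit 18)))
 (.n (.n (.p (nat_lit 0x226a22662264226222600e4d06) (nat_lit 0x100001282) (nat_lit 14))
 (.p (nat_lit 0x3a153979386103) (nat_lit 0x53800008000) (nat_lit 43)))
 (.p (nat_lit 0x2b6a2b682b662b622b60108906) (nat_lit 0x40001286) (nat_lit 14)))))

def c512_440 : Tr :=
 .n (.n (.n (.n (.n (.p (nat_lit 0x18aa18a818a618a00ced0ceb06) (nat_lit 0x60001820) (nat_lit 15))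
 (.p (nat_lit 0x1cf00aa00a803) (nat_lit 0x3000a00e) (nat_lit 20)))
 (.n (.p (nat_lit 0x2ecf0ebe02) (nat_lit 0x2063) (nat_lit 32))
 (.p (nat_lit 0x3a3a141f02) (nat_lit 0xa360) (nat_lit 48))))
 (.n (.n (.p (nat_lit 0xda70d8f02) (nat_lit 0xa041) (nat_lit 18))
 (.p (nat_lit 0x38f138dd02) (nat_lit 0x71002000800) (nat_lit 35)))
 (.p (nat_lit 0x226a2266226422600fc10fbb06) (nat_lit 0x120001a25) (nat_lit 14))))
 (.n (.n (.n (.p (nat_lit 0xd2e0d2d0d2b0d280d260d2402400009000709) (nat_lit 0x46080) (nat_lit 13))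
 (.p (nat_lit 0x37d337c502) (nat_lit 0x7a002000000) (nat_lit 35)))
 (.p (nat_lit 0x2f3d0f2c02) (nat_lit 0x4824) (nat_lit 32)))
 (.n (.n (.p (nat_lit 0x238d0e2c02) (nat_lit 0x62) (nat_lit 5))
 (.p (nat_lit 0x3928392639223920380905) (nat_lit 0x4804000000) (nat_lit 36)))
 (.p (nat_lit 0x22a622a222a0229e229c106906) (nat_lit 0x100000d46) (nat_lit 16)))))
 (.n (.n (.n (.n (.p (nat_lit 0xe290d0902) (nat_lit 0x8940) (nat_lit 19))
 (.p (nat_lit 0x23282326232423222320172b06) (nat_lit 0x200001c52) (nat_lit 14)))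
 (.p (nat_lit 0x17f617f417f017ee17ec0eff06) (nat_lit 0x80000da3) (nat_lit 17)))
 (.n (.n (.p (nat_lit 0x18770dc602) (nat_lit 0x6881) (nat_lit 4))
 (.p (nat_lit 0x3991396902) (nat_lit 0xb0808000800) (nat_lit 35)))
 (.p (nat_lit 0x10190fa102) (nat_lit 0x8a5) (nat_lit 18))))
 (.n (.n (.n (.p (nat_lit 0xd450ccd02) (nat_lit 0x80a0) (nat_lit 18))
 (.p (nat_lit 0x3883387902) (nat_lit 0x3880a000000) (nat_lit 35)))
 (.p (nat_lit 0x24ef1a3f034b033b012e05) (nat_lit 0x14868a4) (nat_lit 9)))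
 (.n (.n (.p (nat_lit 0x2312230e230c230a23080e6506) (nat_lit 0x1000013a2) (nat_lit 14))
 (.p (nat_lit 0x3a2339b1389703) (nat_lit 0x7440000a020) (nat_lit 43)))
 (.p (nat_lit 0x18e618e418e218e018de119906) (nat_lit 0x10000b68) (nat_lit 17)))))

def c256_184 : Tr := .n c512_184 c512_440

def c128_56 : Tr := .n c256_56 c256_184

def c512_120 : Tr :=
 .n (.n (.n (.n (.n (.p (nat_lit 0x180e180a180618040cd90cd506) (nat_lit 0x140000800) (nat_lit 17))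
 (.p (nat_lit 0x12e712cf02) (nat_lit 0xa08a) (nat_lit 18)))
 (.n (.p (nat_lit 0xe7f0e7c0e7b0e780e760e74031a002f002b09) (nat_lit 0x56003) (nat_lit 13))
 (.p (nat_lit 0x3a2d3987386d03) (nat_lit 0x8d000008040) (nat_lit 43))))
 (.n (.n (.p (nat_lit 0xd4f0cd702) (nat_lit 0x68a0) (nat_lit 18))
 (.p (nat_lit 0x3894388e388c388838863884225f07) (nat_lit 0xa000040) (nat_lit 38)))
 (.p (nat_lit 0xf9e0f9c0f9b0f990f960f94039a0043004109) (nat_lit 0x34005) (nat_lit 13))))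
 (.n (.n (.n (.p (nat_lit 0xd270d0f02) (nat_lit 0x2060) (nat_lit 18))
 (.p (nat_lit 0x8cf004202) (nat_lit 0x60a4) (nat_lit 30)))
 (.p (nat_lit 0x228e228a228622840f0d0f0906) (nat_lit 0x140000404) (nat_lit 14)))
 (.n (.n (.p (nat_lit 0x26702630261010004) (nat_lit 0x2b4001) (nat_lit 23))
 (.p (nat_lit 0x399b399502) (nat_lit 0x1800a000800) (nat_lit 35)))
 (.p (nat_lit 0x1830182e182c18281047103f06) (nat_lit 0x220001126) (nat_lit 17)))))
 (.n (.n (.n (.n (.p (nat_lit 0x225b0cfa02) (nat_lit 0x6040) (nat_lit 5))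
 (.p (nat_lit 0x2ac22ac02abe2abc2aba152906) (nat_lit 0x100019ae) (nat_lit 14)))
 (.n (.p (nat_lit 0x1a421a3e1a3c1a3a0edd0ed506) (nat_lit 0x110001583) (nat_lit 15))
 (.p (nat_lit 0x39fe0f9302) (nat_lit 0xaa80) (nat_lit 47))))
 (.n (.n (.p (nat_lit 0x17ea17e817e617e417e00d9f06) (nat_lit 0x20001461) (nat_lit 15))
 (.p (nat_lit 0x3927391902) (nat_lit 0x8a804000800) (nat_lit 35)))
 (.p (nat_lit 0x19ca19c619c419c219c00fd906) (nat_lit 0x100001845) (nat_lit 15))))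
 (.n (.n (.n (.p (nat_lit 0xd3a0d380d360d350d320d30000507) (nat_lit 0x4880) (nat_lit 7))
 (.p (nat_lit 0x383d381d02) (nat_lit 0xa1006000000) (nat_lit 35)))
 (.p (nat_lit 0xf4b0f480f470f440f420f400362003b003709) (nat_lit 0x56844) (nat_lit 13)))
 (.n (.n (.p (nat_lit 0xed30e4302) (nat_lit 0xab62) (nat_lit 19))
 (.p (nat_lit 0x39c9390737ef03) (nat_lit 0x9400004000) (nat_lit 44)))
 (.p (nat_lit 0x1a961a921a8e1a8c1081107d06) (nat_lit 0x140000b66) (nat_lit 17)))))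

def c512_376 : Tr :=
 .n (.n (.n (.n (.n (.p (nat_lit 0xe030ce302) (nat_lit 0x6120) (nat_lit 19))
 (.p (nat_lit 0x246e246c246824662464140f06) (nat_lit 0x800008ac) (nat_lit 14)))
 (.n (.p (nat_lit 0xeb30e9b02) (nat_lit 0x2823) (nat_lit 18))
 (.p (nat_lit 0x3a3b39bf387503) (nat_lit 0xa800000a060) (nat_lit 43))))
 (.n (.n (.p (nat_lit 0x18370d8602) (nat_lit 0x2041) (nat_lit 4))
 (.p (nat_lit 0x38ed38d502) (nat_lit 0x60002000800) (nat_lit 35)))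
 (.p (nat_lit 0x15dd0fad02) (nat_lit 0x525) (nat_lit 19))))
 (.n (.n (.n (.p (nat_lit 0xe390d1902) (nat_lit 0x960) (nat_lit 19))
 (.p (nat_lit 0x37cd37b702) (nat_lit 0x60402000000) (nat_lit 35)))
 (.p (nat_lit 0x197619721970196e196c0f2506) (nat_lit 0x100000324) (nat_lit 15)))
 (.n (.n (.p (nat_lit 0xe21007802) (nat_lit 0x842) (nat_lit 1))
 (.p (nat_lit 0x39aa39a839a639a239a0399a397a3978397639723970396a394a3948394639423940393a391a3918391639123910390a38ea38e838e638e238e038da38ba38b838b638b238b038aa24) (nat_lit 0xb00) (nat_lit 39)))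
 (.p (nat_lit 0x3079005102) (nat_lit 0x8846) (nat_lit 33)))))
 (.n (.n (.n (.n (.p (nat_lit 0x244a2448244424420d070d0106) (nat_lit 0x90001c40) (nat_lit 14))
 (.p (nat_lit 0x21c7171602) (nat_lit 0x2052) (nat_lit 4)))
 (.p (nat_lit 0x246319b3031902f7011e05) (nat_lit 0x118a8a3) (nat_lit 9)))
 (.n (.n (.p (nat_lit 0x25ca25c825c625c425c00db706) (nat_lit 0x20001281) (nat_lit 14))
 (.p (nat_lit 0x395c395639543950394e394c227f07) (nat_lit 0x6000860) (nat_lit 38)))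
 (.p (nat_lit 0x20ae20ac20a820a41013100f06) (nat_lit 0xa00002a5) (nat_lit 17))))
 (.n (.n (.n (.p (nat_lit 0x1b021b001afa1af80d430d4106) (nat_lit 0xc00011a0) (nat_lit 15))
 (.p (nat_lit 0x386f386502) (nat_lit 0xac008000000) (nat_lit 35)))
 (.p (nat_lit 0x1a661a621a601a5e1a5c0f8506) (nat_lit 0x1000001a4) (nat_lit 15)))
 (.n (.n (.p (nat_lit 0x11b10e5102) (nat_lit 0x882) (nat_lit 19))
 (.p (nat_lit 0x3a213965384703) (nat_lit 0x400008020) (nat_lit 43)))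
 (.p (nat_lit 0x1c37118602) (nat_lit 0x6848) (nat_lit 4)))))

def c256_120 : Tr := .n c512_120 c512_376

def c512_248 : Tr :=
 .n (.n (.n (.n (.n (.p (nat_lit 0x187818761874187218700cdb06) (nat_lit 0x200001c00) (nat_lit 15))
 (.p (nat_lit 0x28df137e02) (nat_lit 0x68ab) (nat_lit 5)))
 (.n (.p (nat_lit 0x19221920191e191c19180e8306) (nat_lit 0x20001d03) (nat_lit 15))
 (.p (nat_lit 0x3a353929380903) (nat_lit 0x94800004060) (nat_lit 43))))
 (.n (.n (.p (nat_lit 0x22cd0d6c02) (nat_lit 0x21) (nat_lit 5))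
 (.p (nat_lit 0x38cd38b302) (nat_lit 0xa1c00000800) (nat_lit 35)))
 (.p (nat_lit 0x25d625d225d025cc0fa90fa306) (nat_lit 0x120000b05) (nat_lit 16))))
 (.n (.n (.n (.p (nat_lit 0x19d219d019ce19cc0d230d2106) (nat_lit 0x300000960) (nat_lit 15))
 (.p (nat_lit 0x379d378b02) (nat_lit 0x60c00000000) (nat_lit 35)))
 (.p (nat_lit 0x17d217d017ce17cc17c80f1306) (nat_lit 0x20001b04) (nat_lit 17)))
 (.n (.n (.p (nat_lit 0x1c521c4e1c4a1c480df90df506) (nat_lit 0x140001b02) (nat_lit 17))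
 (.p (nat_lit 0x39b739a102) (nat_lit 0x8980a000800) (nat_lit 35)))
 (.p (nat_lit 0x25b7105602) (nat_lit 0x2046) (nat_lit 5)))))
 (.n (.n (.n (.n (.p (nat_lit 0xd07002a02) (nat_lit 0x6840) (nat_lit 1))
 (.p (nat_lit 0x160715ef02) (nat_lit 0x6830) (nat_lit 18)))
 (.n (.p (nat_lit 0x2f030ef202) (nat_lit 0x60a3) (nat_lit 32))
 (.p (nat_lit 0x3a093967384f03) (nat_lit 0x94000080a0) (nat_lit 44))))
 (.n (.n (.p (nat_lit 0x17c617c417c017bc0daf0dab06) (nat_lit 0xa0000b61) (nat_lit 17))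
 (.p (nat_lit 0x3961393902) (nat_lit 0xb0806000800) (nat_lit 35)))
 (.p (nat_lit 0x3003004702) (nat_lit 0xa865) (nat_lit 33))))
 (.n (.n (.n (.p (nat_lit 0x1aa21aa01a9c1a9a1a980d3706) (nat_lit 0x80001b80) (nat_lit 15))
 (.p (nat_lit 0x3853384b02) (nat_lit 0x38c08000000) (nat_lit 35)))
 (.p (nat_lit 0xff50f6502) (nat_lit 0x584) (nat_lit 19)))
 (.n (.n (.p (nat_lit 0x123f0e4f02) (nat_lit 0xa182) (nat_lit 19))
 (.p (nat_lit 0x3a1b38d937b903) (nat_lit 0x10800002020) (nat_lit 43)))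
 (.p (nat_lit 0x30b5005102) (nat_lit 0x80a6) (nat_lit 33)))))

def c512_504 : Tr :=
 .n (.n (.n (.n (.n (.p (nat_lit 0x23a2239e239c23980cf10ceb06) (nat_lit 0x120001b20) (nat_lit 14))
 (.p (nat_lit 0x252e252c252a2528252414b306) (nat_lit 0x20000a0e) (nat_lit 14)))
 (.n (.p (nat_lit 0x2ee1002d02) (nat_lit 0x8863) (nat_lit 33))
 (.p (nat_lit 0x3a3f38dd37bd03) (nat_lit 0x21000002080) (nat_lit 43))))
 (.n (.n (.p (nat_lit 0x23ac23aa23a823a623a40d9b06) (nat_lit 0x200000c41) (nat_lit 14))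
 (.p (nat_lit 0x390138eb02) (nat_lit 0xb2c02000800) (nat_lit 35)))
 (.p (nat_lit 0x15ef0fbf02) (nat_lit 0x6d25) (nat_lit 19))))
 (.n (.n (.n (.p (nat_lit 0x252e252c252a25280d270d2506) (nat_lit 0x30000280) (nat_lit 14))
 (.p (nat_lit 0x380737f302) (nat_lit 0x89c04000000) (nat_lit 35)))
 (.p (nat_lit 0x19a619a419a2199c0f2d0f2b06) (nat_lit 0x60000d24) (nat_lit 15)))
 (.n (.n (.p (nat_lit 0x19a619a419a219a0199c0e2f06) (nat_lit 0x20000562) (nat_lit 15))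
 (.p (nat_lit 0x39a839a639a239a0388905) (nat_lit 0x280a000000) (nat_lit 36)))
 (.p (nat_lit 0x1a4a1a481a461a441077107506) (nat_lit 0x300000066) (nat_lit 17)))))
 (.n (.n (.n (.n (.p (nat_lit 0x19be19bc19b819b619b40d1306) (nat_lit 0x80000060) (nat_lit 17))
 (.p (nat_lit 0x174e174c174a17491746174400dd07) (nat_lit 0x4092) (nat_lit 7)))
 (.p (nat_lit 0x30f0303011e03) (nat_lit 0xa022003) (nat_lit 22)))
 (.n (.n (.p (nat_lit 0x1b3e1b3a1b381b340dc90dc306) (nat_lit 0x120000c81) (nat_lit 17))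
 (.p (nat_lit 0x398b397102) (nat_lit 0x99808000800) (nat_lit 35)))
 (.p (nat_lit 0x2585102402) (nat_lit 0x6) (nat_lit 5))))
 (.n (.n (.n (.p (nat_lit 0xd520d500d4f0d4c0d4a0d49021a0007000109) (nat_lit 0x308a0) (nat_lit 13))
 (.p (nat_lit 0x38a3387f02) (nat_lit 0xb940a000000) (nat_lit 35)))
 (.p (nat_lit 0xf8d0f1502) (nat_lit 0x48a4) (nat_lit 18)))
 (.n (.n (.p (nat_lit 0x22ee22ec22e822e40e6f0e6b06) (nat_lit 0xa0000aa2) (nat_lit 16))
 (.p (nat_lit 0x3a27390137b903) (nat_lit 0xb0800002040) (nat_lit 43)))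
 (.p (nat_lit 0x185618521850184e184c11b906) (nat_lit 0x100000b88) (nat_lit 15)))))

def c256_248 : Tr := .n c512_248 c512_504

def c128_120 : Tr := .n c256_120 c256_248

def c64_56 : Tr := .n c128_56 c128_120

def c32_24 : Tr := .n c64_24 c64_56

def c16_8 : Tr := .n c32_8 c32_24

def cb4_8 : Tr := c16_8

def c512_9 : Tr :=
 .n (.n (.n (.n (.n (.p (nat_lit 0xcc7000e02) (nat_lit 0x2000) (nat_lit 1))
 (.p (nat_lit 0x1cdb122a02) (nat_lit 0x2869) (nat_lit 4)))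
 (.n (.p (nat_lit 0x1860185e185c185a18580e7306) (nat_lit 0x200001ba2) (nat_lit 15))
 (.p (nat_lit 0x3a2738df37c103) (nat_lit 0x29800002040) (nat_lit 43))))
 (.n (.n (.p (nat_lit 0x259a2598259425920d4f0d4906) (nat_lit 0x900018a0) (nat_lit 14))
 (.p (nat_lit 0x38a3388102) (nat_lit 0xb980a000000) (nat_lit 35)))
 (.p (nat_lit 0x3390337012e03) (nat_lit 0x22004) (nat_lit 22))))
 (.n (.n (.n (.p (nat_lit 0x247a24782474247224700d1306) (nat_lit 0x80001060) (nat_lit 16))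
 (.p (nat_lit 0x7cf000f02) (nat_lit 0x2041) (nat_lit 31)))
 (.p (nat_lit 0x131003202) (nat_lit 0x2000c004) (nat_lit 20)))
 (.n (.n (.p (nat_lit 0xe5b0dcb02) (nat_lit 0xaa81) (nat_lit 19))
 (.p (nat_lit 0x397d397502) (nat_lit 0x62008000800) (nat_lit 35)))
 (.p (nat_lit 0x102f102c102a102810261024005307) (nat_lit 0xa006) (nat_lit 7)))))
 (.n (.n (.n (.n (.p (nat_lit 0x23ae23aa23a823a40cf10ceb06) (nat_lit 0x120000c20) (nat_lit 16))
 (.p (nat_lit 0x1f7114c002) (nat_lit 0x402e) (nat_lit 4)))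
 (.n (.p (nat_lit 0x1e4a1e461e441e421e400ed106) (nat_lit 0x100001863) (nat_lit 17))
 (.p (nat_lit 0x39f614b302) (nat_lit 0x2b80) (nat_lit 47))))
 (.n (.n (.p (nat_lit 0xdb30d9b02) (nat_lit 0xa841) (nat_lit 18))
 (.p (nat_lit 0x38fb38f902) (nat_lit 0x9c802000800) (nat_lit 35)))
 (.p (nat_lit 0x2fd9004102) (nat_lit 0x4045) (nat_lit 33))))
 (.n (.n (.n (.p (nat_lit 0x253a25362534253225300d2d06) (nat_lit 0x100001280) (nat_lit 14))
 (.p (nat_lit 0x380537f902) (nat_lit 0x82804000000) (nat_lit 35)))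
 (.p (nat_lit 0x19b019ae19aa19a80f330f2d06) (nat_lit 0x240001d24) (nat_lit 15)))
 (.n (.n (.p (nat_lit 0x118f0e2f02) (nat_lit 0x2062) (nat_lit 19))
 (.p (nat_lit 0x39c538d1378703) (nat_lit 0xb0400000000) (nat_lit 44)))
 (.p (nat_lit 0x2520251e251c251a2518107706) (nat_lit 0x200001166) (nat_lit 14)))))

def c512_265 : Tr :=
 .n (.n (.n (.n (.n (.p (nat_lit 0x18921890188c188a0cd70cd106) (nat_lit 0x90001d00) (nat_lit 15))
 (.p (nat_lit 0x138b002a02) (nat_lit 0x600c) (nat_lit 1)))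
 (.n (.p (nat_lit 0xf1b0e8b02) (nat_lit 0xac03) (nat_lit 19))
 (.p (nat_lit 0x39ec14c102) (nat_lit 0x4460) (nat_lit 47))))
 (.n (.n (.p (nat_lit 0xd77006a02) (nat_lit 0xa021) (nat_lit 1))
 (.p (nat_lit 0x38b938b702) (nat_lit 0x52400000800) (nat_lit 35)))
 (.p (nat_lit 0xfc30fab02) (nat_lit 0xa805) (nat_lit 18))))
 (.n (.n (.n (.p (nat_lit 0x19e019de19dc19d80d230d1b06) (nat_lit 0x220001960) (nat_lit 15))
 (.p (nat_lit 0x379d379102) (nat_lit 0x61800000000) (nat_lit 35)))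
 (.p (nat_lit 0x17de17da17d817d617d40f1906) (nat_lit 0x100000c04) (nat_lit 15)))
 (.n (.n (.p (nat_lit 0x18ad0dfc02) (nat_lit 0x22) (nat_lit 4))
 (.p (nat_lit 0x39bf39a302) (nat_lit 0xa9c0a000800) (nat_lit 35)))
 (.p (nat_lit 0x105f105c105a105810561054005307) (nat_lit 0xa046) (nat_lit 7)))))
 (.n (.n (.n (.n (.p (nat_lit 0xd0a0d080d070d040d030d0002260007000309) (nat_lit 0x32840) (nat_lit 13))
 (.p (nat_lit 0x2b5d15fc02) (nat_lit 0x8050) (nat_lit 5)))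
 (.n (.p (nat_lit 0x178a17881786178217800ef106) (nat_lit 0x400010a3) (nat_lit 15))
 (.p (nat_lit 0x3a513977385903) (nat_lit 0x4a8000080a0) (nat_lit 43))))
 (.n (.n (.p (nat_lit 0x228e228a2288228622840db106) (nat_lit 0x100000c61) (nat_lit 14))
 (.p (nat_lit 0x3953393d02) (nat_lit 0x79006000800) (nat_lit 35)))
 (.p (nat_lit 0x10010fe902) (nat_lit 0x865) (nat_lit 18))))
 (.n (.n (.n (.p (nat_lit 0x1aae1aa81aa61aa40d390d3706) (nat_lit 0x180000c80) (nat_lit 17))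
 (.p (nat_lit 0x3863384d02) (nat_lit 0x79008000000) (nat_lit 35)))
 (.p (nat_lit 0x24d31a230345033b012e05) (nat_lit 0xc22884) (nat_lit 9)))
 (.n (.n (.p (nat_lit 0x23b1190102d102a9010e05) (nat_lit 0x11a0882) (nat_lit 9))
 (.p (nat_lit 0x3a1d392f37e503) (nat_lit 0xa8000004020) (nat_lit 43)))
 (.p (nat_lit 0x1b5f10ae02) (nat_lit 0x68a6) (nat_lit 4)))))

def c256_9 : Tr := .n c512_9 c512_265

def c512_137 : Tr :=
 .n (.n (.n (.n (.n (.p (nat_lit 0x22e022de22dc22da22d80cdb06) (nat_lit 0x200001900) (nat_lit 14))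
 (.p (nat_lit 0x1d8b12da02) (nat_lit 0xa88a) (nat_lit 4)))
 (.n (.p (nat_lit 0x23ae23aa23a823a623a40e7d06) (nat_lit 0x100000403) (nat_lit 14))
 (.p (nat_lit 0x39e40e4102) (nat_lit 0x8840) (nat_lit 47))))
 (.n (.n (.p (nat_lit 0xefd0d4d02) (nat_lit 0x4aa0) (nat_lit 19))
 (.p (nat_lit 0x38b338a502) (nat_lit 0x38000000800) (nat_lit 35)))
 (.p (nat_lit 0x1b001afe1afa1af80f9f0f9906) (nat_lit 0x240001105) (nat_lit 15))))
 (.n (.n (.n (.p (nat_lit 0xebd0d0d02) (nat_lit 0x260) (nat_lit 19))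
 (.p (nat_lit 0x8df004702) (nat_lit 0xa005) (nat_lit 31)))
 (.p (nat_lit 0x22b222b022ae22aa22a80f0906) (nat_lit 0x40001504) (nat_lit 14)))
 (.n (.n (.p (nat_lit 0x28b026300fe03) (nat_lit 0x6050001) (nat_lit 22))
 (.p (nat_lit 0x39c1399502) (nat_lit 0xb000a000800) (nat_lit 35)))
 (.p (nat_lit 0x232a2326232423222320104506) (nat_lit 0x100001426) (nat_lit 16)))))
 (.n (.n (.n (.n (.p (nat_lit 0x23ea23e623e423e223e00cfd06) (nat_lit 0x100001040) (nat_lit 14))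
 (.p (nat_lit 0x15d3154302) (nat_lit 0x280f) (nat_lit 19)))
 (.n (.p (nat_lit 0xf690ed902) (nat_lit 0x4483) (nat_lit 19))
 (.p (nat_lit 0x3a4815dd02) (nat_lit 0x4a0) (nat_lit 48))))
 (.n (.n (.p (nat_lit 0x1802180017fe17f80da10d9f06) (nat_lit 0x60001561) (nat_lit 15))
 (.p (nat_lit 0x392f391d02) (nat_lit 0xab004000800) (nat_lit 35)))
 (.p (nat_lit 0x24e624e424e224de24dc0fd506) (nat_lit 0x40000d45) (nat_lit 16))))
 (.n (.n (.n (.p (nat_lit 0x229b17eb02) (nat_lit 0xa880) (nat_lit 11))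
 (.p (nat_lit 0x383b381f02) (nat_lit 0x99406000000) (nat_lit 35)))
 (.p (nat_lit 0xfd90f4902) (nat_lit 0x8d44) (nat_lit 19)))
 (.n (.n (.p (nat_lit 0x23ab0e4a02) (nat_lit 0x6082) (nat_lit 5))
 (.p (nat_lit 0x3a10223502) (nat_lit 0x4800) (nat_lit 46)))
 (.p (nat_lit 0x309e309c309a309830963094014c07) (nat_lit 0x86) (nat_lit 8)))))

def c512_393 : Tr :=
 .n (.n (.n (.n (.n (.p (nat_lit 0x10470ce702) (nat_lit 0xa520) (nat_lit 19))
 (.p (nat_lit 0x1ecb141a02) (nat_lit 0x600d) (nat_lit 4)))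
 (.n (.p (nat_lit 0xeae0eac0eaa0ea90ea60ea4002907) (nat_lit 0x4043) (nat_lit 7))
 (.p (nat_lit 0x3a3b399f388103) (nat_lit 0x2980000a060) (nat_lit 43))))
 (.n (.n (.p (nat_lit 0xd8e0d8d0d8a0d880d860d84001507) (nat_lit 0x8041) (nat_lit 7))
 (.p (nat_lit 0x38e538d702) (nat_lit 0x40402000800) (nat_lit 35)))
 (.p (nat_lit 0x2fcd004102) (nat_lit 0x4825) (nat_lit 33))))
 (.n (.n (.n (.p (nat_lit 0xf630d2302) (nat_lit 0xab60) (nat_lit 19))
 (.p (nat_lit 0x37cd37b902) (nat_lit 0x60802000000) (nat_lit 35)))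
 (.p (nat_lit 0x245624522450244e244c0f2506) (nat_lit 0x100000524) (nat_lit 14)))
 (.n (.n (.p (nat_lit 0x23870e2602) (nat_lit 0x6842) (nat_lit 5))
 (.p (nat_lit 0x38c638c438c038be37a705) (nat_lit 0x4400000000) (nat_lit 36)))
 (.p (nat_lit 0x178a1786178417821780106906) (nat_lit 0x100001846) (nat_lit 15)))))
 (.n (.n (.n (.n (.p (nat_lit 0x245624542450244c0d070d0306) (nat_lit 0xa0000d40) (nat_lit 16))
 (.p (nat_lit 0x21cf171e02) (nat_lit 0xa052) (nat_lit 4)))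
 (.p (nat_lit 0x22522250224e224c22480efb06) (nat_lit 0x200019a3) (nat_lit 14)))
 (.n (.n (.p (nat_lit 0x25e225de25dc25da0dbd0db506) (nat_lit 0x110001381) (nat_lit 14))
 (.p (nat_lit 0x397f396502) (nat_lit 0x68008000800) (nat_lit 35)))
 (.p (nat_lit 0x3029101802) (nat_lit 0x8a5) (nat_lit 32))))
 (.n (.n (.n (.p (nat_lit 0x1b0a1b081b061b040d470d4506) (nat_lit 0x3000002a0) (nat_lit 17))
 (.p (nat_lit 0x385c385638543850384e384c17dd07) (nat_lit 0x8000080) (nat_lit 37)))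
 (.p (nat_lit 0x254625442542253e253c0f8106) (nat_lit 0x400003a4) (nat_lit 14)))
 (.n (.n (.p (nat_lit 0x190f0e5e02) (nat_lit 0x20a2) (nat_lit 4))
 (.p (nat_lit 0x39d93973385903) (nat_lit 0x3a800008020) (nat_lit 44)))
 (.p (nat_lit 0x319f118e02) (nat_lit 0x2068) (nat_lit 32)))))

def c256_137 : Tr := .n c512_137 c512_393

def c128_9 : Tr := .n c256_9 c256_137

def c512_73 : Tr :=
 .n (.n (.n (.n (.n (.p (nat_lit 0xded0ccd02) (nat_lit 0x8100) (nat_lit 19))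
 (.p (nat_lit 0x281d12bc02) (nat_lit 0x486a) (nat_lit 5)))
 (.n (.p (nat_lit 0x121002802) (nat_lit 0x4000c003) (nat_lit 20))
 (.p (nat_lit 0x3a2d3965384503) (nat_lit 0x8040) (nat_lit 43))))
 (.n (.n (.p (nat_lit 0x1b261b241b1e1b1c0d4f0d4d06) (nat_lit 0xc0000ba0) (nat_lit 15))
 (.p (nat_lit 0x3891388f02) (nat_lit 0x7340a000000) (nat_lit 35)))
 (.p (nat_lit 0x13f0044003e03) (nat_lit 0x12000a005) (nat_lit 20))))
 (.n (.n (.n (.p (nat_lit 0x1a1e1a1c1a1a1a140d110d0f06) (nat_lit 0x60000460) (nat_lit 15))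
 (.p (nat_lit 0x855007c02) (nat_lit 0x4023) (nat_lit 30)))
 (.p (nat_lit 0xf0e0f0d0f0b0f080f060f0403600039003709) (nat_lit 0x46004) (nat_lit 13)))
 (.n (.n (.p (nat_lit 0x10a70dd702) (nat_lit 0xa4a1) (nat_lit 19))
 (.p (nat_lit 0x3991397f02) (nat_lit 0xb3408000800) (nat_lit 35)))
 (.p (nat_lit 0x21f221ee21ea21e81039103506) (nat_lit 0x140001b06) (nat_lit 17)))))
 (.n (.n (.n (.n (.p (nat_lit 0xd790ce902) (nat_lit 0x820) (nat_lit 19))
 (.p (nat_lit 0x1a361a341a321a301a2e14c906) (nat_lit 0x10000d2e) (nat_lit 15)))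
 (.n (.p (nat_lit 0xede0edd0eda0ed90ed60ed4030c002d002909) (nat_lit 0x44083) (nat_lit 13))
 (.p (nat_lit 0x39fd397b385b03) (nat_lit 0x5ac00008080) (nat_lit 44))))
 (.n (.n (.p (nat_lit 0x224622442240223e223c0da306) (nat_lit 0x80000161) (nat_lit 14))
 (.p (nat_lit 0x3925390b02) (nat_lit 0x80c04000800) (nat_lit 35)))
 (.p (nat_lit 0xfd1003002) (nat_lit 0x845) (nat_lit 1))))
 (.n (.n (.n (.p (nat_lit 0xe450d2502) (nat_lit 0x180) (nat_lit 19))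
 (.p (nat_lit 0x381f381502) (nat_lit 0x28006000000) (nat_lit 35)))
 (.p (nat_lit 0x1eaa1ea81ea41ea21ea00f3b06) (nat_lit 0x80001444) (nat_lit 15)))
 (.n (.n (.p (nat_lit 0x195e195c195a195819540e3b06) (nat_lit 0x20000a62) (nat_lit 15))
 (.p (nat_lit 0x39c738ff37b503) (nat_lit 0xa8000002000) (nat_lit 44)))
 (.p (nat_lit 0x10831080107e107c107a1078005307) (nat_lit 0xa866) (nat_lit 7)))))

def c512_329 : Tr :=
 .n (.n (.n (.n (.n (.p (nat_lit 0x2247179702) (nat_lit 0xa020) (nat_lit 11))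
 (.p (nat_lit 0x295d13fc02) (nat_lit 0xac) (nat_lit 5)))
 (.n (.p (nat_lit 0x23fb0e9a02) (nat_lit 0x2823) (nat_lit 5))
 (.p (nat_lit 0x39f13979385903) (nat_lit 0x52800008060) (nat_lit 44))))
 (.n (.n (.p (nat_lit 0xd830d800d7e0d7c0d7a0d7902660017000d09) (nat_lit 0x50821) (nat_lit 13))
 (.p (nat_lit 0x38c738c302) (nat_lit 0x8bc00000800) (nat_lit 35)))
 (.p (nat_lit 0x17ba17b817b617b417b00faf06) (nat_lit 0x20001225) (nat_lit 15))))
 (.n (.n (.n (.p (nat_lit 0x24d624d424d224d00d230d2106) (nat_lit 0x300001c60) (nat_lit 14))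
 (.p (nat_lit 0x37ab37a702) (nat_lit 0x9c400000000) (nat_lit 35)))
 (.p (nat_lit 0x2f2d0f1c02) (nat_lit 0x24) (nat_lit 32)))
 (.n (.n (.p (nat_lit 0x18c70e1602) (nat_lit 0x2042) (nat_lit 4))
 (.p (nat_lit 0x39bf39b102) (nat_lit 0xab80a000800) (nat_lit 35)))
 (.p (nat_lit 0x17f617f417ee17ec105b105906) (nat_lit 0xc0000546) (nat_lit 17)))))
 (.n (.n (.n (.n (.p (nat_lit 0x195e195c195a195619540d0506) (nat_lit 0x40000a40) (nat_lit 17))
 (.p (nat_lit 0x20c1161002) (nat_lit 0x4070) (nat_lit 4)))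
 (.n (.p (nat_lit 0x1802180017fe17fc17fa0eed06) (nat_lit 0x100015a3) (nat_lit 17))
 (.p (nat_lit 0x3a5339a3388303) (nat_lit 0x39c0000a0a0) (nat_lit 43))))
 (.n (.n (.p (nat_lit 0x18690db802) (nat_lit 0x4081) (nat_lit 4))
 (.p (nat_lit 0x395d394502) (nat_lit 0xa2006000800) (nat_lit 35)))
 (.p (nat_lit 0x256d100c02) (nat_lit 0xa5) (nat_lit 5))))
 (.n (.n (.n (.p (nat_lit 0x17ef0d3e02) (nat_lit 0x20a0) (nat_lit 4))
 (.p (nat_lit 0x386f385702) (nat_lit 0xaa408000000) (nat_lit 35)))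
 (.p (nat_lit 0x100b0f7b02) (nat_lit 0xad84) (nat_lit 19)))
 (.n (.n (.p (nat_lit 0x17d217d017ce17ca0e550e5106) (nat_lit 0x50001b82) (nat_lit 15))
 (.p (nat_lit 0x39d73945382d03) (nat_lit 0x43000006020) (nat_lit 44)))
 (.p (nat_lit 0x265510f402) (nat_lit 0x4847) (nat_lit 5)))))

def c256_73 : Tr := .n c512_73 c512_329

def c512_201 : Tr :=
 .n (.n (.n (.n (.n (.p (nat_lit 0x18621860185a18580cd70cd506) (nat_lit 0xc0001b00) (nat_lit 17))
 (.p (nat_lit 0x285112f002) (nat_lit 0x88aa) (nat_lit 5)))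
 (.n (.p (nat_lit 0x189e1898189618940e890e8706) (nat_lit 0x180000803) (nat_lit 17))
 (.p (nat_lit 0x39e938c737ad03) (nat_lit 0x8d000000060) (nat_lit 44))))
 (.n (.n (.p (nat_lit 0x180b0d5a02) (nat_lit 0x6001) (nat_lit 4))
 (.p (nat_lit 0x38cf38ab02) (nat_lit 0xa8c00000800) (nat_lit 35)))
 (.p (nat_lit 0xfaa0fa80fa70fa40fa20fa0004307) (nat_lit 0x6805) (nat_lit 7))))
 (.n (.n (.n (.p (nat_lit 0xd230d200d1e0d1c0d1b0d18022a000b000309) (nat_lit 0x52860) (nat_lit 13))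
 (.p (nat_lit 0x9e609e209e009de09dc016c000907) (nat_lit 0x8388) (nat_lit 28)))
 (.p (nat_lit 0x224622442240223e223c0f1706) (nat_lit 0x80000904) (nat_lit 14)))
 (.n (.n (.p (nat_lit 0x1c441c401c3e1c3c0def0deb06) (nat_lit 0x280000302) (nat_lit 17))
 (.p (nat_lit 0x39c3399b02) (nat_lit 0xb8c0a000800) (nat_lit 35)))
 (.p (nat_lit 0x182418221820181e181c105306) (nat_lit 0x200000926) (nat_lit 17)))))
 (.n (.n (.n (.n (.p (nat_lit 0x24622460245e245c24580cf706) (nat_lit 0x20001540) (nat_lit 16))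
 (.p (nat_lit 0x209315e202) (nat_lit 0x6030) (nat_lit 4)))
 (.n (.p (nat_lit 0x19fa19f819f419f219f00ee706) (nat_lit 0x80001a83) (nat_lit 15))
 (.p (nat_lit 0x3a073937381f03) (nat_lit 0x94000060a0) (nat_lit 44))))
 (.n (.n (.p (nat_lit 0x222e222c222a222822240dab06) (nat_lit 0x20000861) (nat_lit 16))
 (.p (nat_lit 0x3947393502) (nat_lit 0x48006000800) (nat_lit 35)))
 (.p (nat_lit 0x1f5e1f5c1f5a1f540fe10fdf06) (nat_lit 0x60000065) (nat_lit 17))))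
 (.n (.n (.n (.p (nat_lit 0x1a721a6c1a6a1a680d390d3706) (nat_lit 0x180001980) (nat_lit 17))
 (.p (nat_lit 0x3863384502) (nat_lit 0x78008000000) (nat_lit 35)))
 (.p (nat_lit 0xf6e0f6c0f6a0f680f670f64003307) (nat_lit 0x2084) (nat_lit 7)))
 (.n (.n (.p (nat_lit 0x2282227e227c22780e4d0e4706) (nat_lit 0x120001382) (nat_lit 14))
 (.p (nat_lit 0x3a140e7102) (nat_lit 0x8a00) (nat_lit 48)))
 (.p (nat_lit 0x25f5109402) (nat_lit 0x4886) (nat_lit 5)))))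

def c512_457 : Tr :=
 .n (.n (.n (.n (.n (.p (nat_lit 0x18b618b218b018ae18ac0cf106) (nat_lit 0x100000920) (nat_lit 17))
 (.p (nat_lit 0x2a0d14ac02) (nat_lit 0x800e) (nat_lit 5)))
 (.n (.p (nat_lit 0xec60ec40ec20ec00ebf0ebd02ee0027002509) (nat_lit 0x10063) (nat_lit 13))
 (.p (nat_lit 0x39f538bf379f03) (nat_lit 0x6b400000080) (nat_lit 44))))
 (.n (.n (.p (nat_lit 0xd91001802) (nat_lit 0x841) (nat_lit 1))
 (.p (nat_lit 0x38ef38df02) (nat_lit 0x69402000800) (nat_lit 35)))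
 (.p (nat_lit 0x228e228c228a22880fbb0fb906) (nat_lit 0x30000c25) (nat_lit 16))))
 (.n (.n (.n (.p (nat_lit 0x1a5a1a581a561a500d290d2706) (nat_lit 0x60001080) (nat_lit 15))
 (.p (nat_lit 0x37e937e502) (nat_lit 0x10004000000) (nat_lit 35)))
 (.p (nat_lit 0x2f430f3202) (nat_lit 0xa824) (nat_lit 32)))
 (.n (.n (.p (nat_lit 0x2e43001f02) (nat_lit 0x6062) (nat_lit 33))
 (.p (nat_lit 0x394a39483942382b04) (nat_lit 0x2c06000000) (nat_lit 36)))
 (.p (nat_lit 0x1083106b02) (nat_lit 0xa846) (nat_lit 18)))))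
 (.n (.n (.n (.n (.p (nat_lit 0xfd70d0702) (nat_lit 0x6c40) (nat_lit 19))
 (.p (nat_lit 0x21e5173402) (nat_lit 0x8072) (nat_lit 4)))
 (.p (nat_lit 0xf890ef902) (nat_lit 0xca3) (nat_lit 19)))
 (.n (.n (.p (nat_lit 0x232b187b026f026700fe05) (nat_lit 0xc8a881) (nat_lit 9))
 (.p (nat_lit 0x3971396d02) (nat_lit 0x31008000800) (nat_lit 35)))
 (.p (nat_lit 0x39b0381013e03) (nat_lit 0x4030005) (nat_lit 22))))
 (.n (.n (.n (.p (nat_lit 0xf870d4702) (nat_lit 0xa3a0) (nat_lit 19))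
 (.p (nat_lit 0x387f387b02) (nat_lit 0x28c0a000000) (nat_lit 35)))
 (.p (nat_lit 0xf930f900f8f0f8c0f8a0f880362003b003709) (nat_lit 0x568a4) (nat_lit 13)))
 (.n (.n (.p (nat_lit 0xef10e6102) (nat_lit 0x43a2) (nat_lit 19))
 (.p (nat_lit 0x3a2212f302) (nat_lit 0xaa20) (nat_lit 48)))
 (.p (nat_lit 0x1c5711a602) (nat_lit 0x2088) (nat_lit 4)))))

def c256_201 : Tr := .n c512_201 c512_457

def c128_73 : Tr := .n c256_73 c256_201

def c64_9 : Tr := .n c128_9 c128_73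

def c512_41 : Tr :=
 .n (.n (.n (.n (.n (.p (nat_lit 0x185618521850184c0ccd0cc706) (nat_lit 0x120000300) (nat_lit 17))
 (.p (nat_lit 0x27a1124002) (nat_lit 0x889) (nat_lit 5)))
 (.n (.p (nat_lit 0x2af02a902a7011004) (nat_lit 0x2a2002) (nat_lit 23))
 (.p (nat_lit 0x3a2b3937381d03) (nat_lit 0x9000006040) (nat_lit 43))))
 (.n (.n (.p (nat_lit 0x25be25bc25ba25b60d4d0d4906) (nat_lit 0x50000aa0) (nat_lit 16))
 (.p (nat_lit 0x389b388702) (nat_lit 0x9a40a000000) (nat_lit 35)))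
 (.p (nat_lit 0x347033b012e03) (nat_lit 0x6010004) (nat_lit 22))))
 (.n (.n (.n (.p (nat_lit 0x2492248e248a24880d150d1106) (nat_lit 0x140001160) (nat_lit 14))
 (.p (nat_lit 0x7f00220020001a0018000506) (nat_lit 0x26442) (nat_lit 29)))
 (.p (nat_lit 0x12f003a003803) (nat_lit 0x30000a004) (nat_lit 20)))
 (.n (.n (.p (nat_lit 0x2de70dd602) (nat_lit 0xa0a1) (nat_lit 32))
 (.p (nat_lit 0x3987397902) (nat_lit 0x8a808000800) (nat_lit 35)))
 (.p (nat_lit 0x103a10381036103510321030004d07) (nat_lit 0x4806) (nat_lit 7)))))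
 (.n (.n (.n (.n (.p (nat_lit 0x191619141912190e0ced0ce906) (nat_lit 0x50000d20) (nat_lit 15))
 (.p (nat_lit 0x2a2b14ca02) (nat_lit 0x282e) (nat_lit 5)))
 (.n (.p (nat_lit 0x19890ed802) (nat_lit 0x4083) (nat_lit 4))
 (.p (nat_lit 0x3a433945382d03) (nat_lit 0x43000006080) (nat_lit 43))))
 (.n (.n (.p (nat_lit 0x23010da002) (nat_lit 0x4061) (nat_lit 5))
 (.p (nat_lit 0x3921390502) (nat_lit 0x70004000800) (nat_lit 35)))
 (.p (nat_lit 0x19fa19f819f619f00fc90fc706) (nat_lit 0x60001245) (nat_lit 17))))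
 (.n (.n (.n (.p (nat_lit 0x1aba1ab61ab41ab00d2d0d2706) (nat_lit 0x120001480) (nat_lit 17))
 (.p (nat_lit 0x380f380502) (nat_lit 0xac004000000) (nat_lit 35)))
 (.p (nat_lit 0xf3e0f3c0f3a0f390f360f34003507) (nat_lit 0x4044) (nat_lit 7)))
 (.n (.n (.p (nat_lit 0xe420e400e3f0e3c0e3a0e38001f07) (nat_lit 0x6862) (nat_lit 7))
 (.p (nat_lit 0x39c538c337a303) (nat_lit 0x7bc00000000) (nat_lit 44)))
 (.p (nat_lit 0x1b321b301b2e1b2c1b2a1b2806) (nat_lit 0x866) (nat_lit 2)))))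

def c512_297 : Tr :=
 .n (.n (.n (.n (.n (.p (nat_lit 0xf130cd302) (nat_lit 0x2b00) (nat_lit 19))
 (.p (nat_lit 0x198e198c198a19881986139106) (nat_lit 0x10000c0c) (nat_lit 15)))
 (.n (.p (nat_lit 0xe970e950e920e900e8e0e8c0326002f002d09) (nat_lit 0x58023) (nat_lit 13))
 (.p (nat_lit 0x3a360edb02) (nat_lit 0x6160) (nat_lit 48))))
 (.n (.n (.p (nat_lit 0x2d922d902d8e2d8c2d8a2d8800fc07) (nat_lit 0x821) (nat_lit 8))
 (.p (nat_lit 0x38cd38bb02) (nat_lit 0xa2c00000800) (nat_lit 35)))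
 (.p (nat_lit 0x25150fb402) (nat_lit 0x8025) (nat_lit 5))))
 (.n (.n (.n (.p (nat_lit 0x1a061a041a0019fe0d1f0d1906) (nat_lit 0x90000b60) (nat_lit 17))
 (.p (nat_lit 0x37a3379d02) (nat_lit 0x7b000000000) (nat_lit 35)))
 (.p (nat_lit 0x180017fe17fc17fa17f80f1b06) (nat_lit 0x200001d04) (nat_lit 15)))
 (.n (.n (.p (nat_lit 0xe970e0702) (nat_lit 0xa322) (nat_lit 19))
 (.p (nat_lit 0x39b139a902) (nat_lit 0x7280a000800) (nat_lit 35)))
 (.p (nat_lit 0x17c617c417c217be17bc105906) (nat_lit 0x40000346) (nat_lit 15)))))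
 (.n (.n (.n (.n (.p (nat_lit 0x19381936193419320d0b0d0106) (nat_lit 0x210001840) (nat_lit 15))
 (.p (nat_lit 0x361500c502) (nat_lit 0x4850) (nat_lit 33)))
 (.n (.p (nat_lit 0x227622742272226e226c0ef106) (nat_lit 0x400003a3) (nat_lit 14))
 (.p (nat_lit 0x3a5022a502) (nat_lit 0x80a0) (nat_lit 46))))
 (.n (.n (.p (nat_lit 0xdcb0db302) (nat_lit 0xa861) (nat_lit 18))
 (.p (nat_lit 0x394d394102) (nat_lit 0x61806000800) (nat_lit 35)))
 (.p (nat_lit 0x10870ff702) (nat_lit 0x2085) (nat_lit 19))))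
 (.n (.n (.n (.p (nat_lit 0xe550d3502) (nat_lit 0x4980) (nat_lit 19))
 (.p (nat_lit 0x3857385302) (nat_lit 0x49c08000000) (nat_lit 35)))
 (.p (nat_lit 0xf7a0f780f770f750f720f7003520037003509) (nat_lit 0x34884) (nat_lit 13)))
 (.n (.n (.p (nat_lit 0x22442240223e223c0e5b0e5706) (nat_lit 0x280000982) (nat_lit 16))
 (.p (nat_lit 0x3a1c224d02) (nat_lit 0x4820) (nat_lit 46)))
 (.p (nat_lit 0x3f103e3014e03) (nat_lit 0x6044006) (nat_lit 22)))))

def c256_41 : Tr := .n c512_41 c512_297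

def c512_169 : Tr :=
 .n (.n (.n (.n (.n (.p (nat_lit 0x22f822f622f422f20cdb0cd106) (nat_lit 0x210001a00) (nat_lit 14))
 (.p (nat_lit 0x18c218c018be18bc18b812df06) (nat_lit 0x200011aa) (nat_lit 15)))
 (.n (.p (nat_lit 0x19330e8202) (nat_lit 0x2803) (nat_lit 4))
 (.p (nat_lit 0x39e739ab389303) (nat_lit 0x5bc0000a040) (nat_lit 44))))
 (.n (.n (.p (nat_lit 0x24302410233022704) (nat_lit 0x7622000) (nat_lit 24))
 (.p (nat_lit 0x38cb38a702) (nat_lit 0x98400000800) (nat_lit 35)))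
 (.p (nat_lit 0x102b0f9b02) (nat_lit 0x6005) (nat_lit 19))))
 (.n (.n (.n (.p (nat_lit 0x17cb0d1a02) (nat_lit 0x2860) (nat_lit 4))
 (.p (nat_lit 0x933005302) (nat_lit 0xa026) (nat_lit 31)))
 (.p (nat_lit 0x2f23003302) (nat_lit 0x2804) (nat_lit 33)))
 (.n (.n (.p (nat_lit 0x10d00220020001a04) (nat_lit 0x320008002) (nat_lit 20))
 (.p (nat_lit 0x39ab399902) (nat_lit 0x5880a000800) (nat_lit 35)))
 (.p (nat_lit 0x25ad1afd03e503db014e05) (nat_lit 0x14c4826) (nat_lit 9)))))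
 (.n (.n (.n (.n (.p (nat_lit 0x197419721970196e0cff0cf506) (nat_lit 0x210000340) (nat_lit 15))
 (.p (nat_lit 0x2ac5156402) (nat_lit 0x4f) (nat_lit 5)))
 (.n (.p (nat_lit 0xeeb003a02) (nat_lit 0xa883) (nat_lit 1))
 (.p (nat_lit 0x3a020fa302) (nat_lit 0x2ba0) (nat_lit 47))))
 (.n (.n (.p (nat_lit 0x2dc22dc02dbe2dbc2dba2db800fc07) (nat_lit 0x861) (nat_lit 8))
 (.p (nat_lit 0x3929392702) (nat_lit 0x94404000800) (nat_lit 35)))
 (.p (nat_lit 0x1a8f0fde02) (nat_lit 0x2065) (nat_lit 4))))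
 (.n (.n (.n (.p (nat_lit 0x250a2506250225000d390d3506) (nat_lit 0x140001880) (nat_lit 14))
 (.p (nat_lit 0x382d382702) (nat_lit 0x62406000000) (nat_lit 35)))
 (.p (nat_lit 0xf620f600f5e0f5c0f5a0f59003107) (nat_lit 0x864) (nat_lit 7)))
 (.n (.n (.p (nat_lit 0x2252224e224c224a22480e4d06) (nat_lit 0x100001182) (nat_lit 16))
 (.p (nat_lit 0x39cd3971385703) (nat_lit 0x32400008000) (nat_lit 44)))
 (.p (nat_lit 0x108f108c108a10881086108503ce0053004909) (nat_lit 0x50086) (nat_lit 13)))))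

def c512_425 : Tr :=
 .n (.n (.n (.n (.n (.p (nat_lit 0xcf30cf00cef0cec0cea0ce80242000b000709) (nat_lit 0x56820) (nat_lit 13))
 (.p (nat_lit 0x1f41149002) (nat_lit 0x40ad) (nat_lit 4)))
 (.n (.p (nat_lit 0xecf0eb702) (nat_lit 0x6843) (nat_lit 18))
 (.p (nat_lit 0x39f339bd389f03) (nat_lit 0xa540000a060) (nat_lit 44))))
 (.n (.n (.p (nat_lit 0x190a19061904190219000d8d06) (nat_lit 0x100001441) (nat_lit 15))
 (.p (nat_lit 0x38f538db02) (nat_lit 0x80c02000800) (nat_lit 35)))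
 (.p (nat_lit 0x17881786178217800fc30fbd06) (nat_lit 0x240001825) (nat_lit 15))))
 (.n (.n (.n (.p (nat_lit 0xd2e0d2c0d2b0d280d260d24000707) (nat_lit 0x6080) (nat_lit 7))
 (.p (nat_lit 0x37cd37bf02) (nat_lit 0x61402000000) (nat_lit 35)))
 (.p (nat_lit 0x19d90f2802) (nat_lit 0x824) (nat_lit 4)))
 (.n (.n (.p (nat_lit 0x1da01d9c1d9a1d980e2b0e2706) (nat_lit 0x280001d42) (nat_lit 17))
 (.p (nat_lit 0x393239303908390637e905) (nat_lit 0x804000000) (nat_lit 36)))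
 (.p (nat_lit 0x2280227c227a2278106b106706) (nat_lit 0x280001b46) (nat_lit 14)))))
 (.n (.n (.n (.n (.p (nat_lit 0xd1b0d0302) (nat_lit 0x2840) (nat_lit 18))
 (.p (nat_lit 0x2c87172602) (nat_lit 0x6852) (nat_lit 5)))
 (.p (nat_lit 0x17d217ce17cc17ca17c80f0106) (nat_lit 0x100001ba3) (nat_lit 15)))
 (.n (.n (.p (nat_lit 0x18710dc002) (nat_lit 0x881) (nat_lit 4))
 (.p (nat_lit 0x396f396902) (nat_lit 0x28808000800) (nat_lit 35)))
 (.p (nat_lit 0x10221020101e101d101a101903800041003d09) (nat_lit 0x208a5) (nat_lit 13))))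
 (.n (.n (.n (.p (nat_lit 0x25ee25e825e625e40d450d4306) (nat_lit 0x1800004a0) (nat_lit 14))
 (.p (nat_lit 0x388d387702) (nat_lit 0x6040a000000) (nat_lit 35)))
 (.p (nat_lit 0x24eb0f8a02) (nat_lit 0x28a4) (nat_lit 5)))
 (.n (.n (.p (nat_lit 0x183e183c183a18360e610e5d06) (nat_lit 0x500002a2) (nat_lit 17))
 (.p (nat_lit 0x39db39c1387903) (nat_lit 0xb080000a020) (nat_lit 44)))
 (.p (nat_lit 0x1c521c501c4e1c4c1c4a1c4806) (nat_lit 0x868) (nat_lit 2)))))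

def c256_169 : Tr := .n c512_169 c512_425

def c128_41 : Tr := .n c256_41 c256_169

def c512_105 : Tr :=
 .n (.n (.n (.n (.n (.p (nat_lit 0x17890cd802) (nat_lit 0x8800) (nat_lit 4))
 (.p (nat_lit 0x1d7f12ce02) (nat_lit 0xa08a) (nat_lit 4)))
 (.n (.p (nat_lit 0x23d91929030d0303011e05) (nat_lit 0x14c4003) (nat_lit 9))
 (.p (nat_lit 0x39e53979386103) (nat_lit 0x53800008040) (nat_lit 44))))
 (.n (.n (.p (nat_lit 0x1b4a1b481b441b420d4f0d4906) (nat_lit 0x90001ca0) (nat_lit 15))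
 (.p (nat_lit 0x38a3389702) (nat_lit 0xbc40a000000) (nat_lit 35)))
 (.p (nat_lit 0x24f91a4903ab039d013e05) (nat_lit 0x15c4005) (nat_lit 9))))
 (.n (.n (.n (.p (nat_lit 0x1a321a301a2e1a2c0d170d1506) (nat_lit 0x300000560) (nat_lit 15))
 (.p (nat_lit 0x89d003502) (nat_lit 0x4024) (nat_lit 31)))
 (.p (nat_lit 0x17c417c217c017be17bc0f0f06) (nat_lit 0x200000304) (nat_lit 17)))
 (.n (.n (.p (nat_lit 0xddf0d6702) (nat_lit 0x68a1) (nat_lit 18))
 (.p (nat_lit 0x3993398f02) (nat_lit 0xbd408000800) (nat_lit 35)))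
 (.p (nat_lit 0x3055005102) (nat_lit 0x8026) (nat_lit 33)))))
 (.n (.n (.n (.n (.p (nat_lit 0x104d0ced02) (nat_lit 0x4d20) (nat_lit 19))
 (.p (nat_lit 0x156f14df02) (nat_lit 0xa54e) (nat_lit 19)))
 (.n (.p (nat_lit 0x24c024be24bc24ba0edf0ed506) (nat_lit 0x210001383) (nat_lit 14))
 (.p (nat_lit 0x39ff39c3387b03) (nat_lit 0xb8c0000a080) (nat_lit 44))))
 (.n (.n (.p (nat_lit 0x17d217d017cc17ca17c80da306) (nat_lit 0x80001361) (nat_lit 17))
 (.p (nat_lit 0x3923391502) (nat_lit 0x7a004000800) (nat_lit 35)))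
 (.p (nat_lit 0xfdb0fd80fd60fd40fd20fd0004707) (nat_lit 0xa845) (nat_lit 7))))
 (.n (.n (.n (.p (nat_lit 0xd31003c02) (nat_lit 0x880) (nat_lit 1))
 (.p (nat_lit 0x3837381b02) (nat_lit 0x88c06000000) (nat_lit 35)))
 (.p (nat_lit 0x24a70f4602) (nat_lit 0x6844) (nat_lit 5)))
 (.n (.n (.p (nat_lit 0x119d0e3d02) (nat_lit 0x4862) (nat_lit 19))
 (.p (nat_lit 0x3a0f38f537d703) (nat_lit 0x84400002000) (nat_lit 43)))
 (.p (nat_lit 0x1a721a701a6e1a6c1a6a107906) (nat_lit 0x10001966) (nat_lit 15)))))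

def c512_361 : Tr :=
 .n (.n (.n (.n (.n (.p (nat_lit 0x23b823b623b223b00ce70ce106) (nat_lit 0x240001420) (nat_lit 16))
 (.p (nat_lit 0x2969140802) (nat_lit 0x8ac) (nat_lit 5)))
 (.n (.p (nat_lit 0x282e282a282828240ea10e9b06) (nat_lit 0x120000c23) (nat_lit 16))
 (.p (nat_lit 0x3a393991387103) (nat_lit 0xb5800008060) (nat_lit 43))))
 (.n (.n (.p (nat_lit 0x10490d7902) (nat_lit 0xc21) (nat_lit 19))
 (.p (nat_lit 0x38bc38b638b438b038ae38ac17e107) (nat_lit 0x880) (nat_lit 37)))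
 (.p (nat_lit 0x22b222ae22ac22aa22a80fb506) (nat_lit 0x100001525) (nat_lit 14))))
 (.n (.n (.n (.p (nat_lit 0x24f024ee24ea24e80d230d1d06) (nat_lit 0x240001d60) (nat_lit 14))
 (.p (nat_lit 0x37d337b502) (nat_lit 0x78002000000) (nat_lit 35)))
 (.p (nat_lit 0xf270f240f220f200f1f0f1c034a003b003309) (nat_lit 0x52024) (nat_lit 13)))
 (.n (.n (.p (nat_lit 0x1d961d921d8e1d8c0e1d0e1906) (nat_lit 0x140000542) (nat_lit 17))
 (.p (nat_lit 0x39bc39b639b439b039ae39ac178b07) (nat_lit 0xa000800) (nat_lit 37)))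
 (.p (nat_lit 0x25c3106202) (nat_lit 0x2846) (nat_lit 5)))))
 (.n (.n (.n (.n (.p (nat_lit 0x243e243c243824360d070d0106) (nat_lit 0x90000c40) (nat_lit 14))
 (.p (nat_lit 0x20d00e200dc00d804) (nat_lit 0x250008012) (nat_lit 20)))
 (.n (.p (nat_lit 0x19ad0efc02) (nat_lit 0x48a3) (nat_lit 4))
 (.p (nat_lit 0x3a5339b9389b03) (nat_lit 0x94c0000a0a0) (nat_lit 43))))
 (.n (.n (.p (nat_lit 0x1af61af21af01aee1aec0dbd06) (nat_lit 0x100000181) (nat_lit 17))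
 (.p (nat_lit 0x3961394d02) (nat_lit 0xb3006000800) (nat_lit 35)))
 (.p (nat_lit 0x1016101410131010100f100c038e0043003f09) (nat_lit 0x320a5) (nat_lit 13))))
 (.n (.n (.n (.p (nat_lit 0x1ade1ad81ad61ad40d450d4306) (nat_lit 0x1800000a0) (nat_lit 15))
 (.p (nat_lit 0x386d385f02) (nat_lit 0xa3408000000) (nat_lit 35)))
 (.p (nat_lit 0xf860f840f820f800f7f0f7d03360033003109) (nat_lit 0x100a4) (nat_lit 13)))
 (.n (.n (.p (nat_lit 0x22b222b022ae22aa22a80e5506) (nat_lit 0x40001d82) (nat_lit 14))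
 (.p (nat_lit 0x3a1f395b384103) (nat_lit 0x9d800006020) (nat_lit 43)))
 (.p (nat_lit 0x266f110e02) (nat_lit 0x6867) (nat_lit 5)))))

def c256_105 : Tr := .n c512_105 c512_361

def c512_233 : Tr :=
 .n (.n (.n (.n (.n (.p (nat_lit 0x187a18781876187418720cd106) (nat_lit 0x10001c00) (nat_lit 15))
 (.p (nat_lit 0x28d3137202) (nat_lit 0x60ab) (nat_lit 5)))
 (.n (.p (nat_lit 0x18fc18fa18f818f618f40e8b06) (nat_lit 0x200000c03) (nat_lit 15))
 (.p (nat_lit 0x3a32142302) (nat_lit 0x2b60) (nat_lit 48))))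
 (.n (.n (.p (nat_lit 0xd810d6902) (nat_lit 0x8801) (nat_lit 18))
 (.p (nat_lit 0x38bf38b102) (nat_lit 0x69800000800) (nat_lit 35)))
 (.p (nat_lit 0x25be25bc25b825b625b40fa706) (nat_lit 0x80000a05) (nat_lit 14))))
 (.n (.n (.n (.p (nat_lit 0x19c819c419c219c00d230d1f06) (nat_lit 0x280001860) (nat_lit 17))
 (.p (nat_lit 0x37ab378502) (nat_lit 0x98000000000) (nat_lit 35)))
 (.p (nat_lit 0x226a2266226422600f190f1306) (nat_lit 0x120001a04) (nat_lit 14)))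
 (.n (.n (.p (nat_lit 0x18a90df802) (nat_lit 0x8802) (nat_lit 4))
 (.p (nat_lit 0x39bb399f02) (nat_lit 0x9940a000800) (nat_lit 35)))
 (.p (nat_lit 0x1069105102) (nat_lit 0x8826) (nat_lit 18)))))
 (.n (.n (.n (.n (.p (nat_lit 0x10570cf702) (nat_lit 0x2540) (nat_lit 19))
 (.p (nat_lit 0x15f215f115ee15ec15ea15e800c907) (nat_lit 0x8830) (nat_lit 7)))
 (.n (.p (nat_lit 0x2f062f042f022f002efe2efc011c07) (nat_lit 0xa3) (nat_lit 8))
 (.p (nat_lit 0x3a4e0dc702) (nat_lit 0x69a0) (nat_lit 48))))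
 (.n (.n (.p (nat_lit 0x17ac17aa17a817a40db30dab06) (nat_lit 0x220000a61) (nat_lit 15))
 (.p (nat_lit 0x3963393702) (nat_lit 0xb8406000800) (nat_lit 35)))
 (.p (nat_lit 0x2ffd004102) (nat_lit 0x4865) (nat_lit 33))))
 (.n (.n (.n (.p (nat_lit 0x1a881a861a841a821a800d3b06) (nat_lit 0x200001a80) (nat_lit 15))
 (.p (nat_lit 0x3857384902) (nat_lit 0x48808000000) (nat_lit 35)))
 (.p (nat_lit 0x1f6a1f661f641f620f6d0f6506) (nat_lit 0x110001084) (nat_lit 15)))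
 (.n (.n (.p (nat_lit 0x180017fe17fc17fa17f80e4f06) (nat_lit 0x200001582) (nat_lit 15))
 (.p (nat_lit 0x3a1938cd37ad03) (nat_lit 0xa5000000020) (nat_lit 43)))
 (.p (nat_lit 0x20c620c420c220c020be109106) (nat_lit 0x10000b86) (nat_lit 15)))))

def c512_489 : Tr :=
 .n (.n (.n (.n (.n (.p (nat_lit 0x239423922390238e238c0cf306) (nat_lit 0x200000b20) (nat_lit 14))
 (.p (nat_lit 0x2a1714b602) (nat_lit 0x680e) (nat_lit 5)))
 (.n (.p (nat_lit 0xed20ed00ece0ecc0ecb0ec8002707) (nat_lit 0x2863) (nat_lit 7))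
 (.p (nat_lit 0x39f738fd37b503) (nat_lit 0xa0000002080) (nat_lit 44))))
 (.n (.n (.p (nat_lit 0x18aa18a818a618a418a20d9106) (nat_lit 0x10001841) (nat_lit 15))
 (.p (nat_lit 0x38fd38e502) (nat_lit 0xa2002000800) (nat_lit 35)))
 (.p (nat_lit 0xfdb0fc302) (nat_lit 0xa825) (nat_lit 18))))
 (.n (.n (.n (.p (nat_lit 0x25222520251e25180d290d2706) (nat_lit 0x60001180) (nat_lit 16))
 (.p (nat_lit 0x380737eb02) (nat_lit 0x88c04000000) (nat_lit 35)))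
 (.p (nat_lit 0x243e243a243624340f310f2d06) (nat_lit 0x140000c24) (nat_lit 16)))
 (.n (.n (.p (nat_lit 0x2402240023fc23fa23f80e3306) (nat_lit 0x80001162) (nat_lit 14))
 (.p (nat_lit 0x398a39883982386b04) (nat_lit 0x4c08000000) (nat_lit 36)))
 (.p (nat_lit 0x1076107510721070106e106c005107) (nat_lit 0x8066) (nat_lit 7)))))
 (.n (.n (.n (.n (.p (nat_lit 0x227517c502) (nat_lit 0x8060) (nat_lit 11))
 (.p (nat_lit 0x21f3174202) (nat_lit 0xa872) (nat_lit 4)))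
 (.p (nat_lit 0x30d0301011e03) (nat_lit 0x8022003) (nat_lit 22)))
 (.n (.n (.p (nat_lit 0x1b261b221b201b1e1b1c0dc906) (nat_lit 0x100000b81) (nat_lit 15))
 (.p (nat_lit 0x398d396f02) (nat_lit 0xa1408000800) (nat_lit 35)))
 (.p (nat_lit 0x14f0050004e03) (nat_lit 0x18000a006) (nat_lit 20))))
 (.n (.n (.n (.p (nat_lit 0xd520d500d4f0d4c0d4a0d48000707) (nat_lit 0x68a0) (nat_lit 7))
 (.p (nat_lit 0x38a3387d02) (nat_lit 0xb900a000000) (nat_lit 35)))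
 (.p (nat_lit 0x252e252a2528252625240f9106) (nat_lit 0x100000aa4) (nat_lit 16)))
 (.n (.n (.p (nat_lit 0x23d30e7202) (nat_lit 0xa8a2) (nat_lit 5))
 (.p (nat_lit 0x39dc17b102) (nat_lit 0x840) (nat_lit 45)))
 (.p (nat_lit 0x271311b202) (nat_lit 0x2888) (nat_lit 5)))))

def c256_233 : Tr := .n c512_233 c512_489

def c128_105 : Tr := .n c256_105 c256_233

def c64_41 : Tr := .n c128_41 c128_105

def c32_9 : Tr := .n c64_9 c64_41

def c512_25 : Tr :=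
 .n (.n (.n (.n (.n (.p (nat_lit 0x181a18181816181418120cc506) (nat_lit 0x10001000) (nat_lit 17))
 (.p (nat_lit 0x2797123602) (nat_lit 0x2089) (nat_lit 5)))
 (.n (.p (nat_lit 0xe710df902) (nat_lit 0x88a2) (nat_lit 18))
 (.p (nat_lit 0x3a2839e0002903) (nat_lit 0x4040) (nat_lit 40))))
 (.n (.n (.p (nat_lit 0x25b225b025ae25aa25a80d4d06) (nat_lit 0x400019a0) (nat_lit 14))
 (.p (nat_lit 0x38a3388302) (nat_lit 0xb9c0a000000) (nat_lit 35)))
 (.p (nat_lit 0x34b0345012e03) (nat_lit 0x2054004) (nat_lit 22))))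
 (.n (.n (.n (.p (nat_lit 0x248624842480247e0d130d0d06) (nat_lit 0x90000160) (nat_lit 14))
 (.p (nat_lit 0x7eb001302) (nat_lit 0x6081) (nat_lit 31)))
 (.p (nat_lit 0x12d00380034003204) (nat_lit 0x160008004) (nat_lit 20)))
 (.n (.n (.p (nat_lit 0x18810dd002) (nat_lit 0x40a1) (nat_lit 4))
 (.p (nat_lit 0x3981397702) (nat_lit 0x72408000800) (nat_lit 35)))
 (.p (nat_lit 0x1047102f02) (nat_lit 0xa006) (nat_lit 18)))))
 (.n (.n (.n (.n (.p (nat_lit 0x190a1908190419000cef0ceb06) (nat_lit 0xa0001c20) (nat_lit 17))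
 (.p (nat_lit 0x19e019de19dc19da19d814c706) (nat_lit 0x20000112e) (nat_lit 17)))
 (.n (.p (nat_lit 0xf5f0ecf02) (nat_lit 0x6c63) (nat_lit 19))
 (.p (nat_lit 0x39f80f8d02) (nat_lit 0x4a80) (nat_lit 47))))
 (.n (.n (.p (nat_lit 0x17210d9102) (nat_lit 0xd41) (nat_lit 19))
 (.p (nat_lit 0x38fc38f638f438f038ee38ec227b07) (nat_lit 0x2000860) (nat_lit 38)))
 (.p (nat_lit 0x2fdf0fce02) (nat_lit 0xa045) (nat_lit 32))))
 (.n (.n (.n (.p (nat_lit 0x254425422540253c0d2f0d2706) (nat_lit 0x220000380) (nat_lit 14))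
 (.p (nat_lit 0x380d37ff02) (nat_lit 0xa3404000000) (nat_lit 35)))
 (.p (nat_lit 0xfc30f3302) (nat_lit 0xad24) (nat_lit 19)))
 (.n (.n (.p (nat_lit 0x2e490e3802) (nat_lit 0x862) (nat_lit 32))
 (.p (nat_lit 0x39c538b3379903) (nat_lit 0x3a800000000) (nat_lit 44)))
 (.p (nat_lit 0x1ac41ac21ac01abe1abc107706) (nat_lit 0x200000566) (nat_lit 15)))))

def c512_281 : Tr :=
 .n (.n (.n (.n (.n (.p (nat_lit 0xd670cd702) (nat_lit 0x6800) (nat_lit 19))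
 (.p (nat_lit 0x1e4a1e481e461e441e421e4006) (nat_lit 0x80c) (nat_lit 2)))
 (.n (.p (nat_lit 0x2ea30e9202) (nat_lit 0x6023) (nat_lit 32))
 (.p (nat_lit 0x3a37393f382503) (nat_lit 0x2a000006060) (nat_lit 43))))
 (.n (.n (.p (nat_lit 0x1c5c1c5a1c581c560d770d6d06) (nat_lit 0x210000421) (nat_lit 17))
 (.p (nat_lit 0x38bf38b902) (nat_lit 0x6a800000800) (nat_lit 35)))
 (.p (nat_lit 0x2fc62fc42fc22fc02fbe2fbc013c07) (nat_lit 0x25) (nat_lit 8))))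
 (.n (.n (.n (.p (nat_lit 0x19fa19f819f619f219f00d1d06) (nat_lit 0x40001a60) (nat_lit 15))
 (.p (nat_lit 0x37a7379702) (nat_lit 0x8a400000000) (nat_lit 35)))
 (.p (nat_lit 0x17f617f417f017ee17ec0f1706) (nat_lit 0x80000d04) (nat_lit 15)))
 (.n (.n (.p (nat_lit 0x18b70e0602) (nat_lit 0xa022) (nat_lit 4))
 (.p (nat_lit 0x39c339a502) (nat_lit 0xba00a000800) (nat_lit 35)))
 (.p (nat_lit 0x22522250224e224a2248105906) (nat_lit 0x40001146) (nat_lit 14)))))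
 (.n (.n (.n (.n (.p (nat_lit 0x192a1928192619240d0b0d0906) (nat_lit 0x300000840) (nat_lit 15))
 (.p (nat_lit 0x2522251e251c251a251815fd06) (nat_lit 0x100001150) (nat_lit 14)))
 (.n (.p (nat_lit 0x17ae17aa17a817a40ef50eef06) (nat_lit 0x1200002a3) (nat_lit 17))
 (.p (nat_lit 0x3a093989386b03) (nat_lit 0x94c000080a0) (nat_lit 44))))
 (.n (.n (.p (nat_lit 0x22a622a422a2229e229c0dad06) (nat_lit 0x40000d61) (nat_lit 14))
 (.p (nat_lit 0x394f393f02) (nat_lit 0x69406000800) (nat_lit 35)))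
 (.p (nat_lit 0x1aa90ff802) (nat_lit 0x4085) (nat_lit 4))))
 (.n (.n (.n (.p (nat_lit 0x2582257e257a25780d390d3506) (nat_lit 0x140001d80) (nat_lit 14))
 (.p (nat_lit 0x386b384f02) (nat_lit 0x99408000000) (nat_lit 35)))
 (.p (nat_lit 0x2f890f7802) (nat_lit 0x8884) (nat_lit 32)))
 (.n (.n (.p (nat_lit 0x23bb0e5a02) (nat_lit 0xa882) (nat_lit 5))
 (.p (nat_lit 0x3a1d3921380903) (nat_lit 0x74800004020) (nat_lit 43)))
 (.p (nat_lit 0x3d903c7014e03) (nat_lit 0x2040006) (nat_lit 22)))))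

def c256_25 : Tr := .n c512_25 c512_281

def c512_153 : Tr :=
 .n (.n (.n (.n (.n (.p (nat_lit 0x22ec22ea22e822e622e40cdb06) (nat_lit 0x200000a00) (nat_lit 14))
 (.p (nat_lit 0x283d12dc02) (nat_lit 0xaa) (nat_lit 5)))
 (.n (.p (nat_lit 0x13890e7902) (nat_lit 0x4303) (nat_lit 19))
 (.p (nat_lit 0x3a2f3999387b03) (nat_lit 0x10c0000a040) (nat_lit 43))))
 (.n (.n (.p (nat_lit 0x10a90d4902) (nat_lit 0xda0) (nat_lit 19))
 (.p (nat_lit 0x38ab38a702) (nat_lit 0x18400000800) (nat_lit 35)))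
 (.p (nat_lit 0x1b261b221b1e1b1c0f9d0f9906) (nat_lit 0x140000305) (nat_lit 17))))
 (.n (.n (.n (.p (nat_lit 0xfe50d1502) (nat_lit 0x8460) (nat_lit 19))
 (.p (nat_lit 0x8f408f208f008ee08ec013c000b07) (nat_lit 0xa045) (nat_lit 28)))
 (.p (nat_lit 0xf990f0902) (nat_lit 0x4504) (nat_lit 19)))
 (.n (.n (.p (nat_lit 0x297028b0273010004) (nat_lit 0xa232001) (nat_lit 23))
 (.p (nat_lit 0x39b5399702) (nat_lit 0x8040a000800) (nat_lit 35)))
 (.p (nat_lit 0x10521050104e104c104a1049004907) (nat_lit 0x826) (nat_lit 7)))))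
 (.n (.n (.n (.n (.p (nat_lit 0x240223fe23fc23fa23f80cfd06) (nat_lit 0x100001140) (nat_lit 14))
 (.p (nat_lit 0x200f155e02) (nat_lit 0x682f) (nat_lit 4)))
 (.n (.p (nat_lit 0x19950ee402) (nat_lit 0x4883) (nat_lit 4))
 (.p (nat_lit 0x3a4b38d937b903) (nat_lit 0x108000020a0) (nat_lit 43))))
 (.n (.n (.p (nat_lit 0x11970da702) (nat_lit 0xa161) (nat_lit 19))
 (.p (nat_lit 0x392d392102) (nat_lit 0xa3804000800) (nat_lit 35)))
 (.p (nat_lit 0x10690fd902) (nat_lit 0x8845) (nat_lit 19))))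
 (.n (.n (.n (.p (nat_lit 0x24fc24fa24f824f624f40d3b06) (nat_lit 0x200000880) (nat_lit 14))
 (.p (nat_lit 0x382d382302) (nat_lit 0x61c06000000) (nat_lit 35)))
 (.p (nat_lit 0xf560f540f520f500f4f0f4d03360033003109) (nat_lit 0x10064) (nat_lit 13)))
 (.n (.n (.p (nat_lit 0x177e177c177a177817760e4506) (nat_lit 0x10000082) (nat_lit 15))
 (.p (nat_lit 0x39ca11ab02) (nat_lit 0x6100) (nat_lit 47)))
 (.p (nat_lit 0x1b3b108a02) (nat_lit 0x6086) (nat_lit 4)))))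

def c512_409 : Tr :=
 .n (.n (.n (.n (.n (.p (nat_lit 0x17a10cf002) (nat_lit 0x8820) (nat_lit 4))
 (.p (nat_lit 0x2989142802) (nat_lit 0x880d) (nat_lit 5)))
 (.n (.p (nat_lit 0x19630eb202) (nat_lit 0x2843) (nat_lit 4))
 (.p (nat_lit 0x3a3b39a7388903) (nat_lit 0x4a80000a060) (nat_lit 43))))
 (.n (.n (.p (nat_lit 0x237e237c237823760d8b0d8506) (nat_lit 0x90000241) (nat_lit 16))
 (.p (nat_lit 0x38dd38d902) (nat_lit 0x20802000800) (nat_lit 35)))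
 (.p (nat_lit 0xfc20fc00fbf0fbc0fbb0fb8038e0043003f09) (nat_lit 0x32825) (nat_lit 13))))
 (.n (.n (.n (.p (nat_lit 0x22850d2402) (nat_lit 0x80) (nat_lit 5))
 (.p (nat_lit 0x37cb37bd02) (nat_lit 0x59002000000) (nat_lit 35)))
 (.p (nat_lit 0x139f0f1f02) (nat_lit 0x2224) (nat_lit 19)))
 (.n (.n (.p (nat_lit 0xe2a0e290e260e250e220e2002c40021001d09) (nat_lit 0x44842) (nat_lit 13))
 (.p (nat_lit 0x38e838e638e238e037c905) (nat_lit 0x2802000000) (nat_lit 36)))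
 (.p (nat_lit 0x17ae17aa17a817a617a4106906) (nat_lit 0x100000a46) (nat_lit 17)))))
 (.n (.n (.n (.n (.p (nat_lit 0x19b219b019ae19a80d050d0306) (nat_lit 0x60001d40) (nat_lit 17))
 (.p (nat_lit 0x186e186a186818661864171d06) (nat_lit 0x100000452) (nat_lit 15)))
 (.p (nat_lit 0x17ba17b817b217b00eff0efd06) (nat_lit 0xc0001aa3) (nat_lit 17)))
 (.n (.n (.p (nat_lit 0x11af0dbf02) (nat_lit 0xa181) (nat_lit 19))
 (.p (nat_lit 0x3977396702) (nat_lit 0x48408000800) (nat_lit 35)))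
 (.p (nat_lit 0x302f004302) (nat_lit 0x68a5) (nat_lit 33))))
 (.n (.n (.n (.p (nat_lit 0x25d625d025ce25cc0d450d4306) (nat_lit 0x1800003a0) (nat_lit 14))
 (.p (nat_lit 0x388f387502) (nat_lit 0x6800a000000) (nat_lit 35)))
 (.p (nat_lit 0x14010f8102) (nat_lit 0x42a4) (nat_lit 19)))
 (.n (.n (.p (nat_lit 0x23c50e6402) (nat_lit 0x80a2) (nat_lit 5))
 (.p (nat_lit 0x3a20225102) (nat_lit 0x8820) (nat_lit 46)))
 (.p (nat_lit 0x31a7006b02) (nat_lit 0xa068) (nat_lit 33)))))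

def c256_153 : Tr := .n c512_153 c512_409

def c128_25 : Tr := .n c256_25 c256_153

def c512_89 : Tr :=
 .n (.n (.n (.n (.n (.p (nat_lit 0x102f0ccf02) (nat_lit 0xa500) (nat_lit 19))
 (.p (nat_lit 0x1d7e1d7c1d7a1d781d761d7406) (nat_lit 0x8a) (nat_lit 2)))
 (.n (.p (nat_lit 0x11d002e0028002604) (nat_lit 0x260008003) (nat_lit 20))
 (.p (nat_lit 0x3a2d396f384f03) (nat_lit 0x29400008040) (nat_lit 43))))
 (.n (.n (.p (nat_lit 0x1b321b301b2a1b280d4f0d4d06) (nat_lit 0xc0001ba0) (nat_lit 15))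
 (.p (nat_lit 0x38a3389102) (nat_lit 0xbb80a000000) (nat_lit 35)))
 (.p (nat_lit 0x13c00470045003f003d05) (nat_lit 0x330008005) (nat_lit 21))))
 (.n (.n (.n (.p (nat_lit 0x1a281a261a241a221a200d1706) (nat_lit 0x200001460) (nat_lit 15))
 (.p (nat_lit 0x87d002d02) (nat_lit 0x8083) (nat_lit 31)))
 (.p (nat_lit 0x17a0179e179c179a17980f0f06) (nat_lit 0x200001104) (nat_lit 15)))
 (.n (.n (.p (nat_lit 0x18930de202) (nat_lit 0xa8a1) (nat_lit 4))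
 (.p (nat_lit 0x398d398702) (nat_lit 0xa4408000800) (nat_lit 35)))
 (.p (nat_lit 0x1046104410421040103f103c004b07) (nat_lit 0x2026) (nat_lit 7)))))
 (.n (.n (.n (.n (.p (nat_lit 0xea10cf102) (nat_lit 0x8a20) (nat_lit 19))
 (.p (nat_lit 0x1f8b14da02) (nat_lit 0x604e) (nat_lit 4)))
 (.n (.p (nat_lit 0x19d619d419d019cc0edb0ed706) (nat_lit 0xa0000183) (nat_lit 17))
 (.p (nat_lit 0x39fd3991387303) (nat_lit 0xb5c00008080) (nat_lit 44))))
 (.n (.n (.p (nat_lit 0x225c225a225822560da70d9d06) (nat_lit 0x210000261) (nat_lit 14))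
 (.p (nat_lit 0x391d391102) (nat_lit 0x61804000800) (nat_lit 35)))
 (.p (nat_lit 0x2fe5004102) (nat_lit 0x4845) (nat_lit 33))))
 (.n (.n (.n (.p (nat_lit 0xf6d0d2d02) (nat_lit 0x8380) (nat_lit 19))
 (.p (nat_lit 0x381f381702) (nat_lit 0x28406000000) (nat_lit 35)))
 (.p (nat_lit 0xfcd0f3d02) (nat_lit 0x8544) (nat_lit 19)))
 (.n (.n (.p (nat_lit 0x245624542450244c0e3f0e3b06) (nat_lit 0xa0000d62) (nat_lit 14))
 (.p (nat_lit 0x39c738df37bf03) (nat_lit 0x29400002000) (nat_lit 44)))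
 (.p (nat_lit 0x24fe24fa24f624f41081107d06) (nat_lit 0x140000866) (nat_lit 16)))))

def c512_345 : Tr :=
 .n (.n (.n (.n (.n (.p (nat_lit 0x18e618e418de18dc0ce30ce106) (nat_lit 0xc0000320) (nat_lit 15))
 (.p (nat_lit 0x19ca19c619c419c219c0140506) (nat_lit 0x1000010ac) (nat_lit 15)))
 (.n (.p (nat_lit 0x2eb1002d02) (nat_lit 0x8823) (nat_lit 33))
 (.p (nat_lit 0x39f13981386703) (nat_lit 0x74400008060) (nat_lit 44))))
 (.n (.n (.p (nat_lit 0x1c6a1c681c641c600d7f0d7b06) (nat_lit 0xa0001c21) (nat_lit 17))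
 (.p (nat_lit 0x38d138c902) (nat_lit 0xb4800000800) (nat_lit 35)))
 (.p (nat_lit 0x17de17da17d817d617d40fb506) (nat_lit 0x100000425) (nat_lit 17))))
 (.n (.n (.n (.p (nat_lit 0x24e424e224de24dc0d230d1d06) (nat_lit 0x240000d60) (nat_lit 14))
 (.p (nat_lit 0x379c379637943790378e378c17d507) (nat_lit 0x80) (nat_lit 37)))
 (.p (nat_lit 0xf25002c02) (nat_lit 0x8024) (nat_lit 1)))
 (.n (.n (.p (nat_lit 0x2e2d0e1c02) (nat_lit 0x8042) (nat_lit 32))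
 (.p (nat_lit 0x39c139b702) (nat_lit 0xb440a000800) (nat_lit 35)))
 (.p (nat_lit 0x1071105902) (nat_lit 0x4046) (nat_lit 18)))))
 (.n (.n (.n (.n (.p (nat_lit 0x24322430242e24280d050d0306) (nat_lit 0x60001b40) (nat_lit 14))
 (.p (nat_lit 0x2bef168e02) (nat_lit 0xa051) (nat_lit 5)))
 (.n (.p (nat_lit 0x13750ef502) (nat_lit 0x82a3) (nat_lit 19))
 (.p (nat_lit 0x3a5339ab389303) (nat_lit 0x5bc0000a0a0) (nat_lit 43))))
 (.n (.n (.p (nat_lit 0x231d186d0273026500fe05) (nat_lit 0x1488081) (nat_lit 9))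
 (.p (nat_lit 0x3961394702) (nat_lit 0xb2406000800) (nat_lit 35)))
 (.p (nat_lit 0x1ac3101202) (nat_lit 0x60a5) (nat_lit 4))))
 (.n (.n (.n (.p (nat_lit 0x22a50d4402) (nat_lit 0x80a0) (nat_lit 5))
 (.p (nat_lit 0x386d385b02) (nat_lit 0xa2c08000000) (nat_lit 35)))
 (.p (nat_lit 0xf860f840f820f810f7e0f7c003507) (nat_lit 0x40a4) (nat_lit 7)))
 (.n (.n (.p (nat_lit 0x17dc17da17d817d617d40e5b06) (nat_lit 0x200000c82) (nat_lit 17))
 (.p (nat_lit 0x3a1f3955383703) (nat_lit 0x84400006020) (nat_lit 43)))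
 (.p (nat_lit 0x2661110002) (nat_lit 0x4067) (nat_lit 5)))))

def c256_89 : Tr := .n c512_89 c512_345

def c512_217 : Tr :=
 .n (.n (.n (.n (.n (.p (nat_lit 0x186e186c186a18640cd50cd306) (nat_lit 0x60000c00) (nat_lit 15))
 (.p (nat_lit 0x18f218ee18ec18ea18e812f106) (nat_lit 0x100001baa) (nat_lit 15)))
 (.n (.p (nat_lit 0x239423922390238e238c0e8b06) (nat_lit 0x200000b03) (nat_lit 16))
 (.p (nat_lit 0x3a33390137b903) (nat_lit 0xb0800002060) (nat_lit 43))))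
 (.n (.n (.p (nat_lit 0x22c30d6202) (nat_lit 0x2801) (nat_lit 5))
 (.p (nat_lit 0x38b938af02) (nat_lit 0x51400000800) (nat_lit 35)))
 (.p (nat_lit 0xfaa0fa90fa60fa40fa20fa103840045003d09) (nat_lit 0x40805) (nat_lit 13))))
 (.n (.n (.n (.p (nat_lit 0x19ca19c819c619c219c00d1d06) (nat_lit 0x40001860) (nat_lit 17))
 (.p (nat_lit 0xc0700c302) (nat_lit 0x2050) (nat_lit 31)))
 (.p (nat_lit 0x2250224e224a22480f1b0f1506) (nat_lit 0x240001904) (nat_lit 14)))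
 (.n (.n (.p (nat_lit 0xdfa0df80df60df40df20df1001907) (nat_lit 0x802) (nat_lit 7))
 (.p (nat_lit 0x39bf399d02) (nat_lit 0xa900a000800) (nat_lit 35)))
 (.p (nat_lit 0x231e231a231823161051104906) (nat_lit 0x110000c26) (nat_lit 16)))))
 (.n (.n (.n (.n (.p (nat_lit 0xe170cf702) (nat_lit 0x2140) (nat_lit 19))
 (.p (nat_lit 0x1b241b221b201b1e1b1c15e706) (nat_lit 0x200000330) (nat_lit 15)))
 (.n (.p (nat_lit 0x12d10ee102) (nat_lit 0x983) (nat_lit 19))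
 (.p (nat_lit 0x3a4f3941382703) (nat_lit 0x324000060a0) (nat_lit 43))))
 (.n (.n (.p (nat_lit 0x17881786178417800db30dab06) (nat_lit 0x220001861) (nat_lit 17))
 (.p (nat_lit 0x393f393702) (nat_lit 0x28406000800) (nat_lit 35)))
 (.p (nat_lit 0x16150fe502) (nat_lit 0x8565) (nat_lit 19))))
 (.n (.n (.n (.p (nat_lit 0x1a7e1a7a1a781a761a740d3906) (nat_lit 0x100000a80) (nat_lit 15))
 (.p (nat_lit 0x3861384702) (nat_lit 0x70408000000) (nat_lit 35)))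
 (.p (nat_lit 0x1a1f0f6e02) (nat_lit 0xa084) (nat_lit 4)))
 (.n (.n (.p (nat_lit 0x17ea17e417e217e00e4d0e4b06) (nat_lit 0x180001482) (nat_lit 17))
 (.p (nat_lit 0x3a16104702) (nat_lit 0xa400) (nat_lit 48)))
 (.p (nat_lit 0x109a1098109710941092109103ca004f004909) (nat_lit 0x30886) (nat_lit 13)))))

def c512_473 : Tr :=
 .n (.n (.n (.n (.n (.p (nat_lit 0x238a2388238423820cef0ce906) (nat_lit 0x90001a20) (nat_lit 14))
 (.p (nat_lit 0x2568256625642562256014af06) (nat_lit 0x20000140e) (nat_lit 14)))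
 (.n (.p (nat_lit 0xedb0ec302) (nat_lit 0x6063) (nat_lit 18))
 (.p (nat_lit 0x39f538c537ad03) (nat_lit 0x85000000080) (nat_lit 44))))
 (.n (.n (.p (nat_lit 0xd9a0d980d970d940d920d90001307) (nat_lit 0x6841) (nat_lit 7))
 (.p (nat_lit 0x390138e102) (nat_lit 0xb1802000800) (nat_lit 35)))
 (.p (nat_lit 0x17e817e417e217e00fc30fbf06) (nat_lit 0x280001c25) (nat_lit 17))))
 (.n (.n (.n (.p (nat_lit 0x1a661a641a621a600d270d2506) (nat_lit 0x30000180) (nat_lit 17))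
 (.p (nat_lit 0x381337e502) (nat_lit 0xb8004000000) (nat_lit 35)))
 (.p (nat_lit 0x193a19381934193219300f2f06) (nat_lit 0x80001824) (nat_lit 15)))
 (.n (.n (.p (nat_lit 0xe370e340e330e300e2e0e2c02d20023001f09) (nat_lit 0x56062) (nat_lit 13))
 (.p (nat_lit 0x3992396a3968384b04) (nat_lit 0xc08000000) (nat_lit 36)))
 (.p (nat_lit 0x25cf106e02) (nat_lit 0x2066) (nat_lit 5)))))
 (.n (.n (.n (.n (.p (nat_lit 0x226f0d0e02) (nat_lit 0x2060) (nat_lit 5))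
 (.p (nat_lit 0x21f221f021ee21ec21ea21e806) (nat_lit 0x872) (nat_lit 2)))
 (.p (nat_lit 0x30f030b02f1012004) (nat_lit 0x42b0003) (nat_lit 23)))
 (.n (.n (.p (nat_lit 0x1b021b001afe1afa0dc50dc106) (nat_lit 0x50001981) (nat_lit 17))
 (.p (nat_lit 0x3991396d02) (nat_lit 0xb1008000800) (nat_lit 35)))
 (.p (nat_lit 0x14f004a004803) (nat_lit 0x3000a006) (nat_lit 20))))
 (.n (.n (.n (.p (nat_lit 0xd4b004a02) (nat_lit 0x28a0) (nat_lit 1))
 (.p (nat_lit 0x389f387b02) (nat_lit 0xa8c0a000000) (nat_lit 35)))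
 (.p (nat_lit 0x251425122510250e250c0f9306) (nat_lit 0x2000009a4) (nat_lit 14)))
 (.n (.n (.p (nat_lit 0x191d0e6c02) (nat_lit 0x48a2) (nat_lit 4))
 (.p (nat_lit 0x39dd38c537a503) (nat_lit 0x84000000040) (nat_lit 44)))
 (.p (nat_lit 0x22ee22ec22e822e622e411ab06) (nat_lit 0x80000288) (nat_lit 14)))))

def c256_217 : Tr := .n c512_217 c512_473

def c128_89 : Tr := .n c256_89 c256_217

def c64_25 : Tr := .n c128_25 c128_89

def c512_57 : Tr :=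
 .n (.n (.n (.n (.n (.p (nat_lit 0x23282326232423200ccf0cc706) (nat_lit 0x220001400) (nat_lit 14))
 (.p (nat_lit 0x18f007a007803) (nat_lit 0x3000a00a) (nat_lit 20)))
 (.n (.p (nat_lit 0x2d102c5010e03) (nat_lit 0x8034002) (nat_lit 22))
 (.p (nat_lit 0x39e33941382703) (nat_lit 0x32400006040) (nat_lit 44))))
 (.n (.n (.p (nat_lit 0x1b1a1b181b141b121b100d4f06) (nat_lit 0x80001aa0) (nat_lit 17))
 (.p (nat_lit 0x3895388b02) (nat_lit 0x82c0a000000) (nat_lit 35)))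
 (.p (nat_lit 0x363033f012e03) (nat_lit 0xa030004) (nat_lit 22))))
 (.n (.n (.n (.p (nat_lit 0x249c249a249624940d170d1106) (nat_lit 0x240000260) (nat_lit 14))
 (.p (nat_lit 0x83f001f02) (nat_lit 0x60a2) (nat_lit 31)))
 (.p (nat_lit 0x2f190f0802) (nat_lit 0x4004) (nat_lit 32)))
 (.n (.n (.p (nat_lit 0xdd50d5d02) (nat_lit 0x80a1) (nat_lit 18))
 (.p (nat_lit 0x3985397d02) (nat_lit 0x83008000800) (nat_lit 35)))
 (.p (nat_lit 0x259b1aeb03f303cd014e05) (nat_lit 0x103a806) (nat_lit 9)))))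
 (.n (.n (.n (.n (.p (nat_lit 0x19221920191c191a0cef0ce906) (nat_lit 0x90001d20) (nat_lit 15))
 (.p (nat_lit 0x1f8314d202) (nat_lit 0xa82e) (nat_lit 4)))
 (.n (.p (nat_lit 0x2eed002d02) (nat_lit 0x8083) (nat_lit 33))
 (.p (nat_lit 0x39fd3991384903) (nat_lit 0xb0800008080) (nat_lit 44))))
 (.n (.n (.p (nat_lit 0xda70da40da20da00d9e0d9c001707) (nat_lit 0xa061) (nat_lit 7))
 (.p (nat_lit 0x392f390702) (nat_lit 0xa8404000800) (nat_lit 35)))
 (.p (nat_lit 0x10550fc502) (nat_lit 0x45) (nat_lit 19))))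
 (.n (.n (.n (.p (nat_lit 0x1ad21ad01acc1aca0d2b0d2506) (nat_lit 0x90001580) (nat_lit 15))
 (.p (nat_lit 0x3811380b02) (nat_lit 0xb4c04000000) (nat_lit 35)))
 (.p (nat_lit 0x249f0f3e02) (nat_lit 0xa044) (nat_lit 5)))
 (.n (.n (.p (nat_lit 0xe420e410e3e0e3d0e3a0e3802c40021001d09) (nat_lit 0x44862) (nat_lit 13))
 (.p (nat_lit 0x39c538c937b103) (nat_lit 0x95800000000) (nat_lit 44)))
 (.p (nat_lit 0x10821080107e107d107a1078004d07) (nat_lit 0x4866) (nat_lit 7)))))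

def c512_313 : Tr :=
 .n (.n (.n (.n (.n (.p (nat_lit 0x103b0cdb02) (nat_lit 0xad00) (nat_lit 19))
 (.p (nat_lit 0x290513a402) (nat_lit 0x802c) (nat_lit 5)))
 (.n (.p (nat_lit 0xea70e8f02) (nat_lit 0x2023) (nat_lit 18))
 (.p (nat_lit 0x3a393991384903) (nat_lit 0xb0800008060) (nat_lit 43))))
 (.n (.n (.p (nat_lit 0x182f0d7e02) (nat_lit 0x6821) (nat_lit 4))
 (.p (nat_lit 0x38c538bf02) (nat_lit 0x83400000800) (nat_lit 35)))
 (.p (nat_lit 0x223a2236223422300fb50faf06) (nat_lit 0x120001025) (nat_lit 14))))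
 (.n (.n (.n (.p (nat_lit 0x24cc24ca24c824c40d230d1b06) (nat_lit 0x220000c60) (nat_lit 14))
 (.p (nat_lit 0x37b3379f02) (nat_lit 0xbb400000000) (nat_lit 35)))
 (.p (nat_lit 0x14290f1902) (nat_lit 0x8b04) (nat_lit 19)))
 (.n (.n (.p (nat_lit 0xe210e0902) (nat_lit 0x822) (nat_lit 18))
 (.p (nat_lit 0x39af39ad02) (nat_lit 0x6b00a000800) (nat_lit 35)))
 (.p (nat_lit 0x17d017ce17ca17c8105f105906) (nat_lit 0x240001346) (nat_lit 15)))))
 (.n (.n (.n (.n (.p (nat_lit 0x19521950194e194a0d050d0106) (nat_lit 0x50001940) (nat_lit 15))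
 (.p (nat_lit 0x1a4c1a4a1a481a461a44160b06) (nat_lit 0x200000850) (nat_lit 15)))
 (.n (.p (nat_lit 0x228e228a2288228622840ef506) (nat_lit 0x1000004a3) (nat_lit 14))
 (.p (nat_lit 0x3a533999387903) (nat_lit 0x1080000a0a0) (nat_lit 43))))
 (.n (.n (.p (nat_lit 0x17390da902) (nat_lit 0xd61) (nat_lit 19))
 (.p (nat_lit 0x3955394302) (nat_lit 0x81c06000800) (nat_lit 35)))
 (.p (nat_lit 0x2a9e2a9c2a982a941007100306) (nat_lit 0xa0000885) (nat_lit 14))))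
 (.n (.n (.n (.p (nat_lit 0x10010d3102) (nat_lit 0xc80) (nat_lit 19))
 (.p (nat_lit 0x386b385502) (nat_lit 0x9a008000000) (nat_lit 35)))
 (.p (nat_lit 0x1f821f7e1f7c1f7a0f790f7106) (nat_lit 0x110001984) (nat_lit 17)))
 (.n (.n (.p (nat_lit 0x17ba17b817b617b417b00e5306) (nat_lit 0x20001a82) (nat_lit 15))
 (.p (nat_lit 0x39d7393f381f03) (nat_lit 0x29400006020) (nat_lit 44)))
 (.p (nat_lit 0x3f303e7014e03) (nat_lit 0xa034006) (nat_lit 22)))))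

def c256_57 : Tr := .n c512_57 c512_313

def c512_185 : Tr :=
 .n (.n (.n (.n (.n (.p (nat_lit 0x2306230022fe22fc0cd90cd706) (nat_lit 0x180000b00) (nat_lit 16))
 (.p (nat_lit 0x12e9001802) (nat_lit 0x8aa) (nat_lit 1)))
 (.n (.p (nat_lit 0x19390e8802) (nat_lit 0x8803) (nat_lit 4))
 (.p (nat_lit 0x3a2e225f02) (nat_lit 0xa040) (nat_lit 46))))
 (.n (.n (.p (nat_lit 0xfd00140012001004) (nat_lit 0x1c0008001) (nat_lit 20))
 (.p (nat_lit 0x38c738a902) (nat_lit 0x88800000800) (nat_lit 35)))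
 (.p (nat_lit 0xfaa0fa80fa60fa40fa20fa1003d07) (nat_lit 0x805) (nat_lit 7))))
 (.n (.n (.n (.p (nat_lit 0x17d10d2002) (nat_lit 0x8860) (nat_lit 4))
 (.p (nat_lit 0xc9004e004c004a0048000b06) (nat_lit 0x4a446) (nat_lit 29)))
 (.p (nat_lit 0x2f29003902) (nat_lit 0x8804) (nat_lit 33)))
 (.n (.n (.p (nat_lit 0x234d0dec02) (nat_lit 0x8002) (nat_lit 5))
 (.p (nat_lit 0x39a3399b02) (nat_lit 0x38c0a000800) (nat_lit 35)))
 (.p (nat_lit 0x10531050104e104c104a1048005307) (nat_lit 0xa826) (nat_lit 7)))))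
 (.n (.n (.n (.n (.p (nat_lit 0x199a1998199619940cf70cf506) (nat_lit 0x30001440) (nat_lit 15))
 (.p (nat_lit 0x208115d002) (nat_lit 0x810) (nat_lit 4)))
 (.n (.p (nat_lit 0x247a24782476247424700ee306) (nat_lit 0x20001883) (nat_lit 14))
 (.p (nat_lit 0x3a05392d380d03) (nat_lit 0xa50000040a0) (nat_lit 44))))
 (.n (.n (.p (nat_lit 0x2dbf001302) (nat_lit 0x6861) (nat_lit 33))
 (.p (nat_lit 0x3933392f02) (nat_lit 0xbd404000800) (nat_lit 35)))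
 (.p (nat_lit 0x25450fe402) (nat_lit 0x8065) (nat_lit 5))))
 (.n (.n (.n (.p (nat_lit 0x25142510250e250c0d3b0d3706) (nat_lit 0x280000980) (nat_lit 16))
 (.p (nat_lit 0x383e383c3838383638343814228b07) (nat_lit 0x6000080) (nat_lit 38)))
 (.p (nat_lit 0xf750f5d02) (nat_lit 0x4864) (nat_lit 18)))
 (.n (.n (.p (nat_lit 0x226822662264226222600e4f06) (nat_lit 0x200001282) (nat_lit 14))
 (.p (nat_lit 0x3a15397b386103) (nat_lit 0x5b800008000) (nat_lit 43)))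
 (.p (nat_lit 0x109d108502) (nat_lit 0x86) (nat_lit 18)))))

def c512_441 : Tr :=
 .n (.n (.n (.n (.n (.p (nat_lit 0x18aa18a818a418a20cef0ce906) (nat_lit 0x90001820) (nat_lit 15))
 (.p (nat_lit 0x1cf00ae00a803) (nat_lit 0x9000a00e) (nat_lit 20)))
 (.n (.p (nat_lit 0x19710ec002) (nat_lit 0x4063) (nat_lit 4))
 (.p (nat_lit 0x39f214c702) (nat_lit 0xa460) (nat_lit 47))))
 (.n (.n (.p (nat_lit 0xe150d8502) (nat_lit 0x241) (nat_lit 19))
 (.p (nat_lit 0x38f338dd02) (nat_lit 0x79002000800) (nat_lit 35)))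
 (.p (nat_lit 0x226822662264226222600fc306) (nat_lit 0x200001a25) (nat_lit 14))))
 (.n (.n (.n (.p (nat_lit 0x1a4e1a4c1a4a1a481a460d2506) (nat_lit 0x10000080) (nat_lit 15))
 (.p (nat_lit 0x37d737c502) (nat_lit 0x8a002000000) (nat_lit 35)))
 (.p (nat_lit 0x2f3d003502) (nat_lit 0x4824) (nat_lit 33)))
 (.n (.n (.p (nat_lit 0xe360e340e320e300e2e0e2d001907) (nat_lit 0x62) (nat_lit 7))
 (.p (nat_lit 0x392a39283922380b04) (nat_lit 0x4c04000000) (nat_lit 36)))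
 (.p (nat_lit 0x22a622a0229e229c1069106706) (nat_lit 0x180000d46) (nat_lit 16)))))
 (.n (.n (.n (.n (.p (nat_lit 0xe2b0d0b02) (nat_lit 0xa940) (nat_lit 19))
 (.p (nat_lit 0x233423322330232e172b172106) (nat_lit 0x210000d52) (nat_lit 16)))
 (.p (nat_lit 0x17f617f417ee17ec0eff0efd06) (nat_lit 0xc0000da3) (nat_lit 17)))
 (.n (.n (.p (nat_lit 0x23270dc602) (nat_lit 0x6881) (nat_lit 5))
 (.p (nat_lit 0x3993396902) (nat_lit 0xb8808000800) (nat_lit 35)))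
 (.p (nat_lit 0x10210fa902) (nat_lit 0x88a5) (nat_lit 18))))
 (.n (.n (.n (.p (nat_lit 0xd470ccf02) (nat_lit 0xa0a0) (nat_lit 18))
 (.p (nat_lit 0x3885387902) (nat_lit 0x4080a000000) (nat_lit 35)))
 (.p (nat_lit 0x24ef1a3f0357033b012e05) (nat_lit 0x15068a4) (nat_lit 9)))
 (.n (.n (.p (nat_lit 0x2310230e230c230a23080e6706) (nat_lit 0x2000013a2) (nat_lit 14))
 (.p (nat_lit 0x3a2339b3389b03) (nat_lit 0x7cc0000a020) (nat_lit 43)))
 (.p (nat_lit 0x18e618e218e018de18dc11a106) (nat_lit 0x100000b68) (nat_lit 17)))))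

def c256_185 : Tr := .n c512_185 c512_441

def c128_57 : Tr := .n c256_57 c256_185

def c512_121 : Tr :=
 .n (.n (.n (.n (.n (.p (nat_lit 0x180c180a1808180618040cdb06) (nat_lit 0x200000800) (nat_lit 17))
 (.p (nat_lit 0x1d8a1d881d861d841d821d8006) (nat_lit 0x88a) (nat_lit 2)))
 (.n (.p (nat_lit 0x18aa18a818a618a218a00e7906) (nat_lit 0x40001003) (nat_lit 17))
 (.p (nat_lit 0x3a2d398d386d03) (nat_lit 0xa5000008040) (nat_lit 43))))
 (.n (.n (.p (nat_lit 0xd510cd902) (nat_lit 0x88a0) (nat_lit 18))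
 (.p (nat_lit 0x3884387e387c38783876387417c707) (nat_lit 0xa000060) (nat_lit 37)))
 (.p (nat_lit 0xf9e0f9d0f9a0f990f960f94039c0045004109) (nat_lit 0x44005) (nat_lit 13))))
 (.n (.n (.n (.p (nat_lit 0xd290d1102) (nat_lit 0x4060) (nat_lit 18))
 (.p (nat_lit 0x8cf003702) (nat_lit 0x60a4) (nat_lit 31)))
 (.p (nat_lit 0x228e2288228622840f0d0f0b06) (nat_lit 0x180000404) (nat_lit 14)))
 (.n (.n (.p (nat_lit 0x26702650261010004) (nat_lit 0x2c4001) (nat_lit 23))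
 (.p (nat_lit 0x399d399502) (nat_lit 0x2000a000800) (nat_lit 35)))
 (.p (nat_lit 0x184a1848184618441840103f06) (nat_lit 0x20001226) (nat_lit 15)))))
 (.n (.n (.n (.n (.p (nat_lit 0xcfd002c02) (nat_lit 0x8040) (nat_lit 1))
 (.p (nat_lit 0x2ace2acc2aca2ac62ac4152d06) (nat_lit 0x40000aae) (nat_lit 16)))
 (.n (.p (nat_lit 0x1a401a3e1a3c1a3a1a380edf06) (nat_lit 0x200001583) (nat_lit 15))
 (.p (nat_lit 0x3a46156302) (nat_lit 0xac80) (nat_lit 48))))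
 (.n (.n (.p (nat_lit 0x17ea17e817e617e217e00da106) (nat_lit 0x40001461) (nat_lit 15))
 (.p (nat_lit 0x3929391902) (nat_lit 0x92804000800) (nat_lit 35)))
 (.p (nat_lit 0x19ca19c619c219c00fd90fd506) (nat_lit 0x140001845) (nat_lit 15))))
 (.n (.n (.n (.p (nat_lit 0x229517e502) (nat_lit 0x4880) (nat_lit 11))
 (.p (nat_lit 0x383f381d02) (nat_lit 0xa9006000000) (nat_lit 35)))
 (.p (nat_lit 0x1e3e1e3c1e3a1e381e340f4306) (nat_lit 0x20000844) (nat_lit 15)))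
 (.n (.n (.p (nat_lit 0x23ae23ac23aa23a823a623a406) (nat_lit 0x82) (nat_lit 3))
 (.p (nat_lit 0x39c9390937ef03) (nat_lit 0x11400004000) (nat_lit 44)))
 (.p (nat_lit 0x1a941a921a8e1a8c1083107d06) (nat_lit 0x240000b66) (nat_lit 17)))))

def c512_377 : Tr :=
 .n (.n (.n (.n (.n (.p (nat_lit 0xe070ce702) (nat_lit 0xa120) (nat_lit 19))
 (.p (nat_lit 0x246e246a246824662464141106) (nat_lit 0x1000008ac) (nat_lit 14)))
 (.n (.p (nat_lit 0xeb50e9d02) (nat_lit 0x4823) (nat_lit 18))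
 (.p (nat_lit 0x3a3b3995387703) (nat_lit 0x40000a060) (nat_lit 43))))
 (.n (.n (.p (nat_lit 0x22e70d8602) (nat_lit 0x2041) (nat_lit 5))
 (.p (nat_lit 0x38ef38d502) (nat_lit 0x68002000800) (nat_lit 35)))
 (.p (nat_lit 0x15e50fb502) (nat_lit 0x8525) (nat_lit 19))))
 (.n (.n (.n (.p (nat_lit 0xe3b0d1b02) (nat_lit 0x2960) (nat_lit 19))
 (.p (nat_lit 0x37d337b702) (nat_lit 0x78402000000) (nat_lit 35)))
 (.p (nat_lit 0x19821980197e197c197a0f1d06) (nat_lit 0x10001324) (nat_lit 15)))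
 (.n (.n (.p (nat_lit 0x18d10e2002) (nat_lit 0x842) (nat_lit 4))
 (.p (nat_lit 0x39b239b039ae39aa39a839a239823980397e397a3978397239523950394e394a3948394239223920391e391a3918391238f238f038ee38ea38e838e238c238c038be38ba38b838b224) (nat_lit 0xc00) (nat_lit 39)))
 (.p (nat_lit 0x1b1b106a02) (nat_lit 0xa846) (nat_lit 4)))))
 (.n (.n (.n (.n (.p (nat_lit 0x244a2448244424400d070d0306) (nat_lit 0xa0001c40) (nat_lit 14))
 (.p (nat_lit 0x372700db02) (nat_lit 0x2052) (nat_lit 33)))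
 (.p (nat_lit 0xf020f000efe0efd0efa0ef902f00029002509) (nat_lit 0x208a3) (nat_lit 13)))
 (.n (.n (.p (nat_lit 0x25ca25c825c425c225c00dbb06) (nat_lit 0x80001281) (nat_lit 14))
 (.p (nat_lit 0x394c394639443940393e393c17e707) (nat_lit 0x6000880) (nat_lit 37)))
 (.p (nat_lit 0x2b6a2b682b662b642b62100d06) (nat_lit 0x100012a5) (nat_lit 16))))
 (.n (.n (.n (.p (nat_lit 0x1b021afe1afc1afa1af80d4506) (nat_lit 0x1000011a0) (nat_lit 15))
 (.p (nat_lit 0x3871386502) (nat_lit 0xb4008000000) (nat_lit 35)))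
 (.p (nat_lit 0x1a661a621a601a5e0f850f7d06) (nat_lit 0x1100001a4) (nat_lit 15)))
 (.n (.n (.p (nat_lit 0x11b50e5502) (nat_lit 0x4882) (nat_lit 19))
 (.p (nat_lit 0x3a213967384703) (nat_lit 0x8400008020) (nat_lit 43)))
 (.p (nat_lit 0x26e9118802) (nat_lit 0x8848) (nat_lit 5)))))

def c256_121 : Tr := .n c512_121 c512_377

def c512_249 : Tr :=
 .n (.n (.n (.n (.n (.p (nat_lit 0x18781876187418720cdb0cd106) (nat_lit 0x210001c00) (nat_lit 15))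
 (.p (nat_lit 0x28e1138002) (nat_lit 0x88ab) (nat_lit 5)))
 (.n (.p (nat_lit 0x19221920191c191a19180e8706) (nat_lit 0x80001d03) (nat_lit 15))
 (.p (nat_lit 0x39ed3929380903) (nat_lit 0x94800004060) (nat_lit 44))))
 (.n (.n (.p (nat_lit 0xd760d740d720d700d6e0d6d000d07) (nat_lit 0x21) (nat_lit 7))
 (.p (nat_lit 0x38cf38b302) (nat_lit 0xa9c00000800) (nat_lit 35)))
 (.p (nat_lit 0x25d625d025ce25cc0fa90fa706) (nat_lit 0x180000b05) (nat_lit 16))))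
 (.n (.n (.n (.p (nat_lit 0x19e219e019de19dc19da0d1906) (nat_lit 0x10001960) (nat_lit 15))
 (.p (nat_lit 0x379f378b02) (nat_lit 0x68c00000000) (nat_lit 35)))
 (.p (nat_lit 0x17d217d017ce17ca17c80f1506) (nat_lit 0x40001b04) (nat_lit 17)))
 (.n (.n (.p (nat_lit 0x1c5e1c5c1c5a1c581c560df106) (nat_lit 0x10000c02) (nat_lit 15))
 (.p (nat_lit 0x39b939a102) (nat_lit 0x9180a000800) (nat_lit 35)))
 (.p (nat_lit 0x105e105c105a105810571054004b07) (nat_lit 0x2046) (nat_lit 7)))))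
 (.n (.n (.n (.n (.p (nat_lit 0x17b70d0602) (nat_lit 0x6840) (nat_lit 4))
 (.p (nat_lit 0x160915f102) (nat_lit 0x8830) (nat_lit 18)))
 (.n (.p (nat_lit 0x19a50ef402) (nat_lit 0x80a3) (nat_lit 4))
 (.p (nat_lit 0x3a093969384f03) (nat_lit 0x114000080a0) (nat_lit 44))))
 (.n (.n (.p (nat_lit 0x17c617c217c017be17bc0db106) (nat_lit 0x100000b61) (nat_lit 17))
 (.p (nat_lit 0x393d393b02) (nat_lit 0x20c06000800) (nat_lit 35)))
 (.p (nat_lit 0xff20ff10fef0fec0fea0fe803a80045004309) (nat_lit 0x46865) (nat_lit 13))))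
 (.n (.n (.n (.p (nat_lit 0x1aa21aa01a9c1a9a0d370d3106) (nat_lit 0x90001b80) (nat_lit 15))
 (.p (nat_lit 0x3855384b02) (nat_lit 0x40c08000000) (nat_lit 35)))
 (.p (nat_lit 0xff70f6702) (nat_lit 0x2584) (nat_lit 19)))
 (.n (.n (.p (nat_lit 0x12c70e4702) (nat_lit 0x2282) (nat_lit 19))
 (.p (nat_lit 0x3a1b390137b903) (nat_lit 0xb0800002020) (nat_lit 43)))
 (.p (nat_lit 0x1b5710a602) (nat_lit 0xa0a6) (nat_lit 4)))))

def c512_505 : Tr :=
 .n (.n (.n (.n (.n (.p (nat_lit 0x23a2239e239a23980cf10ced06) (nat_lit 0x140001b20) (nat_lit 14))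
 (.p (nat_lit 0x253a253825362534253214b106) (nat_lit 0x10001a0e) (nat_lit 14)))
 (.n (.p (nat_lit 0x24311981030d0303011e05) (nat_lit 0x14a8863) (nat_lit 9))
 (.p (nat_lit 0x3a3f38d737bf03) (nat_lit 0x9400002080) (nat_lit 43))))
 (.n (.n (.p (nat_lit 0x23ac23aa23a823a40d9b0d9306) (nat_lit 0x220000c41) (nat_lit 14))
 (.p (nat_lit 0x38ef38ed02) (nat_lit 0x6b002000800) (nat_lit 35)))
 (.p (nat_lit 0x15f10fc102) (nat_lit 0x8d25) (nat_lit 19))))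
 (.n (.n (.n (.p (nat_lit 0x252e252c252a252625240d2906) (nat_lit 0x40000280) (nat_lit 14))
 (.p (nat_lit 0x380937f302) (nat_lit 0x91c04000000) (nat_lit 35)))
 (.p (nat_lit 0x19a619a419a0199e199c0f2f06) (nat_lit 0x80000d24) (nat_lit 15)))
 (.n (.n (.p (nat_lit 0x19a619a419a0199e199c0e3306) (nat_lit 0x80000562) (nat_lit 15))
 (.p (nat_lit 0x39aa39a839a2388b04) (nat_lit 0x2c0a000000) (nat_lit 36)))
 (.p (nat_lit 0x250a2508250625042502106d06) (nat_lit 0x10001066) (nat_lit 16)))))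
 (.n (.n (.n (.n (.p (nat_lit 0x19be19bc19b819b60d130d0d06) (nat_lit 0x90000060) (nat_lit 17))
 (.p (nat_lit 0x2ca921f907470739020e05) (nat_lit 0x10d4092) (nat_lit 9)))
 (.p (nat_lit 0x31b0303011e03) (nat_lit 0xa032003) (nat_lit 22)))
 (.n (.n (.p (nat_lit 0x1b3c1b3a1b381b361b340dcb06) (nat_lit 0x200000c81) (nat_lit 17))
 (.p (nat_lit 0x398d397102) (nat_lit 0xa1808000800) (nat_lit 35)))
 (.p (nat_lit 0x1ad7102602) (nat_lit 0x2006) (nat_lit 4))))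
 (.n (.n (.n (.p (nat_lit 0xd520d510d4e0d4c0d4a0d49021c0009000109) (nat_lit 0x408a0) (nat_lit 13))
 (.p (nat_lit 0x3883388102) (nat_lit 0x3980a000000) (nat_lit 35)))
 (.p (nat_lit 0xf910f1902) (nat_lit 0x88a4) (nat_lit 18)))
 (.n (.n (.p (nat_lit 0x22ee22e822e622e40e710e6f06) (nat_lit 0x180000aa2) (nat_lit 16))
 (.p (nat_lit 0x3a27390337b903) (nat_lit 0xb8800002040) (nat_lit 43)))
 (.p (nat_lit 0x18621860185c185a185811b706) (nat_lit 0x80001b88) (nat_lit 15)))))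

def c256_249 : Tr := .n c512_249 c512_505

def c128_121 : Tr := .n c256_121 c256_249

def c64_57 : Tr := .n c128_57 c128_121

def c32_25 : Tr := .n c64_25 c64_57

def c16_9 : Tr := .n c32_9 c32_25

def cb4_9 : Tr := c16_9

def c512_10 : Tr :=
 .n (.n (.n (.n (.n (.p (nat_lit 0x22270cc602) (nat_lit 0x2000) (nat_lit 5))
 (.p (nat_lit 0x278b122a02) (nat_lit 0x2869) (nat_lit 5)))
 (.n (.p (nat_lit 0x1860185c185a18580e730e6f06) (nat_lit 0x280001ba2) (nat_lit 15))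
 (.p (nat_lit 0x39df38df37c103) (nat_lit 0x29800002040) (nat_lit 44))))
 (.n (.n (.p (nat_lit 0x259a2598259225900d4f0d4d06) (nat_lit 0xc00018a0) (nat_lit 14))
 (.p (nat_lit 0x3885388302) (nat_lit 0x41c0a000000) (nat_lit 35)))
 (.p (nat_lit 0x33d0337012e03) (nat_lit 0x42004) (nat_lit 22))))
 (.n (.n (.n (.p (nat_lit 0x247a2478247424720d130d0d06) (nat_lit 0x90001060) (nat_lit 16))
 (.p (nat_lit 0x7d1001102) (nat_lit 0x4041) (nat_lit 31)))
 (.p (nat_lit 0x12f0032003003) (nat_lit 0x3000a004) (nat_lit 20)))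
 (.n (.n (.p (nat_lit 0x10910dc102) (nat_lit 0xc81) (nat_lit 19))
 (.p (nat_lit 0x397f397502) (nat_lit 0x6a008000800) (nat_lit 35)))
 (.p (nat_lit 0x102e102c102b10291026102403e2004f004d09) (nat_lit 0x34006) (nat_lit 13)))))
 (.n (.n (.n (.n (.p (nat_lit 0x23ae23aa23a623a40cf10ced06) (nat_lit 0x140000c20) (nat_lit 16))
 (.p (nat_lit 0x2a2114c002) (nat_lit 0x402e) (nat_lit 5)))
 (.n (.p (nat_lit 0x1e4a1e461e441e420ed10ec906) (nat_lit 0x110001863) (nat_lit 17))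
 (.p (nat_lit 0x3a3e155b02) (nat_lit 0x2c80) (nat_lit 48))))
 (.n (.n (.p (nat_lit 0x10f30d9302) (nat_lit 0x2841) (nat_lit 19))
 (.p (nat_lit 0x390138f902) (nat_lit 0xb4802000800) (nat_lit 35)))
 (.p (nat_lit 0xfcb003602) (nat_lit 0x6045) (nat_lit 1))))
 (.n (.n (.n (.p (nat_lit 0x253a2536253425320d2d0d2506) (nat_lit 0x110001280) (nat_lit 14))
 (.p (nat_lit 0x380737f902) (nat_lit 0x8a804000000) (nat_lit 35)))
 (.p (nat_lit 0xf410f2902) (nat_lit 0x824) (nat_lit 18)))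
 (.n (.n (.p (nat_lit 0x11910e3102) (nat_lit 0x4062) (nat_lit 19))
 (.p (nat_lit 0x39c538a7378903) (nat_lit 0x8800000000) (nat_lit 44)))
 (.p (nat_lit 0x252e252c252a25282524106f06) (nat_lit 0x20000266) (nat_lit 14)))))

def c512_266 : Tr :=
 .n (.n (.n (.n (.n (.p (nat_lit 0x18921890188a18880cd70cd506) (nat_lit 0xc0001d00) (nat_lit 15))
 (.p (nat_lit 0x1e3b138a02) (nat_lit 0x600c) (nat_lit 4)))
 (.n (.p (nat_lit 0x2ea62ea42ea22ea02e9e2e9c011c07) (nat_lit 0x23) (nat_lit 8))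
 (.p (nat_lit 0x39ec0fc902) (nat_lit 0x4560) (nat_lit 47))))
 (.n (.n (.p (nat_lit 0x18270d7602) (nat_lit 0xa021) (nat_lit 4))
 (.p (nat_lit 0x38bb38b702) (nat_lit 0x5a400000800) (nat_lit 35)))
 (.p (nat_lit 0x10310fa102) (nat_lit 0x805) (nat_lit 19))))
 (.n (.n (.n (.p (nat_lit 0x19e019de19da19d80d230d1d06) (nat_lit 0x240001960) (nat_lit 15))
 (.p (nat_lit 0x379f379102) (nat_lit 0x69800000000) (nat_lit 35)))
 (.p (nat_lit 0x17dc17da17d817d617d40f1b06) (nat_lit 0x200000c04) (nat_lit 15)))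
 (.n (.n (.p (nat_lit 0x235d0dfc02) (nat_lit 0x22) (nat_lit 5))
 (.p (nat_lit 0x39c139a302) (nat_lit 0xb1c0a000800) (nat_lit 35)))
 (.p (nat_lit 0x306f105e02) (nat_lit 0xa046) (nat_lit 32)))))
 (.n (.n (.n (.n (.p (nat_lit 0x192e192c192a192819260d0106) (nat_lit 0x10000840) (nat_lit 15))
 (.p (nat_lit 0x15fe15fd15fa15f815f615f400c907) (nat_lit 0x8050) (nat_lit 7)))
 (.n (.p (nat_lit 0x178a1788178417820ef30eed06) (nat_lit 0x900010a3) (nat_lit 15))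
 (.p (nat_lit 0x3a513979385903) (nat_lit 0x528000080a0) (nat_lit 43))))
 (.n (.n (.p (nat_lit 0x228e228a228822860db10da906) (nat_lit 0x110000c61) (nat_lit 14))
 (.p (nat_lit 0x3955393d02) (nat_lit 0x81006000800) (nat_lit 35)))
 (.p (nat_lit 0x10030feb02) (nat_lit 0x2865) (nat_lit 18))))
 (.n (.n (.n (.p (nat_lit 0x1aac1aaa1aa81aa40d3b0d3306) (nat_lit 0x220000c80) (nat_lit 17))
 (.p (nat_lit 0x3865384d02) (nat_lit 0x81008000000) (nat_lit 35)))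
 (.p (nat_lit 0x24d31a2303630345012e05) (nat_lit 0x15a2884) (nat_lit 9)))
 (.n (.n (.p (nat_lit 0x19030e5202) (nat_lit 0x2882) (nat_lit 4))
 (.p (nat_lit 0x39d5390d37ed03) (nat_lit 0x21000004020) (nat_lit 44)))
 (.p (nat_lit 0x260f10ae02) (nat_lit 0x68a6) (nat_lit 5)))))

def c256_10 : Tr := .n c512_10 c512_266

def c512_138 : Tr :=
 .n (.n (.n (.n (.n (.p (nat_lit 0x22e022de22dc22da0cdb0cd106) (nat_lit 0x210001900) (nat_lit 14))
 (.p (nat_lit 0x283b12da02) (nat_lit 0xa88a) (nat_lit 5)))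
 (.n (.p (nat_lit 0x23ae23aa23a623a40e7d0e7906) (nat_lit 0x140000403) (nat_lit 14))
 (.p (nat_lit 0x39e412d902) (nat_lit 0x8940) (nat_lit 47))))
 (.n (.n (.p (nat_lit 0xeff0d4f02) (nat_lit 0x6aa0) (nat_lit 19))
 (.p (nat_lit 0x38b538a502) (nat_lit 0x40000000800) (nat_lit 35)))
 (.p (nat_lit 0x1b0e1b0c1b0a1b061b040f9906) (nat_lit 0x40000205) (nat_lit 15))))
 (.n (.n (.n (.p (nat_lit 0xebf0d0f02) (nat_lit 0x2260) (nat_lit 19))
 (.p (nat_lit 0x8de08dc08da08d608d4013c000507) (nat_lit 0x4205) (nat_lit 28)))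
 (.p (nat_lit 0x22b222b022ac22aa22a80f0b06) (nat_lit 0x80001504) (nat_lit 14)))
 (.n (.n (.p (nat_lit 0x289026f00fe03) (nat_lit 0x6042001) (nat_lit 22))
 (.p (nat_lit 0x39c3399502) (nat_lit 0xb800a000800) (nat_lit 35)))
 (.p (nat_lit 0x232a2326232423201045103f06) (nat_lit 0x120001426) (nat_lit 16)))))
 (.n (.n (.n (.n (.p (nat_lit 0x23ea23e623e423e20cfd0cf506) (nat_lit 0x110001040) (nat_lit 14))
 (.p (nat_lit 0x15db154b02) (nat_lit 0xa80f) (nat_lit 19)))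
 (.n (.p (nat_lit 0xf6b0edb02) (nat_lit 0x6483) (nat_lit 19))
 (.p (nat_lit 0x3a48168502) (nat_lit 0x5a0) (nat_lit 48))))
 (.n (.n (.p (nat_lit 0x1802180017fc17fa17f80da306) (nat_lit 0x80001561) (nat_lit 15))
 (.p (nat_lit 0x3931391d02) (nat_lit 0xb3004000800) (nat_lit 35)))
 (.p (nat_lit 0x24e624e424e224de0fd50fd106) (nat_lit 0x50000d45) (nat_lit 16))))
 (.n (.n (.n (.p (nat_lit 0xd3a0d380d360d350d320d3102180005000109) (nat_lit 0x20880) (nat_lit 13))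
 (.p (nat_lit 0x383d381f02) (nat_lit 0xa1406000000) (nat_lit 35)))
 (.p (nat_lit 0xfdb0f4b02) (nat_lit 0xad44) (nat_lit 19)))
 (.n (.n (.p (nat_lit 0xe4e0e4c0e4b0e480e460e44001f07) (nat_lit 0x6082) (nat_lit 7))
 (.p (nat_lit 0x3a10110d02) (nat_lit 0x4800) (nat_lit 48)))
 (.p (nat_lit 0x1b35108402) (nat_lit 0x86) (nat_lit 4)))))

def c512_394 : Tr :=
 .n (.n (.n (.n (.n (.p (nat_lit 0xce9001802) (nat_lit 0x820) (nat_lit 1))
 (.p (nat_lit 0x297b141a02) (nat_lit 0x600d) (nat_lit 5)))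
 (.n (.p (nat_lit 0x195b0eaa02) (nat_lit 0x6043) (nat_lit 4))
 (.p (nat_lit 0x3a3b39a1388103) (nat_lit 0x3180000a060) (nat_lit 43))))
 (.n (.n (.p (nat_lit 0x2d9d0d8c02) (nat_lit 0x8041) (nat_lit 32))
 (.p (nat_lit 0x38e738d702) (nat_lit 0x48402000800) (nat_lit 35)))
 (.p (nat_lit 0x1a6f0fbe02) (nat_lit 0x6825) (nat_lit 4))))
 (.n (.n (.n (.p (nat_lit 0xfe90d1902) (nat_lit 0xc60) (nat_lit 19))
 (.p (nat_lit 0x37d337b902) (nat_lit 0x78802000000) (nat_lit 35)))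
 (.p (nat_lit 0x245624522450244c0f250f1f06) (nat_lit 0x120000524) (nat_lit 14)))
 (.n (.n (.p (nat_lit 0xe2a0e280e270e240e220e20001f07) (nat_lit 0x6842) (nat_lit 7))
 (.p (nat_lit 0x38c838c638c238c037a905) (nat_lit 0x4800000000) (nat_lit 36)))
 (.p (nat_lit 0x178a1784178217801069106706) (nat_lit 0x180001846) (nat_lit 15)))))
 (.n (.n (.n (.n (.p (nat_lit 0x24562454244e244c0d070d0506) (nat_lit 0xc0000d40) (nat_lit 16))
 (.p (nat_lit 0x2c7f171e02) (nat_lit 0xa052) (nat_lit 5)))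
 (.p (nat_lit 0x22522250224e224a22480efd06) (nat_lit 0x400019a3) (nat_lit 14)))
 (.n (.n (.p (nat_lit 0x25ee25ec25ea25e825e60db506) (nat_lit 0x10000481) (nat_lit 16))
 (.p (nat_lit 0x3981396502) (nat_lit 0x70008000800) (nat_lit 35)))
 (.p (nat_lit 0x3029003d02) (nat_lit 0x8a5) (nat_lit 33))))
 (.n (.n (.n (.p (nat_lit 0x25ca25c825c625c225c00d4106) (nat_lit 0x400012a0) (nat_lit 16))
 (.p (nat_lit 0x386e386c3868386638643844228d07) (nat_lit 0x8000080) (nat_lit 38)))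
 (.p (nat_lit 0x25522550254e254c25480f7f06) (nat_lit 0x200013a4) (nat_lit 14)))
 (.n (.n (.p (nat_lit 0x23bf0e5e02) (nat_lit 0x20a2) (nat_lit 5))
 (.p (nat_lit 0x39d93977385903) (nat_lit 0x4a800008020) (nat_lit 44)))
 (.p (nat_lit 0x1c41119002) (nat_lit 0x4068) (nat_lit 4)))))

def c256_138 : Tr := .n c512_138 c512_394

def c128_10 : Tr := .n c256_10 c256_138

def c512_74 : Tr :=
 .n (.n (.n (.n (.n (.p (nat_lit 0xdef0ccf02) (nat_lit 0xa100) (nat_lit 19))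
 (.p (nat_lit 0x12c212c012be12bd12ba12b8007d07) (nat_lit 0x486a) (nat_lit 7)))
 (.n (.p (nat_lit 0x11f0028002403) (nat_lit 0x5000a003) (nat_lit 20))
 (.p (nat_lit 0x3a2d398d384503) (nat_lit 0xa0000008040) (nat_lit 43))))
 (.n (.n (.p (nat_lit 0x1b261b221b201b1e1b1c0d5106) (nat_lit 0x100000ba0) (nat_lit 15))
 (.p (nat_lit 0x3893388f02) (nat_lit 0x7b40a000000) (nat_lit 35)))
 (.p (nat_lit 0x13d0044003e003c04) (nat_lit 0x130008005) (nat_lit 20))))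
 (.n (.n (.n (.p (nat_lit 0x1a1e1a1c1a181a161a140d1306) (nat_lit 0x80000460) (nat_lit 15))
 (.p (nat_lit 0x857007e02) (nat_lit 0x6023) (nat_lit 30)))
 (.p (nat_lit 0xf0f0f0c0f0b0f080f060f040362003b003709) (nat_lit 0x56004) (nat_lit 13)))
 (.n (.n (.p (nat_lit 0x18890dd802) (nat_lit 0x8a1) (nat_lit 4))
 (.p (nat_lit 0x3993397f02) (nat_lit 0xbb408000800) (nat_lit 35)))
 (.p (nat_lit 0x1049103102) (nat_lit 0x806) (nat_lit 18)))))
 (.n (.n (.n (.n (.p (nat_lit 0xd7b0ceb02) (nat_lit 0x2820) (nat_lit 19))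
 (.p (nat_lit 0x1a361a341a321a301a2c14cb06) (nat_lit 0x20000d2e) (nat_lit 15)))
 (.n (.p (nat_lit 0xedf0edc0edb0ed80ed60ed4031a002f002b09) (nat_lit 0x56083) (nat_lit 13))
 (.p (nat_lit 0x3a453975385d03) (nat_lit 0x43000008080) (nat_lit 43))))
 (.n (.n (.p (nat_lit 0x22462244223e223c0da30da106) (nat_lit 0xc0000161) (nat_lit 14))
 (.p (nat_lit 0x3927390b02) (nat_lit 0x88c04000800) (nat_lit 35)))
 (.p (nat_lit 0x1a810fd002) (nat_lit 0x845) (nat_lit 4))))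
 (.n (.n (.n (.p (nat_lit 0xe470d2702) (nat_lit 0x2180) (nat_lit 19))
 (.p (nat_lit 0x3821381502) (nat_lit 0x30006000000) (nat_lit 35)))
 (.p (nat_lit 0x1eb61eb41eb21eb01eae0f3506) (nat_lit 0x10000544) (nat_lit 17)))
 (.n (.n (.p (nat_lit 0x195c195a1958195619540e4306) (nat_lit 0x200000a62) (nat_lit 15))
 (.p (nat_lit 0x39c738d537b703) (nat_lit 0x400002000) (nat_lit 44)))
 (.p (nat_lit 0x3093108202) (nat_lit 0xa866) (nat_lit 32)))))

def c512_330 : Tr :=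
 .n (.n (.n (.n (.n (.p (nat_lit 0xce60ce40ce30ce10cde0cdc02320007000509) (nat_lit 0x34020) (nat_lit 13))
 (.p (nat_lit 0x1eaf13fe02) (nat_lit 0x20ac) (nat_lit 4)))
 (.n (.p (nat_lit 0xea20ea00e9e0e9c0e9b0e98002707) (nat_lit 0x2823) (nat_lit 7))
 (.p (nat_lit 0x3a393979385b03) (nat_lit 0x52c00008060) (nat_lit 43))))
 (.n (.n (.p (nat_lit 0xd820d810d7e0d7c0d7b0d7802700015000f09) (nat_lit 0x42821) (nat_lit 13))
 (.p (nat_lit 0x38cd38c302) (nat_lit 0xa3c00000800) (nat_lit 35)))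
 (.p (nat_lit 0x17ba17b617b417b217b00fb506) (nat_lit 0x100001225) (nat_lit 15))))
 (.n (.n (.n (.p (nat_lit 0x24e624e424e224e024de0d1906) (nat_lit 0x10000d60) (nat_lit 14))
 (.p (nat_lit 0x37ad37a702) (nat_lit 0xa4400000000) (nat_lit 35)))
 (.p (nat_lit 0x2f2d003102) (nat_lit 0x24) (nat_lit 33)))
 (.n (.n (.p (nat_lit 0x23770e1602) (nat_lit 0x2042) (nat_lit 5))
 (.p (nat_lit 0x39c139b102) (nat_lit 0xb380a000800) (nat_lit 35)))
 (.p (nat_lit 0x17f617f217f017ee17ec105d06) (nat_lit 0x100000546) (nat_lit 17)))))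
 (.n (.n (.n (.n (.p (nat_lit 0x195e195c195a19540d050d0306) (nat_lit 0x60000a40) (nat_lit 17))
 (.p (nat_lit 0x2b71161002) (nat_lit 0x4070) (nat_lit 5)))
 (.n (.p (nat_lit 0x1802180017fe17fc17f80eef06) (nat_lit 0x200015a3) (nat_lit 17))
 (.p (nat_lit 0x3a0b39a3388303) (nat_lit 0x39c0000a0a0) (nat_lit 44))))
 (.n (.n (.p (nat_lit 0x23190db802) (nat_lit 0x4081) (nat_lit 5))
 (.p (nat_lit 0x395f394502) (nat_lit 0xaa006000800) (nat_lit 35)))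
 (.p (nat_lit 0x1016101410121010100e100d003d07) (nat_lit 0xa5) (nat_lit 7))))
 (.n (.n (.n (.p (nat_lit 0x229f0d3e02) (nat_lit 0x20a0) (nat_lit 5))
 (.p (nat_lit 0x3871385702) (nat_lit 0xb2408000000) (nat_lit 35)))
 (.p (nat_lit 0x2f962f942f922f902f8e2f8c012c07) (nat_lit 0xa4) (nat_lit 8)))
 (.n (.n (.p (nat_lit 0x17d217d017cc17ca17c80e5706) (nat_lit 0x80001b82) (nat_lit 15))
 (.p (nat_lit 0x39d73947382d03) (nat_lit 0x4b000006020) (nat_lit 44)))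
 (.p (nat_lit 0x1ba710f602) (nat_lit 0x6847) (nat_lit 4)))))

def c256_74 : Tr := .n c512_74 c512_330

def c512_202 : Tr :=
 .n (.n (.n (.n (.n (.p (nat_lit 0x1862185e185c185a18580cd906) (nat_lit 0x100001b00) (nat_lit 17))
 (.p (nat_lit 0x12f212f112ee12ec12ea12e8008107) (nat_lit 0x88aa) (nat_lit 7)))
 (.n (.p (nat_lit 0x189c1898189618940e8b0e8706) (nat_lit 0x280000803) (nat_lit 17))
 (.p (nat_lit 0x39e938cd37ad03) (nat_lit 0xa5000000060) (nat_lit 44))))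
 (.n (.n (.p (nat_lit 0x22bb0d5a02) (nat_lit 0x6001) (nat_lit 5))
 (.p (nat_lit 0x38b338ad02) (nat_lit 0x39000000800) (nat_lit 35)))
 (.p (nat_lit 0x2fb70fa602) (nat_lit 0x6805) (nat_lit 32))))
 (.n (.n (.n (.p (nat_lit 0xd230d200d1e0d1d0d1a0d180236000b000509) (nat_lit 0x54860) (nat_lit 13))
 (.p (nat_lit 0x8b0080007c007a0078002306) (nat_lit 0x5656a) (nat_lit 29)))
 (.p (nat_lit 0x224622442240223c0f170f1306) (nat_lit 0xa0000904) (nat_lit 14)))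
 (.n (.n (.p (nat_lit 0x270226fe26fc26fa26f80ded06) (nat_lit 0x100001302) (nat_lit 16))
 (.p (nat_lit 0x399f399d02) (nat_lit 0x2900a000800) (nat_lit 35)))
 (.p (nat_lit 0x182418221820181e1053104906) (nat_lit 0x210000926) (nat_lit 17)))))
 (.n (.n (.n (.n (.p (nat_lit 0x24622460245e245c0cf70cf506) (nat_lit 0x30001540) (nat_lit 16))
 (.p (nat_lit 0x2b4315e202) (nat_lit 0x6030) (nat_lit 5)))
 (.n (.p (nat_lit 0x1a061a021a0019fc0ee90ee306) (nat_lit 0x120000b83) (nat_lit 15))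
 (.p (nat_lit 0x3a4f3939381f03) (nat_lit 0x114000060a0) (nat_lit 43))))
 (.n (.n (.p (nat_lit 0x222e222a222822240db10dab06) (nat_lit 0x120000861) (nat_lit 16))
 (.p (nat_lit 0x3949393502) (nat_lit 0x50006000800) (nat_lit 35)))
 (.p (nat_lit 0x1f5c1f5a1f581f560fe70fdd06) (nat_lit 0x210000065) (nat_lit 17))))
 (.n (.n (.n (.p (nat_lit 0x1a701a6e1a6c1a6a1a680d3b06) (nat_lit 0x200001980) (nat_lit 17))
 (.p (nat_lit 0x386b384502) (nat_lit 0x98008000000) (nat_lit 35)))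
 (.p (nat_lit 0x2f770f6602) (nat_lit 0x2084) (nat_lit 32)))
 (.n (.n (.p (nat_lit 0x2282227e227a22780e4d0e4906) (nat_lit 0x140001382) (nat_lit 14))
 (.p (nat_lit 0x39cc105102) (nat_lit 0x8c00) (nat_lit 47)))
 (.p (nat_lit 0x30a5004d02) (nat_lit 0x4886) (nat_lit 33)))))

def c512_458 : Tr :=
 .n (.n (.n (.n (.n (.p (nat_lit 0x18b618b218b018ae0cf10ce906) (nat_lit 0x110000920) (nat_lit 17))
 (.p (nat_lit 0x14af004602) (nat_lit 0xa00e) (nat_lit 1)))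
 (.n (.p (nat_lit 0xec60ec40ec30ec10ebe0ebc030a002b002909) (nat_lit 0x34063) (nat_lit 13))
 (.p (nat_lit 0x3a3d38b937a103) (nat_lit 0x53800000080) (nat_lit 43))))
 (.n (.n (.p (nat_lit 0x18410d9002) (nat_lit 0x841) (nat_lit 4))
 (.p (nat_lit 0x38f138df02) (nat_lit 0x71402000800) (nat_lit 35)))
 (.p (nat_lit 0x228e228c228a228622840fbd06) (nat_lit 0x40000c25) (nat_lit 16))))
 (.n (.n (.n (.p (nat_lit 0x1a5a1a581a541a521a500d2b06) (nat_lit 0x80001080) (nat_lit 15))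
 (.p (nat_lit 0x37eb37e502) (nat_lit 0x18004000000) (nat_lit 35)))
 (.p (nat_lit 0x2f43003b02) (nat_lit 0xa824) (nat_lit 33)))
 (.n (.n (.p (nat_lit 0x18e50e3402) (nat_lit 0x8062) (nat_lit 4))
 (.p (nat_lit 0x394c39463944382d04) (nat_lit 0x3006000000) (nat_lit 36)))
 (.p (nat_lit 0x1723106302) (nat_lit 0x2846) (nat_lit 19)))))
 (.n (.n (.n (.n (.p (nat_lit 0xfd90d0902) (nat_lit 0x8c40) (nat_lit 19))
 (.p (nat_lit 0x2c95173402) (nat_lit 0x8072) (nat_lit 5)))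
 (.p (nat_lit 0xf8d0efd02) (nat_lit 0x4ca3) (nat_lit 19)))
 (.n (.n (.p (nat_lit 0x232b187b0273026500fe05) (nat_lit 0x101a881) (nat_lit 9))
 (.p (nat_lit 0x3973396d02) (nat_lit 0x39008000800) (nat_lit 35)))
 (.p (nat_lit 0x39d0381013e03) (nat_lit 0x4040005) (nat_lit 22))))
 (.n (.n (.n (.p (nat_lit 0x10110d4102) (nat_lit 0x44a0) (nat_lit 19))
 (.p (nat_lit 0x3881387b02) (nat_lit 0x30c0a000000) (nat_lit 35)))
 (.p (nat_lit 0xf930f910f8e0f8c0f8a0f88036e003b003909) (nat_lit 0x588a4) (nat_lit 13)))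
 (.n (.n (.p (nat_lit 0xef30e6302) (nat_lit 0x63a2) (nat_lit 19))
 (.p (nat_lit 0x3a220e8b02) (nat_lit 0xab20) (nat_lit 48)))
 (.p (nat_lit 0x270711a602) (nat_lit 0x2088) (nat_lit 5)))))

def c256_202 : Tr := .n c512_202 c512_458

def c128_74 : Tr := .n c256_74 c256_202

def c64_10 : Tr := .n c128_10 c128_74

def c512_42 : Tr :=
 .n (.n (.n (.n (.n (.p (nat_lit 0x185418521850184e0ccf0cc506) (nat_lit 0x210000300) (nat_lit 17))
 (.p (nat_lit 0x27a3124202) (nat_lit 0x2889) (nat_lit 5)))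
 (.n (.p (nat_lit 0x2af02ab02a9011004) (nat_lit 0x2b4002) (nat_lit 23))
 (.p (nat_lit 0x3a2b393d381d03) (nat_lit 0x21000006040) (nat_lit 43))))
 (.n (.n (.p (nat_lit 0x25be25bc25ba25b40d4d0d4b06) (nat_lit 0x60000aa0) (nat_lit 16))
 (.p (nat_lit 0x389f388702) (nat_lit 0xaa40a000000) (nat_lit 35)))
 (.p (nat_lit 0x363033b012e03) (nat_lit 0x6050004) (nat_lit 22))))
 (.n (.n (.n (.p (nat_lit 0x2492248c248a24880d150d1306) (nat_lit 0x180001160) (nat_lit 14))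
 (.p (nat_lit 0x821002402) (nat_lit 0x62) (nat_lit 30)))
 (.p (nat_lit 0x12d003a0038003004) (nat_lit 0x310008004) (nat_lit 20)))
 (.n (.n (.p (nat_lit 0x2de7001702) (nat_lit 0xa0a1) (nat_lit 33))
 (.p (nat_lit 0x3989397902) (nat_lit 0x92808000800) (nat_lit 35)))
 (.p (nat_lit 0x3045103402) (nat_lit 0x4806) (nat_lit 32)))))
 (.n (.n (.n (.n (.p (nat_lit 0x191619141910190e190c0cef06) (nat_lit 0x80000d20) (nat_lit 15))
 (.p (nat_lit 0x34db14ca02) (nat_lit 0x282e) (nat_lit 32)))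
 (.n (.p (nat_lit 0x24390ed802) (nat_lit 0x4083) (nat_lit 5))
 (.p (nat_lit 0x3a433947382d03) (nat_lit 0x4b000006080) (nat_lit 43))))
 (.n (.n (.p (nat_lit 0xda60da40da20da10d9e0d9c001107) (nat_lit 0x4061) (nat_lit 7))
 (.p (nat_lit 0x3923390502) (nat_lit 0x78004000800) (nat_lit 35)))
 (.p (nat_lit 0x19fa19f819f419f00fcb0fc706) (nat_lit 0xa0001245) (nat_lit 17))))
 (.n (.n (.n (.p (nat_lit 0x1ab81ab61ab41ab21ab00d2f06) (nat_lit 0x200001480) (nat_lit 17))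
 (.p (nat_lit 0x3811380502) (nat_lit 0xb4004000000) (nat_lit 35)))
 (.p (nat_lit 0x2f490f3802) (nat_lit 0x4044) (nat_lit 32)))
 (.n (.n (.p (nat_lit 0x2e4f001f02) (nat_lit 0x6862) (nat_lit 33))
 (.p (nat_lit 0x3a0d38bd37a503) (nat_lit 0x64000000000) (nat_lit 43)))
 (.p (nat_lit 0x30923090308e308c308a3088014c07) (nat_lit 0x866) (nat_lit 8)))))

def c512_298 : Tr :=
 .n (.n (.n (.n (.n (.p (nat_lit 0xf150cd502) (nat_lit 0x4b00) (nat_lit 19))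
 (.p (nat_lit 0x198e198c198a19861984139506) (nat_lit 0x40000c0c) (nat_lit 15)))
 (.n (.p (nat_lit 0x1d7e1d7c1d7a1d781d760e8d06) (nat_lit 0x10000423) (nat_lit 17))
 (.p (nat_lit 0x3a36140302) (nat_lit 0x6260) (nat_lit 48))))
 (.n (.n (.p (nat_lit 0x18290d7802) (nat_lit 0x821) (nat_lit 4))
 (.p (nat_lit 0x38cf38bb02) (nat_lit 0xaac00000800) (nat_lit 35)))
 (.p (nat_lit 0xfb60fb50fb20fb00fae0fac004507) (nat_lit 0x8025) (nat_lit 7))))
 (.n (.n (.n (.p (nat_lit 0x1a061a041a0019fc0d1f0d1b06) (nat_lit 0xa0000b60) (nat_lit 17))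
 (.p (nat_lit 0x37a7379d02) (nat_lit 0x8b000000000) (nat_lit 35)))
 (.p (nat_lit 0x180017fe17fc17fa0f1b0f1106) (nat_lit 0x210001d04) (nat_lit 15)))
 (.n (.n (.p (nat_lit 0x23722370236e236c236a236806) (nat_lit 0x822) (nat_lit 3))
 (.p (nat_lit 0x39b539a902) (nat_lit 0x8280a000800) (nat_lit 35)))
 (.p (nat_lit 0x17c617c417c217bc1059105706) (nat_lit 0x60000346) (nat_lit 15)))))
 (.n (.n (.n (.n (.p (nat_lit 0x19381936193419300d0b0d0306) (nat_lit 0x220001840) (nat_lit 15))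
 (.p (nat_lit 0x1607004202) (nat_lit 0x6850) (nat_lit 1)))
 (.n (.p (nat_lit 0x227622742270226e226c0ef306) (nat_lit 0x800003a3) (nat_lit 14))
 (.p (nat_lit 0x3a080dbd02) (nat_lit 0x81a0) (nat_lit 47))))
 (.n (.n (.p (nat_lit 0x110f0daf02) (nat_lit 0x6861) (nat_lit 19))
 (.p (nat_lit 0x394f394102) (nat_lit 0x69806000800) (nat_lit 35)))
 (.p (nat_lit 0x108b0ffb02) (nat_lit 0x6085) (nat_lit 19))))
 (.n (.n (.n (.p (nat_lit 0xe570d3702) (nat_lit 0x6980) (nat_lit 19))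
 (.p (nat_lit 0x385d385302) (nat_lit 0x61c08000000) (nat_lit 35)))
 (.p (nat_lit 0xf7a0f790f760f750f720f7003540039003509) (nat_lit 0x44884) (nat_lit 13)))
 (.n (.n (.p (nat_lit 0x17a217a0179e179c179a0e5106) (nat_lit 0x10001982) (nat_lit 17))
 (.p (nat_lit 0x3a1c124502) (nat_lit 0x4920) (nat_lit 48)))
 (.p (nat_lit 0x3f303e3014e03) (nat_lit 0x6054006) (nat_lit 22)))))

def c256_42 : Tr := .n c512_42 c512_298

def c512_170 : Tr :=
 .n (.n (.n (.n (.n (.p (nat_lit 0x22f822f622f422f00cdb0cd306) (nat_lit 0x220001a00) (nat_lit 14))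
 (.p (nat_lit 0x2396239423922390238e12dd06) (nat_lit 0x100003aa) (nat_lit 14)))
 (.n (.p (nat_lit 0x23e30e8202) (nat_lit 0x2803) (nat_lit 5))
 (.p (nat_lit 0x3a2f39b1389303) (nat_lit 0x73c0000a040) (nat_lit 43))))
 (.n (.n (.p (nat_lit 0x24102350229021d04) (nat_lit 0x8d10000) (nat_lit 24))
 (.p (nat_lit 0x38cd38a702) (nat_lit 0xa0400000800) (nat_lit 35)))
 (.p (nat_lit 0x102d0f9d02) (nat_lit 0x8005) (nat_lit 19))))
 (.n (.n (.n (.p (nat_lit 0x227b0d1a02) (nat_lit 0x2860) (nat_lit 5))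
 (.p (nat_lit 0x9320930092e092c092a014c000107) (nat_lit 0x326) (nat_lit 28)))
 (.p (nat_lit 0x19c50f1402) (nat_lit 0x4804) (nat_lit 4)))
 (.n (.n (.p (nat_lit 0x2dfe2dfc2dfa2df82df62df4010c07) (nat_lit 0x2) (nat_lit 8))
 (.p (nat_lit 0x39ad399902) (nat_lit 0x6080a000800) (nat_lit 35)))
 (.p (nat_lit 0x104f001202) (nat_lit 0x6826) (nat_lit 1)))))
 (.n (.n (.n (.n (.p (nat_lit 0x197419721970196c0cff0cf706) (nat_lit 0x220000340) (nat_lit 15))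
 (.p (nat_lit 0x2ac7156602) (nat_lit 0x204f) (nat_lit 5)))
 (.n (.p (nat_lit 0x199b0eea02) (nat_lit 0xa883) (nat_lit 4))
 (.p (nat_lit 0x3a0215eb02) (nat_lit 0x2ca0) (nat_lit 47))))
 (.n (.n (.p (nat_lit 0x18590da802) (nat_lit 0x861) (nat_lit 4))
 (.p (nat_lit 0x392b392702) (nat_lit 0x9c404000800) (nat_lit 35)))
 (.p (nat_lit 0x253f0fde02) (nat_lit 0x2065) (nat_lit 5))))
 (.n (.n (.n (.p (nat_lit 0x250a2504250225000d390d3706) (nat_lit 0x180001880) (nat_lit 14))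
 (.p (nat_lit 0x382f382702) (nat_lit 0x6a406000000) (nat_lit 35)))
 (.p (nat_lit 0x1a0b0f5a02) (nat_lit 0x2864) (nat_lit 4)))
 (.n (.n (.p (nat_lit 0x2252224e224c22480e4d0e4706) (nat_lit 0x120001182) (nat_lit 16))
 (.p (nat_lit 0x39cd3975385703) (nat_lit 0x42400008000) (nat_lit 44)))
 (.p (nat_lit 0x108e108c108a10891087108403d4004d004b09) (nat_lit 0x22086) (nat_lit 13)))))

def c512_426 : Tr :=
 .n (.n (.n (.n (.n (.p (nat_lit 0x189e189c1898189618940cef06) (nat_lit 0x80000820) (nat_lit 15))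
 (.p (nat_lit 0x1f43149202) (nat_lit 0x60ad) (nat_lit 4)))
 (.n (.p (nat_lit 0xed10eb902) (nat_lit 0x8843) (nat_lit 18))
 (.p (nat_lit 0x39f339bf389f03) (nat_lit 0xad40000a060) (nat_lit 44))))
 (.n (.n (.p (nat_lit 0x190819061904190219000d8f06) (nat_lit 0x200001441) (nat_lit 15))
 (.p (nat_lit 0x38f738db02) (nat_lit 0x88c02000800) (nat_lit 35)))
 (.p (nat_lit 0x179617941792178e178c0fbd06) (nat_lit 0x40000925) (nat_lit 17))))
 (.n (.n (.n (.p (nat_lit 0x228b17db02) (nat_lit 0x6080) (nat_lit 11))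
 (.p (nat_lit 0x37d337bf02) (nat_lit 0x79402000000) (nat_lit 35)))
 (.p (nat_lit 0x24890f2802) (nat_lit 0x824) (nat_lit 5)))
 (.n (.n (.p (nat_lit 0xe390e2102) (nat_lit 0x842) (nat_lit 18))
 (.p (nat_lit 0x3932390a390837eb04) (nat_lit 0xc04000000) (nat_lit 36)))
 (.p (nat_lit 0x228e228c228a22882286106106) (nat_lit 0x10000c46) (nat_lit 14)))))
 (.n (.n (.n (.n (.p (nat_lit 0xd1d0d0502) (nat_lit 0x4840) (nat_lit 18))
 (.p (nat_lit 0x1729001402) (nat_lit 0x8852) (nat_lit 1)))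
 (.p (nat_lit 0x17d017ce17cc17ca17c80f0306) (nat_lit 0x200001ba3) (nat_lit 15)))
 (.n (.n (.p (nat_lit 0x23210dc002) (nat_lit 0x881) (nat_lit 5))
 (.p (nat_lit 0x3971396902) (nat_lit 0x30808000800) (nat_lit 35)))
 (.p (nat_lit 0x10221020101f101c101a101903820043003d09) (nat_lit 0x308a5) (nat_lit 13))))
 (.n (.n (.n (.p (nat_lit 0x25ec25ea25e825e625e40d4706) (nat_lit 0x2000004a0) (nat_lit 14))
 (.p (nat_lit 0x388f387702) (nat_lit 0x6840a000000) (nat_lit 35)))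
 (.p (nat_lit 0xf920f900f8e0f8c0f8b0f88003307) (nat_lit 0x28a4) (nat_lit 7)))
 (.n (.n (.p (nat_lit 0x183e183c1838183618340e6306) (nat_lit 0x800002a2) (nat_lit 17))
 (.p (nat_lit 0x3a2339c3387903) (nat_lit 0xb880000a020) (nat_lit 43)))
 (.p (nat_lit 0x1199001802) (nat_lit 0x868) (nat_lit 1)))))

def c256_170 : Tr := .n c512_170 c512_426

def c128_42 : Tr := .n c256_42 c256_170

def c512_106 : Tr :=
 .n (.n (.n (.n (.n (.p (nat_lit 0x22390cd802) (nat_lit 0x8800) (nat_lit 5))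
 (.p (nat_lit 0x282f12ce02) (nat_lit 0xa08a) (nat_lit 5)))
 (.n (.p (nat_lit 0x192b0e7a02) (nat_lit 0x6003) (nat_lit 4))
 (.p (nat_lit 0x39e5397f386103) (nat_lit 0x6b800008040) (nat_lit 44))))
 (.n (.n (.p (nat_lit 0x1b4a1b461b441b421b400d5106) (nat_lit 0x100001ca0) (nat_lit 15))
 (.p (nat_lit 0x389b389902) (nat_lit 0x9c80a000000) (nat_lit 35)))
 (.p (nat_lit 0x1a4b0f9a02) (nat_lit 0x6005) (nat_lit 4))))
 (.n (.n (.n (.p (nat_lit 0x1a421a401a3e1a3c1a3a0d0d06) (nat_lit 0x10001560) (nat_lit 15))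
 (.p (nat_lit 0x89f002a02) (nat_lit 0x6024) (nat_lit 30)))
 (.p (nat_lit 0x17c417c017be17bc0f0f0f0b06) (nat_lit 0x280000304) (nat_lit 17)))
 (.n (.n (.p (nat_lit 0xde10d6902) (nat_lit 0x88a1) (nat_lit 18))
 (.p (nat_lit 0x398c398639843980397e397c178907) (nat_lit 0x8000800) (nat_lit 37)))
 (.p (nat_lit 0x1047001602) (nat_lit 0xa026) (nat_lit 1)))))
 (.n (.n (.n (.n (.p (nat_lit 0x104f0cef02) (nat_lit 0x6d20) (nat_lit 19))
 (.p (nat_lit 0x1fd9152802) (nat_lit 0x8ae) (nat_lit 4)))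
 (.n (.p (nat_lit 0x24ce24ca24c824c60edd0ed506) (nat_lit 0x110000483) (nat_lit 16))
 (.p (nat_lit 0x3a4739a1388703) (nat_lit 0x3240000a080) (nat_lit 43))))
 (.n (.n (.p (nat_lit 0x17d217d017cc17c80da30d9f06) (nat_lit 0xa0001361) (nat_lit 17))
 (.p (nat_lit 0x3925391502) (nat_lit 0x82004000800) (nat_lit 35)))
 (.p (nat_lit 0x2feb0fda02) (nat_lit 0xa845) (nat_lit 32))))
 (.n (.n (.n (.p (nat_lit 0x17e10d3002) (nat_lit 0x880) (nat_lit 4))
 (.p (nat_lit 0x381f381d02) (nat_lit 0x29006000000) (nat_lit 35)))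
 (.p (nat_lit 0xf4a0f480f470f440f420f40003707) (nat_lit 0x6844) (nat_lit 7)))
 (.n (.n (.p (nat_lit 0x119f0e3f02) (nat_lit 0x6862) (nat_lit 19))
 (.p (nat_lit 0x3a0f38f737d703) (nat_lit 0x8c400002000) (nat_lit 43)))
 (.p (nat_lit 0x1a721a701a6e1a6c1a68107b06) (nat_lit 0x20001966) (nat_lit 15)))))

def c512_362 : Tr :=
 .n (.n (.n (.n (.n (.p (nat_lit 0x23b823b423b223b00ce70ce306) (nat_lit 0x280001420) (nat_lit 16))
 (.p (nat_lit 0x140b003202) (nat_lit 0x28ac) (nat_lit 1)))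
 (.n (.p (nat_lit 0x282e282a282628240ea10e9d06) (nat_lit 0x140000c23) (nat_lit 16))
 (.p (nat_lit 0x39f13991387103) (nat_lit 0xb5800008060) (nat_lit 44))))
 (.n (.n (.p (nat_lit 0x104b0d7b02) (nat_lit 0x2c21) (nat_lit 19))
 (.p (nat_lit 0x38ce38cc38c838c638c438a4229107) (nat_lit 0x880) (nat_lit 38)))
 (.p (nat_lit 0x22b222ae22ac22aa0fb50fad06) (nat_lit 0x110001525) (nat_lit 14))))
 (.n (.n (.n (.p (nat_lit 0x24f024ec24ea24e80d230d1f06) (nat_lit 0x280001d60) (nat_lit 14))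
 (.p (nat_lit 0x37d937b502) (nat_lit 0x90002000000) (nat_lit 35)))
 (.p (nat_lit 0xf270f250f220f200f1e0f1c036e003b003909) (nat_lit 0x58024) (nat_lit 13)))
 (.n (.n (.p (nat_lit 0x1d941d921d901d8e1d8c0e1f06) (nat_lit 0x200000542) (nat_lit 17))
 (.p (nat_lit 0x39a4399e399c399839963994223b07) (nat_lit 0xa000800) (nat_lit 38)))
 (.p (nat_lit 0x106a10681066106410631060004b07) (nat_lit 0x2846) (nat_lit 7)))))
 (.n (.n (.n (.n (.p (nat_lit 0x243e243a243824360d090d0106) (nat_lit 0x110000c40) (nat_lit 14))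
 (.p (nat_lit 0x2c69170802) (nat_lit 0x832) (nat_lit 5)))
 (.n (.p (nat_lit 0x245d0efc02) (nat_lit 0x48a3) (nat_lit 5))
 (.p (nat_lit 0x3a0b39b9389b03) (nat_lit 0x94c0000a0a0) (nat_lit 44))))
 (.n (.n (.p (nat_lit 0x1af61af21af01aee0dbd0db506) (nat_lit 0x110000181) (nat_lit 17))
 (.p (nat_lit 0x3963394d02) (nat_lit 0xbb006000800) (nat_lit 35)))
 (.p (nat_lit 0x1016101410131011100e100c039a0043004109) (nat_lit 0x340a5) (nat_lit 13))))
 (.n (.n (.n (.p (nat_lit 0x1adc1ada1ad81ad61ad40d4706) (nat_lit 0x2000000a0) (nat_lit 15))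
 (.p (nat_lit 0x386f385f02) (nat_lit 0xab408000000) (nat_lit 35)))
 (.p (nat_lit 0xf860f840f820f810f7e0f7d03380035003109) (nat_lit 0x200a4) (nat_lit 13)))
 (.n (.n (.p (nat_lit 0x22b222b022ae22aa0e550e5106) (nat_lit 0x50001d82) (nat_lit 14))
 (.p (nat_lit 0x3a1f395f384103) (nat_lit 0xad800006020) (nat_lit 43)))
 (.p (nat_lit 0x1111001402) (nat_lit 0x8867) (nat_lit 1)))))

def c256_106 : Tr := .n c512_106 c512_362

def c512_234 : Tr :=
 .n (.n (.n (.n (.n (.p (nat_lit 0x187a18781876187418700cd306) (nat_lit 0x20001c00) (nat_lit 15))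
 (.p (nat_lit 0x1e25137402) (nat_lit 0x80ab) (nat_lit 4)))
 (.n (.p (nat_lit 0x18fc18fa18f818f60e8b0e8106) (nat_lit 0x210000c03) (nat_lit 15))
 (.p (nat_lit 0x3a3214cb02) (nat_lit 0x2c60) (nat_lit 48))))
 (.n (.n (.p (nat_lit 0xd830d6b02) (nat_lit 0xa801) (nat_lit 18))
 (.p (nat_lit 0x38c138b102) (nat_lit 0x71800000800) (nat_lit 35)))
 (.p (nat_lit 0x25bc25ba25b825b625b40fab06) (nat_lit 0x200000a05) (nat_lit 14))))
 (.n (.n (.n (.p (nat_lit 0x19c619c419c219c00d230d2106) (nat_lit 0x300001860) (nat_lit 17))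
 (.p (nat_lit 0x37b1378502) (nat_lit 0xb0000000000) (nat_lit 35)))
 (.p (nat_lit 0x226822662264226222600f1b06) (nat_lit 0x200001a04) (nat_lit 14)))
 (.n (.n (.p (nat_lit 0x23590df802) (nat_lit 0x8802) (nat_lit 5))
 (.p (nat_lit 0x39bd399f02) (nat_lit 0xa140a000800) (nat_lit 35)))
 (.p (nat_lit 0x106b105302) (nat_lit 0xa826) (nat_lit 18)))))
 (.n (.n (.n (.n (.p (nat_lit 0x105d0cfd02) (nat_lit 0x8540) (nat_lit 19))
 (.p (nat_lit 0x2b5120a106a5069d01ee05) (nat_lit 0x888830) (nat_lit 9)))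
 (.n (.p (nat_lit 0x199d0eec02) (nat_lit 0xa3) (nat_lit 4))
 (.p (nat_lit 0x3a060fa702) (nat_lit 0x6ba0) (nat_lit 47))))
 (.n (.n (.p (nat_lit 0x17ba17b817b617b417b20da906) (nat_lit 0x10001a61) (nat_lit 15))
 (.p (nat_lit 0x393b393902) (nat_lit 0x18806000800) (nat_lit 35)))
 (.p (nat_lit 0x1a9f0fee02) (nat_lit 0x6865) (nat_lit 4))))
 (.n (.n (.n (.p (nat_lit 0x1a881a861a841a820d3b0d3106) (nat_lit 0x210001a80) (nat_lit 15))
 (.p (nat_lit 0x3859384902) (nat_lit 0x50808000000) (nat_lit 35)))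
 (.p (nat_lit 0x1f681f661f641f621f600f6f06) (nat_lit 0x200001084) (nat_lit 15)))
 (.n (.n (.p (nat_lit 0x180017fe17fc17f80e4f0e4706) (nat_lit 0x220001582) (nat_lit 15))
 (.p (nat_lit 0x3a18118d02) (nat_lit 0x20) (nat_lit 48)))
 (.p (nat_lit 0x10af109702) (nat_lit 0x6886) (nat_lit 18)))))

def c512_490 : Tr :=
 .n (.n (.n (.n (.n (.p (nat_lit 0x239423922390238e0cf30ce906) (nat_lit 0x210000b20) (nat_lit 14))
 (.p (nat_lit 0x14ba14b814b714b414b214b000af07) (nat_lit 0x680e) (nat_lit 7)))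
 (.n (.p (nat_lit 0x2edb0eca02) (nat_lit 0x2863) (nat_lit 32))
 (.p (nat_lit 0x39f738ff37b503) (nat_lit 0xa8000002080) (nat_lit 44))))
 (.n (.n (.p (nat_lit 0x18aa18a818a618a00d950d9306) (nat_lit 0x60001841) (nat_lit 15))
 (.p (nat_lit 0x38ff38e502) (nat_lit 0xaa002000800) (nat_lit 35)))
 (.p (nat_lit 0x10490fb902) (nat_lit 0x825) (nat_lit 19))))
 (.n (.n (.n (.p (nat_lit 0x25222520251c251a25180d2b06) (nat_lit 0x80001180) (nat_lit 16))
 (.p (nat_lit 0x380937eb02) (nat_lit 0x90c04000000) (nat_lit 35)))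
 (.p (nat_lit 0x243c243a243824360f330f2906) (nat_lit 0x210000c24) (nat_lit 16)))
 (.n (.n (.p (nat_lit 0x240e240c2408240624040e3306) (nat_lit 0x80000262) (nat_lit 14))
 (.p (nat_lit 0x398c39863984386d04) (nat_lit 0x5008000000) (nat_lit 36)))
 (.p (nat_lit 0x3085107402) (nat_lit 0x8066) (nat_lit 32)))))
 (.n (.n (.n (.n (.p (nat_lit 0xd17003a02) (nat_lit 0xa060) (nat_lit 1))
 (.p (nat_lit 0x2ca3174202) (nat_lit 0xa872) (nat_lit 5)))
 (.p (nat_lit 0x3190301011e03) (nat_lit 0x8032003) (nat_lit 22)))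
 (.n (.n (.p (nat_lit 0x1b241b221b201b1e1b1c0dcb06) (nat_lit 0x200000b81) (nat_lit 15))
 (.p (nat_lit 0x398f396f02) (nat_lit 0xa9408000800) (nat_lit 35)))
 (.p (nat_lit 0x151005202) (nat_lit 0x20000c006) (nat_lit 20))))
 (.n (.n (.n (.p (nat_lit 0x22af17ff02) (nat_lit 0x68a0) (nat_lit 11))
 (.p (nat_lit 0x3881387f02) (nat_lit 0x3140a000000) (nat_lit 35)))
 (.p (nat_lit 0x252c2528252625240f930f8f06) (nat_lit 0x280000aa4) (nat_lit 16)))
 (.n (.n (.p (nat_lit 0xe730e700e6e0e6c0e6a0e68002307) (nat_lit 0xa8a2) (nat_lit 7))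
 (.p (nat_lit 0x3a24226102) (nat_lit 0x840) (nat_lit 46)))
 (.p (nat_lit 0x11ba11b811b611b411b311b0006307) (nat_lit 0x2888) (nat_lit 7)))))

def c256_234 : Tr := .n c512_234 c512_490

def c128_106 : Tr := .n c256_106 c256_234

def c64_42 : Tr := .n c128_42 c128_106

def c32_10 : Tr := .n c64_10 c64_42

def c512_26 : Tr :=
 .n (.n (.n (.n (.n (.p (nat_lit 0x181a1818181618140cc70cc506) (nat_lit 0x30001000) (nat_lit 17))
 (.p (nat_lit 0x1ce9123802) (nat_lit 0x4089) (nat_lit 4)))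
 (.n (.p (nat_lit 0xe730dfb02) (nat_lit 0xa8a2) (nat_lit 18))
 (.p (nat_lit 0x3a29390537e503) (nat_lit 0x4040) (nat_lit 43))))
 (.n (.n (.p (nat_lit 0x25b225b025ae25aa0d4d0d4906) (nat_lit 0x500019a0) (nat_lit 14))
 (.p (nat_lit 0x3889388502) (nat_lit 0x5200a000000) (nat_lit 35)))
 (.p (nat_lit 0x3490347012e03) (nat_lit 0x2046004) (nat_lit 22))))
 (.n (.n (.n (.p (nat_lit 0x248624822480247e247c0d1506) (nat_lit 0x100000160) (nat_lit 14))
 (.p (nat_lit 0x7ed001502) (nat_lit 0x8081) (nat_lit 31)))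
 (.p (nat_lit 0x12f0038003603) (nat_lit 0x18000a004) (nat_lit 20)))
 (.n (.n (.p (nat_lit 0x23310dd002) (nat_lit 0x40a1) (nat_lit 5))
 (.p (nat_lit 0x3983397702) (nat_lit 0x7a408000800) (nat_lit 35)))
 (.p (nat_lit 0x15cb102b02) (nat_lit 0x6406) (nat_lit 19)))))
 (.n (.n (.n (.n (.p (nat_lit 0x190a1908190219000cef0ced06) (nat_lit 0xc0001c20) (nat_lit 17))
 (.p (nat_lit 0x19ee19ec19ea19e819e614bd06) (nat_lit 0x1000022e) (nat_lit 15)))
 (.n (.p (nat_lit 0xf610ed102) (nat_lit 0x8c63) (nat_lit 19))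
 (.p (nat_lit 0x39f814b502) (nat_lit 0x4b80) (nat_lit 47))))
 (.n (.n (.p (nat_lit 0x17230d9302) (nat_lit 0x2d41) (nat_lit 19))
 (.p (nat_lit 0x38ec38e638e438e038de38dc17e307) (nat_lit 0x2000880) (nat_lit 37)))
 (.p (nat_lit 0xfce0fcc0fcb0fc80fc60fc503820043003d09) (nat_lit 0x30045) (nat_lit 13))))
 (.n (.n (.n (.p (nat_lit 0x25442542253e253c0d2f0d2906) (nat_lit 0x240000380) (nat_lit 14))
 (.p (nat_lit 0x380f37ff02) (nat_lit 0xab404000000) (nat_lit 35)))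
 (.p (nat_lit 0x2f4e2f4c2f4a2f482f462f44012c07) (nat_lit 0x44) (nat_lit 8)))
 (.n (.n (.p (nat_lit 0x2e49001902) (nat_lit 0x862) (nat_lit 33))
 (.p (nat_lit 0x39c538b7379903) (nat_lit 0x4a800000000) (nat_lit 44)))
 (.p (nat_lit 0x1ad21ace1acc1aca1ac8107506) (nat_lit 0x100001566) (nat_lit 15)))))

def c512_282 : Tr :=
 .n (.n (.n (.n (.n (.p (nat_lit 0xd690cd902) (nat_lit 0x8800) (nat_lit 19))
 (.p (nat_lit 0x1e41139002) (nat_lit 0x80c) (nat_lit 4)))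
 (.n (.p (nat_lit 0x19450e9402) (nat_lit 0x8023) (nat_lit 4))
 (.p (nat_lit 0x3a373945382503) (nat_lit 0x42000006060) (nat_lit 43))))
 (.n (.n (.p (nat_lit 0x1c5a1c581c561c540d770d7506) (nat_lit 0x300000421) (nat_lit 17))
 (.p (nat_lit 0x38c138b902) (nat_lit 0x72800000800) (nat_lit 35)))
 (.p (nat_lit 0x1a5d0fac02) (nat_lit 0x25) (nat_lit 4))))
 (.n (.n (.n (.p (nat_lit 0x19fa19f819f619f20d1d0d1906) (nat_lit 0x50001a60) (nat_lit 15))
 (.p (nat_lit 0x37a9379702) (nat_lit 0x92400000000) (nat_lit 35)))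
 (.p (nat_lit 0x17f617f217f017ee17ec0f1906) (nat_lit 0x100000d04) (nat_lit 15)))
 (.n (.n (.p (nat_lit 0x23670e0602) (nat_lit 0xa022) (nat_lit 5))
 (.p (nat_lit 0x39a939a702) (nat_lit 0x5240a000800) (nat_lit 35)))
 (.p (nat_lit 0x22522250224e224a1059105506) (nat_lit 0x50001146) (nat_lit 14)))))
 (.n (.n (.n (.n (.p (nat_lit 0x193a19381936193419320d0106) (nat_lit 0x10001840) (nat_lit 15))
 (.p (nat_lit 0x2520251e251c251a251815ff06) (nat_lit 0x200001150) (nat_lit 14)))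
 (.n (.p (nat_lit 0x17ac17aa17a817a60ef70eed06) (nat_lit 0x2100002a3) (nat_lit 17))
 (.p (nat_lit 0x3a09398b386b03) (nat_lit 0x9cc000080a0) (nat_lit 44))))
 (.n (.n (.p (nat_lit 0x22a622a422a0229e229c0daf06) (nat_lit 0x80000d61) (nat_lit 14))
 (.p (nat_lit 0x3951393f02) (nat_lit 0x71406000800) (nat_lit 35)))
 (.p (nat_lit 0x25590ff802) (nat_lit 0x4085) (nat_lit 5))))
 (.n (.n (.n (.p (nat_lit 0x2580257e257c257a0d3b0d3106) (nat_lit 0x210001d80) (nat_lit 14))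
 (.p (nat_lit 0x386d384f02) (nat_lit 0xa1408000000) (nat_lit 35)))
 (.p (nat_lit 0x2f89003902) (nat_lit 0x8884) (nat_lit 33)))
 (.n (.n (.p (nat_lit 0xe5b0e580e560e540e520e50002307) (nat_lit 0xa882) (nat_lit 7))
 (.p (nat_lit 0x3a1d3927380903) (nat_lit 0x8c800004020) (nat_lit 43)))
 (.p (nat_lit 0x3db03c7014e03) (nat_lit 0x2050006) (nat_lit 22)))))

def c256_26 : Tr := .n c512_26 c512_282

def c512_154 : Tr :=
 .n (.n (.n (.n (.n (.p (nat_lit 0x22ec22ea22e822e60cdb0cd106) (nat_lit 0x210000a00) (nat_lit 14))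
 (.p (nat_lit 0x1d8f12de02) (nat_lit 0x20aa) (nat_lit 4)))
 (.n (.p (nat_lit 0x138b0e7b02) (nat_lit 0x6303) (nat_lit 19))
 (.p (nat_lit 0x3a2f3995387d03) (nat_lit 0x100000a040) (nat_lit 43))))
 (.n (.n (.p (nat_lit 0x10ab0d4b02) (nat_lit 0x2da0) (nat_lit 19))
 (.p (nat_lit 0x38ad38a702) (nat_lit 0x20400000800) (nat_lit 35)))
 (.p (nat_lit 0x1b261b201b1e1b1c0f9d0f9b06) (nat_lit 0x180000305) (nat_lit 17))))
 (.n (.n (.n (.p (nat_lit 0xfe70d1702) (nat_lit 0xa460) (nat_lit 19))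
 (.p (nat_lit 0x913003f02) (nat_lit 0x20a5) (nat_lit 31)))
 (.p (nat_lit 0xf9b0f0b02) (nat_lit 0x6504) (nat_lit 19)))
 (.n (.n (.p (nat_lit 0x297028b027f027304) (nat_lit 0xb1a2001) (nat_lit 24))
 (.p (nat_lit 0x39b7399702) (nat_lit 0x8840a000800) (nat_lit 35)))
 (.p (nat_lit 0x3059104802) (nat_lit 0x826) (nat_lit 32)))))
 (.n (.n (.n (.n (.p (nat_lit 0x240223fe23fc23fa0cfd0cf506) (nat_lit 0x110001140) (nat_lit 14))
 (.p (nat_lit 0x2abf155e02) (nat_lit 0x682f) (nat_lit 5)))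
 (.n (.p (nat_lit 0x24450ee402) (nat_lit 0x4883) (nat_lit 5))
 (.p (nat_lit 0x3a03390137b903) (nat_lit 0xb08000020a0) (nat_lit 44))))
 (.n (.n (.p (nat_lit 0xe2d0d9d02) (nat_lit 0x261) (nat_lit 19))
 (.p (nat_lit 0x392f392102) (nat_lit 0xab804000800) (nat_lit 35)))
 (.p (nat_lit 0x106b0fdb02) (nat_lit 0xa845) (nat_lit 19))))
 (.n (.n (.n (.p (nat_lit 0x24fc24fa24f824f60d3b0d3106) (nat_lit 0x210000880) (nat_lit 14))
 (.p (nat_lit 0x3837382302) (nat_lit 0x89c06000000) (nat_lit 35)))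
 (.p (nat_lit 0xf560f540f520f510f4f0f4c03440035003309) (nat_lit 0x22064) (nat_lit 13)))
 (.n (.n (.p (nat_lit 0x177e177a177817760e4d0e4506) (nat_lit 0x110000082) (nat_lit 15))
 (.p (nat_lit 0x39ca0e6302) (nat_lit 0x6200) (nat_lit 47)))
 (.p (nat_lit 0x25eb108a02) (nat_lit 0x6086) (nat_lit 5)))))

def c512_410 : Tr :=
 .n (.n (.n (.n (.n (.p (nat_lit 0x22510cf002) (nat_lit 0x8820) (nat_lit 5))
 (.p (nat_lit 0x298b142a02) (nat_lit 0xa80d) (nat_lit 5)))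
 (.n (.p (nat_lit 0x24130eb202) (nat_lit 0x2843) (nat_lit 5))
 (.p (nat_lit 0x3a3b39a9388903) (nat_lit 0x5280000a060) (nat_lit 43))))
 (.n (.n (.p (nat_lit 0x18da18d818d418d20d8b0d8506) (nat_lit 0x90001241) (nat_lit 17))
 (.p (nat_lit 0x38df38d902) (nat_lit 0x28802000800) (nat_lit 35)))
 (.p (nat_lit 0xfc30fc00fbe0fbc0fbb0fb803920047003f09) (nat_lit 0x52825) (nat_lit 13))))
 (.n (.n (.n (.p (nat_lit 0x228517d502) (nat_lit 0x80) (nat_lit 11))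
 (.p (nat_lit 0x37cd37bd02) (nat_lit 0x61002000000) (nat_lit 35)))
 (.p (nat_lit 0x13a50f2502) (nat_lit 0x8224) (nat_lit 19)))
 (.n (.n (.p (nat_lit 0xe2b0e280e260e250e220e2002c60023001d09) (nat_lit 0x54842) (nat_lit 13))
 (.p (nat_lit 0x38ea38e838e237cb04) (nat_lit 0x2c02000000) (nat_lit 36)))
 (.p (nat_lit 0x17ae17aa17a817a41069106306) (nat_lit 0x120000a46) (nat_lit 17)))))
 (.n (.n (.n (.n (.p (nat_lit 0x19b219b019ac19aa19a80d0706) (nat_lit 0x80001d40) (nat_lit 17))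
 (.p (nat_lit 0x186c186a186818661864171f06) (nat_lit 0x200000452) (nat_lit 15)))
 (.p (nat_lit 0x17ba17b617b417b217b00f0106) (nat_lit 0x100001aa3) (nat_lit 17)))
 (.n (.n (.p (nat_lit 0xe450db502) (nat_lit 0x281) (nat_lit 19))
 (.p (nat_lit 0x3979396702) (nat_lit 0x50408000800) (nat_lit 35)))
 (.p (nat_lit 0x257f1acf038f0381013e05) (nat_lit 0x8168a5) (nat_lit 9))))
 (.n (.n (.n (.p (nat_lit 0x25d425d225d025ce25cc0d4706) (nat_lit 0x2000003a0) (nat_lit 14))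
 (.p (nat_lit 0x3891387502) (nat_lit 0x7000a000000) (nat_lit 35)))
 (.p (nat_lit 0x14030f8302) (nat_lit 0x62a4) (nat_lit 19)))
 (.n (.n (.p (nat_lit 0xe660e650e620e600e5e0e5c002107) (nat_lit 0x80a2) (nat_lit 7))
 (.p (nat_lit 0x3a2012f102) (nat_lit 0x8a20) (nat_lit 48)))
 (.p (nat_lit 0x1197119411931190118e118c0482006b006709) (nat_lit 0x56068) (nat_lit 13)))))

def c256_154 : Tr := .n c512_154 c512_410

def c128_26 : Tr := .n c256_26 c256_154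

def c512_90 : Tr :=
 .n (.n (.n (.n (.n (.p (nat_lit 0x17810cd002) (nat_lit 0x800) (nat_lit 4))
 (.p (nat_lit 0x1d7512c402) (nat_lit 0x8a) (nat_lit 4)))
 (.n (.p (nat_lit 0x11f002e002a03) (nat_lit 0x28000a003) (nat_lit 20))
 (.p (nat_lit 0x39e53969385103) (nat_lit 0x11800008040) (nat_lit 44))))
 (.n (.n (.p (nat_lit 0x1b321b2e1b2c1b2a1b280d5106) (nat_lit 0x100001ba0) (nat_lit 15))
 (.p (nat_lit 0x3895389302) (nat_lit 0x83c0a000000) (nat_lit 35)))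
 (.p (nat_lit 0x13d00460044004004) (nat_lit 0x340008005) (nat_lit 20))))
 (.n (.n (.n (.p (nat_lit 0x1a281a261a241a220d170d0d06) (nat_lit 0x210001460) (nat_lit 15))
 (.p (nat_lit 0x87f003a02) (nat_lit 0xa083) (nat_lit 30)))
 (.p (nat_lit 0x17a0179e179a17980f0f0f0906) (nat_lit 0x240001104) (nat_lit 15)))
 (.n (.n (.p (nat_lit 0x23430de202) (nat_lit 0xa8a1) (nat_lit 5))
 (.p (nat_lit 0x398f398702) (nat_lit 0xac408000800) (nat_lit 35)))
 (.p (nat_lit 0x304f103e02) (nat_lit 0x2026) (nat_lit 32)))))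
 (.n (.n (.n (.n (.p (nat_lit 0xea30cf302) (nat_lit 0xaa20) (nat_lit 19))
 (.p (nat_lit 0x2a3b14da02) (nat_lit 0x604e) (nat_lit 5)))
 (.n (.p (nat_lit 0x19d619d219d019ce19cc0edd06) (nat_lit 0x100000183) (nat_lit 17))
 (.p (nat_lit 0x39fd3993387303) (nat_lit 0xbdc00008080) (nat_lit 44))))
 (.n (.n (.p (nat_lit 0x225c225a225822540da70d9f06) (nat_lit 0x220000261) (nat_lit 14))
 (.p (nat_lit 0x391f391102) (nat_lit 0x69804000800) (nat_lit 35)))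
 (.p (nat_lit 0xfd7003602) (nat_lit 0x6845) (nat_lit 1))))
 (.n (.n (.n (.p (nat_lit 0xf6f0d2f02) (nat_lit 0xa380) (nat_lit 19))
 (.p (nat_lit 0x3821381702) (nat_lit 0x30406000000) (nat_lit 35)))
 (.p (nat_lit 0xfcf0f3f02) (nat_lit 0xa544) (nat_lit 19)))
 (.n (.n (.p (nat_lit 0x245624522450244e244c0e4106) (nat_lit 0x100000d62) (nat_lit 14))
 (.p (nat_lit 0x3a0f38db37c103) (nat_lit 0x19800002000) (nat_lit 43)))
 (.p (nat_lit 0x24fc24fa24f824f624f4108306) (nat_lit 0x200000866) (nat_lit 16)))))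

def c512_346 : Tr :=
 .n (.n (.n (.n (.n (.p (nat_lit 0x18e418e018de18dc0ce70ce306) (nat_lit 0x280000320) (nat_lit 15))
 (.p (nat_lit 0x19d619d419d219d019cc13ff06) (nat_lit 0x200001ac) (nat_lit 15)))
 (.n (.p (nat_lit 0xea3008202) (nat_lit 0xa823) (nat_lit 1))
 (.p (nat_lit 0x39f13985386703) (nat_lit 0x84400008060) (nat_lit 44))))
 (.n (.n (.p (nat_lit 0x1c6a1c661c641c600d810d7b06) (nat_lit 0x120001c21) (nat_lit 17))
 (.p (nat_lit 0x38cd38cb02) (nat_lit 0xa4c00000800) (nat_lit 35)))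
 (.p (nat_lit 0x17de17da17d817d40fb50faf06) (nat_lit 0x120000425) (nat_lit 17))))
 (.n (.n (.n (.p (nat_lit 0x24e224e024de24dc0d230d2106) (nat_lit 0x300000d60) (nat_lit 14))
 (.p (nat_lit 0x37ae37ac37a837a637a43784228507) (nat_lit 0x80) (nat_lit 38)))
 (.p (nat_lit 0x19d50f2402) (nat_lit 0x8024) (nat_lit 4)))
 (.n (.n (.p (nat_lit 0xe1f008202) (nat_lit 0xa042) (nat_lit 1))
 (.p (nat_lit 0x39c339b702) (nat_lit 0xbc40a000800) (nat_lit 35)))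
 (.p (nat_lit 0x1073105b02) (nat_lit 0x6046) (nat_lit 18)))))
 (.n (.n (.n (.n (.p (nat_lit 0x24322430242c242a24280d0706) (nat_lit 0x80001b40) (nat_lit 14))
 (.p (nat_lit 0x25a625a425a225a0259c168706) (nat_lit 0x20000151) (nat_lit 14)))
 (.n (.p (nat_lit 0x13ff0eef02) (nat_lit 0x23a3) (nat_lit 19))
 (.p (nat_lit 0x3a0b39ab389303) (nat_lit 0x5bc0000a0a0) (nat_lit 44))))
 (.n (.n (.p (nat_lit 0xdbf005202) (nat_lit 0xa081) (nat_lit 1))
 (.p (nat_lit 0x3963394702) (nat_lit 0xba406000800) (nat_lit 35)))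
 (.p (nat_lit 0x2573101202) (nat_lit 0x60a5) (nat_lit 5))))
 (.n (.n (.n (.p (nat_lit 0x22a417f40d4503) (nat_lit 0x80a0) (nat_lit 6))
 (.p (nat_lit 0x386f385b02) (nat_lit 0xaac08000000) (nat_lit 35)))
 (.p (nat_lit 0x2f91003502) (nat_lit 0x40a4) (nat_lit 33)))
 (.n (.n (.p (nat_lit 0x17da17d817d617d40e5b0e5906) (nat_lit 0x300000c82) (nat_lit 17))
 (.p (nat_lit 0x3a1f3957383703) (nat_lit 0x8c400006020) (nat_lit 43)))
 (.p (nat_lit 0x1103001202) (nat_lit 0x6067) (nat_lit 1)))))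

def c256_90 : Tr := .n c512_90 c512_346

def c512_218 : Tr :=
 .n (.n (.n (.n (.n (.p (nat_lit 0x186e186c1868186618640cd706) (nat_lit 0x80000c00) (nat_lit 15))
 (.p (nat_lit 0x18f018ee18ec18ea18e812f306) (nat_lit 0x200001baa) (nat_lit 15)))
 (.n (.p (nat_lit 0x239423922390238e0e8b0e8106) (nat_lit 0x210000b03) (nat_lit 16))
 (.p (nat_lit 0x3a33390337b903) (nat_lit 0xb8800002060) (nat_lit 43))))
 (.n (.n (.p (nat_lit 0x18150d6402) (nat_lit 0x4801) (nat_lit 4))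
 (.p (nat_lit 0x38bb38af02) (nat_lit 0x59400000800) (nat_lit 35)))
 (.p (nat_lit 0xfaa0fa90fa60fa50fa20fa0039c0045004109) (nat_lit 0x44805) (nat_lit 13))))
 (.n (.n (.n (.p (nat_lit 0x19ca19c819c619c20d1d0d1906) (nat_lit 0x50001860) (nat_lit 17))
 (.p (nat_lit 0xc0b00c702) (nat_lit 0x6050) (nat_lit 31)))
 (.p (nat_lit 0x2250224c224a22480f1b0f1706) (nat_lit 0x280001904) (nat_lit 14)))
 (.n (.n (.p (nat_lit 0x2e010df002) (nat_lit 0x802) (nat_lit 32))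
 (.p (nat_lit 0x39c1399d02) (nat_lit 0xb100a000800) (nat_lit 35)))
 (.p (nat_lit 0x231e231a231623141051104d06) (nat_lit 0x140000c26) (nat_lit 16)))))
 (.n (.n (.n (.n (.p (nat_lit 0xe1d0cfd02) (nat_lit 0x8140) (nat_lit 19))
 (.p (nat_lit 0x1b321b301b2e1b2c1b2a15dd06) (nat_lit 0x10001330) (nat_lit 15)))
 (.n (.p (nat_lit 0x12d30ee302) (nat_lit 0x2983) (nat_lit 19))
 (.p (nat_lit 0x3a4f3945382703) (nat_lit 0x424000060a0) (nat_lit 43))))
 (.n (.n (.p (nat_lit 0x17881784178217800db30daf06) (nat_lit 0x280001861) (nat_lit 17))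
 (.p (nat_lit 0x3941393702) (nat_lit 0x30406000800) (nat_lit 35)))
 (.p (nat_lit 0x300230002ffe2ffc2ffa2ff8013c07) (nat_lit 0x865) (nat_lit 8))))
 (.n (.n (.n (.p (nat_lit 0x1a7c1a7a1a781a761a740d3b06) (nat_lit 0x200000a80) (nat_lit 15))
 (.p (nat_lit 0x3863384702) (nat_lit 0x78408000000) (nat_lit 35)))
 (.p (nat_lit 0x24cf0f6e02) (nat_lit 0xa084) (nat_lit 5)))
 (.n (.n (.p (nat_lit 0x17e817e617e417e217e00e4f06) (nat_lit 0x200001482) (nat_lit 17))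
 (.p (nat_lit 0x39ce178b02) (nat_lit 0xa800) (nat_lit 45)))
 (.p (nat_lit 0x109a1099109610941092109103cc0051004909) (nat_lit 0x40886) (nat_lit 13)))))

def c512_474 : Tr :=
 .n (.n (.n (.n (.n (.p (nat_lit 0x238a2388238423800cef0ceb06) (nat_lit 0xa0001a20) (nat_lit 14))
 (.p (nat_lit 0x25822580257e257c257814a706) (nat_lit 0x2000150e) (nat_lit 14)))
 (.n (.p (nat_lit 0xedd0ec502) (nat_lit 0x8063) (nat_lit 18))
 (.p (nat_lit 0x39f538c737ad03) (nat_lit 0x8d000000080) (nat_lit 44))))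
 (.n (.n (.p (nat_lit 0x2da70d9602) (nat_lit 0x6841) (nat_lit 32))
 (.p (nat_lit 0x38e538e302) (nat_lit 0x41c02000800) (nat_lit 35)))
 (.p (nat_lit 0x17e617e417e217e00fc30fc106) (nat_lit 0x300001c25) (nat_lit 17))))
 (.n (.n (.n (.p (nat_lit 0x1a661a641a601a5e1a5c0d2b06) (nat_lit 0x80000180) (nat_lit 17))
 (.p (nat_lit 0x37f537e702) (nat_lit 0x40404000000) (nat_lit 35)))
 (.p (nat_lit 0x193a19361934193219300f3106) (nat_lit 0x100001824) (nat_lit 15)))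
 (.n (.n (.p (nat_lit 0xe370e350e320e300e2e0e2c02de0023002109) (nat_lit 0x58062) (nat_lit 13))
 (.p (nat_lit 0x396c39663964384d04) (nat_lit 0x1008000000) (nat_lit 36)))
 (.p (nat_lit 0x1076107410721070106f106c004b07) (nat_lit 0x2066) (nat_lit 7)))))
 (.n (.n (.n (.n (.p (nat_lit 0xd160d140d120d100d0f0d0c000307) (nat_lit 0x2060) (nat_lit 7))
 (.p (nat_lit 0x1739004802) (nat_lit 0x872) (nat_lit 1)))
 (.p (nat_lit 0x30f030d02f1012004) (nat_lit 0x42c0003) (nat_lit 23)))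
 (.n (.n (.p (nat_lit 0x1b021b001afe1af80dc50dc306) (nat_lit 0x60001981) (nat_lit 17))
 (.p (nat_lit 0x3993396d02) (nat_lit 0xb9008000800) (nat_lit 35)))
 (.p (nat_lit 0x151004c02) (nat_lit 0x4000c006) (nat_lit 20))))
 (.n (.n (.n (.p (nat_lit 0x17fb0d4a02) (nat_lit 0x28a0) (nat_lit 4))
 (.p (nat_lit 0x38a1387b02) (nat_lit 0xb0c0a000000) (nat_lit 35)))
 (.p (nat_lit 0x251425122510250e0f930f8906) (nat_lit 0x2100009a4) (nat_lit 14)))
 (.n (.n (.p (nat_lit 0x23cd0e6c02) (nat_lit 0x48a2) (nat_lit 5))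
 (.p (nat_lit 0x39dd38bf37a703) (nat_lit 0x6c400000040) (nat_lit 44)))
 (.p (nat_lit 0x22fa22f822f622f222f011a906) (nat_lit 0x40001288) (nat_lit 14)))))

def c256_218 : Tr := .n c512_218 c512_474

def c128_90 : Tr := .n c256_90 c256_218

def c64_26 : Tr := .n c128_26 c128_90

def c512_58 : Tr :=
 .n (.n (.n (.n (.n (.p (nat_lit 0x23362334233223300cc70cc506) (nat_lit 0x30000500) (nat_lit 14))
 (.p (nat_lit 0x18d007c007a007804) (nat_lit 0x7000800a) (nat_lit 20)))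
 (.n (.p (nat_lit 0x2df02d1010e03) (nat_lit 0x8056002) (nat_lit 22))
 (.p (nat_lit 0x39e33945382703) (nat_lit 0x42400006040) (nat_lit 44))))
 (.n (.n (.p (nat_lit 0x1b1a1b181b141b120d4f0d4906) (nat_lit 0x90001aa0) (nat_lit 17))
 (.p (nat_lit 0x3897388b02) (nat_lit 0x8ac0a000000) (nat_lit 35)))
 (.p (nat_lit 0x357034b012e03) (nat_lit 0xa022004) (nat_lit 22))))
 (.n (.n (.n (.p (nat_lit 0x249a2498249624940d170d1506) (nat_lit 0x300000260) (nat_lit 14))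
 (.p (nat_lit 0x841001402) (nat_lit 0x80a2) (nat_lit 30)))
 (.p (nat_lit 0x19bb0f0a02) (nat_lit 0x6004) (nat_lit 4)))
 (.n (.n (.p (nat_lit 0xdd70d5f02) (nat_lit 0xa0a1) (nat_lit 18))
 (.p (nat_lit 0x3987397d02) (nat_lit 0x8b008000800) (nat_lit 35)))
 (.p (nat_lit 0x103b1038103610341032103103ce0053004909) (nat_lit 0x50806) (nat_lit 13)))))
 (.n (.n (.n (.n (.p (nat_lit 0x19221920191a19180cef0ced06) (nat_lit 0xc0001d20) (nat_lit 15))
 (.p (nat_lit 0x2a3314d202) (nat_lit 0xa82e) (nat_lit 5)))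
 (.n (.p (nat_lit 0xedf003a02) (nat_lit 0xa083) (nat_lit 1))
 (.p (nat_lit 0x39fd3993384903) (nat_lit 0xb8800008080) (nat_lit 44))))
 (.n (.n (.p (nat_lit 0x2db70da602) (nat_lit 0xa061) (nat_lit 32))
 (.p (nat_lit 0x390d390902) (nat_lit 0x20804000800) (nat_lit 35)))
 (.p (nat_lit 0x10570fc702) (nat_lit 0x2045) (nat_lit 19))))
 (.n (.n (.n (.p (nat_lit 0x1ad21ad01acc1ac80d2b0d2706) (nat_lit 0xa0001580) (nat_lit 15))
 (.p (nat_lit 0x380f380d02) (nat_lit 0xad004000000) (nat_lit 35)))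
 (.p (nat_lit 0xf3f0f3c0f3a0f380f360f34003b07) (nat_lit 0xa044) (nat_lit 7)))
 (.n (.n (.p (nat_lit 0xe430e400e3e0e3d0e3a0e3802c60023001d09) (nat_lit 0x54862) (nat_lit 13))
 (.p (nat_lit 0x39c538cb37b103) (nat_lit 0x9d800000000) (nat_lit 44)))
 (.p (nat_lit 0x308d107c02) (nat_lit 0x4866) (nat_lit 32)))))

def c512_314 : Tr :=
 .n (.n (.n (.n (.n (.p (nat_lit 0x178d0cdc02) (nat_lit 0x20) (nat_lit 4))
 (.p (nat_lit 0x1e5713a602) (nat_lit 0xa02c) (nat_lit 4)))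
 (.n (.p (nat_lit 0xeaf0e9702) (nat_lit 0xa023) (nat_lit 18))
 (.p (nat_lit 0x3a393965384d03) (nat_lit 0x1000008060) (nat_lit 43))))
 (.n (.n (.p (nat_lit 0x22df0d7e02) (nat_lit 0x6821) (nat_lit 5))
 (.p (nat_lit 0x38c738bf02) (nat_lit 0x8b400000800) (nat_lit 35)))
 (.p (nat_lit 0x223822362234223222300fb706) (nat_lit 0x200001025) (nat_lit 14))))
 (.n (.n (.n (.p (nat_lit 0x24cc24c824c624c40d230d1f06) (nat_lit 0x280000c60) (nat_lit 14))
 (.p (nat_lit 0x37a337a102) (nat_lit 0x7b800000000) (nat_lit 35)))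
 (.p (nat_lit 0x142b0f1b02) (nat_lit 0xab04) (nat_lit 19)))
 (.n (.n (.p (nat_lit 0xe230e0b02) (nat_lit 0x2822) (nat_lit 18))
 (.p (nat_lit 0x39b139ad02) (nat_lit 0x7300a000800) (nat_lit 35)))
 (.p (nat_lit 0x17de17dc17da17d817d6105506) (nat_lit 0x10000446) (nat_lit 15)))))
 (.n (.n (.n (.n (.p (nat_lit 0x19521950194e19480d050d0306) (nat_lit 0x60001940) (nat_lit 15))
 (.p (nat_lit 0x1a5a1a581a561a541a52160106) (nat_lit 0x10001850) (nat_lit 15)))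
 (.n (.p (nat_lit 0x228c228a2288228622840ef706) (nat_lit 0x2000004a3) (nat_lit 14))
 (.p (nat_lit 0x3a0b39c3387903) (nat_lit 0xb880000a0a0) (nat_lit 44))))
 (.n (.n (.p (nat_lit 0x173f0daf02) (nat_lit 0x6d61) (nat_lit 19))
 (.p (nat_lit 0x3957394302) (nat_lit 0x89c06000800) (nat_lit 35)))
 (.p (nat_lit 0x2aaa2aa82aa62aa22aa0100506) (nat_lit 0x40001885) (nat_lit 14))))
 (.n (.n (.n (.p (nat_lit 0x10030d3302) (nat_lit 0x2c80) (nat_lit 19))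
 (.p (nat_lit 0x386d385502) (nat_lit 0xa2008000000) (nat_lit 35)))
 (.p (nat_lit 0x1f801f7e1f7c1f7a0f7b0f7106) (nat_lit 0x210001984) (nat_lit 17)))
 (.n (.n (.p (nat_lit 0x17ba17b817b617b217b00e5506) (nat_lit 0x40001a82) (nat_lit 15))
 (.p (nat_lit 0x39d73939382103) (nat_lit 0x11800006020) (nat_lit 44)))
 (.p (nat_lit 0x3e703db03cf015004) (nat_lit 0xa110006) (nat_lit 23)))))

def c256_58 : Tr := .n c512_58 c512_314

def c512_186 : Tr :=
 .n (.n (.n (.n (.n (.p (nat_lit 0x23042302230022fe22fc0cdb06) (nat_lit 0x200000b00) (nat_lit 16))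
 (.p (nat_lit 0x1d9912e802) (nat_lit 0x8aa) (nat_lit 4)))
 (.n (.p (nat_lit 0x23e90e8802) (nat_lit 0x8803) (nat_lit 5))
 (.p (nat_lit 0x3a2e12cf02) (nat_lit 0xa140) (nat_lit 48))))
 (.n (.n (.p (nat_lit 0xfe001500130011000f000d06) (nat_lit 0x1f000a001) (nat_lit 21))
 (.p (nat_lit 0x38cb38a902) (nat_lit 0x98800000800) (nat_lit 35)))
 (.p (nat_lit 0x2fb10fa002) (nat_lit 0x805) (nat_lit 32))))
 (.n (.n (.n (.p (nat_lit 0x22810d2002) (nat_lit 0x8860) (nat_lit 5))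
 (.p (nat_lit 0x941003c02) (nat_lit 0x66) (nat_lit 30)))
 (.p (nat_lit 0x19cb0f1a02) (nat_lit 0xa804) (nat_lit 4)))
 (.n (.n (.p (nat_lit 0xdee0ded0dea0de80de60de4002107) (nat_lit 0x8002) (nat_lit 7))
 (.p (nat_lit 0x39a5399b02) (nat_lit 0x40c0a000800) (nat_lit 35)))
 (.p (nat_lit 0x3063105202) (nat_lit 0xa826) (nat_lit 32)))))
 (.n (.n (.n (.n (.p (nat_lit 0x199a19961994199219900cfd06) (nat_lit 0x100001440) (nat_lit 15))
 (.p (nat_lit 0x208515d402) (nat_lit 0x4810) (nat_lit 4)))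
 (.n (.p (nat_lit 0x247a24782476247224700ee506) (nat_lit 0x40001883) (nat_lit 14))
 (.p (nat_lit 0x3a053927380f03) (nat_lit 0x8d4000040a0) (nat_lit 44))))
 (.n (.n (.p (nat_lit 0x18610db002) (nat_lit 0x8861) (nat_lit 4))
 (.p (nat_lit 0x392c392639243920391e391c178507) (nat_lit 0x4000800) (nat_lit 37)))
 (.p (nat_lit 0xfe60fe50fe20fe00fde0fdc004507) (nat_lit 0x8065) (nat_lit 7))))
 (.n (.n (.n (.p (nat_lit 0x25122510250e250c0d3b0d3906) (nat_lit 0x300000980) (nat_lit 16))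
 (.p (nat_lit 0x3834382e382c38283826382417f307) (nat_lit 0x60000a0) (nat_lit 37)))
 (.p (nat_lit 0xf770f5f02) (nat_lit 0x6864) (nat_lit 18)))
 (.n (.n (.p (nat_lit 0x2276227422722270226e0e4506) (nat_lit 0x10000382) (nat_lit 14))
 (.p (nat_lit 0x3a153981386103) (nat_lit 0x73800008000) (nat_lit 43)))
 (.p (nat_lit 0x109f108702) (nat_lit 0x2086) (nat_lit 18)))))

def c512_442 : Tr :=
 .n (.n (.n (.n (.n (.p (nat_lit 0x18aa18a818a418a00cef0ceb06) (nat_lit 0xa0001820) (nat_lit 15))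
 (.p (nat_lit 0x1cd00ae00aa00a804) (nat_lit 0xb000800e) (nat_lit 20)))
 (.n (.p (nat_lit 0x24210ec002) (nat_lit 0x4063) (nat_lit 5))
 (.p (nat_lit 0x39f20fcf02) (nat_lit 0xa560) (nat_lit 47))))
 (.n (.n (.p (nat_lit 0xe170d8702) (nat_lit 0x2241) (nat_lit 19))
 (.p (nat_lit 0x38f538dd02) (nat_lit 0x81002000800) (nat_lit 35)))
 (.p (nat_lit 0x22682266226422620fc30fb906) (nat_lit 0x210001a25) (nat_lit 14))))
 (.n (.n (.n (.p (nat_lit 0x1a4e1a4c1a4a1a481a440d2706) (nat_lit 0x20000080) (nat_lit 15))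
 (.p (nat_lit 0x37d937c502) (nat_lit 0x92002000000) (nat_lit 35)))
 (.p (nat_lit 0xf2f002a02) (nat_lit 0x6824) (nat_lit 1)))
 (.n (.n (.p (nat_lit 0x2e3d0e2c02) (nat_lit 0x62) (nat_lit 32))
 (.p (nat_lit 0x392c39263924380d04) (nat_lit 0x5004000000) (nat_lit 36)))
 (.p (nat_lit 0x22a422a222a0229e229c106b06) (nat_lit 0x200000d46) (nat_lit 16)))))
 (.n (.n (.n (.n (.p (nat_lit 0xeb10d0102) (nat_lit 0xa40) (nat_lit 19))
 (.p (nat_lit 0x1739172102) (nat_lit 0x852) (nat_lit 18)))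
 (.p (nat_lit 0x17f617f217f017ee17ec0f0106) (nat_lit 0x100000da3) (nat_lit 17)))
 (.n (.n (.p (nat_lit 0xdca0dc80dc70dc40dc20dc0001307) (nat_lit 0x6881) (nat_lit 7))
 (.p (nat_lit 0x396d396b02) (nat_lit 0x20c08000800) (nat_lit 35)))
 (.p (nat_lit 0x10230fab02) (nat_lit 0xa8a5) (nat_lit 18))))
 (.n (.n (.n (.p (nat_lit 0xdd10d4102) (nat_lit 0x40a0) (nat_lit 19))
 (.p (nat_lit 0x3887387902) (nat_lit 0x4880a000000) (nat_lit 35)))
 (.p (nat_lit 0x24ef1a3f03630349012e05) (nat_lit 0x10d68a4) (nat_lit 9)))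
 (.n (.n (.p (nat_lit 0x231c231a2318231623140e6706) (nat_lit 0x2000004a2) (nat_lit 14))
 (.p (nat_lit 0x3a2339b5389d03) (nat_lit 0x8500000a020) (nat_lit 43)))
 (.p (nat_lit 0x23a223a0239e239c2398119b06) (nat_lit 0x20001b68) (nat_lit 16)))))

def c256_186 : Tr := .n c512_186 c512_442

def c128_58 : Tr := .n c256_58 c256_186

def c512_122 : Tr :=
 .n (.n (.n (.n (.n (.p (nat_lit 0x180c180a180618040cdb0cd506) (nat_lit 0x240000800) (nat_lit 17))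
 (.p (nat_lit 0x1d8112d002) (nat_lit 0x88a) (nat_lit 4)))
 (.n (.p (nat_lit 0x18aa18a618a218a00e7d0e7906) (nat_lit 0x140001003) (nat_lit 17))
 (.p (nat_lit 0x3a2d3987386f03) (nat_lit 0x8d400008040) (nat_lit 43))))
 (.n (.n (.p (nat_lit 0xd530cdb02) (nat_lit 0xa8a0) (nat_lit 18))
 (.p (nat_lit 0x389c389638943890388e388c227707) (nat_lit 0xa000060) (nat_lit 38)))
 (.p (nat_lit 0xf9f0f9c0f9a0f990f960f94039e0047004109) (nat_lit 0x54005) (nat_lit 13))))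
 (.n (.n (.n (.p (nat_lit 0xd2b0d1302) (nat_lit 0x6060) (nat_lit 18))
 (.p (nat_lit 0x8d1004402) (nat_lit 0x80a4) (nat_lit 30)))
 (.p (nat_lit 0x228c228a2288228622840f0f06) (nat_lit 0x200000404) (nat_lit 14)))
 (.n (.n (.p (nat_lit 0x26702650263010004) (nat_lit 0x2c6001) (nat_lit 23))
 (.p (nat_lit 0x399f399502) (nat_lit 0x2800a000800) (nat_lit 35)))
 (.p (nat_lit 0x184a1846184418421840104506) (nat_lit 0x100001226) (nat_lit 15)))))
 (.n (.n (.n (.n (.p (nat_lit 0x17ad0cfc02) (nat_lit 0x8040) (nat_lit 4))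
 (.p (nat_lit 0x152b14b302) (nat_lit 0x28ae) (nat_lit 18)))
 (.n (.p (nat_lit 0x1a401a3e1a3c1a3a0edf0ed506) (nat_lit 0x210001583) (nat_lit 15))
 (.p (nat_lit 0x3a46160b02) (nat_lit 0xad80) (nat_lit 48))))
 (.n (.n (.p (nat_lit 0x17ea17e817e617e00da10d9f06) (nat_lit 0x60001461) (nat_lit 15))
 (.p (nat_lit 0x392d391902) (nat_lit 0xa2804000800) (nat_lit 35)))
 (.p (nat_lit 0x19c819c619c419c219c00fdb06) (nat_lit 0x200001845) (nat_lit 15))))
 (.n (.n (.n (.p (nat_lit 0xd37004202) (nat_lit 0x6880) (nat_lit 1))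
 (.p (nat_lit 0x3841381d02) (nat_lit 0xb1006000000) (nat_lit 35)))
 (.p (nat_lit 0x1e481e461e441e421e400f4b06) (nat_lit 0x200001844) (nat_lit 15)))
 (.n (.n (.p (nat_lit 0x2e5e2e5c2e5a2e582e562e54010c07) (nat_lit 0x82) (nat_lit 8))
 (.p (nat_lit 0x39c9390d37ef03) (nat_lit 0x21400004000) (nat_lit 44)))
 (.p (nat_lit 0x255e255c255a25582554107b06) (nat_lit 0x20000c66) (nat_lit 14)))))

def c512_378 : Tr :=
 .n (.n (.n (.n (.n (.p (nat_lit 0xe910ce102) (nat_lit 0x4220) (nat_lit 19))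
 (.p (nat_lit 0x247a2478247624742470140b06) (nat_lit 0x200018ac) (nat_lit 14)))
 (.n (.p (nat_lit 0xeb70e9f02) (nat_lit 0x6823) (nat_lit 18))
 (.p (nat_lit 0x3a3b3997387703) (nat_lit 0x840000a060) (nat_lit 43))))
 (.n (.n (.p (nat_lit 0xd8e0d8c0d8a0d880d870d84000f07) (nat_lit 0x2041) (nat_lit 7))
 (.p (nat_lit 0x38f138d502) (nat_lit 0x70002000800) (nat_lit 35)))
 (.p (nat_lit 0x15e70fb702) (nat_lit 0xa525) (nat_lit 19))))
 (.n (.n (.n (.p (nat_lit 0xe3d0d1d02) (nat_lit 0x4960) (nat_lit 19))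
 (.p (nat_lit 0x37d537b702) (nat_lit 0x80402000000) (nat_lit 35)))
 (.p (nat_lit 0x19821980197e197c19780f1f06) (nat_lit 0x20001324) (nat_lit 15)))
 (.n (.n (.p (nat_lit 0x23810e2002) (nat_lit 0x842) (nat_lit 5))
 (.p (nat_lit 0x39ba39b839b639b239b039aa398a3988398639823980397a395a3958395639523950394a392a3928392639223920391a38fa38f838f638f238f038ea38ca38c838c638c238c038ba24) (nat_lit 0xd00) (nat_lit 39)))
 (.p (nat_lit 0x25cb106a02) (nat_lit 0xa846) (nat_lit 5)))))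
 (.n (.n (.n (.n (.p (nat_lit 0x244a24462444244224400d0906) (nat_lit 0x100001c40) (nat_lit 14))
 (.p (nat_lit 0x21c9171802) (nat_lit 0x4052) (nat_lit 4)))
 (.p (nat_lit 0xf030f000efe0efc0efa0ef902f6002f002509) (nat_lit 0x508a3) (nat_lit 13)))
 (.n (.n (.p (nat_lit 0x25ca25c625c425c225c00dbd06) (nat_lit 0x100001281) (nat_lit 14))
 (.p (nat_lit 0x395e395c3958395639543934229707) (nat_lit 0x6000880) (nat_lit 38)))
 (.p (nat_lit 0x2b6a2b682b662b642b60100f06) (nat_lit 0x200012a5) (nat_lit 16))))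
 (.n (.n (.n (.p (nat_lit 0x1b021afe1afa1af80d450d4106) (nat_lit 0x1400011a0) (nat_lit 15))
 (.p (nat_lit 0x3871386702) (nat_lit 0xb4408000000) (nat_lit 35)))
 (.p (nat_lit 0x1a641a621a601a5e1a5c0f8706) (nat_lit 0x2000001a4) (nat_lit 15)))
 (.n (.n (.p (nat_lit 0x11b90e5902) (nat_lit 0x8882) (nat_lit 19))
 (.p (nat_lit 0x39d93967384703) (nat_lit 0x8400008020) (nat_lit 44)))
 (.p (nat_lit 0x1c3b118a02) (nat_lit 0xa848) (nat_lit 4)))))

def c256_122 : Tr := .n c512_122 c512_378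

def c512_250 : Tr :=
 .n (.n (.n (.n (.n (.p (nat_lit 0x18781876187418700cdb0cd306) (nat_lit 0x220001c00) (nat_lit 15))
 (.p (nat_lit 0x28e3138202) (nat_lit 0xa8ab) (nat_lit 5)))
 (.n (.p (nat_lit 0x1922191e191c191a19180e8906) (nat_lit 0x100001d03) (nat_lit 15))
 (.p (nat_lit 0x3a353923380b03) (nat_lit 0x7cc00004060) (nat_lit 43))))
 (.n (.n (.p (nat_lit 0x2d7d000d02) (nat_lit 0x21) (nat_lit 33))
 (.p (nat_lit 0x38d138b302) (nat_lit 0xb1c00000800) (nat_lit 35)))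
 (.p (nat_lit 0x25d425d225d025ce0fab0fa106) (nat_lit 0x210000b05) (nat_lit 16))))
 (.n (.n (.n (.p (nat_lit 0x19e219e019de19dc19d80d1b06) (nat_lit 0x20001960) (nat_lit 15))
 (.p (nat_lit 0x37a5378b02) (nat_lit 0x80c00000000) (nat_lit 35)))
 (.p (nat_lit 0x17d217d017ce17c80f150f1306) (nat_lit 0x60001b04) (nat_lit 17)))
 (.n (.n (.p (nat_lit 0x1c5e1c5a1c581c561c540df906) (nat_lit 0x100000c02) (nat_lit 15))
 (.p (nat_lit 0x39bb39a102) (nat_lit 0x9980a000800) (nat_lit 35)))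
 (.p (nat_lit 0x3067105602) (nat_lit 0x2046) (nat_lit 32)))))
 (.n (.n (.n (.n (.p (nat_lit 0x22670d0602) (nat_lit 0x6840) (nat_lit 5))
 (.p (nat_lit 0x20ae20ac20aa20a820a620a406) (nat_lit 0x50) (nat_lit 2)))
 (.n (.p (nat_lit 0x24550ef402) (nat_lit 0x80a3) (nat_lit 5))
 (.p (nat_lit 0x3a09396d384f03) (nat_lit 0x214000080a0) (nat_lit 44))))
 (.n (.n (.p (nat_lit 0x17c417c217c017be17bc0db306) (nat_lit 0x200000b61) (nat_lit 17))
 (.p (nat_lit 0x393f393b02) (nat_lit 0x28c06000800) (nat_lit 35)))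
 (.p (nat_lit 0xff30ff00fef0fec0fea0fe803aa0047004309) (nat_lit 0x56865) (nat_lit 13))))
 (.n (.n (.n (.p (nat_lit 0x1aa21aa01a9a1a980d370d3506) (nat_lit 0xc0001b80) (nat_lit 15))
 (.p (nat_lit 0x385d384b02) (nat_lit 0x60c08000000) (nat_lit 35)))
 (.p (nat_lit 0xffb0f6b02) (nat_lit 0x6584) (nat_lit 19)))
 (.n (.n (.p (nat_lit 0x12cb0e4b02) (nat_lit 0x6282) (nat_lit 19))
 (.p (nat_lit 0x3a1b390337b903) (nat_lit 0xb8800002020) (nat_lit 43)))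
 (.p (nat_lit 0x30b7005302) (nat_lit 0xa0a6) (nat_lit 33)))))

def c512_506 : Tr :=
 .n (.n (.n (.n (.n (.p (nat_lit 0x23a2239c239a23980cf10cef06) (nat_lit 0x180001b20) (nat_lit 14))
 (.p (nat_lit 0x253a253825362532253014b506) (nat_lit 0x40001a0e) (nat_lit 14)))
 (.n (.p (nat_lit 0x19830ed202) (nat_lit 0xa863) (nat_lit 4))
 (.p (nat_lit 0x3a3f38dd37bf03) (nat_lit 0x21400002080) (nat_lit 43))))
 (.n (.n (.p (nat_lit 0x23ba23b823b623b423b20d9106) (nat_lit 0x10001c41) (nat_lit 14))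
 (.p (nat_lit 0x38fd38ed02) (nat_lit 0xa3002000800) (nat_lit 35)))
 (.p (nat_lit 0x15f30fc302) (nat_lit 0xad25) (nat_lit 19))))
 (.n (.n (.n (.p (nat_lit 0x252e252c2528252625240d2b06) (nat_lit 0x80000280) (nat_lit 14))
 (.p (nat_lit 0x380d37f302) (nat_lit 0xa1c04000000) (nat_lit 35)))
 (.p (nat_lit 0x19a619a419a0199e0f2f0f2906) (nat_lit 0x90000d24) (nat_lit 15)))
 (.n (.n (.p (nat_lit 0x19a619a419a0199e0e330e2d06) (nat_lit 0x90000562) (nat_lit 15))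
 (.p (nat_lit 0x39ac39a639a4388d04) (nat_lit 0x300a000000) (nat_lit 36)))
 (.p (nat_lit 0x250a2508250425022500107306) (nat_lit 0x80001066) (nat_lit 16)))))
 (.n (.n (.n (.n (.p (nat_lit 0x19be19bc19b819b40d130d0f06) (nat_lit 0xa0000060) (nat_lit 17))
 (.p (nat_lit 0x21fb174a02) (nat_lit 0x6092) (nat_lit 4)))
 (.p (nat_lit 0x3270303011e03) (nat_lit 0xa042003) (nat_lit 22)))
 (.n (.n (.p (nat_lit 0x1b3c1b3a1b381b360dcb0dc106) (nat_lit 0x210000c81) (nat_lit 17))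
 (.p (nat_lit 0x398f397102) (nat_lit 0xa9808000800) (nat_lit 35)))
 (.p (nat_lit 0x2587102602) (nat_lit 0x2006) (nat_lit 5))))
 (.n (.n (.n (.p (nat_lit 0xd530d500d4e0d4c0d4a0d49021e000b000109) (nat_lit 0x508a0) (nat_lit 13))
 (.p (nat_lit 0x3885388102) (nat_lit 0x4180a000000) (nat_lit 35)))
 (.p (nat_lit 0xf930f1b02) (nat_lit 0xa8a4) (nat_lit 18)))
 (.n (.n (.p (nat_lit 0x22ec22ea22e822e622e40e7306) (nat_lit 0x200000aa2) (nat_lit 16))
 (.p (nat_lit 0x39df390337b903) (nat_lit 0xb8800002040) (nat_lit 44)))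
 (.p (nat_lit 0x1860185e185c185a185811bb06) (nat_lit 0x200001b88) (nat_lit 15)))))

def c256_250 : Tr := .n c512_250 c512_506

def c128_122 : Tr := .n c256_122 c256_250

def c64_58 : Tr := .n c128_58 c128_122

def c32_26 : Tr := .n c64_26 c64_58

def c16_10 : Tr := .n c32_10 c32_26

def cb4_10 : Tr := c16_10

def c512_11 : Tr :=
 .n (.n (.n (.n (.n (.p (nat_lit 0x2227177702) (nat_lit 0x2000) (nat_lit 11))
 (.p (nat_lit 0x1cdd122c02) (nat_lit 0x4869) (nat_lit 4)))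
 (.n (.p (nat_lit 0x186e186c186a186618640e6d06) (nat_lit 0x40000ca2) (nat_lit 15))
 (.p (nat_lit 0x39df38df37c503) (nat_lit 0x2a000002040) (nat_lit 44))))
 (.n (.n (.p (nat_lit 0x259a2596259425920d510d4906) (nat_lit 0x1100018a0) (nat_lit 14))
 (.p (nat_lit 0x3887388302) (nat_lit 0x49c0a000000) (nat_lit 35)))
 (.p (nat_lit 0x33f0337012e03) (nat_lit 0x52004) (nat_lit 22))))
 (.n (.n (.n (.p (nat_lit 0x247a2478247424700d130d0f06) (nat_lit 0xa0001060) (nat_lit 16))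
 (.p (nat_lit 0x7d3001302) (nat_lit 0x6041) (nat_lit 31)))
 (.p (nat_lit 0x131003402) (nat_lit 0x4000c004) (nat_lit 20)))
 (.n (.n (.p (nat_lit 0x10930dc302) (nat_lit 0x2c81) (nat_lit 19))
 (.p (nat_lit 0x3981397502) (nat_lit 0x72008000800) (nat_lit 35)))
 (.p (nat_lit 0x102e102d102a10291026102403e40051004d09) (nat_lit 0x44006) (nat_lit 13)))))
 (.n (.n (.n (.n (.p (nat_lit 0x23ae23a823a623a40cf10cef06) (nat_lit 0x180000c20) (nat_lit 16))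
 (.p (nat_lit 0x14c3003602) (nat_lit 0x602e) (nat_lit 1)))
 (.n (.p (nat_lit 0x1e561e541e521e4e1e4c0ecd06) (nat_lit 0x40000963) (nat_lit 15))
 (.p (nat_lit 0x3a3e160302) (nat_lit 0x2d80) (nat_lit 48))))
 (.n (.n (.p (nat_lit 0x10f50d9502) (nat_lit 0x4841) (nat_lit 19))
 (.p (nat_lit 0x390338f902) (nat_lit 0xbc802000800) (nat_lit 35)))
 (.p (nat_lit 0x1a7b0fca02) (nat_lit 0x6045) (nat_lit 4))))
 (.n (.n (.n (.p (nat_lit 0x253a2536253225300d2d0d2906) (nat_lit 0x140001280) (nat_lit 14))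
 (.p (nat_lit 0x380d37f902) (nat_lit 0xa2804000000) (nat_lit 35)))
 (.p (nat_lit 0xf430f2b02) (nat_lit 0x2824) (nat_lit 18)))
 (.n (.n (.p (nat_lit 0x11930e3302) (nat_lit 0x6062) (nat_lit 19))
 (.p (nat_lit 0x39c538a9378903) (nat_lit 0x10800000000) (nat_lit 44)))
 (.p (nat_lit 0x252e252c252825262524107306) (nat_lit 0x80000266) (nat_lit 14)))))

def c512_267 : Tr :=
 .n (.n (.n (.n (.n (.p (nat_lit 0x1892188e188c188a0cd90cd106) (nat_lit 0x110001d00) (nat_lit 15))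
 (.p (nat_lit 0x28eb138a02) (nat_lit 0x600c) (nat_lit 5)))
 (.n (.p (nat_lit 0x193d0e8c02) (nat_lit 0x23) (nat_lit 4))
 (.p (nat_lit 0x39ec17cd02) (nat_lit 0x4860) (nat_lit 45))))
 (.n (.n (.p (nat_lit 0x22d70d7602) (nat_lit 0xa021) (nat_lit 5))
 (.p (nat_lit 0x38bd38b702) (nat_lit 0x62400000800) (nat_lit 35)))
 (.p (nat_lit 0x10350fa502) (nat_lit 0x4805) (nat_lit 19))))
 (.n (.n (.n (.p (nat_lit 0x19de19dc19da19d80d230d2106) (nat_lit 0x300001960) (nat_lit 15))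
 (.p (nat_lit 0x37a1379102) (nat_lit 0x71800000000) (nat_lit 35)))
 (.p (nat_lit 0x17dc17da17d817d40f1b0f1306) (nat_lit 0x220000c04) (nat_lit 15)))
 (.n (.n (.p (nat_lit 0xe060e040e020e000dfe0dfd001907) (nat_lit 0x22) (nat_lit 7))
 (.p (nat_lit 0x39c339a302) (nat_lit 0xb9c0a000800) (nat_lit 35)))
 (.p (nat_lit 0x25bf1b0f03e703d7014e05) (nat_lit 0xcaa046) (nat_lit 9)))))
 (.n (.n (.n (.n (.p (nat_lit 0x192e192c192a192819240d0306) (nat_lit 0x20000840) (nat_lit 15))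
 (.p (nat_lit 0x15ff004602) (nat_lit 0xa050) (nat_lit 1)))
 (.n (.p (nat_lit 0x178817861784178217800ef706) (nat_lit 0x2000010a3) (nat_lit 15))
 (.p (nat_lit 0x3a513975385d03) (nat_lit 0x430000080a0) (nat_lit 43))))
 (.n (.n (.p (nat_lit 0x228e228a228622840db10dad06) (nat_lit 0x140000c61) (nat_lit 14))
 (.p (nat_lit 0x3957393d02) (nat_lit 0x89006000800) (nat_lit 35)))
 (.p (nat_lit 0x10070fef02) (nat_lit 0x6865) (nat_lit 18))))
 (.n (.n (.n (.p (nat_lit 0x2576257425722570256c0d3306) (nat_lit 0x20000d80) (nat_lit 14))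
 (.p (nat_lit 0x386b384d02) (nat_lit 0x99008000000) (nat_lit 35)))
 (.p (nat_lit 0x24d31a230349033b012e05) (nat_lit 0xc42884) (nat_lit 9)))
 (.n (.n (.p (nat_lit 0x23b30e5202) (nat_lit 0x2882) (nat_lit 5))
 (.p (nat_lit 0x39d5390737ef03) (nat_lit 0x9400004020) (nat_lit 44)))
 (.p (nat_lit 0x30bf10ae02) (nat_lit 0x68a6) (nat_lit 32)))))

def c256_11 : Tr := .n c512_11 c512_267

def c512_139 : Tr :=
 .n (.n (.n (.n (.n (.p (nat_lit 0x22e022de22dc22d80cdb0cd306) (nat_lit 0x220001900) (nat_lit 14))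
 (.p (nat_lit 0x283b1d8b04f704ef018e05) (nat_lit 0xc8a88a) (nat_lit 9)))
 (.n (.p (nat_lit 0x23ac23aa23a823a623a40e7f06) (nat_lit 0x200000403) (nat_lit 14))
 (.p (nat_lit 0x3a2c138102) (nat_lit 0x8a40) (nat_lit 48))))
 (.n (.n (.p (nat_lit 0xf010d5102) (nat_lit 0x8aa0) (nat_lit 19))
 (.p (nat_lit 0x38b738a502) (nat_lit 0x48000000800) (nat_lit 35)))
 (.p (nat_lit 0x1b0e1b0c1b061b040f9b0f9906) (nat_lit 0xc0000205) (nat_lit 15))))
 (.n (.n (.n (.p (nat_lit 0xec10d1102) (nat_lit 0x4260) (nat_lit 19))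
 (.p (nat_lit 0x8de08da08d808d608d4013c000907) (nat_lit 0x8205) (nat_lit 28)))
 (.p (nat_lit 0x22b222ae22ac22aa22a80f0d06) (nat_lit 0x100001504) (nat_lit 14)))
 (.n (.n (.p (nat_lit 0x28b026f00fe03) (nat_lit 0x6052001) (nat_lit 22))
 (.p (nat_lit 0x3999399702) (nat_lit 0x1040a000800) (nat_lit 35)))
 (.p (nat_lit 0x23282326232423222320104706) (nat_lit 0x200001426) (nat_lit 16)))))
 (.n (.n (.n (.n (.p (nat_lit 0x23ea23e623e423e00cfd0cf706) (nat_lit 0x120001040) (nat_lit 14))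
 (.p (nat_lit 0x2aad154c02) (nat_lit 0x2f) (nat_lit 5)))
 (.n (.p (nat_lit 0xf6d0edd02) (nat_lit 0x8483) (nat_lit 19))
 (.p (nat_lit 0x3a0017f902) (nat_lit 0x8a0) (nat_lit 45))))
 (.n (.n (.p (nat_lit 0x180217fe17fc17fa17f80da506) (nat_lit 0x100001561) (nat_lit 15))
 (.p (nat_lit 0x3933391d02) (nat_lit 0xbb004000800) (nat_lit 35)))
 (.p (nat_lit 0x24e624e424e224dc0fd50fd306) (nat_lit 0x60000d45) (nat_lit 16))))
 (.n (.n (.n (.p (nat_lit 0xd3a0d380d370d340d320d31021a0007000109) (nat_lit 0x30880) (nat_lit 13))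
 (.p (nat_lit 0x383f381f02) (nat_lit 0xa9406000000) (nat_lit 35)))
 (.p (nat_lit 0x1a061a041a021a0019fe19fc06) (nat_lit 0x64) (nat_lit 2)))
 (.n (.n (.p (nat_lit 0x2e5b001f02) (nat_lit 0x6082) (nat_lit 33))
 (.p (nat_lit 0x3a1011b502) (nat_lit 0x4900) (nat_lit 48)))
 (.p (nat_lit 0x25e5108402) (nat_lit 0x86) (nat_lit 5)))))

def c512_395 : Tr :=
 .n (.n (.n (.n (.n (.p (nat_lit 0x17990ce802) (nat_lit 0x820) (nat_lit 4))
 (.p (nat_lit 0x141d003802) (nat_lit 0x800d) (nat_lit 1)))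
 (.n (.p (nat_lit 0x195d0eac02) (nat_lit 0x8043) (nat_lit 4))
 (.p (nat_lit 0x39f339a1388103) (nat_lit 0x3180000a060) (nat_lit 44))))
 (.n (.n (.p (nat_lit 0xd8f002202) (nat_lit 0xa041) (nat_lit 1))
 (.p (nat_lit 0x38e938d702) (nat_lit 0x50402000800) (nat_lit 35)))
 (.p (nat_lit 0x251f0fbe02) (nat_lit 0x6825) (nat_lit 5))))
 (.n (.n (.n (.p (nat_lit 0xfeb0d1b02) (nat_lit 0x2c60) (nat_lit 19))
 (.p (nat_lit 0x37d537b902) (nat_lit 0x80802000000) (nat_lit 35)))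
 (.p (nat_lit 0x245424522450244e244c0f2706) (nat_lit 0x200000524) (nat_lit 14)))
 (.n (.n (.p (nat_lit 0x2e37001f02) (nat_lit 0x6842) (nat_lit 33))
 (.p (nat_lit 0x38ca38c838c237ab04) (nat_lit 0x4c00000000) (nat_lit 36)))
 (.p (nat_lit 0x17881786178417821780106b06) (nat_lit 0x200001846) (nat_lit 15)))))
 (.n (.n (.n (.n (.p (nat_lit 0x245624522450244e244c0d0906) (nat_lit 0x100000d40) (nat_lit 16))
 (.p (nat_lit 0x372f171e02) (nat_lit 0xa052) (nat_lit 32)))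
 (.p (nat_lit 0x22522250224c224a22480eff06) (nat_lit 0x800019a3) (nat_lit 14)))
 (.n (.n (.p (nat_lit 0x1b4a1b481b441b421b400dbb06) (nat_lit 0x80001481) (nat_lit 17))
 (.p (nat_lit 0x3985396502) (nat_lit 0x80008000800) (nat_lit 35)))
 (.p (nat_lit 0x1acb101a02) (nat_lit 0x28a5) (nat_lit 4))))
 (.n (.n (.n (.p (nat_lit 0x25ca25c825c425c225c00d4306) (nat_lit 0x800012a0) (nat_lit 16))
 (.p (nat_lit 0x3864385e385c38583856385417f507) (nat_lit 0x80000a0) (nat_lit 37)))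
 (.p (nat_lit 0x255e255c255a255825540f7f06) (nat_lit 0x200004a4) (nat_lit 14)))
 (.n (.n (.p (nat_lit 0x23be190e0e5f03) (nat_lit 0x20a2) (nat_lit 6))
 (.p (nat_lit 0x3a213979385903) (nat_lit 0x52800008020) (nat_lit 43)))
 (.p (nat_lit 0x26f1119002) (nat_lit 0x4068) (nat_lit 5)))))

def c256_139 : Tr := .n c512_139 c512_395

def c128_11 : Tr := .n c256_11 c256_139

def c512_75 : Tr :=
 .n (.n (.n (.n (.n (.p (nat_lit 0xe750cc502) (nat_lit 0x200) (nat_lit 19))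
 (.p (nat_lit 0x32cd007d02) (nat_lit 0x486a) (nat_lit 33)))
 (.n (.p (nat_lit 0x11f0028002603) (nat_lit 0x6000a003) (nat_lit 20))
 (.p (nat_lit 0x3a2d398f384503) (nat_lit 0xa8000008040) (nat_lit 43))))
 (.n (.n (.p (nat_lit 0x1b261b221b201b1c0d510d4b06) (nat_lit 0x120000ba0) (nat_lit 15))
 (.p (nat_lit 0x3895388f02) (nat_lit 0x8340a000000) (nat_lit 35)))
 (.p (nat_lit 0x13d00440040003e04) (nat_lit 0x160008005) (nat_lit 20))))
 (.n (.n (.n (.p (nat_lit 0x1a1e1a1c1a181a160d130d0d06) (nat_lit 0x90000460) (nat_lit 15))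
 (.p (nat_lit 0x859002d02) (nat_lit 0x8023) (nat_lit 31)))
 (.p (nat_lit 0xf0f0f0d0f0a0f080f060f04036e003b003909) (nat_lit 0x58004) (nat_lit 13)))
 (.n (.n (.p (nat_lit 0x23390dd802) (nat_lit 0x8a1) (nat_lit 5))
 (.p (nat_lit 0x3985398102) (nat_lit 0x83808000800) (nat_lit 35)))
 (.p (nat_lit 0x104d103502) (nat_lit 0x4806) (nat_lit 18)))))
 (.n (.n (.n (.n (.p (nat_lit 0xd7d0ced02) (nat_lit 0x4820) (nat_lit 19))
 (.p (nat_lit 0x1a361a341a321a2e1a2c14cd06) (nat_lit 0x40000d2e) (nat_lit 15)))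
 (.n (.p (nat_lit 0xedf0edd0eda0ed80ed60ed40326002f002d09) (nat_lit 0x58083) (nat_lit 13))
 (.p (nat_lit 0x3a453977385f03) (nat_lit 0x4b400008080) (nat_lit 43))))
 (.n (.n (.p (nat_lit 0x22442240223e223c0da70da306) (nat_lit 0x280000161) (nat_lit 14))
 (.p (nat_lit 0x3929390b02) (nat_lit 0x90c04000800) (nat_lit 35)))
 (.p (nat_lit 0x25310fd002) (nat_lit 0x845) (nat_lit 5))))
 (.n (.n (.n (.p (nat_lit 0xe490d2902) (nat_lit 0x4180) (nat_lit 19))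
 (.p (nat_lit 0x3823381502) (nat_lit 0x38006000000) (nat_lit 35)))
 (.p (nat_lit 0x1eb61eb41eb21eae0f390f3506) (nat_lit 0x50000544) (nat_lit 17)))
 (.n (.n (.p (nat_lit 0x195c195a195619540e430e3d06) (nat_lit 0x240000a62) (nat_lit 15))
 (.p (nat_lit 0x39c738d737b703) (nat_lit 0x8400002000) (nat_lit 44)))
 (.p (nat_lit 0x3093005302) (nat_lit 0xa866) (nat_lit 33)))))

def c512_331 : Tr :=
 .n (.n (.n (.n (.n (.p (nat_lit 0x234e234c234623440ce30ce106) (nat_lit 0xc0000020) (nat_lit 14))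
 (.p (nat_lit 0x295f13fe02) (nat_lit 0x20ac) (nat_lit 5)))
 (.n (.p (nat_lit 0x2eab002702) (nat_lit 0x2823) (nat_lit 33))
 (.p (nat_lit 0x39f13977385f03) (nat_lit 0x4b400008060) (nat_lit 44))))
 (.n (.n (.p (nat_lit 0xd830d800d7e0d7c0d7b0d7802720017000f09) (nat_lit 0x52821) (nat_lit 13))
 (.p (nat_lit 0x38cf38c302) (nat_lit 0xabc00000800) (nat_lit 35)))
 (.p (nat_lit 0x17b817b617b417b217b00fb706) (nat_lit 0x200001225) (nat_lit 15))))
 (.n (.n (.n (.p (nat_lit 0x24e624e424e224e024dc0d1b06) (nat_lit 0x20000d60) (nat_lit 14))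
 (.p (nat_lit 0x37af37a702) (nat_lit 0xac400000000) (nat_lit 35)))
 (.p (nat_lit 0xf1f002602) (nat_lit 0x2024) (nat_lit 1)))
 (.n (.n (.p (nat_lit 0x2e270e1602) (nat_lit 0x2042) (nat_lit 32))
 (.p (nat_lit 0x39c339b102) (nat_lit 0xbb80a000800) (nat_lit 35)))
 (.p (nat_lit 0x17f617f217ee17ec105d105906) (nat_lit 0x140000546) (nat_lit 17)))))
 (.n (.n (.n (.n (.p (nat_lit 0x195e195c1958195619540d0706) (nat_lit 0x80000a40) (nat_lit 17))
 (.p (nat_lit 0x20c3161202) (nat_lit 0x6070) (nat_lit 4)))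
 (.n (.p (nat_lit 0x1802180017fe17fc0eef0eed06) (nat_lit 0x300015a3) (nat_lit 17))
 (.p (nat_lit 0x3a5339a5388503) (nat_lit 0x4200000a0a0) (nat_lit 43))))
 (.n (.n (.p (nat_lit 0x2dc90db802) (nat_lit 0x4081) (nat_lit 32))
 (.p (nat_lit 0x3961394502) (nat_lit 0xb2006000800) (nat_lit 35)))
 (.p (nat_lit 0x301d100c02) (nat_lit 0xa5) (nat_lit 32))))
 (.n (.n (.n (.p (nat_lit 0xd41004c02) (nat_lit 0x40a0) (nat_lit 1))
 (.p (nat_lit 0x385b385902) (nat_lit 0x5a808000000) (nat_lit 35)))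
 (.p (nat_lit 0xf7d003c02) (nat_lit 0xa4) (nat_lit 1)))
 (.n (.n (.p (nat_lit 0x17d217ce17cc17ca17c80e5906) (nat_lit 0x100001b82) (nat_lit 15))
 (.p (nat_lit 0x39d7394d382d03) (nat_lit 0x63000006020) (nat_lit 44)))
 (.p (nat_lit 0x1ba910f802) (nat_lit 0x8847) (nat_lit 4)))))

def c256_75 : Tr := .n c512_75 c512_331

def c512_203 : Tr :=
 .n (.n (.n (.n (.n (.p (nat_lit 0x1862185e185c185a0cd90cd106) (nat_lit 0x110001b00) (nat_lit 17))
 (.p (nat_lit 0x3301008102) (nat_lit 0x88aa) (nat_lit 33)))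
 (.n (.p (nat_lit 0x236423622360235e235c0e8b06) (nat_lit 0x200000903) (nat_lit 14))
 (.p (nat_lit 0x39e814bd02) (nat_lit 0x460) (nat_lit 47))))
 (.n (.n (.p (nat_lit 0x180d0d5c02) (nat_lit 0x8001) (nat_lit 4))
 (.p (nat_lit 0x38b738ad02) (nat_lit 0x49000000800) (nat_lit 35)))
 (.p (nat_lit 0x2fb7004302) (nat_lit 0x6805) (nat_lit 33))))
 (.n (.n (.n (.p (nat_lit 0xd230d200d1f0d1c0d1a0d180242000b000709) (nat_lit 0x56860) (nat_lit 13))
 (.p (nat_lit 0x8f0080007c007a0078001f06) (nat_lit 0x3a56a) (nat_lit 29)))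
 (.p (nat_lit 0x22462240223e223c0f190f1706) (nat_lit 0x180000904) (nat_lit 14)))
 (.n (.n (.p (nat_lit 0x270e270a2708270627040ded06) (nat_lit 0x100000402) (nat_lit 14))
 (.p (nat_lit 0x39a1399d02) (nat_lit 0x3100a000800) (nat_lit 35)))
 (.p (nat_lit 0x22e222de22dc22da1051104906) (nat_lit 0x110001926) (nat_lit 16)))))
 (.n (.n (.n (.n (.p (nat_lit 0x2462245e245c245a24580cfd06) (nat_lit 0x100001540) (nat_lit 16))
 (.p (nat_lit 0x209515e402) (nat_lit 0x8030) (nat_lit 4)))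
 (.n (.p (nat_lit 0x1a041a021a0019fe19fc0eeb06) (nat_lit 0x200000b83) (nat_lit 15))
 (.p (nat_lit 0x3a07393d381f03) (nat_lit 0x214000060a0) (nat_lit 44))))
 (.n (.n (.p (nat_lit 0x222c222a222822240db30dab06) (nat_lit 0x220000861) (nat_lit 16))
 (.p (nat_lit 0x394b393502) (nat_lit 0x58006000800) (nat_lit 35)))
 (.p (nat_lit 0x2a1a2a182a162a142a100fdf06) (nat_lit 0x20001065) (nat_lit 16))))
 (.n (.n (.n (.p (nat_lit 0x1a701a6e1a6c1a6a0d3b0d3106) (nat_lit 0x210001980) (nat_lit 17))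
 (.p (nat_lit 0x3871384502) (nat_lit 0xb0008000000) (nat_lit 35)))
 (.p (nat_lit 0x2f77003302) (nat_lit 0x2084) (nat_lit 33)))
 (.n (.n (.p (nat_lit 0x2280227e227c227a22780e4f06) (nat_lit 0x200001382) (nat_lit 14))
 (.p (nat_lit 0x39cf3995387703) (nat_lit 0x40000a000) (nat_lit 44)))
 (.p (nat_lit 0x109700c602) (nat_lit 0x6886) (nat_lit 1)))))

def c512_459 : Tr :=
 .n (.n (.n (.n (.n (.p (nat_lit 0x18b618b218b018ac0cf10ceb06) (nat_lit 0x120000920) (nat_lit 17))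
 (.p (nat_lit 0x1f5f14ae02) (nat_lit 0xa00e) (nat_lit 4)))
 (.n (.p (nat_lit 0xec60ec50ec20ec10ebe0ebc030c002d002909) (nat_lit 0x44063) (nat_lit 13))
 (.p (nat_lit 0x3a3d38bb37a103) (nat_lit 0x5b800000080) (nat_lit 43))))
 (.n (.n (.p (nat_lit 0x22f10d9002) (nat_lit 0x841) (nat_lit 5))
 (.p (nat_lit 0x38f338df02) (nat_lit 0x79402000800) (nat_lit 35)))
 (.p (nat_lit 0x228e228c228a22840fbd0fbb06) (nat_lit 0x60000c25) (nat_lit 16))))
 (.n (.n (.n (.p (nat_lit 0x1a5a1a581a541a520d2b0d2506) (nat_lit 0x90001080) (nat_lit 15))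
 (.p (nat_lit 0x37f137e502) (nat_lit 0x30004000000) (nat_lit 35)))
 (.p (nat_lit 0xf320f300f2e0f2c0f2b0f2903360033003109) (nat_lit 0x10824) (nat_lit 13)))
 (.n (.n (.p (nat_lit 0x23950e3402) (nat_lit 0x8062) (nat_lit 5))
 (.p (nat_lit 0x394e394c39483946382f05) (nat_lit 0x3406000000) (nat_lit 36)))
 (.p (nat_lit 0x1727106702) (nat_lit 0x6846) (nat_lit 19)))))
 (.n (.n (.n (.n (.p (nat_lit 0xfdb0d0b02) (nat_lit 0xac40) (nat_lit 19))
 (.p (nat_lit 0x1737005202) (nat_lit 0xa072) (nat_lit 1)))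
 (.p (nat_lit 0xf8f0eff02) (nat_lit 0x6ca3) (nat_lit 19)))
 (.n (.n (.p (nat_lit 0xdca0dc80dc70dc40dc20dc102620013000d09) (nat_lit 0x30881) (nat_lit 13))
 (.p (nat_lit 0x3975396d02) (nat_lit 0x41008000800) (nat_lit 35)))
 (.p (nat_lit 0x39d038d013e03) (nat_lit 0x4042005) (nat_lit 22))))
 (.n (.n (.n (.p (nat_lit 0x10130d4302) (nat_lit 0x64a0) (nat_lit 19))
 (.p (nat_lit 0x3883387b02) (nat_lit 0x38c0a000000) (nat_lit 35)))
 (.p (nat_lit 0x24fe24fc24f824f624f40f8f06) (nat_lit 0x800008a4) (nat_lit 14)))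
 (.n (.n (.p (nat_lit 0xef50e6502) (nat_lit 0x83a2) (nat_lit 19))
 (.p (nat_lit 0x39da0d9b02) (nat_lit 0xad20) (nat_lit 47)))
 (.p (nat_lit 0x11a9001002) (nat_lit 0x4088) (nat_lit 1)))))

def c256_203 : Tr := .n c512_203 c512_459

def c128_75 : Tr := .n c256_75 c256_203

def c64_11 : Tr := .n c128_11 c128_75

def c512_43 : Tr :=
 .n (.n (.n (.n (.n (.p (nat_lit 0x185418521850184c0ccf0cc706) (nat_lit 0x220000300) (nat_lit 17))
 (.p (nat_lit 0x27a5124402) (nat_lit 0x4889) (nat_lit 5)))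
 (.n (.p (nat_lit 0x2af02ad02a9011004) (nat_lit 0x2c4002) (nat_lit 23))
 (.p (nat_lit 0x3a2b3939381f03) (nat_lit 0x11400006040) (nat_lit 43))))
 (.n (.n (.p (nat_lit 0x25be25bc25b825b625b40d4f06) (nat_lit 0x80000aa0) (nat_lit 16))
 (.p (nat_lit 0x38a1388702) (nat_lit 0xb240a000000) (nat_lit 35)))
 (.p (nat_lit 0x3630347012e03) (nat_lit 0x6052004) (nat_lit 22))))
 (.n (.n (.n (.p (nat_lit 0x2490248e248c248a24880d1706) (nat_lit 0x200001160) (nat_lit 14))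
 (.p (nat_lit 0x823002602) (nat_lit 0x2062) (nat_lit 30)))
 (.p (nat_lit 0x12c003b00390033003105) (nat_lit 0x330008004) (nat_lit 21)))
 (.n (.n (.p (nat_lit 0xdd60dd40dd30dd00dce0dcd02620013000d09) (nat_lit 0x300a1) (nat_lit 13))
 (.p (nat_lit 0x398b397902) (nat_lit 0x9a808000800) (nat_lit 35)))
 (.p (nat_lit 0x3045004d02) (nat_lit 0x4806) (nat_lit 33)))))
 (.n (.n (.n (.n (.p (nat_lit 0x191619141910190e0cef0ce906) (nat_lit 0x90000d20) (nat_lit 15))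
 (.p (nat_lit 0x14cd003402) (nat_lit 0x482e) (nat_lit 1)))
 (.n (.p (nat_lit 0xede0edc0eda0ed90ed60ed4002907) (nat_lit 0x4083) (nat_lit 7))
 (.p (nat_lit 0x3a43394d382d03) (nat_lit 0x63000006080) (nat_lit 43))))
 (.n (.n (.p (nat_lit 0x2db10da002) (nat_lit 0x4061) (nat_lit 32))
 (.p (nat_lit 0x3925390502) (nat_lit 0x80004000800) (nat_lit 35)))
 (.p (nat_lit 0x19fa19f619f419f219f00fcd06) (nat_lit 0x100001245) (nat_lit 17))))
 (.n (.n (.n (.p (nat_lit 0x1ab81ab61ab21ab00d2f0d2906) (nat_lit 0x240001480) (nat_lit 17))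
 (.p (nat_lit 0x3813380502) (nat_lit 0xbc004000000) (nat_lit 35)))
 (.p (nat_lit 0x2f49003502) (nat_lit 0x4044) (nat_lit 33)))
 (.n (.n (.p (nat_lit 0x18f10e4002) (nat_lit 0x8862) (nat_lit 4))
 (.p (nat_lit 0x3a0d38bf37a503) (nat_lit 0x6c000000000) (nat_lit 43)))
 (.p (nat_lit 0x1079003c02) (nat_lit 0x866) (nat_lit 1)))))

def c512_299 : Tr :=
 .n (.n (.n (.n (.n (.p (nat_lit 0xf170cd702) (nat_lit 0x6b00) (nat_lit 19))
 (.p (nat_lit 0x199a1996199419921990139906) (nat_lit 0x100001c0c) (nat_lit 15)))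
 (.n (.p (nat_lit 0x1d7e1d7a1d781d761d740e9506) (nat_lit 0x100000423) (nat_lit 17))
 (.p (nat_lit 0x39ee0fcb02) (nat_lit 0x6560) (nat_lit 47))))
 (.n (.n (.p (nat_lit 0x22d90d7802) (nat_lit 0x821) (nat_lit 5))
 (.p (nat_lit 0x38d138bb02) (nat_lit 0xb2c00000800) (nat_lit 35)))
 (.p (nat_lit 0x2fc5004502) (nat_lit 0x8025) (nat_lit 33))))
 (.n (.n (.n (.p (nat_lit 0x1a061a0419fe19fc0d1f0d1d06) (nat_lit 0xc0000b60) (nat_lit 17))
 (.p (nat_lit 0x37a9379d02) (nat_lit 0x93000000000) (nat_lit 35)))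
 (.p (nat_lit 0x180017fe17fc17f80f1b0f1306) (nat_lit 0x220001d04) (nat_lit 15)))
 (.n (.n (.p (nat_lit 0x18b90e0802) (nat_lit 0x822) (nat_lit 4))
 (.p (nat_lit 0x39b739a902) (nat_lit 0x8a80a000800) (nat_lit 35)))
 (.p (nat_lit 0x17c617c417c017be17bc105b06) (nat_lit 0x80000346) (nat_lit 15)))))
 (.n (.n (.n (.n (.p (nat_lit 0x19381934193219300d0b0d0706) (nat_lit 0x280001840) (nat_lit 15))
 (.p (nat_lit 0x20b7160602) (nat_lit 0x6850) (nat_lit 4)))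
 (.n (.p (nat_lit 0x227622742270226e0ef30eed06) (nat_lit 0x900003a3) (nat_lit 14))
 (.p (nat_lit 0x3a500f9d02) (nat_lit 0x83a0) (nat_lit 48))))
 (.n (.n (.p (nat_lit 0x119f0daf02) (nat_lit 0x6961) (nat_lit 19))
 (.p (nat_lit 0x3951394102) (nat_lit 0x71806000800) (nat_lit 35)))
 (.p (nat_lit 0x108f0fff02) (nat_lit 0xa085) (nat_lit 19))))
 (.n (.n (.n (.p (nat_lit 0xe590d3902) (nat_lit 0x8980) (nat_lit 19))
 (.p (nat_lit 0x3865385302) (nat_lit 0x81c08000000) (nat_lit 35)))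
 (.p (nat_lit 0xf7b0f780f760f750f720f700356003b003509) (nat_lit 0x54884) (nat_lit 13)))
 (.n (.n (.p (nat_lit 0x17a217a0179e179c17980e5306) (nat_lit 0x20001982) (nat_lit 17))
 (.p (nat_lit 0x3a1c12ed02) (nat_lit 0x4a20) (nat_lit 48)))
 (.p (nat_lit 0x3f303f1014e03) (nat_lit 0x6058006) (nat_lit 22)))))

def c256_43 : Tr := .n c512_43 c512_299

def c512_171 : Tr :=
 .n (.n (.n (.n (.n (.p (nat_lit 0x22f822f622f222f00cdb0cd506) (nat_lit 0x240001a00) (nat_lit 14))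
 (.p (nat_lit 0x239623922390238e238c12e506) (nat_lit 0x1000003aa) (nat_lit 14)))
 (.n (.p (nat_lit 0xe8a0e880e860e840e830e80002707) (nat_lit 0x2803) (nat_lit 7))
 (.p (nat_lit 0x39e739b1389303) (nat_lit 0x73c0000a040) (nat_lit 44))))
 (.n (.n (.p (nat_lit 0x24f02350229021d04) (nat_lit 0x9510000) (nat_lit 24))
 (.p (nat_lit 0x38cf38a702) (nat_lit 0xa8400000800) (nat_lit 35)))
 (.p (nat_lit 0x102f0f9f02) (nat_lit 0xa005) (nat_lit 19))))
 (.n (.n (.n (.p (nat_lit 0x227a17ca0d1b03) (nat_lit 0x2860) (nat_lit 6))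
 (.p (nat_lit 0x9320930092e092c0928014c000307) (nat_lit 0x2326) (nat_lit 28)))
 (.p (nat_lit 0x24750f1402) (nat_lit 0x4804) (nat_lit 5)))
 (.n (.n (.p (nat_lit 0x18950de402) (nat_lit 0x2) (nat_lit 4))
 (.p (nat_lit 0x39af399902) (nat_lit 0x6880a000800) (nat_lit 35)))
 (.p (nat_lit 0x1aff104e02) (nat_lit 0x6826) (nat_lit 4)))))
 (.n (.n (.n (.n (.p (nat_lit 0x19721970196e196c0cff0cfd06) (nat_lit 0x300000340) (nat_lit 15))
 (.p (nat_lit 0x2acb156a02) (nat_lit 0x604f) (nat_lit 5)))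
 (.n (.p (nat_lit 0x244b0eea02) (nat_lit 0xa883) (nat_lit 5))
 (.p (nat_lit 0x3a4d391d380503) (nat_lit 0x640000040a0) (nat_lit 43))))
 (.n (.n (.p (nat_lit 0x23090da802) (nat_lit 0x861) (nat_lit 5))
 (.p (nat_lit 0x392d392702) (nat_lit 0xa4404000800) (nat_lit 35)))
 (.p (nat_lit 0xfe60fe40fe20fe00fdf0fdc003f07) (nat_lit 0x2065) (nat_lit 7))))
 (.n (.n (.n (.p (nat_lit 0x250825062504250225000d3b06) (nat_lit 0x200001880) (nat_lit 14))
 (.p (nat_lit 0x3835382702) (nat_lit 0x82406000000) (nat_lit 35)))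
 (.p (nat_lit 0x24bb0f5a02) (nat_lit 0x2864) (nat_lit 5)))
 (.n (.n (.p (nat_lit 0x2252224e224a22480e4d0e4906) (nat_lit 0x140001182) (nat_lit 16))
 (.p (nat_lit 0x3a153977385703) (nat_lit 0x4a400008000) (nat_lit 43)))
 (.p (nat_lit 0x108e108c108b10881087108403d6004f004b09) (nat_lit 0x32086) (nat_lit 13)))))

def c512_427 : Tr :=
 .n (.n (.n (.n (.n (.p (nat_lit 0x189e189c189618940cef0ced06) (nat_lit 0xc0000820) (nat_lit 15))
 (.p (nat_lit 0x1f5e1f5c1f5a1f581f54148f06) (nat_lit 0x200000ad) (nat_lit 15)))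
 (.n (.p (nat_lit 0xed30ebb02) (nat_lit 0xa843) (nat_lit 18))
 (.p (nat_lit 0x3a3b39b938a103) (nat_lit 0x9580000a060) (nat_lit 43))))
 (.n (.n (.p (nat_lit 0x19081904190219000d8f0d8b06) (nat_lit 0x280001441) (nat_lit 15))
 (.p (nat_lit 0x38f938db02) (nat_lit 0x90c02000800) (nat_lit 35)))
 (.p (nat_lit 0x17961792178e178c0fc10fbd06) (nat_lit 0x140000925) (nat_lit 17))))
 (.n (.n (.n (.p (nat_lit 0xd2d004402) (nat_lit 0x8080) (nat_lit 1))
 (.p (nat_lit 0x37d537bf02) (nat_lit 0x81402000000) (nat_lit 35)))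
 (.p (nat_lit 0xf320f300f2e0f2c0f2a0f29003107) (nat_lit 0x824) (nat_lit 7)))
 (.n (.n (.p (nat_lit 0xe3b0e2302) (nat_lit 0x2842) (nat_lit 18))
 (.p (nat_lit 0x390c3906390437ed04) (nat_lit 0x1004000000) (nat_lit 36)))
 (.p (nat_lit 0x228e228c228a22882284106306) (nat_lit 0x20000c46) (nat_lit 14)))))
 (.n (.n (.n (.n (.p (nat_lit 0xd1f0d0702) (nat_lit 0x6840) (nat_lit 18))
 (.p (nat_lit 0x21d9172802) (nat_lit 0x8852) (nat_lit 4)))
 (.p (nat_lit 0x17de17dc17da17d817d40efb06) (nat_lit 0x20000ca3) (nat_lit 15)))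
 (.n (.n (.p (nat_lit 0xdca0dc80dc60dc40dc20dc1000d07) (nat_lit 0x881) (nat_lit 7))
 (.p (nat_lit 0x3973396902) (nat_lit 0x38808000800) (nat_lit 35)))
 (.p (nat_lit 0x10221020101e101d101b1018038c0041003f09) (nat_lit 0x228a5) (nat_lit 13))))
 (.n (.n (.n (.p (nat_lit 0x25ec25ea25e625e40d470d4106) (nat_lit 0x2400004a0) (nat_lit 14))
 (.p (nat_lit 0x3891387702) (nat_lit 0x7040a000000) (nat_lit 35)))
 (.p (nat_lit 0x2f9b0f8a02) (nat_lit 0x28a4) (nat_lit 32)))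
 (.n (.n (.p (nat_lit 0x22fa22f822f622f222f00e6106) (nat_lit 0x400012a2) (nat_lit 16))
 (.p (nat_lit 0x3a233999387b03) (nat_lit 0x10c0000a020) (nat_lit 43)))
 (.p (nat_lit 0x1c49119802) (nat_lit 0x868) (nat_lit 4)))))

def c256_171 : Tr := .n c512_171 c512_427

def c128_43 : Tr := .n c256_43 c256_171

def c512_107 : Tr :=
 .n (.n (.n (.n (.n (.p (nat_lit 0x2239178902) (nat_lit 0x8800) (nat_lit 11))
 (.p (nat_lit 0x12ce12cd12ca12c812c612c504ec0081007909) (nat_lit 0x4008a) (nat_lit 13)))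
 (.n (.p (nat_lit 0x23db0e7a02) (nat_lit 0x6003) (nat_lit 5))
 (.p (nat_lit 0x39e53983386303) (nat_lit 0x7bc00008040) (nat_lit 44))))
 (.n (.n (.p (nat_lit 0x1b4a1b461b441b420d510d4906) (nat_lit 0x110001ca0) (nat_lit 15))
 (.p (nat_lit 0x38a1389902) (nat_lit 0xb480a000000) (nat_lit 35)))
 (.p (nat_lit 0x24fb0f9a02) (nat_lit 0x6005) (nat_lit 5))))
 (.n (.n (.n (.p (nat_lit 0x1a421a401a3e1a3c1a380d0f06) (nat_lit 0x20001560) (nat_lit 15))
 (.p (nat_lit 0x89f003702) (nat_lit 0x6024) (nat_lit 31)))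
 (.p (nat_lit 0x17c217c017be17bc0f0f0f0d06) (nat_lit 0x300000304) (nat_lit 17)))
 (.n (.n (.p (nat_lit 0xe690dd902) (nat_lit 0xaa1) (nat_lit 19))
 (.p (nat_lit 0x3974396e396c396839663964223907) (nat_lit 0x8000800) (nat_lit 38)))
 (.p (nat_lit 0x1af7104602) (nat_lit 0xa026) (nat_lit 4)))))
 (.n (.n (.n (.n (.p (nat_lit 0x10510cf102) (nat_lit 0x8d20) (nat_lit 19))
 (.p (nat_lit 0x2a89152802) (nat_lit 0x8ae) (nat_lit 5)))
 (.n (.p (nat_lit 0x1a2a1a281a261a241a220ed506) (nat_lit 0x10001483) (nat_lit 17))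
 (.p (nat_lit 0x3a4739a1388903) (nat_lit 0x3280000a080) (nat_lit 43))))
 (.n (.n (.p (nat_lit 0x17d217ce17cc17ca17c80da506) (nat_lit 0x100001361) (nat_lit 17))
 (.p (nat_lit 0x3927391502) (nat_lit 0x8a004000800) (nat_lit 35)))
 (.p (nat_lit 0xfda0fd80fd60fd50fd20fd103800041003d09) (nat_lit 0x20845) (nat_lit 13))))
 (.n (.n (.n (.p (nat_lit 0x22910d3002) (nat_lit 0x880) (nat_lit 5))
 (.p (nat_lit 0x3821381d02) (nat_lit 0x31006000000) (nat_lit 35)))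
 (.p (nat_lit 0x2f57003702) (nat_lit 0x6844) (nat_lit 33)))
 (.n (.n (.p (nat_lit 0x11a10e4102) (nat_lit 0x8862) (nat_lit 19))
 (.p (nat_lit 0x3a0f38f537dd03) (nat_lit 0x85000002000) (nat_lit 43)))
 (.p (nat_lit 0x1a721a701a6e1a68107d107b06) (nat_lit 0x60001966) (nat_lit 15)))))

def c512_363 : Tr :=
 .n (.n (.n (.n (.n (.p (nat_lit 0x23c623c423be23bc0ce30ce106) (nat_lit 0xc0000520) (nat_lit 14))
 (.p (nat_lit 0x1ebb140a02) (nat_lit 0x28ac) (nat_lit 4)))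
 (.n (.p (nat_lit 0x1d8a1d881d861d841d820e9906) (nat_lit 0x10001c23) (nat_lit 17))
 (.p (nat_lit 0x39f1398b387303) (nat_lit 0x9dc00008060) (nat_lit 44))))
 (.n (.n (.p (nat_lit 0x104d0d7d02) (nat_lit 0x4c21) (nat_lit 19))
 (.p (nat_lit 0x38c438be38bc38b838b638b417f907) (nat_lit 0x8a0) (nat_lit 37)))
 (.p (nat_lit 0x22b022ae22ac22aa22a80fb706) (nat_lit 0x200001525) (nat_lit 14))))
 (.n (.n (.n (.p (nat_lit 0x24ee24ec24ea24e80d230d2106) (nat_lit 0x300001d60) (nat_lit 14))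
 (.p (nat_lit 0x37db37b502) (nat_lit 0x98002000000) (nat_lit 35)))
 (.p (nat_lit 0x23da23d823d623d40f270f2506) (nat_lit 0x300000024) (nat_lit 14)))
 (.n (.n (.p (nat_lit 0x28522850284e284c284a0e1506) (nat_lit 0x10001542) (nat_lit 16))
 (.p (nat_lit 0x39be39bc39b839b639b4399417a307) (nat_lit 0xa000820) (nat_lit 37)))
 (.p (nat_lit 0x3073106202) (nat_lit 0x2846) (nat_lit 32)))))
 (.n (.n (.n (.n (.p (nat_lit 0x243e243a243824340d090d0306) (nat_lit 0x120000c40) (nat_lit 14))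
 (.p (nat_lit 0x2c6d170c02) (nat_lit 0x4832) (nat_lit 5)))
 (.n (.p (nat_lit 0xf020f000efe0efd0efa0ef8002907) (nat_lit 0x48a3) (nat_lit 7))
 (.p (nat_lit 0x3a5339bb389b03) (nat_lit 0x9cc0000a0a0) (nat_lit 43))))
 (.n (.n (.p (nat_lit 0x1af61af21af01aec0dbd0db706) (nat_lit 0x120000181) (nat_lit 17))
 (.p (nat_lit 0x395d395102) (nat_lit 0xa3806000800) (nat_lit 35)))
 (.p (nat_lit 0x207e207c207a20782074100f06) (nat_lit 0x200000a5) (nat_lit 15))))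
 (.n (.n (.n (.p (nat_lit 0x1ada1ad81ad61ad40d470d4506) (nat_lit 0x3000000a0) (nat_lit 15))
 (.p (nat_lit 0x3871385f02) (nat_lit 0xb3408000000) (nat_lit 35)))
 (.p (nat_lit 0xf860f840f830f800f7e0f7d033a0037003109) (nat_lit 0x300a4) (nat_lit 13)))
 (.n (.n (.p (nat_lit 0x22b222b022ac22aa22a80e5706) (nat_lit 0x80001d82) (nat_lit 14))
 (.p (nat_lit 0x3a1f3961384103) (nat_lit 0xb5800006020) (nat_lit 43)))
 (.p (nat_lit 0x2671111002) (nat_lit 0x8867) (nat_lit 5)))))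

def c256_107 : Tr := .n c512_107 c512_363

def c512_235 : Tr :=
 .n (.n (.n (.n (.n (.p (nat_lit 0x187a1878187618740cd30cd106) (nat_lit 0x30001c00) (nat_lit 15))
 (.p (nat_lit 0x28d5137402) (nat_lit 0x80ab) (nat_lit 5)))
 (.n (.p (nat_lit 0x190a19081906190419020e8106) (nat_lit 0x10001c03) (nat_lit 15))
 (.p (nat_lit 0x3a320fd302) (nat_lit 0x2d60) (nat_lit 48))))
 (.n (.n (.p (nat_lit 0xdf30d6302) (nat_lit 0x2a01) (nat_lit 19))
 (.p (nat_lit 0x38c538b102) (nat_lit 0x81800000800) (nat_lit 35)))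
 (.p (nat_lit 0x25ca25c825c625c425c20fa106) (nat_lit 0x10001a05) (nat_lit 14))))
 (.n (.n (.n (.p (nat_lit 0x19d619d419d219d019ce0d1906) (nat_lit 0x10000960) (nat_lit 15))
 (.p (nat_lit 0x379d378702) (nat_lit 0x60400000000) (nat_lit 35)))
 (.p (nat_lit 0x22682266226422620f1b0f1106) (nat_lit 0x210001a04) (nat_lit 14)))
 (.n (.n (.p (nat_lit 0x2e090df802) (nat_lit 0x8802) (nat_lit 32))
 (.p (nat_lit 0x39bf399f02) (nat_lit 0xa940a000800) (nat_lit 35)))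
 (.p (nat_lit 0x170d104d02) (nat_lit 0x4826) (nat_lit 19)))))
 (.n (.n (.n (.n (.p (nat_lit 0x105f0cff02) (nat_lit 0xa540) (nat_lit 19))
 (.p (nat_lit 0x20a315f202) (nat_lit 0xa830) (nat_lit 4)))
 (.n (.p (nat_lit 0x244d0eec02) (nat_lit 0xa3) (nat_lit 5))
 (.p (nat_lit 0x3a0615ef02) (nat_lit 0x6ca0) (nat_lit 47))))
 (.n (.n (.p (nat_lit 0x17ba17b817b617b417b00dab06) (nat_lit 0x20001a61) (nat_lit 15))
 (.p (nat_lit 0x393d393902) (nat_lit 0x20806000800) (nat_lit 35)))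
 (.p (nat_lit 0x254f0fee02) (nat_lit 0x6865) (nat_lit 5))))
 (.n (.n (.n (.p (nat_lit 0x1a881a861a841a800d3b0d3306) (nat_lit 0x220001a80) (nat_lit 15))
 (.p (nat_lit 0x385b384902) (nat_lit 0x58808000000) (nat_lit 35)))
 (.p (nat_lit 0x1f661f641f621f600f6f0f6d06) (nat_lit 0x300001084) (nat_lit 15)))
 (.n (.n (.p (nat_lit 0x180017fc17fa17f80e4f0e4b06) (nat_lit 0x280001582) (nat_lit 15))
 (.p (nat_lit 0x3a18224902) (nat_lit 0x820) (nat_lit 46)))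
 (.p (nat_lit 0x10b1109902) (nat_lit 0x8886) (nat_lit 18)))))

def c512_491 : Tr :=
 .n (.n (.n (.n (.n (.p (nat_lit 0x239423922390238c0cf30ceb06) (nat_lit 0x220000b20) (nat_lit 14))
 (.p (nat_lit 0x1f6914b802) (nat_lit 0x880e) (nat_lit 4)))
 (.n (.p (nat_lit 0x2edb002702) (nat_lit 0x2863) (nat_lit 33))
 (.p (nat_lit 0x39f738d537b703) (nat_lit 0x400002080) (nat_lit 44))))
 (.n (.n (.p (nat_lit 0x18c018be18bc18ba18b80d9b06) (nat_lit 0x200001941) (nat_lit 15))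
 (.p (nat_lit 0x390138e502) (nat_lit 0xb2002000800) (nat_lit 35)))
 (.p (nat_lit 0x104b0fbb02) (nat_lit 0x2825) (nat_lit 19))))
 (.n (.n (.n (.p (nat_lit 0x25222520251c251a0d2b0d2506) (nat_lit 0x90001180) (nat_lit 16))
 (.p (nat_lit 0x380d37eb02) (nat_lit 0xa0c04000000) (nat_lit 35)))
 (.p (nat_lit 0x243c243a243624340f330f2d06) (nat_lit 0x240000c24) (nat_lit 16)))
 (.n (.n (.p (nat_lit 0x241a2414241224100e350e3306) (nat_lit 0x180001262) (nat_lit 14))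
 (.p (nat_lit 0x398e398c39883986386f05) (nat_lit 0x5408000000) (nat_lit 36)))
 (.p (nat_lit 0x3085005102) (nat_lit 0x8066) (nat_lit 33)))))
 (.n (.n (.n (.n (.p (nat_lit 0x17c70d1602) (nat_lit 0xa060) (nat_lit 4))
 (.p (nat_lit 0x17431740173e173c173a173800e307) (nat_lit 0xa872) (nat_lit 7)))
 (.p (nat_lit 0x3270301011e03) (nat_lit 0x8052003) (nat_lit 22)))
 (.n (.n (.p (nat_lit 0x1b321b301b2e1b2c1b2a0dc106) (nat_lit 0x10001b81) (nat_lit 15))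
 (.p (nat_lit 0x3991396f02) (nat_lit 0xb1408000800) (nat_lit 35)))
 (.p (nat_lit 0x14f0052004803) (nat_lit 0x21000a006) (nat_lit 20))))
 (.n (.n (.n (.p (nat_lit 0xd51005002) (nat_lit 0x88a0) (nat_lit 1))
 (.p (nat_lit 0x3883387f02) (nat_lit 0x3940a000000) (nat_lit 35)))
 (.p (nat_lit 0x252a2528252625240f930f9106) (nat_lit 0x300000aa4) (nat_lit 16)))
 (.n (.n (.p (nat_lit 0x2e830e7202) (nat_lit 0xa8a2) (nat_lit 32))
 (.p (nat_lit 0x39dc0e3902) (nat_lit 0x840) (nat_lit 47)))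
 (.p (nat_lit 0x1c6511b402) (nat_lit 0x4888) (nat_lit 4)))))

def c256_235 : Tr := .n c512_235 c512_491

def c128_107 : Tr := .n c256_107 c256_235

def c64_43 : Tr := .n c128_43 c128_107

def c32_11 : Tr := .n c64_11 c64_43

def c512_27 : Tr :=
 .n (.n (.n (.n (.n (.p (nat_lit 0x18261824182218200cc70cc506) (nat_lit 0x30000100) (nat_lit 15))
 (.p (nat_lit 0x2799123802) (nat_lit 0x4089) (nat_lit 5)))
 (.n (.p (nat_lit 0x12e90e6902) (nat_lit 0xaa2) (nat_lit 19))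
 (.p (nat_lit 0x3a29392d37e503) (nat_lit 0xa0000004040) (nat_lit 43))))
 (.n (.n (.p (nat_lit 0x25b225b025ac25aa0d4f0d4906) (nat_lit 0x900019a0) (nat_lit 14))
 (.p (nat_lit 0x388f388502) (nat_lit 0x6a00a000000) (nat_lit 35)))
 (.p (nat_lit 0x34b0347012e03) (nat_lit 0x2056004) (nat_lit 22))))
 (.n (.n (.n (.p (nat_lit 0x248424822480247e247c0d1706) (nat_lit 0x200000160) (nat_lit 14))
 (.p (nat_lit 0x7ef005202) (nat_lit 0xa081) (nat_lit 30)))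
 (.p (nat_lit 0x12d00380036003004) (nat_lit 0x190008004) (nat_lit 20)))
 (.n (.n (.p (nat_lit 0x2de10dd002) (nat_lit 0x40a1) (nat_lit 32))
 (.p (nat_lit 0x3985397702) (nat_lit 0x82408000800) (nat_lit 35)))
 (.p (nat_lit 0x15cf102f02) (nat_lit 0xa406) (nat_lit 19)))))
 (.n (.n (.n (.n (.p (nat_lit 0x190a19061904190219000cf106) (nat_lit 0x100001c20) (nat_lit 17))
 (.p (nat_lit 0x19fa19f819f619f219f014c106) (nat_lit 0x4000122e) (nat_lit 15)))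
 (.n (.p (nat_lit 0xf630ed302) (nat_lit 0xac63) (nat_lit 19))
 (.p (nat_lit 0x3a433937381d03) (nat_lit 0x9000006080) (nat_lit 43))))
 (.n (.n (.p (nat_lit 0x17250d9502) (nat_lit 0x4d41) (nat_lit 19))
 (.p (nat_lit 0x38fe38fc38f838f638f438d4229307) (nat_lit 0x2000880) (nat_lit 38)))
 (.p (nat_lit 0xfce0fcc0fcb0fc80fc70fc4038e0043003f09) (nat_lit 0x32045) (nat_lit 13))))
 (.n (.n (.n (.p (nat_lit 0x25522550254e254a25480d2906) (nat_lit 0x40001380) (nat_lit 14))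
 (.p (nat_lit 0x3805380102) (nat_lit 0x83804000000) (nat_lit 35)))
 (.p (nat_lit 0x19e50f3402) (nat_lit 0x44) (nat_lit 4)))
 (.n (.n (.p (nat_lit 0xe3b002602) (nat_lit 0x2862) (nat_lit 1))
 (.p (nat_lit 0x39c538b9379903) (nat_lit 0x52800000000) (nat_lit 44)))
 (.p (nat_lit 0x1087106f02) (nat_lit 0x2066) (nat_lit 18)))))

def c512_283 : Tr :=
 .n (.n (.n (.n (.n (.p (nat_lit 0xd6b0cdb02) (nat_lit 0xa800) (nat_lit 19))
 (.p (nat_lit 0x28f1139002) (nat_lit 0x80c) (nat_lit 5)))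
 (.n (.p (nat_lit 0x23f50e9402) (nat_lit 0x8023) (nat_lit 5))
 (.p (nat_lit 0x3a37393f382703) (nat_lit 0x2a400006060) (nat_lit 43))))
 (.n (.n (.p (nat_lit 0x271827162714271227100d7706) (nat_lit 0x200001421) (nat_lit 16))
 (.p (nat_lit 0x38c338b902) (nat_lit 0x7a800000800) (nat_lit 35)))
 (.p (nat_lit 0x250d0fac02) (nat_lit 0x25) (nat_lit 5))))
 (.n (.n (.n (.p (nat_lit 0x19fa19f819f619f00d1d0d1b06) (nat_lit 0x60001a60) (nat_lit 15))
 (.p (nat_lit 0x37ad379702) (nat_lit 0xa2400000000) (nat_lit 35)))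
 (.p (nat_lit 0x17f617f217f017ec0f190f1306) (nat_lit 0x120000d04) (nat_lit 15)))
 (.n (.n (.p (nat_lit 0xe070e040e020e000dfe0dfc002307) (nat_lit 0xa022) (nat_lit 7))
 (.p (nat_lit 0x39ab39a702) (nat_lit 0x5a40a000800) (nat_lit 35)))
 (.p (nat_lit 0x22522250224c224a2248105b06) (nat_lit 0x80001146) (nat_lit 14)))))
 (.n (.n (.n (.n (.p (nat_lit 0x193a19381936193419300d0306) (nat_lit 0x20001840) (nat_lit 15))
 (.p (nat_lit 0x1a8a1a881a861a841a8215f506) (nat_lit 0x10001250) (nat_lit 17)))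
 (.n (.p (nat_lit 0x17ac17aa17a817a40ef70eef06) (nat_lit 0x2200002a3) (nat_lit 17))
 (.p (nat_lit 0x3a093987386d03) (nat_lit 0x8d0000080a0) (nat_lit 44))))
 (.n (.n (.p (nat_lit 0x22a622a422a0229e0daf0da906) (nat_lit 0x90000d61) (nat_lit 14))
 (.p (nat_lit 0x3953393f02) (nat_lit 0x79406000800) (nat_lit 35)))
 (.p (nat_lit 0xffe0ffc0ffa0ff90ff60ff4004107) (nat_lit 0x4085) (nat_lit 7))))
 (.n (.n (.n (.p (nat_lit 0xd490d3102) (nat_lit 0x880) (nat_lit 18))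
 (.p (nat_lit 0x386f384f02) (nat_lit 0xa9408000000) (nat_lit 35)))
 (.p (nat_lit 0x24d91a290363033d012e05) (nat_lit 0x1588884) (nat_lit 9)))
 (.n (.n (.p (nat_lit 0x2e6b0e5a02) (nat_lit 0xa882) (nat_lit 32))
 (.p (nat_lit 0x3a1d3929380903) (nat_lit 0x94800004020) (nat_lit 43)))
 (.p (nat_lit 0x3db03d5014e03) (nat_lit 0x2054006) (nat_lit 22)))))

def c256_27 : Tr := .n c512_27 c512_283

def c512_155 : Tr :=
 .n (.n (.n (.n (.n (.p (nat_lit 0x22ec22ea22e822e40cdb0cd306) (nat_lit 0x220000a00) (nat_lit 14))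
 (.p (nat_lit 0x283f12de02) (nat_lit 0x20aa) (nat_lit 5)))
 (.n (.p (nat_lit 0x138d0e7d02) (nat_lit 0x8303) (nat_lit 19))
 (.p (nat_lit 0x3a2f3997387d03) (nat_lit 0x900000a040) (nat_lit 43))))
 (.n (.n (.p (nat_lit 0x10b10d5102) (nat_lit 0x8da0) (nat_lit 19))
 (.p (nat_lit 0x38af38a702) (nat_lit 0x28400000800) (nat_lit 35)))
 (.p (nat_lit 0x1b241b221b201b1e1b1c0f9f06) (nat_lit 0x200000305) (nat_lit 17))))
 (.n (.n (.n (.p (nat_lit 0x106d0d0d02) (nat_lit 0x560) (nat_lit 19))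
 (.p (nat_lit 0x915004102) (nat_lit 0x40a5) (nat_lit 31)))
 (.p (nat_lit 0xf9d0f0d02) (nat_lit 0x8504) (nat_lit 19)))
 (.n (.n (.p (nat_lit 0x297027f0271026d010005) (nat_lit 0x3444001) (nat_lit 26))
 (.p (nat_lit 0x39b9399702) (nat_lit 0x9040a000800) (nat_lit 35)))
 (.p (nat_lit 0x3059004902) (nat_lit 0x826) (nat_lit 33)))))
 (.n (.n (.n (.n (.p (nat_lit 0x240223fe23fc23f80cfd0cf706) (nat_lit 0x120001140) (nat_lit 14))
 (.p (nat_lit 0x1561004402) (nat_lit 0x882f) (nat_lit 1)))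
 (.n (.p (nat_lit 0x2ef50ee402) (nat_lit 0x4883) (nat_lit 32))
 (.p (nat_lit 0x3a0338d537bd03) (nat_lit 0x10000020a0) (nat_lit 44))))
 (.n (.n (.p (nat_lit 0xe2f0d9f02) (nat_lit 0x2261) (nat_lit 19))
 (.p (nat_lit 0x3931392102) (nat_lit 0xb3804000800) (nat_lit 35)))
 (.p (nat_lit 0x16010fd102) (nat_lit 0xd45) (nat_lit 19))))
 (.n (.n (.n (.p (nat_lit 0x24fc24fa24f624f40d3b0d3506) (nat_lit 0x240000880) (nat_lit 14))
 (.p (nat_lit 0x3827382502) (nat_lit 0x4a006000000) (nat_lit 35)))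
 (.p (nat_lit 0xf560f540f530f500f4f0f4c03460037003309) (nat_lit 0x32064) (nat_lit 13)))
 (.n (.n (.p (nat_lit 0x177c177a177817760e4f0e4506) (nat_lit 0x210000082) (nat_lit 15))
 (.p (nat_lit 0x39ca178702) (nat_lit 0x6800) (nat_lit 45)))
 (.p (nat_lit 0x108e108c108b108810861084004f07) (nat_lit 0x6086) (nat_lit 7)))))

def c512_411 : Tr :=
 .n (.n (.n (.n (.n (.p (nat_lit 0x225117a102) (nat_lit 0x8820) (nat_lit 11))
 (.p (nat_lit 0x19be19bc19b819b619b4142706) (nat_lit 0x8000080d) (nat_lit 17)))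
 (.n (.p (nat_lit 0x19650eb402) (nat_lit 0x4843) (nat_lit 4))
 (.p (nat_lit 0x3a3b39a9388b03) (nat_lit 0x52c0000a060) (nat_lit 43))))
 (.n (.n (.p (nat_lit 0x18da18d818d418d00d8b0d8706) (nat_lit 0xa0001241) (nat_lit 17))
 (.p (nat_lit 0x38e138d902) (nat_lit 0x30802000800) (nat_lit 35)))
 (.p (nat_lit 0x177e177c177a177817760fb906) (nat_lit 0x10000825) (nat_lit 15))))
 (.n (.n (.n (.p (nat_lit 0xd27003e02) (nat_lit 0x2080) (nat_lit 1))
 (.p (nat_lit 0x37d137bd02) (nat_lit 0x71002000000) (nat_lit 35)))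
 (.p (nat_lit 0x13a70f2702) (nat_lit 0xa224) (nat_lit 19)))
 (.n (.n (.p (nat_lit 0xe2b0e280e270e240e220e2002d20023001f09) (nat_lit 0x56842) (nat_lit 13))
 (.p (nat_lit 0x38ec38e638e437cd04) (nat_lit 0x3002000000) (nat_lit 36)))
 (.p (nat_lit 0x2276227422722270226e106106) (nat_lit 0x10000b46) (nat_lit 14)))))
 (.n (.n (.n (.n (.p (nat_lit 0x19b219b019ac19aa0d070d0106) (nat_lit 0x90001d40) (nat_lit 17))
 (.p (nat_lit 0x187a1878187418721870171b06) (nat_lit 0x80001452) (nat_lit 15)))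
 (.p (nat_lit 0x17b817b617b417b217b00f0306) (nat_lit 0x200001aa3) (nat_lit 17)))
 (.n (.n (.p (nat_lit 0xe470db702) (nat_lit 0x2281) (nat_lit 19))
 (.p (nat_lit 0x397b396702) (nat_lit 0x58408000800) (nat_lit 35)))
 (.p (nat_lit 0x257f1acf039d038f013e05) (nat_lit 0x11168a5) (nat_lit 9))))
 (.n (.n (.n (.p (nat_lit 0x25d425d025ce25cc0d470d4306) (nat_lit 0x2800003a0) (nat_lit 14))
 (.p (nat_lit 0x3893387502) (nat_lit 0x7800a000000) (nat_lit 35)))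
 (.p (nat_lit 0x14050f8502) (nat_lit 0x82a4) (nat_lit 19)))
 (.n (.n (.p (nat_lit 0x2e750e6402) (nat_lit 0x80a2) (nat_lit 32))
 (.p (nat_lit 0x3a200e8902) (nat_lit 0x8b20) (nat_lit 48)))
 (.p (nat_lit 0x189c1898189618941197119306) (nat_lit 0x280000068) (nat_lit 17)))))

def c256_155 : Tr := .n c512_155 c512_411

def c128_27 : Tr := .n c256_27 c256_155

def c512_91 : Tr :=
 .n (.n (.n (.n (.n (.p (nat_lit 0x22310cd002) (nat_lit 0x800) (nat_lit 5))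
 (.p (nat_lit 0x282512c402) (nat_lit 0x8a) (nat_lit 5)))
 (.n (.p (nat_lit 0x11d002e002a002604) (nat_lit 0x2a0008003) (nat_lit 20))
 (.p (nat_lit 0x39e5396b385103) (nat_lit 0x19800008040) (nat_lit 44))))
 (.n (.n (.p (nat_lit 0x1b321b2e1b2c1b2a0d510d4906) (nat_lit 0x110001ba0) (nat_lit 15))
 (.p (nat_lit 0x3897389302) (nat_lit 0x8bc0a000000) (nat_lit 35)))
 (.p (nat_lit 0x13d00460044004204) (nat_lit 0x380008005) (nat_lit 20))))
 (.n (.n (.n (.p (nat_lit 0x1a281a261a241a200d170d0f06) (nat_lit 0x220001460) (nat_lit 15))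
 (.p (nat_lit 0x87f002f02) (nat_lit 0xa083) (nat_lit 31)))
 (.p (nat_lit 0x17a0179c179a17980f0f0f0b06) (nat_lit 0x280001104) (nat_lit 15)))
 (.n (.n (.p (nat_lit 0xde30de00dde0ddc0dda0dd8001707) (nat_lit 0xa8a1) (nat_lit 7))
 (.p (nat_lit 0x3991398702) (nat_lit 0xb4408000800) (nat_lit 35)))
 (.p (nat_lit 0x304f004b02) (nat_lit 0x2026) (nat_lit 33)))))
 (.n (.n (.n (.n (.p (nat_lit 0xf290ce902) (nat_lit 0xb20) (nat_lit 19))
 (.p (nat_lit 0x34eb14da02) (nat_lit 0x604e) (nat_lit 32)))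
 (.n (.p (nat_lit 0x19d619d219d019ce0edd0ed506) (nat_lit 0x110000183) (nat_lit 17))
 (.p (nat_lit 0x39fc17dd02) (nat_lit 0x8080) (nat_lit 45))))
 (.n (.n (.p (nat_lit 0x225a2258225622540da70da506) (nat_lit 0x300000261) (nat_lit 14))
 (.p (nat_lit 0x3921391102) (nat_lit 0x71804000800) (nat_lit 35)))
 (.p (nat_lit 0x1a870fd602) (nat_lit 0x6845) (nat_lit 4))))
 (.n (.n (.n (.p (nat_lit 0xff50d2502) (nat_lit 0x480) (nat_lit 19))
 (.p (nat_lit 0x3825381702) (nat_lit 0x40406000000) (nat_lit 35)))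
 (.p (nat_lit 0x2f5a2f582f562f542f522f50012c07) (nat_lit 0x844) (nat_lit 8)))
 (.n (.n (.p (nat_lit 0x245424522450244e244c0e4306) (nat_lit 0x200000d62) (nat_lit 14))
 (.p (nat_lit 0x3a0f38e137c103) (nat_lit 0x31800002000) (nat_lit 43)))
 (.p (nat_lit 0x24fc24fa24f624f41083107d06) (nat_lit 0x240000866) (nat_lit 16)))))

def c512_347 : Tr :=
 .n (.n (.n (.n (.n (.p (nat_lit 0x18f218f018ea18e80ce30ce106) (nat_lit 0xc0001320) (nat_lit 15))
 (.p (nat_lit 0x19d619d219d019ce19cc140506) (nat_lit 0x1000001ac) (nat_lit 15)))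
 (.n (.p (nat_lit 0x19530ea202) (nat_lit 0xa823) (nat_lit 4))
 (.p (nat_lit 0x39f13987386703) (nat_lit 0x8c400008060) (nat_lit 44))))
 (.n (.n (.p (nat_lit 0x1c681c661c641c621c600d8306) (nat_lit 0x200001c21) (nat_lit 17))
 (.p (nat_lit 0x38cf38cb02) (nat_lit 0xacc00000800) (nat_lit 35)))
 (.p (nat_lit 0x17dc17da17d817d617d40fb706) (nat_lit 0x200000425) (nat_lit 17))))
 (.n (.n (.n (.p (nat_lit 0x24f224f024ee24ec24ea0d1906) (nat_lit 0x10001d60) (nat_lit 14))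
 (.p (nat_lit 0x37e237e037de37dc37da37d837d637d437d237d037ce37cc37ca37c837c637c437c237c037be37bc37ba37b837b637b418) (nat_lit 0x2000000) (nat_lit 34)))
 (.p (nat_lit 0x24850f2402) (nat_lit 0x8024) (nat_lit 5)))
 (.n (.n (.p (nat_lit 0x18cf0e1e02) (nat_lit 0xa042) (nat_lit 4))
 (.p (nat_lit 0x39bb39b902) (nat_lit 0x9c80a000800) (nat_lit 35)))
 (.p (nat_lit 0x1077105f02) (nat_lit 0xa046) (nat_lit 18)))))
 (.n (.n (.n (.n (.p (nat_lit 0x24322430242c242a0d070d0106) (nat_lit 0x90001b40) (nat_lit 14))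
 (.p (nat_lit 0x25be25bc25ba25b625b4168906) (nat_lit 0x40000251) (nat_lit 16)))
 (.n (.p (nat_lit 0x14030ef302) (nat_lit 0x63a3) (nat_lit 19))
 (.p (nat_lit 0x3a5339b1389303) (nat_lit 0x73c0000a0a0) (nat_lit 43))))
 (.n (.n (.p (nat_lit 0x186f0dbe02) (nat_lit 0xa081) (nat_lit 4))
 (.p (nat_lit 0x394d394902) (nat_lit 0x62806000800) (nat_lit 35)))
 (.p (nat_lit 0x1016101410131010100e100c004307) (nat_lit 0x60a5) (nat_lit 7))))
 (.n (.n (.n (.p (nat_lit 0xd460d450d420d400d3e0d3c000907) (nat_lit 0x80a0) (nat_lit 7))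
 (.p (nat_lit 0x3871385b02) (nat_lit 0xb2c08000000) (nat_lit 35)))
 (.p (nat_lit 0x24e11a310345033f012e05) (nat_lit 0x14140a4) (nat_lit 9)))
 (.n (.n (.p (nat_lit 0x229a22982296229422920e5106) (nat_lit 0x10001c82) (nat_lit 16))
 (.p (nat_lit 0x3a1f3951383903) (nat_lit 0x74800006020) (nat_lit 43)))
 (.p (nat_lit 0x1bb3110202) (nat_lit 0x6067) (nat_lit 4)))))

def c256_91 : Tr := .n c512_91 c512_347

def c512_219 : Tr :=
 .n (.n (.n (.n (.n (.p (nat_lit 0x186e186c186818660cd70cd106) (nat_lit 0x90000c00) (nat_lit 15))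
 (.p (nat_lit 0x18fe18fc18fa18f818f412eb06) (nat_lit 0x20000caa) (nat_lit 15)))
 (.n (.p (nat_lit 0x23942392238e238c0e8b0e8506) (nat_lit 0x240000b03) (nat_lit 16))
 (.p (nat_lit 0x3a3338d537bd03) (nat_lit 0x1000002060) (nat_lit 43))))
 (.n (.n (.p (nat_lit 0x22c50d6402) (nat_lit 0x4801) (nat_lit 5))
 (.p (nat_lit 0x38bd38af02) (nat_lit 0x61400000800) (nat_lit 35)))
 (.p (nat_lit 0xfab0fa80fa70fa40fa20fa003aa0047004309) (nat_lit 0x56805) (nat_lit 13))))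
 (.n (.n (.n (.p (nat_lit 0x19ca19c819c619c00d1d0d1b06) (nat_lit 0x60001860) (nat_lit 17))
 (.p (nat_lit 0xc0d004402) (nat_lit 0x8050) (nat_lit 30)))
 (.p (nat_lit 0x224e224c224a22480f1b0f1906) (nat_lit 0x300001904) (nat_lit 14)))
 (.n (.n (.p (nat_lit 0x2e01001902) (nat_lit 0x802) (nat_lit 33))
 (.p (nat_lit 0x39c3399d02) (nat_lit 0xb900a000800) (nat_lit 35)))
 (.p (nat_lit 0x231c231a231823161053104906) (nat_lit 0x210000c26) (nat_lit 16)))))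
 (.n (.n (.n (.n (.p (nat_lit 0xe1f0cff02) (nat_lit 0xa140) (nat_lit 19))
 (.p (nat_lit 0x1b321b301b2e1b2c1b2815df06) (nat_lit 0x20001330) (nat_lit 15)))
 (.n (.p (nat_lit 0x12d70ee702) (nat_lit 0x6983) (nat_lit 19))
 (.p (nat_lit 0x3a4f3947382703) (nat_lit 0x4a4000060a0) (nat_lit 43))))
 (.n (.n (.p (nat_lit 0x179617941792178e178c0dad06) (nat_lit 0x40000961) (nat_lit 15))
 (.p (nat_lit 0x3943393702) (nat_lit 0x38406000800) (nat_lit 35)))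
 (.p (nat_lit 0x1a990fe802) (nat_lit 0x865) (nat_lit 4))))
 (.n (.n (.n (.p (nat_lit 0x1a7c1a7a1a781a740d3b0d3306) (nat_lit 0x220000a80) (nat_lit 15))
 (.p (nat_lit 0x3865384702) (nat_lit 0x80408000000) (nat_lit 35)))
 (.p (nat_lit 0xf6f0f6c0f6a0f680f660f64003b07) (nat_lit 0xa084) (nat_lit 7)))
 (.n (.n (.p (nat_lit 0x17e817e617e417e00e4f0e4706) (nat_lit 0x220001482) (nat_lit 17))
 (.p (nat_lit 0x3a16223b02) (nat_lit 0xa800) (nat_lit 46)))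
 (.p (nat_lit 0x109a1099109610941093109003d80051004b09) (nat_lit 0x42886) (nat_lit 13)))))

def c512_475 : Tr :=
 .n (.n (.n (.n (.n (.p (nat_lit 0x238a2386238423820cf10ce906) (nat_lit 0x110001a20) (nat_lit 14))
 (.p (nat_lit 0x25822580257e257814a914a706) (nat_lit 0x6000150e) (nat_lit 14)))
 (.n (.p (nat_lit 0xedf0ec702) (nat_lit 0xa063) (nat_lit 18))
 (.p (nat_lit 0x39f538cd37ad03) (nat_lit 0xa5000000080) (nat_lit 44))))
 (.n (.n (.p (nat_lit 0xd99002002) (nat_lit 0x8841) (nat_lit 1))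
 (.p (nat_lit 0x38fd38e302) (nat_lit 0xa1c02000800) (nat_lit 35)))
 (.p (nat_lit 0x17f617f417f017ee17ec0fbf06) (nat_lit 0x80000d25) (nat_lit 15))))
 (.n (.n (.n (.p (nat_lit 0x1a661a641a601a5e0d2b0d2506) (nat_lit 0x90000180) (nat_lit 17))
 (.p (nat_lit 0x37fd37e702) (nat_lit 0x60404000000) (nat_lit 35)))
 (.p (nat_lit 0x193a1936193419320f310f2906) (nat_lit 0x110001824) (nat_lit 15)))
 (.n (.n (.p (nat_lit 0x192e192a1928192619240e3506) (nat_lit 0x100000062) (nat_lit 17))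
 (.p (nat_lit 0x396e396c39683966384f05) (nat_lit 0x1408000000) (nat_lit 36)))
 (.p (nat_lit 0x307f106e02) (nat_lit 0x2066) (nat_lit 32)))))
 (.n (.n (.n (.n (.p (nat_lit 0x226f17bf02) (nat_lit 0x2060) (nat_lit 11))
 (.p (nat_lit 0x21e9173802) (nat_lit 0x872) (nat_lit 4)))
 (.p (nat_lit 0x2ff02f3011e03) (nat_lit 0x6010003) (nat_lit 22)))
 (.n (.n (.p (nat_lit 0x1b001afe1afc1af80dcb0dc306) (nat_lit 0x220001981) (nat_lit 17))
 (.p (nat_lit 0x3971396f02) (nat_lit 0x31408000800) (nat_lit 35)))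
 (.p (nat_lit 0x14f004c004803) (nat_lit 0x5000a006) (nat_lit 20))))
 (.n (.n (.n (.p (nat_lit 0x22ab0d4a02) (nat_lit 0x28a0) (nat_lit 5))
 (.p (nat_lit 0x38a3387b02) (nat_lit 0xb8c0a000000) (nat_lit 35)))
 (.p (nat_lit 0x25122510250e250c0f930f9106) (nat_lit 0x3000009a4) (nat_lit 14)))
 (.n (.n (.p (nat_lit 0x2e7d001d02) (nat_lit 0x48a2) (nat_lit 33))
 (.p (nat_lit 0x3a2538c137a703) (nat_lit 0x74400000040) (nat_lit 43)))
 (.p (nat_lit 0x22fa22f622f422f222f011ad06) (nat_lit 0x100001288) (nat_lit 14)))))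

def c256_219 : Tr := .n c512_219 c512_475

def c128_91 : Tr := .n c256_91 c256_219

def c64_27 : Tr := .n c128_27 c128_91

def c512_59 : Tr :=
 .n (.n (.n (.n (.n (.p (nat_lit 0x233623322330232c0ccd0cc706) (nat_lit 0x120000500) (nat_lit 14))
 (.p (nat_lit 0x18f007e007a03) (nat_lit 0xa000a00a) (nat_lit 20)))
 (.n (.p (nat_lit 0x2df02c502ad011004) (nat_lit 0x82a0002) (nat_lit 23))
 (.p (nat_lit 0x39e33947382703) (nat_lit 0x4a400006040) (nat_lit 44))))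
 (.n (.n (.p (nat_lit 0x1b1a1b181b141b100d4f0d4b06) (nat_lit 0xa0001aa0) (nat_lit 17))
 (.p (nat_lit 0x3899388b02) (nat_lit 0x92c0a000000) (nat_lit 35)))
 (.p (nat_lit 0x363034b012e03) (nat_lit 0xa032004) (nat_lit 22))))
 (.n (.n (.n (.p (nat_lit 0x24aa24a824a624a424a00d0f06) (nat_lit 0x20001260) (nat_lit 14))
 (.p (nat_lit 0x843001602) (nat_lit 0xa0a2) (nat_lit 30)))
 (.p (nat_lit 0x246b0f0a02) (nat_lit 0x6004) (nat_lit 5)))
 (.n (.n (.p (nat_lit 0x11bf0dcf02) (nat_lit 0x21a1) (nat_lit 19))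
 (.p (nat_lit 0x3989397d02) (nat_lit 0x93008000800) (nat_lit 35)))
 (.p (nat_lit 0x103a1038103710341033103003d6004f004b09) (nat_lit 0x32806) (nat_lit 13)))))
 (.n (.n (.n (.n (.p (nat_lit 0x1922191e191c191a19180cf106) (nat_lit 0x100001d20) (nat_lit 15))
 (.p (nat_lit 0x14d314d014ce14cc14ca14c800b307) (nat_lit 0xa82e) (nat_lit 7)))
 (.n (.p (nat_lit 0x198f0ede02) (nat_lit 0xa083) (nat_lit 4))
 (.p (nat_lit 0x39fd396b384b03) (nat_lit 0x18c00008080) (nat_lit 44))))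
 (.n (.n (.p (nat_lit 0x2db7001702) (nat_lit 0xa061) (nat_lit 33))
 (.p (nat_lit 0x391d390902) (nat_lit 0x60804000800) (nat_lit 35)))
 (.p (nat_lit 0x10590fc902) (nat_lit 0x4045) (nat_lit 19))))
 (.n (.n (.n (.p (nat_lit 0x1ad21ad01aca1ac80d2b0d2906) (nat_lit 0xc0001580) (nat_lit 15))
 (.p (nat_lit 0x3811380d02) (nat_lit 0xb5004000000) (nat_lit 35)))
 (.p (nat_lit 0x2f4f0f3e02) (nat_lit 0xa044) (nat_lit 32)))
 (.n (.n (.p (nat_lit 0xe420e410e3f0e3c0e3a0e3802d00021001f09) (nat_lit 0x46862) (nat_lit 13))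
 (.p (nat_lit 0x39c538cf37b103) (nat_lit 0xad800000000) (nat_lit 44)))
 (.p (nat_lit 0x308d004d02) (nat_lit 0x4866) (nat_lit 33)))))

def c512_315 : Tr :=
 .n (.n (.n (.n (.n (.p (nat_lit 0x223d0cdc02) (nat_lit 0x20) (nat_lit 5))
 (.p (nat_lit 0x290713a602) (nat_lit 0xa02c) (nat_lit 5)))
 (.n (.p (nat_lit 0x139d0e8d02) (nat_lit 0x323) (nat_lit 19))
 (.p (nat_lit 0x3a393967384d03) (nat_lit 0x9000008060) (nat_lit 43))))
 (.n (.n (.p (nat_lit 0x2d8f0d7e02) (nat_lit 0x6821) (nat_lit 32))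
 (.p (nat_lit 0x38c938bf02) (nat_lit 0x93400000800) (nat_lit 35)))
 (.p (nat_lit 0x22382236223422320fb70fad06) (nat_lit 0x210001025) (nat_lit 14))))
 (.n (.n (.n (.p (nat_lit 0x24ca24c824c624c40d230d2106) (nat_lit 0x300000c60) (nat_lit 14))
 (.p (nat_lit 0x37a537a102) (nat_lit 0x83800000000) (nat_lit 35)))
 (.p (nat_lit 0x14b30f1302) (nat_lit 0x2c04) (nat_lit 19)))
 (.n (.n (.p (nat_lit 0xe290e1102) (nat_lit 0x8822) (nat_lit 18))
 (.p (nat_lit 0x39b339ad02) (nat_lit 0x7b00a000800) (nat_lit 35)))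
 (.p (nat_lit 0x17de17dc17da17d817d4105706) (nat_lit 0x20000446) (nat_lit 15)))))
 (.n (.n (.n (.n (.p (nat_lit 0x19521950194c194a0d070d0106) (nat_lit 0x90001940) (nat_lit 15))
 (.p (nat_lit 0x1a5a1a561a541a521a50160906) (nat_lit 0x100001850) (nat_lit 15)))
 (.n (.p (nat_lit 0x229a22982296229422920eed06) (nat_lit 0x100014a3) (nat_lit 14))
 (.p (nat_lit 0x3a533999387b03) (nat_lit 0x10c0000a0a0) (nat_lit 43))))
 (.n (.n (.p (nat_lit 0x17410db102) (nat_lit 0x8d61) (nat_lit 19))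
 (.p (nat_lit 0x3959394302) (nat_lit 0x91c06000800) (nat_lit 35)))
 (.p (nat_lit 0x2ab62ab42ab22ab02aac100306) (nat_lit 0x20000985) (nat_lit 16))))
 (.n (.n (.n (.p (nat_lit 0x10050d3502) (nat_lit 0x4c80) (nat_lit 19))
 (.p (nat_lit 0x386f385502) (nat_lit 0xaa008000000) (nat_lit 35)))
 (.p (nat_lit 0x1f801f7e1f7a1f780f7b0f7506) (nat_lit 0x240001984) (nat_lit 17)))
 (.n (.n (.p (nat_lit 0x17ba17b817b417b217b00e5706) (nat_lit 0x80001a82) (nat_lit 15))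
 (.p (nat_lit 0x39d7393f382103) (nat_lit 0x29800006020) (nat_lit 44)))
 (.p (nat_lit 0x3f303db03cf015004) (nat_lit 0xa190006) (nat_lit 23)))))

def c256_59 : Tr := .n c512_59 c512_315

def c512_187 : Tr :=
 .n (.n (.n (.n (.n (.p (nat_lit 0x23042302230022fe0cdb0cd106) (nat_lit 0x210000b00) (nat_lit 16))
 (.p (nat_lit 0x284912e802) (nat_lit 0x8aa) (nat_lit 5)))
 (.n (.p (nat_lit 0xe8a0e890e860e840e820e80002d07) (nat_lit 0x8803) (nat_lit 7))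
 (.p (nat_lit 0x3a2e137702) (nat_lit 0xa240) (nat_lit 48))))
 (.n (.n (.p (nat_lit 0x101001602) (nat_lit 0x20000c001) (nat_lit 20))
 (.p (nat_lit 0x38cd38a902) (nat_lit 0xa0800000800) (nat_lit 35)))
 (.p (nat_lit 0x2fb1003d02) (nat_lit 0x805) (nat_lit 33))))
 (.n (.n (.n (.p (nat_lit 0xd220d210d1e0d1c0d1a0d18000907) (nat_lit 0x8860) (nat_lit 7))
 (.p (nat_lit 0x943003e02) (nat_lit 0x2066) (nat_lit 30)))
 (.p (nat_lit 0x247b0f1a02) (nat_lit 0xa804) (nat_lit 5)))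
 (.n (.n (.p (nat_lit 0x2dfd0dec02) (nat_lit 0x8002) (nat_lit 32))
 (.p (nat_lit 0x39a7399b02) (nat_lit 0x48c0a000800) (nat_lit 35)))
 (.p (nat_lit 0x3063005302) (nat_lit 0xa826) (nat_lit 33)))))
 (.n (.n (.n (.n (.p (nat_lit 0x199a1996199419920cfd0cf506) (nat_lit 0x110001440) (nat_lit 15))
 (.p (nat_lit 0x208715d602) (nat_lit 0x6810) (nat_lit 4)))
 (.n (.p (nat_lit 0x247a24762474247224700ee906) (nat_lit 0x100001883) (nat_lit 14))
 (.p (nat_lit 0x3a05392d380f03) (nat_lit 0xa54000040a0) (nat_lit 44))))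
 (.n (.n (.p (nat_lit 0x23110db002) (nat_lit 0x8861) (nat_lit 5))
 (.p (nat_lit 0x392e392c3928392639243904179d07) (nat_lit 0x4000820) (nat_lit 37)))
 (.p (nat_lit 0x2ff50fe402) (nat_lit 0x8065) (nat_lit 32))))
 (.n (.n (.n (.p (nat_lit 0x1a721a701a6e1a6c1a6a0d3106) (nat_lit 0x10001980) (nat_lit 17))
 (.p (nat_lit 0x3840383e383c381c3816381422a307) (nat_lit 0x60000a0) (nat_lit 38)))
 (.p (nat_lit 0xf790f6102) (nat_lit 0x8864) (nat_lit 18)))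
 (.n (.n (.p (nat_lit 0x2276227422722270226c0e4706) (nat_lit 0x20000382) (nat_lit 14))
 (.p (nat_lit 0x3a15397d386503) (nat_lit 0x64000008000) (nat_lit 43)))
 (.p (nat_lit 0x1747108702) (nat_lit 0x2086) (nat_lit 19)))))

def c512_443 : Tr :=
 .n (.n (.n (.n (.n (.p (nat_lit 0x18aa18a818a218a00cef0ced06) (nat_lit 0xc0001820) (nat_lit 15))
 (.p (nat_lit 0x1cd00b000aa00a804) (nat_lit 0x13000800e) (nat_lit 20)))
 (.n (.p (nat_lit 0xec60ec40ec20ec10ebe0ebc002907) (nat_lit 0x4063) (nat_lit 7))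
 (.p (nat_lit 0x39f217d302) (nat_lit 0xa860) (nat_lit 45))))
 (.n (.n (.p (nat_lit 0xe190d8902) (nat_lit 0x4241) (nat_lit 19))
 (.p (nat_lit 0x38f738dd02) (nat_lit 0x89002000800) (nat_lit 35)))
 (.p (nat_lit 0x2276227422722270226e0fb906) (nat_lit 0x10000b25) (nat_lit 14))))
 (.n (.n (.n (.p (nat_lit 0x1a4e1a4c1a4a1a461a440d2906) (nat_lit 0x40000080) (nat_lit 15))
 (.p (nat_lit 0x37db37c502) (nat_lit 0x9a002000000) (nat_lit 35)))
 (.p (nat_lit 0x19df0f2e02) (nat_lit 0x6824) (nat_lit 4)))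
 (.n (.n (.p (nat_lit 0xe2f002602) (nat_lit 0x2062) (nat_lit 1))
 (.p (nat_lit 0x392e392c39283926380f05) (nat_lit 0x5404000000) (nat_lit 36)))
 (.p (nat_lit 0x22a422a0229e229c106b106706) (nat_lit 0x280000d46) (nat_lit 16)))))
 (.n (.n (.n (.n (.p (nat_lit 0xeb30d0302) (nat_lit 0x2a40) (nat_lit 19))
 (.p (nat_lit 0x173d172502) (nat_lit 0x4852) (nat_lit 18)))
 (.p (nat_lit 0x17f417f217f017ee17ec0f0306) (nat_lit 0x200000da3) (nat_lit 17)))
 (.n (.n (.p (nat_lit 0x2dd70dc602) (nat_lit 0x6881) (nat_lit 32))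
 (.p (nat_lit 0x396f396b02) (nat_lit 0x28c08000800) (nat_lit 35)))
 (.p (nat_lit 0x10a9101902) (nat_lit 0x8a5) (nat_lit 19))))
 (.n (.n (.n (.p (nat_lit 0xdd30d4302) (nat_lit 0x60a0) (nat_lit 19))
 (.p (nat_lit 0x3889387902) (nat_lit 0x5080a000000) (nat_lit 35)))
 (.p (nat_lit 0xf91004402) (nat_lit 0x88a4) (nat_lit 1)))
 (.n (.n (.p (nat_lit 0x232a2328232623220e610e5d06) (nat_lit 0x500014a2) (nat_lit 14))
 (.p (nat_lit 0x3a2339b7389d03) (nat_lit 0x8d00000a020) (nat_lit 43)))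
 (.p (nat_lit 0x23ae23ac23aa23a823a4119b06) (nat_lit 0x20000c68) (nat_lit 14)))))

def c256_187 : Tr := .n c512_187 c512_443

def c128_59 : Tr := .n c256_59 c256_187

def c512_123 : Tr :=
 .n (.n (.n (.n (.n (.p (nat_lit 0x22d622d222d022ce0cd90cd106) (nat_lit 0x110000900) (nat_lit 14))
 (.p (nat_lit 0x283112d002) (nat_lit 0x88a) (nat_lit 5)))
 (.n (.p (nat_lit 0x18a818a618a418a218a00e7f06) (nat_lit 0x200001003) (nat_lit 17))
 (.p (nat_lit 0x3a2d3989386f03) (nat_lit 0x95400008040) (nat_lit 43))))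
 (.n (.n (.p (nat_lit 0xdd90d4902) (nat_lit 0x8a0) (nat_lit 19))
 (.p (nat_lit 0x388c388638843880387e387c17df07) (nat_lit 0xa000080) (nat_lit 37)))
 (.p (nat_lit 0xf9e0f9d0f9b0f980f960f9403a80045004309) (nat_lit 0x46005) (nat_lit 13))))
 (.n (.n (.n (.p (nat_lit 0xd2d0d1502) (nat_lit 0x8060) (nat_lit 18))
 (.p (nat_lit 0x8d3004602) (nat_lit 0xa0a4) (nat_lit 30)))
 (.p (nat_lit 0x228c2288228622840f0f0f0b06) (nat_lit 0x280000404) (nat_lit 14)))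
 (.n (.n (.p (nat_lit 0x26702650263026104) (nat_lit 0x1634001) (nat_lit 24))
 (.p (nat_lit 0x39a1399502) (nat_lit 0x3000a000800) (nat_lit 35)))
 (.p (nat_lit 0x184a1846184418401045103f06) (nat_lit 0x120001226) (nat_lit 15)))))
 (.n (.n (.n (.n (.p (nat_lit 0x225d0cfc02) (nat_lit 0x8040) (nat_lit 5))
 (.p (nat_lit 0x152f14b702) (nat_lit 0x68ae) (nat_lit 18)))
 (.n (.p (nat_lit 0xeed0ed502) (nat_lit 0x83) (nat_lit 18))
 (.p (nat_lit 0x3a4938b5379d03) (nat_lit 0x430000000a0) (nat_lit 43))))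
 (.n (.n (.p (nat_lit 0x17ea17e817e417e217e00da306) (nat_lit 0x80001461) (nat_lit 15))
 (.p (nat_lit 0x392f391902) (nat_lit 0xaa804000800) (nat_lit 35)))
 (.p (nat_lit 0x19d619d419d219d019cc0fd306) (nat_lit 0x20000945) (nat_lit 15))))
 (.n (.n (.n (.p (nat_lit 0x17e70d3602) (nat_lit 0x6880) (nat_lit 4))
 (.p (nat_lit 0x3843381d02) (nat_lit 0xb9006000000) (nat_lit 35)))
 (.p (nat_lit 0x1e561e541e4e1e4c0f470f4506) (nat_lit 0xc0000944) (nat_lit 15)))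
 (.n (.n (.p (nat_lit 0x18f50e4402) (nat_lit 0x82) (nat_lit 4))
 (.p (nat_lit 0x39c9390f37ef03) (nat_lit 0x29400004000) (nat_lit 44)))
 (.p (nat_lit 0x255e255a255825541081107b06) (nat_lit 0x120000c66) (nat_lit 14)))))

def c512_379 : Tr :=
 .n (.n (.n (.n (.n (.p (nat_lit 0xe930ce302) (nat_lit 0x6220) (nat_lit 19))
 (.p (nat_lit 0x247a2476247424722470141106) (nat_lit 0x1000018ac) (nat_lit 14)))
 (.n (.p (nat_lit 0xebb0ea302) (nat_lit 0xa823) (nat_lit 18))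
 (.p (nat_lit 0x3a3b39bf387703) (nat_lit 0xa840000a060) (nat_lit 43))))
 (.n (.n (.p (nat_lit 0x2d97000f02) (nat_lit 0x2041) (nat_lit 33))
 (.p (nat_lit 0x38f338d502) (nat_lit 0x78002000800) (nat_lit 35)))
 (.p (nat_lit 0x1a721a701a6e1a6c1a6a1a6806) (nat_lit 0x825) (nat_lit 2))))
 (.n (.n (.n (.p (nat_lit 0xe3f0d1f02) (nat_lit 0x6960) (nat_lit 19))
 (.p (nat_lit 0x37d937b702) (nat_lit 0x90402000000) (nat_lit 35)))
 (.p (nat_lit 0x198e198c198a198819860f1d06) (nat_lit 0x10000424) (nat_lit 17)))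
 (.n (.n (.p (nat_lit 0xe2a0e280e260e240e220e21001907) (nat_lit 0x842) (nat_lit 7))
 (.p (nat_lit 0x38d038ce38a638a4378705) (nat_lit 0x400000000) (nat_lit 36)))
 (.p (nat_lit 0x106b10681066106410621060005307) (nat_lit 0xa846) (nat_lit 7)))))
 (.n (.n (.n (.n (.p (nat_lit 0x244a2446244424420d090d0106) (nat_lit 0x110001c40) (nat_lit 14))
 (.p (nat_lit 0x2c79171802) (nat_lit 0x4052) (nat_lit 5)))
 (.p (nat_lit 0xf030f000efe0efd0efa0ef8030e002f002909) (nat_lit 0x548a3) (nat_lit 13)))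
 (.n (.n (.p (nat_lit 0x25ca25c625c425c00dbd0db706) (nat_lit 0x120001281) (nat_lit 14))
 (.p (nat_lit 0x3954394e394c39483946394417ff07) (nat_lit 0x60008a0) (nat_lit 37)))
 (.p (nat_lit 0x2b6a2b682b662b622b60101106) (nat_lit 0x400012a5) (nat_lit 16))))
 (.n (.n (.n (.p (nat_lit 0x1b021afc1afa1af80d450d4306) (nat_lit 0x1800011a0) (nat_lit 15))
 (.p (nat_lit 0x386d386b02) (nat_lit 0xa4c08000000) (nat_lit 35)))
 (.p (nat_lit 0x1a721a701a6e1a6c1a6a0f7d06) (nat_lit 0x100011a4) (nat_lit 15)))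
 (.n (.n (.p (nat_lit 0x11bb0e5b02) (nat_lit 0xa882) (nat_lit 19))
 (.p (nat_lit 0x3a21398f384703) (nat_lit 0xa8400008020) (nat_lit 43)))
 (.p (nat_lit 0x26eb118a02) (nat_lit 0xa848) (nat_lit 5)))))

def c256_123 : Tr := .n c512_123 c512_379

def c512_251 : Tr :=
 .n (.n (.n (.n (.n (.p (nat_lit 0x18781876187218700cdb0cd506) (nat_lit 0x240001c00) (nat_lit 15))
 (.p (nat_lit 0x23ea23e823e623e423e0137b06) (nat_lit 0x200018ab) (nat_lit 14)))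
 (.n (.p (nat_lit 0xe9b0e8302) (nat_lit 0x2803) (nat_lit 18))
 (.p (nat_lit 0x3a353929380b03) (nat_lit 0x94c00004060) (nat_lit 43))))
 (.n (.n (.p (nat_lit 0x181f0d6e02) (nat_lit 0x2021) (nat_lit 4))
 (.p (nat_lit 0x38b738b502) (nat_lit 0x4a000000800) (nat_lit 35)))
 (.p (nat_lit 0x25d425d225ce25cc0fab0fa506) (nat_lit 0x240000b05) (nat_lit 16))))
 (.n (.n (.n (.p (nat_lit 0x19e219e019de19dc0d1b0d1906) (nat_lit 0x30001960) (nat_lit 15))
 (.p (nat_lit 0x37ad378b02) (nat_lit 0xa0c00000000) (nat_lit 35)))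
 (.p (nat_lit 0x17d217d017cc17ca17c80f1706) (nat_lit 0x80001b04) (nat_lit 17)))
 (.n (.n (.p (nat_lit 0x1c5c1c5a1c561c540dfb0df506) (nat_lit 0x240000c02) (nat_lit 15))
 (.p (nat_lit 0x39bd39a102) (nat_lit 0xa180a000800) (nat_lit 35)))
 (.p (nat_lit 0x1b09105802) (nat_lit 0x4046) (nat_lit 4)))))
 (.n (.n (.n (.n (.p (nat_lit 0x226717b702) (nat_lit 0x6840) (nat_lit 11))
 (.p (nat_lit 0x20a515f402) (nat_lit 0x50) (nat_lit 4)))
 (.n (.p (nat_lit 0xef60ef50ef20ef00eee0eec002d07) (nat_lit 0x80a3) (nat_lit 7))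
 (.p (nat_lit 0x3a09396f384f03) (nat_lit 0x294000080a0) (nat_lit 44))))
 (.n (.n (.p (nat_lit 0x17c417c217c017be0db30da906) (nat_lit 0x210000b61) (nat_lit 17))
 (.p (nat_lit 0x3941393b02) (nat_lit 0x30c06000800) (nat_lit 35)))
 (.p (nat_lit 0xff30ff10fee0fec0fea0fe803b60047004509) (nat_lit 0x58865) (nat_lit 13))))
 (.n (.n (.n (.p (nat_lit 0x1aa21a9e1a9c1a9a1a980d3906) (nat_lit 0x100001b80) (nat_lit 15))
 (.p (nat_lit 0x3863384b02) (nat_lit 0x78c08000000) (nat_lit 35)))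
 (.p (nat_lit 0xffd0f6d02) (nat_lit 0x8584) (nat_lit 19)))
 (.n (.n (.p (nat_lit 0x12cd0e4d02) (nat_lit 0x8282) (nat_lit 19))
 (.p (nat_lit 0x3a1b390337bb03) (nat_lit 0xb8c00002020) (nat_lit 43)))
 (.p (nat_lit 0x10a1102902) (nat_lit 0x40a6) (nat_lit 18)))))

def c512_507 : Tr :=
 .n (.n (.n (.n (.n (.p (nat_lit 0x23a0239e239c239a0cf30ce906) (nat_lit 0x210001b20) (nat_lit 14))
 (.p (nat_lit 0x253a253625342532253014b906) (nat_lit 0x100001a0e) (nat_lit 14)))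
 (.n (.p (nat_lit 0x24330ed202) (nat_lit 0xa863) (nat_lit 5))
 (.p (nat_lit 0x3a3f38df37bf03) (nat_lit 0x29400002080) (nat_lit 43))))
 (.n (.n (.p (nat_lit 0x23ba23b823b623b20d950d9106) (nat_lit 0x50001c41) (nat_lit 14))
 (.p (nat_lit 0x38fd38ef02) (nat_lit 0xa3402000800) (nat_lit 35)))
 (.p (nat_lit 0x1a7e1a7c1a7a1a781a761a7406) (nat_lit 0x45) (nat_lit 2))))
 (.n (.n (.n (.p (nat_lit 0x252e252c252825260d2b0d2506) (nat_lit 0x90000280) (nat_lit 14))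
 (.p (nat_lit 0x380f37f302) (nat_lit 0xa9c04000000) (nat_lit 35)))
 (.p (nat_lit 0x19a619a219a0199e199c0f3106) (nat_lit 0x100000d24) (nat_lit 15)))
 (.n (.n (.p (nat_lit 0x19a619a419a0199c0e330e2f06) (nat_lit 0xa0000562) (nat_lit 15))
 (.p (nat_lit 0x39ae39ac39a839a6388f05) (nat_lit 0x340a000000) (nat_lit 36)))
 (.p (nat_lit 0x250a2508250425001073106f06) (nat_lit 0xa0001066) (nat_lit 16)))))
 (.n (.n (.n (.n (.p (nat_lit 0x19be19bc19b619b40d130d1106) (nat_lit 0xc0000060) (nat_lit 17))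
 (.p (nat_lit 0x2cab174a02) (nat_lit 0x6092) (nat_lit 5)))
 (.p (nat_lit 0x31b030f011e03) (nat_lit 0xa034003) (nat_lit 22)))
 (.n (.n (.p (nat_lit 0x1b3c1b3a1b381b340dcb0dc306) (nat_lit 0x220000c81) (nat_lit 17))
 (.p (nat_lit 0x3991397102) (nat_lit 0xb1808000800) (nat_lit 35)))
 (.p (nat_lit 0x1ad9102802) (nat_lit 0x4006) (nat_lit 4))))
 (.n (.n (.n (.p (nat_lit 0xd520d500d4e0d4d0d4b0d4802240005000309) (nat_lit 0x228a0) (nat_lit 13))
 (.p (nat_lit 0x3887388102) (nat_lit 0x4980a000000) (nat_lit 35)))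
 (.p (nat_lit 0x14090f8902) (nat_lit 0xaa4) (nat_lit 19)))
 (.n (.n (.p (nat_lit 0x22ec22e822e622e40e730e6f06) (nat_lit 0x280000aa2) (nat_lit 16))
 (.p (nat_lit 0x39df38d937bb03) (nat_lit 0x10c00002040) (nat_lit 44)))
 (.p (nat_lit 0x186e186a18681866186411b906) (nat_lit 0x100000c88) (nat_lit 17)))))

def c256_251 : Tr := .n c512_251 c512_507

def c128_123 : Tr := .n c256_123 c256_251

def c64_59 : Tr := .n c128_59 c128_123

def c32_27 : Tr := .n c64_27 c64_59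

def c16_11 : Tr := .n c32_11 c32_27

def cb4_11 : Tr := c16_11

def c512_12 : Tr :=
 .n (.n (.n (.n (.n (.p (nat_lit 0x17790cc802) (nat_lit 0x4000) (nat_lit 4))
 (.p (nat_lit 0x278d122c02) (nat_lit 0x4869) (nat_lit 5)))
 (.n (.p (nat_lit 0x186e186a1868186618640e7106) (nat_lit 0x100000ca2) (nat_lit 15))
 (.p (nat_lit 0x39df38e537c503) (nat_lit 0x42000002040) (nat_lit 44))))
 (.n (.n (.p (nat_lit 0x259a2596259225900d510d4d06) (nat_lit 0x1400018a0) (nat_lit 14))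
 (.p (nat_lit 0x3889388302) (nat_lit 0x51c0a000000) (nat_lit 35)))
 (.p (nat_lit 0x33d0339012e03) (nat_lit 0x44004) (nat_lit 22))))
 (.n (.n (.n (.p (nat_lit 0x247a2478247224700d130d1106) (nat_lit 0xc0001060) (nat_lit 16))
 (.p (nat_lit 0x7d5002002) (nat_lit 0x8041) (nat_lit 30)))
 (.p (nat_lit 0x12f0034003003) (nat_lit 0x5000a004) (nat_lit 20)))
 (.n (.n (.p (nat_lit 0x10950dc502) (nat_lit 0x4c81) (nat_lit 19))
 (.p (nat_lit 0x3983397502) (nat_lit 0x7a008000800) (nat_lit 35)))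
 (.p (nat_lit 0x102f102c102a10291026102403e60053004d09) (nat_lit 0x54006) (nat_lit 13)))))
 (.n (.n (.n (.n (.p (nat_lit 0x23ac23aa23a823a623a40cf306) (nat_lit 0x200000c20) (nat_lit 16))
 (.p (nat_lit 0x1f7314c202) (nat_lit 0x602e) (nat_lit 4)))
 (.n (.p (nat_lit 0x2966296429622960295e0ec906) (nat_lit 0x10000d63) (nat_lit 14))
 (.p (nat_lit 0x39f93921380903) (nat_lit 0x74800004080) (nat_lit 44))))
 (.n (.n (.p (nat_lit 0x11830d9302) (nat_lit 0x2941) (nat_lit 19))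
 (.p (nat_lit 0x38fd38fb02) (nat_lit 0xa4c02000800) (nat_lit 35)))
 (.p (nat_lit 0x252b0fca02) (nat_lit 0x6045) (nat_lit 5))))
 (.n (.n (.n (.p (nat_lit 0x253a2534253225300d2d0d2b06) (nat_lit 0x180001280) (nat_lit 14))
 (.p (nat_lit 0x380537fb02) (nat_lit 0x82c04000000) (nat_lit 35)))
 (.p (nat_lit 0xf450f2d02) (nat_lit 0x4824) (nat_lit 18)))
 (.n (.n (.p (nat_lit 0x11950e3502) (nat_lit 0x8062) (nat_lit 19))
 (.p (nat_lit 0x39c538d1378903) (nat_lit 0xb0800000000) (nat_lit 44)))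
 (.p (nat_lit 0x253a2538253425322530107306) (nat_lit 0x80001266) (nat_lit 14)))))

def c512_268 : Tr :=
 .n (.n (.n (.n (.n (.p (nat_lit 0x1892188e188c18880cd90cd306) (nat_lit 0x120001d00) (nat_lit 15))
 (.p (nat_lit 0x1e3d138c02) (nat_lit 0x800c) (nat_lit 4)))
 (.n (.p (nat_lit 0x23ed0e8c02) (nat_lit 0x23) (nat_lit 5))
 (.p (nat_lit 0x3a34227d02) (nat_lit 0x4860) (nat_lit 46))))
 (.n (.n (.p (nat_lit 0xd770d740d720d700d6e0d6c001707) (nat_lit 0xa021) (nat_lit 7))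
 (.p (nat_lit 0x38bf38b702) (nat_lit 0x6a400000800) (nat_lit 35)))
 (.p (nat_lit 0x10370fa702) (nat_lit 0x6805) (nat_lit 19))))
 (.n (.n (.n (.p (nat_lit 0x19ee19ec19ea19e819e40d1b06) (nat_lit 0x20000a60) (nat_lit 15))
 (.p (nat_lit 0x37a5379102) (nat_lit 0x81800000000) (nat_lit 35)))
 (.p (nat_lit 0x17dc17da17d617d40f1b0f1506) (nat_lit 0x240000c04) (nat_lit 15)))
 (.n (.n (.p (nat_lit 0x2e0d0dfc02) (nat_lit 0x22) (nat_lit 32))
 (.p (nat_lit 0x39a739a502) (nat_lit 0x4a00a000800) (nat_lit 35)))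
 (.p (nat_lit 0x25bf1b0f03f103e7014e05) (nat_lit 0x11aa046) (nat_lit 9)))))
 (.n (.n (.n (.n (.p (nat_lit 0x192e192c192a192619240d0506) (nat_lit 0x40000840) (nat_lit 15))
 (.p (nat_lit 0x20af15fe02) (nat_lit 0xa050) (nat_lit 4)))
 (.n (.p (nat_lit 0x17881786178417820ef70eed06) (nat_lit 0x2100010a3) (nat_lit 15))
 (.p (nat_lit 0x3a513977385d03) (nat_lit 0x4b0000080a0) (nat_lit 43))))
 (.n (.n (.p (nat_lit 0x228c228a2288228622840db306) (nat_lit 0x200000c61) (nat_lit 14))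
 (.p (nat_lit 0x3959393d02) (nat_lit 0x91006000800) (nat_lit 35)))
 (.p (nat_lit 0x10090ff102) (nat_lit 0x8865) (nat_lit 18))))
 (.n (.n (.n (.p (nat_lit 0x25762574257225700d330d3106) (nat_lit 0x30000d80) (nat_lit 14))
 (.p (nat_lit 0x386d384d02) (nat_lit 0xa1008000000) (nat_lit 35)))
 (.p (nat_lit 0xf7500ac02) (nat_lit 0x4884) (nat_lit 1)))
 (.n (.n (.p (nat_lit 0x2e630e5202) (nat_lit 0x2882) (nat_lit 32))
 (.p (nat_lit 0x39d5390937ef03) (nat_lit 0x11400004020) (nat_lit 44)))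
 (.p (nat_lit 0x1b6110b002) (nat_lit 0x88a6) (nat_lit 4)))))

def c256_12 : Tr := .n c512_12 c512_268

def c512_140 : Tr :=
 .n (.n (.n (.n (.n (.p (nat_lit 0x22e022de22da22d80cdb0cd506) (nat_lit 0x240001900) (nat_lit 14))
 (.p (nat_lit 0x12db12d812d612d412d212d104ee0083007909) (nat_lit 0x5088a) (nat_lit 13)))
 (.n (.p (nat_lit 0x23ac23aa23a623a40e7f0e7906) (nat_lit 0x240000403) (nat_lit 14))
 (.p (nat_lit 0x3a2c139902) (nat_lit 0x8b40) (nat_lit 48))))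
 (.n (.n (.p (nat_lit 0xf030d5302) (nat_lit 0xaaa0) (nat_lit 19))
 (.p (nat_lit 0x38b938a502) (nat_lit 0x50000000800) (nat_lit 35)))
 (.p (nat_lit 0x1b0e1b0a1b061b040f9d0f9906) (nat_lit 0x140000205) (nat_lit 15))))
 (.n (.n (.n (.p (nat_lit 0xec30d1302) (nat_lit 0x6260) (nat_lit 19))
 (.p (nat_lit 0x8dc08da08d808d608d4013c000b07) (nat_lit 0xa205) (nat_lit 28)))
 (.p (nat_lit 0x22b222ac22aa22a80f0d0f0b06) (nat_lit 0x180001504) (nat_lit 14)))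
 (.n (.n (.p (nat_lit 0x28b027b0263010004) (nat_lit 0x62a0001) (nat_lit 23))
 (.p (nat_lit 0x399b399702) (nat_lit 0x1840a000800) (nat_lit 35)))
 (.p (nat_lit 0x23282326232423201047103f06) (nat_lit 0x220001426) (nat_lit 16)))))
 (.n (.n (.n (.n (.p (nat_lit 0x23e823e623e423e20cff0cf506) (nat_lit 0x210001040) (nat_lit 14))
 (.p (nat_lit 0x2ab1155002) (nat_lit 0x402f) (nat_lit 5)))
 (.n (.p (nat_lit 0xf6f0edf02) (nat_lit 0xa483) (nat_lit 19))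
 (.p (nat_lit 0x3a4822a902) (nat_lit 0x8a0) (nat_lit 46))))
 (.n (.n (.p (nat_lit 0x180017fe17fc17fa17f80da706) (nat_lit 0x200001561) (nat_lit 15))
 (.p (nat_lit 0x3923391f02) (nat_lit 0x7b404000800) (nat_lit 35)))
 (.p (nat_lit 0x1a421a401a3e1a3c1a3a0fd106) (nat_lit 0x10001d45) (nat_lit 17))))
 (.n (.n (.n (.p (nat_lit 0xd3a0d380d360d350d330d3002240005000309) (nat_lit 0x22880) (nat_lit 13))
 (.p (nat_lit 0x3841381f02) (nat_lit 0xb1406000000) (nat_lit 35)))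
 (.p (nat_lit 0x19fd0f4c02) (nat_lit 0x64) (nat_lit 4)))
 (.n (.n (.p (nat_lit 0x18fd0e4c02) (nat_lit 0x8082) (nat_lit 4))
 (.p (nat_lit 0x3a100e6d02) (nat_lit 0x4a00) (nat_lit 48)))
 (.p (nat_lit 0x108e108c108a108810861085004907) (nat_lit 0x86) (nat_lit 7)))))

def c512_396 : Tr :=
 .n (.n (.n (.n (.n (.p (nat_lit 0x22490ce802) (nat_lit 0x820) (nat_lit 5))
 (.p (nat_lit 0x1ecd141c02) (nat_lit 0x800d) (nat_lit 4)))
 (.n (.p (nat_lit 0x240d0eac02) (nat_lit 0x8043) (nat_lit 5))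
 (.p (nat_lit 0x3a3b399b388303) (nat_lit 0x19c0000a060) (nat_lit 43))))
 (.n (.n (.p (nat_lit 0x183f0d8e02) (nat_lit 0xa041) (nat_lit 4))
 (.p (nat_lit 0x38eb38d702) (nat_lit 0x58402000800) (nat_lit 35)))
 (.p (nat_lit 0xfc20fc00fbf0fbc0fba0fb8004307) (nat_lit 0x6825) (nat_lit 7))))
 (.n (.n (.n (.p (nat_lit 0xfed0d1d02) (nat_lit 0x4c60) (nat_lit 19))
 (.p (nat_lit 0x37d937b902) (nat_lit 0x90802000000) (nat_lit 35)))
 (.p (nat_lit 0x245424522450244e0f270f1d06) (nat_lit 0x210000524) (nat_lit 14)))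
 (.n (.n (.p (nat_lit 0xe29008002) (nat_lit 0x8842) (nat_lit 1))
 (.p (nat_lit 0x38cc38c638c437ad04) (nat_lit 0x5000000000) (nat_lit 36)))
 (.p (nat_lit 0x1786178417821780106b106906) (nat_lit 0x300001846) (nat_lit 15)))))
 (.n (.n (.n (.n (.p (nat_lit 0x245624522450244e0d090d0106) (nat_lit 0x110000d40) (nat_lit 16))
 (.p (nat_lit 0x372f00e302) (nat_lit 0xa052) (nat_lit 33)))
 (.p (nat_lit 0x2252224e224c224a22480f0106) (nat_lit 0x1000019a3) (nat_lit 14)))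
 (.n (.n (.p (nat_lit 0x1b4a1b481b441b420dbb0db506) (nat_lit 0x90001481) (nat_lit 17))
 (.p (nat_lit 0x3987396502) (nat_lit 0x88008000800) (nat_lit 35)))
 (.p (nat_lit 0x257b101a02) (nat_lit 0x28a5) (nat_lit 5))))
 (.n (.n (.n (.p (nat_lit 0x25ca25c825c225c00d430d4106) (nat_lit 0xc00012a0) (nat_lit 16))
 (.p (nat_lit 0x3870386e386c384c3846384422a507) (nat_lit 0x80000a0) (nat_lit 38)))
 (.p (nat_lit 0x256a2568256625620f810f7d06) (nat_lit 0x500014a4) (nat_lit 14)))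
 (.n (.n (.p (nat_lit 0x2e6f0e5e02) (nat_lit 0x20a2) (nat_lit 32))
 (.p (nat_lit 0x39d93979385903) (nat_lit 0x52800008020) (nat_lit 44)))
 (.p (nat_lit 0x31a1119002) (nat_lit 0x4068) (nat_lit 32)))))

def c256_140 : Tr := .n c512_140 c512_396

def c128_12 : Tr := .n c256_12 c256_140

def c512_76 : Tr :=
 .n (.n (.n (.n (.n (.p (nat_lit 0xe770cc702) (nat_lit 0x2200) (nat_lit 19))
 (.p (nat_lit 0x1d6f12be02) (nat_lit 0x686a) (nat_lit 4)))
 (.n (.p (nat_lit 0x11d00280026002404) (nat_lit 0x70008003) (nat_lit 20))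
 (.p (nat_lit 0x3a2d3965384703) (nat_lit 0x400008040) (nat_lit 43))))
 (.n (.n (.p (nat_lit 0x1b261b201b1e1b1c0d510d4f06) (nat_lit 0x180000ba0) (nat_lit 15))
 (.p (nat_lit 0x3897388f02) (nat_lit 0x8b40a000000) (nat_lit 35)))
 (.p (nat_lit 0x13f0044004203) (nat_lit 0x18000a005) (nat_lit 20))))
 (.n (.n (.n (.p (nat_lit 0x1a1e1a1c1a181a140d130d0f06) (nat_lit 0xa0000460) (nat_lit 15))
 (.p (nat_lit 0x8580856085408520850011c002307) (nat_lit 0xa523) (nat_lit 28)))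
 (.p (nat_lit 0x178a17881786178217800f0906) (nat_lit 0x40001004) (nat_lit 17)))
 (.n (.n (.p (nat_lit 0xde20de00dde0ddc0dda0dd9000d07) (nat_lit 0x8a1) (nat_lit 7))
 (.p (nat_lit 0x3987398102) (nat_lit 0x8b808000800) (nat_lit 35)))
 (.p (nat_lit 0x104f103702) (nat_lit 0x6806) (nat_lit 18)))))
 (.n (.n (.n (.n (.p (nat_lit 0xd7f0cef02) (nat_lit 0x6820) (nat_lit 19))
 (.p (nat_lit 0x1a421a3e1a3c1a3a1a3814d106) (nat_lit 0x100001d2e) (nat_lit 15)))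
 (.n (.p (nat_lit 0x19be19bc19b819b619b40edb06) (nat_lit 0x80000083) (nat_lit 15))
 (.p (nat_lit 0x39fd3979385f03) (nat_lit 0x53400008080) (nat_lit 44))))
 (.n (.n (.p (nat_lit 0x22522250224e224c224a0d9d06) (nat_lit 0x10001161) (nat_lit 14))
 (.p (nat_lit 0x392d390b02) (nat_lit 0xa0c04000800) (nat_lit 35)))
 (.p (nat_lit 0xfda0fd80fd60fd40fd20fd1003d07) (nat_lit 0x845) (nat_lit 7))))
 (.n (.n (.n (.p (nat_lit 0xe4b0d2b02) (nat_lit 0x6180) (nat_lit 19))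
 (.p (nat_lit 0x3825381502) (nat_lit 0x40006000000) (nat_lit 35)))
 (.p (nat_lit 0x1eb61eb21eb01eae1eac0f3d06) (nat_lit 0x100000544) (nat_lit 17)))
 (.n (.n (.p (nat_lit 0x196a19681966196419620e3906) (nat_lit 0x10001a62) (nat_lit 15))
 (.p (nat_lit 0x39c738ff37b703) (nat_lit 0xa8400002000) (nat_lit 44)))
 (.p (nat_lit 0x10821080107e107c107b107903c6004b004909) (nat_lit 0x10866) (nat_lit 13)))))

def c512_332 : Tr :=
 .n (.n (.n (.n (.n (.p (nat_lit 0x234c2348234623440ce70ce306) (nat_lit 0x280000020) (nat_lit 14))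
 (.p (nat_lit 0x1eb1140002) (nat_lit 0x40ac) (nat_lit 4)))
 (.n (.p (nat_lit 0x23fb194b030302f5011e05) (nat_lit 0x1052823) (nat_lit 9))
 (.p (nat_lit 0x39f13979385f03) (nat_lit 0x53400008060) (nat_lit 44))))
 (.n (.n (.p (nat_lit 0xd830d810d7e0d7c0d7a0d7802960017001509) (nat_lit 0x58821) (nat_lit 13))
 (.p (nat_lit 0x38d138c302) (nat_lit 0xb3c00000800) (nat_lit 35)))
 (.p (nat_lit 0x17b817b617b417b00fb70faf06) (nat_lit 0x220001225) (nat_lit 15))))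
 (.n (.n (.n (.p (nat_lit 0x24e624e424e224e00d1b0d1906) (nat_lit 0x30000d60) (nat_lit 14))
 (.p (nat_lit 0x37b137a702) (nat_lit 0xb4400000000) (nat_lit 35)))
 (.p (nat_lit 0x19cf0f1e02) (nat_lit 0x2024) (nat_lit 4)))
 (.n (.n (.p (nat_lit 0xe19007c02) (nat_lit 0x4042) (nat_lit 1))
 (.p (nat_lit 0x39b539b302) (nat_lit 0x83c0a000800) (nat_lit 35)))
 (.p (nat_lit 0x17f417f217f017ee17ec105f06) (nat_lit 0x200000546) (nat_lit 17)))))
 (.n (.n (.n (.n (.p (nat_lit 0x195e195c195819560d070d0106) (nat_lit 0x90000a40) (nat_lit 17))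
 (.p (nat_lit 0x2b73161202) (nat_lit 0x6070) (nat_lit 5)))
 (.n (.p (nat_lit 0x1802180017fc17fa17f80ef306) (nat_lit 0x800015a3) (nat_lit 17))
 (.p (nat_lit 0x3a5339a3388b03) (nat_lit 0x3ac0000a0a0) (nat_lit 43))))
 (.n (.n (.p (nat_lit 0xdbb004e02) (nat_lit 0x6081) (nat_lit 1))
 (.p (nat_lit 0x3963394502) (nat_lit 0xba006000800) (nat_lit 35)))
 (.p (nat_lit 0x301d003d02) (nat_lit 0xa5) (nat_lit 33))))
 (.n (.n (.n (.p (nat_lit 0x17f10d4002) (nat_lit 0x40a0) (nat_lit 4))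
 (.p (nat_lit 0x385d385902) (nat_lit 0x62808000000) (nat_lit 35)))
 (.p (nat_lit 0x1a2d0f7c02) (nat_lit 0xa4) (nat_lit 4)))
 (.n (.n (.p (nat_lit 0x17d217ce17ca17c80e590e5506) (nat_lit 0x140001b82) (nat_lit 15))
 (.p (nat_lit 0x3a1f3949382f03) (nat_lit 0x53400006020) (nat_lit 43)))
 (.p (nat_lit 0x265910f802) (nat_lit 0x8847) (nat_lit 5)))))

def c256_76 : Tr := .n c512_76 c512_332

def c512_204 : Tr :=
 .n (.n (.n (.n (.n (.p (nat_lit 0x1862185e185c18580cd90cd306) (nat_lit 0x120001b00) (nat_lit 17))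
 (.p (nat_lit 0x28511da1051f0503018e05) (nat_lit 0xd588aa) (nat_lit 9)))
 (.n (.p (nat_lit 0x236423622360235c0e8b0e8306) (nat_lit 0x220000903) (nat_lit 14))
 (.p (nat_lit 0x39e80fc502) (nat_lit 0x560) (nat_lit 47))))
 (.n (.n (.p (nat_lit 0x22bd0d5c02) (nat_lit 0x8001) (nat_lit 5))
 (.p (nat_lit 0x38b938ad02) (nat_lit 0x51000000800) (nat_lit 35)))
 (.p (nat_lit 0xfa9005002) (nat_lit 0x8805) (nat_lit 1))))
 (.n (.n (.n (.p (nat_lit 0x246e246c2468246624640d1f06) (nat_lit 0x80000860) (nat_lit 16))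
 (.p (nat_lit 0xa6f007b02) (nat_lit 0x208a) (nat_lit 31)))
 (.p (nat_lit 0x22442240223e223c0f1b0f1706) (nat_lit 0x280000904) (nat_lit 14)))
 (.n (.n (.p (nat_lit 0x271a27162714271227100ded06) (nat_lit 0x100001402) (nat_lit 14))
 (.p (nat_lit 0x39a3399d02) (nat_lit 0x3900a000800) (nat_lit 35)))
 (.p (nat_lit 0x22ee22ec22e822e622e4104f06) (nat_lit 0x80000a26) (nat_lit 14)))))
 (.n (.n (.n (.n (.p (nat_lit 0x2462245e245c245a0cfd0cf506) (nat_lit 0x110001540) (nat_lit 16))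
 (.p (nat_lit 0x2b4515e402) (nat_lit 0x8030) (nat_lit 5)))
 (.n (.p (nat_lit 0x1a121a101a0c1a080ee70ee306) (nat_lit 0xa0001b83) (nat_lit 15))
 (.p (nat_lit 0x3a4f393f381f03) (nat_lit 0x294000060a0) (nat_lit 43))))
 (.n (.n (.p (nat_lit 0x178a17881786178417820da906) (nat_lit 0x10001861) (nat_lit 17))
 (.p (nat_lit 0x394d393502) (nat_lit 0x60006000800) (nat_lit 35)))
 (.p (nat_lit 0x2a1a2a182a162a120fe10fdd06) (nat_lit 0x50001065) (nat_lit 16))))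
 (.n (.n (.n (.p (nat_lit 0x1a701a6e1a6c1a680d3b0d3306) (nat_lit 0x220001980) (nat_lit 17))
 (.p (nat_lit 0x3873384502) (nat_lit 0xb8008000000) (nat_lit 35)))
 (.p (nat_lit 0x1a190f6802) (nat_lit 0x4084) (nat_lit 4)))
 (.n (.n (.p (nat_lit 0x2280227e227c22780e4f0e4706) (nat_lit 0x220001382) (nat_lit 14))
 (.p (nat_lit 0x39cf3997387703) (nat_lit 0x840000a000) (nat_lit 44)))
 (.p (nat_lit 0x1b47109602) (nat_lit 0x6886) (nat_lit 4)))))

def c512_460 : Tr :=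
 .n (.n (.n (.n (.n (.p (nat_lit 0x18b418b218b018ae18ac0cf306) (nat_lit 0x200000920) (nat_lit 17))
 (.p (nat_lit 0x2a0f14ae02) (nat_lit 0xa00e) (nat_lit 5)))
 (.n (.p (nat_lit 0xec70ec40ec20ec10ebe0ebc030e002f002909) (nat_lit 0x54063) (nat_lit 13))
 (.p (nat_lit 0x39f538bb37a103) (nat_lit 0x5b800000080) (nat_lit 44))))
 (.n (.n (.p (nat_lit 0xd9a0d980d960d940d920d91000d07) (nat_lit 0x841) (nat_lit 7))
 (.p (nat_lit 0x38f538df02) (nat_lit 0x81402000800) (nat_lit 35)))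
 (.p (nat_lit 0x228e228a2288228622840fc106) (nat_lit 0x100000c25) (nat_lit 16))))
 (.n (.n (.n (.p (nat_lit 0x1a5a1a581a541a500d2b0d2706) (nat_lit 0xa0001080) (nat_lit 15))
 (.p (nat_lit 0x37f337e502) (nat_lit 0x38004000000) (nat_lit 35)))
 (.p (nat_lit 0xf320f300f2f0f2c0f2a0f29033a0037003109) (nat_lit 0x30824) (nat_lit 13)))
 (.n (.n (.p (nat_lit 0xe360e350e320e300e2e0e2c002107) (nat_lit 0x8062) (nat_lit 7))
 (.p (nat_lit 0x3950394e394a3948383105) (nat_lit 0x3806000000) (nat_lit 36)))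
 (.p (nat_lit 0x1729106902) (nat_lit 0x8846) (nat_lit 19)))))
 (.n (.n (.n (.n (.p (nat_lit 0x10610d0102) (nat_lit 0xd40) (nat_lit 19))
 (.p (nat_lit 0x21e7173602) (nat_lit 0xa072) (nat_lit 4)))
 (.p (nat_lit 0xf910f0102) (nat_lit 0x8ca3) (nat_lit 19)))
 (.n (.n (.p (nat_lit 0xdca0dc90dc60dc40dc20dc102640015000d09) (nat_lit 0x40881) (nat_lit 13))
 (.p (nat_lit 0x3977396d02) (nat_lit 0x49008000800) (nat_lit 35)))
 (.p (nat_lit 0x38f0383013e03) (nat_lit 0x6010005) (nat_lit 22))))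
 (.n (.n (.n (.p (nat_lit 0x10150d4502) (nat_lit 0x84a0) (nat_lit 19))
 (.p (nat_lit 0x3885387b02) (nat_lit 0x40c0a000000) (nat_lit 35)))
 (.p (nat_lit 0x24fe24fc24f624f40f8f0f8d06) (nat_lit 0xc00008a4) (nat_lit 14)))
 (.n (.n (.p (nat_lit 0xef70e6702) (nat_lit 0xa3a2) (nat_lit 19))
 (.p (nat_lit 0x39dd38b5379d03) (nat_lit 0x43000000040) (nat_lit 44)))
 (.p (nat_lit 0x1c5911a802) (nat_lit 0x4088) (nat_lit 4)))))

def c256_204 : Tr := .n c512_204 c512_460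

def c128_76 : Tr := .n c256_76 c256_204

def c64_12 : Tr := .n c128_12 c128_76

def c512_44 : Tr :=
 .n (.n (.n (.n (.n (.p (nat_lit 0x23122310230e230c0cc70cc506) (nat_lit 0x30001300) (nat_lit 16))
 (.p (nat_lit 0x27a9124802) (nat_lit 0x8889) (nat_lit 5)))
 (.n (.p (nat_lit 0x2bb02b7010e03) (nat_lit 0x2056002) (nat_lit 22))
 (.p (nat_lit 0x39e33939381f03) (nat_lit 0x11400006040) (nat_lit 44))))
 (.n (.n (.p (nat_lit 0x25be25bc25b625b40d4f0d4d06) (nat_lit 0xc0000aa0) (nat_lit 16))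
 (.p (nat_lit 0x38a3388702) (nat_lit 0xba40a000000) (nat_lit 35)))
 (.p (nat_lit 0x3630361012e03) (nat_lit 0x6058004) (nat_lit 22))))
 (.n (.n (.n (.p (nat_lit 0x2490248e248c248a0d170d0d06) (nat_lit 0x210001160) (nat_lit 14))
 (.p (nat_lit 0x825001d02) (nat_lit 0x4062) (nat_lit 31)))
 (.p (nat_lit 0x12d003a0038003404) (nat_lit 0x340008004) (nat_lit 20)))
 (.n (.n (.p (nat_lit 0xdd60dd40dd30dd00dcf0dcc026e0013000f09) (nat_lit 0x320a1) (nat_lit 13))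
 (.p (nat_lit 0x398d397902) (nat_lit 0xa2808000800) (nat_lit 35)))
 (.p (nat_lit 0x1ae7103602) (nat_lit 0x6806) (nat_lit 4)))))
 (.n (.n (.n (.n (.p (nat_lit 0x19161914190e190c0cef0ced06) (nat_lit 0xc0000d20) (nat_lit 15))
 (.p (nat_lit 0x1f7d14cc02) (nat_lit 0x482e) (nat_lit 4)))
 (.n (.p (nat_lit 0x2ee90ed802) (nat_lit 0x4083) (nat_lit 32))
 (.p (nat_lit 0x3a42228b02) (nat_lit 0x6080) (nat_lit 46))))
 (.n (.n (.p (nat_lit 0x2db1001102) (nat_lit 0x4061) (nat_lit 33))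
 (.p (nat_lit 0x3927390502) (nat_lit 0x88004000800) (nat_lit 35)))
 (.p (nat_lit 0x19f819f419f219f00fcf0fcb06) (nat_lit 0x280001245) (nat_lit 17))))
 (.n (.n (.n (.p (nat_lit 0x1ac61ac41ac21ac00d270d2506) (nat_lit 0x30000580) (nat_lit 15))
 (.p (nat_lit 0x3809380702) (nat_lit 0x94404000000) (nat_lit 35)))
 (.p (nat_lit 0x19eb0f3a02) (nat_lit 0x6044) (nat_lit 4)))
 (.n (.n (.p (nat_lit 0x23a10e4002) (nat_lit 0x8862) (nat_lit 5))
 (.p (nat_lit 0x3a0d38c537a503) (nat_lit 0x84000000000) (nat_lit 43)))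
 (.p (nat_lit 0x1b29107802) (nat_lit 0x866) (nat_lit 4)))))

def c512_300 : Tr :=
 .n (.n (.n (.n (.n (.p (nat_lit 0xf190cd902) (nat_lit 0x8b00) (nat_lit 19))
 (.p (nat_lit 0x19a619a419a219a0199c139306) (nat_lit 0x20000d0c) (nat_lit 15)))
 (.n (.p (nat_lit 0x1d7e1d7a1d781d760e950e8d06) (nat_lit 0x110000423) (nat_lit 17))
 (.p (nat_lit 0x39ee17cf02) (nat_lit 0x6860) (nat_lit 45))))
 (.n (.n (.p (nat_lit 0xd820d800d7e0d7c0d7a0d79000d07) (nat_lit 0x821) (nat_lit 7))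
 (.p (nat_lit 0x38bf38bd02) (nat_lit 0x6b000000800) (nat_lit 35)))
 (.p (nat_lit 0x1a670fb602) (nat_lit 0xa025) (nat_lit 4))))
 (.n (.n (.n (.p (nat_lit 0x1a061a0219fe19fc0d210d1d06) (nat_lit 0x140000b60) (nat_lit 17))
 (.p (nat_lit 0x37ad379d02) (nat_lit 0xa3000000000) (nat_lit 35)))
 (.p (nat_lit 0x180017fe17fa17f80f1b0f1506) (nat_lit 0x240001d04) (nat_lit 15)))
 (.n (.n (.p (nat_lit 0x23690e0802) (nat_lit 0x822) (nat_lit 5))
 (.p (nat_lit 0x39b939a902) (nat_lit 0x9280a000800) (nat_lit 35)))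
 (.p (nat_lit 0x17c617c217c017be17bc105d06) (nat_lit 0x100000346) (nat_lit 15)))))
 (.n (.n (.n (.n (.p (nat_lit 0x19361934193219300d0b0d0906) (nat_lit 0x300001840) (nat_lit 15))
 (.p (nat_lit 0x2b67160602) (nat_lit 0x6850) (nat_lit 5)))
 (.n (.p (nat_lit 0x227622722270226e226c0ef506) (nat_lit 0x1000003a3) (nat_lit 14))
 (.p (nat_lit 0x3a5015e502) (nat_lit 0x84a0) (nat_lit 48))))
 (.n (.n (.p (nat_lit 0x11a10db102) (nat_lit 0x8961) (nat_lit 19))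
 (.p (nat_lit 0x3953394102) (nat_lit 0x79806000800) (nat_lit 35)))
 (.p (nat_lit 0x100100b402) (nat_lit 0x885) (nat_lit 1))))
 (.n (.n (.n (.p (nat_lit 0xe5b0d3b02) (nat_lit 0xa980) (nat_lit 19))
 (.p (nat_lit 0x386d385302) (nat_lit 0xa1c08000000) (nat_lit 35)))
 (.p (nat_lit 0xf7b0f790f760f740f720f70036e003b003909) (nat_lit 0x58884) (nat_lit 13)))
 (.n (.n (.p (nat_lit 0x17a217a0179e179c0e530e5106) (nat_lit 0x30001982) (nat_lit 17))
 (.p (nat_lit 0x3a1c0e8502) (nat_lit 0x4b20) (nat_lit 48)))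
 (.p (nat_lit 0x3f303f103d7015004) (nat_lit 0x62c2006) (nat_lit 23)))))

def c256_44 : Tr := .n c512_44 c512_300

def c512_172 : Tr :=
 .n (.n (.n (.n (.n (.p (nat_lit 0x22f622f422f222f00cdb0cd906) (nat_lit 0x300001a00) (nat_lit 14))
 (.p (nat_lit 0x239423922390238e238c12e706) (nat_lit 0x2000003aa) (nat_lit 14)))
 (.n (.p (nat_lit 0x2e930e8202) (nat_lit 0x2803) (nat_lit 32))
 (.p (nat_lit 0x3a2f39b3389303) (nat_lit 0x7bc0000a040) (nat_lit 43))))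
 (.n (.n (.p (nat_lit 0x24f02410229021d04) (nat_lit 0x9590000) (nat_lit 24))
 (.p (nat_lit 0x38d338a702) (nat_lit 0xb8400000800) (nat_lit 35)))
 (.p (nat_lit 0x14a90f9902) (nat_lit 0x4305) (nat_lit 19))))
 (.n (.n (.n (.p (nat_lit 0xd220d200d1e0d1c0d1b0d18000307) (nat_lit 0x2860) (nat_lit 7))
 (.l (nat_lit 0x415000000000000080200) (nat_lit 0x46226) (nat_lit 29)))
 (.p (nat_lit 0xf1a0f180f160f150f120f10003507) (nat_lit 0x4804) (nat_lit 7)))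
 (.n (.n (.p (nat_lit 0x23450de402) (nat_lit 0x2) (nat_lit 5))
 (.p (nat_lit 0x39b1399902) (nat_lit 0x7080a000800) (nat_lit 35)))
 (.p (nat_lit 0x25af104e02) (nat_lit 0x6826) (nat_lit 5)))))
 (.n (.n (.n (.n (.p (nat_lit 0x19821980197e197c0cf70cf506) (nat_lit 0x30001340) (nat_lit 15))
 (.p (nat_lit 0x2acd156c02) (nat_lit 0x804f) (nat_lit 5)))
 (.n (.p (nat_lit 0xeeb0ee80ee60ee40ee20ee0002f07) (nat_lit 0xa883) (nat_lit 7))
 (.p (nat_lit 0x3a4d391f380503) (nat_lit 0x6c0000040a0) (nat_lit 43))))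
 (.n (.n (.p (nat_lit 0xdb20db00dae0dac0daa0da9000d07) (nat_lit 0x861) (nat_lit 7))
 (.p (nat_lit 0x392f392702) (nat_lit 0xac404000800) (nat_lit 35)))
 (.p (nat_lit 0x2fef0fde02) (nat_lit 0x2065) (nat_lit 32))))
 (.n (.n (.n (.p (nat_lit 0x25082506250425020d3b0d3106) (nat_lit 0x210001880) (nat_lit 14))
 (.p (nat_lit 0x3837382702) (nat_lit 0x8a406000000) (nat_lit 35)))
 (.p (nat_lit 0xf620f600f5e0f5c0f5b0f58003307) (nat_lit 0x2864) (nat_lit 7)))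
 (.n (.n (.p (nat_lit 0x2252224c224a22480e4d0e4b06) (nat_lit 0x180001182) (nat_lit 16))
 (.p (nat_lit 0x39cd3977385703) (nat_lit 0x4a400008000) (nat_lit 44)))
 (.p (nat_lit 0x108f108c108a10881087108403da0053004b09) (nat_lit 0x52086) (nat_lit 13)))))

def c512_428 : Tr :=
 .n (.n (.n (.n (.n (.p (nat_lit 0x189e189a189818940cf10ceb06) (nat_lit 0x120000820) (nat_lit 15))
 (.p (nat_lit 0x1f761f741f701f6e1f6c149306) (nat_lit 0x800001ad) (nat_lit 15)))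
 (.n (.p (nat_lit 0xf430eb302) (nat_lit 0x2c43) (nat_lit 19))
 (.p (nat_lit 0x39f339b938a103) (nat_lit 0x9580000a060) (nat_lit 44))))
 (.n (.n (.p (nat_lit 0x1916191419121910190e0d8506) (nat_lit 0x10000541) (nat_lit 17))
 (.p (nat_lit 0x38fd38db02) (nat_lit 0xa0c02000800) (nat_lit 35)))
 (.p (nat_lit 0x17941792178e178c0fc30fbd06) (nat_lit 0x240000925) (nat_lit 17))))
 (.n (.n (.n (.p (nat_lit 0x17dd0d2c02) (nat_lit 0x8080) (nat_lit 4))
 (.p (nat_lit 0x37d937bf02) (nat_lit 0x91402000000) (nat_lit 35)))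
 (.p (nat_lit 0x2f390f2802) (nat_lit 0x824) (nat_lit 32)))
 (.n (.n (.p (nat_lit 0xe3d0e2502) (nat_lit 0x4842) (nat_lit 18))
 (.p (nat_lit 0x390e390c3908390637ef05) (nat_lit 0x1404000000) (nat_lit 36)))
 (.p (nat_lit 0x228e228c228a22862284106506) (nat_lit 0x40000c46) (nat_lit 14)))))
 (.n (.n (.n (.n (.p (nat_lit 0xd210d0902) (nat_lit 0x8840) (nat_lit 18))
 (.p (nat_lit 0x2c89172802) (nat_lit 0x8852) (nat_lit 5)))
 (.p (nat_lit 0x17de17dc17d817d617d40eff06) (nat_lit 0x80000ca3) (nat_lit 15)))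
 (.n (.n (.p (nat_lit 0x2dd1000d02) (nat_lit 0x881) (nat_lit 33))
 (.p (nat_lit 0x3975396902) (nat_lit 0x40808000800) (nat_lit 35)))
 (.p (nat_lit 0x10221020101f101c101b1018038e0043003f09) (nat_lit 0x328a5) (nat_lit 13))))
 (.n (.n (.n (.p (nat_lit 0x25ec25e825e625e40d470d4306) (nat_lit 0x2800004a0) (nat_lit 14))
 (.p (nat_lit 0x3893387702) (nat_lit 0x7840a000000) (nat_lit 35)))
 (.p (nat_lit 0x2f9b003302) (nat_lit 0x28a4) (nat_lit 33)))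
 (.n (.n (.p (nat_lit 0x22fa22f822f622f20e610e5d06) (nat_lit 0x500012a2) (nat_lit 16))
 (.p (nat_lit 0x39db3999387b03) (nat_lit 0x10c0000a020) (nat_lit 44)))
 (.p (nat_lit 0x26f9119802) (nat_lit 0x868) (nat_lit 5)))))

def c256_172 : Tr := .n c512_172 c512_428

def c128_44 : Tr := .n c256_44 c256_172

def c512_108 : Tr :=
 .n (.n (.n (.n (.n (.p (nat_lit 0xcdb001602) (nat_lit 0xa800) (nat_lit 1))
 (.p (nat_lit 0x192e192c192a1926192412c906) (nat_lit 0x4000008a) (nat_lit 15)))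
 (.n (.p (nat_lit 0xe7e0e7c0e7b0e780e760e74002b07) (nat_lit 0x6003) (nat_lit 7))
 (.p (nat_lit 0x39e5397f386503) (nat_lit 0x6c000008040) (nat_lit 44))))
 (.n (.n (.p (nat_lit 0x1b4a1b461b441b400d510d4b06) (nat_lit 0x120001ca0) (nat_lit 15))
 (.p (nat_lit 0x38a3389902) (nat_lit 0xbc80a000000) (nat_lit 35)))
 (.p (nat_lit 0xf9e0f9c0f9b0f980f960f94004307) (nat_lit 0x6005) (nat_lit 7))))
 (.n (.n (.n (.p (nat_lit 0x1a421a401a3e1a3c0d0f0d0d06) (nat_lit 0x30001560) (nat_lit 15))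
 (.p (nat_lit 0x8a1003902) (nat_lit 0x8024) (nat_lit 31)))
 (.p (nat_lit 0x22822280227e227a22780f0906) (nat_lit 0x40001304) (nat_lit 16)))
 (.n (.n (.p (nat_lit 0xe6b0ddb02) (nat_lit 0x2aa1) (nat_lit 19))
 (.p (nat_lit 0x398e398c398839863984396417a107) (nat_lit 0x8000820) (nat_lit 37)))
 (.p (nat_lit 0x25a7104602) (nat_lit 0xa026) (nat_lit 5)))))
 (.n (.n (.n (.n (.p (nat_lit 0x10530cf302) (nat_lit 0xad20) (nat_lit 19))
 (.p (nat_lit 0x2a8b152a02) (nat_lit 0x28ae) (nat_lit 5)))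
 (.n (.p (nat_lit 0x1a2a1a281a261a241a200ed706) (nat_lit 0x20001483) (nat_lit 17))
 (.p (nat_lit 0x39ff39a3388b03) (nat_lit 0x3ac0000a080) (nat_lit 44))))
 (.n (.n (.p (nat_lit 0x17d217ce17cc17c80da50d9f06) (nat_lit 0x120001361) (nat_lit 17))
 (.p (nat_lit 0x392d391502) (nat_lit 0xa2004000800) (nat_lit 35)))
 (.p (nat_lit 0xfda0fd80fd70fd40fd20fd103820043003d09) (nat_lit 0x30845) (nat_lit 13))))
 (.n (.n (.n (.p (nat_lit 0x229017e00d3103) (nat_lit 0x880) (nat_lit 6))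
 (.p (nat_lit 0x3823381d02) (nat_lit 0x39006000000) (nat_lit 35)))
 (.p (nat_lit 0x24a719f703630355012e05) (nat_lit 0x1156844) (nat_lit 9)))
 (.n (.n (.p (nat_lit 0x11a30e4302) (nat_lit 0xa862) (nat_lit 19))
 (.p (nat_lit 0x3a0f38ff37df03) (nat_lit 0xad400002000) (nat_lit 43)))
 (.p (nat_lit 0x1a721a701a6c1a6a1a68107f06) (nat_lit 0x80001966) (nat_lit 15)))))

def c512_364 : Tr :=
 .n (.n (.n (.n (.n (.p (nat_lit 0x23d223d023ca23c80ce30ce106) (nat_lit 0xc0001520) (nat_lit 14))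
 (.p (nat_lit 0x296b140a02) (nat_lit 0x28ac) (nat_lit 5)))
 (.n (.p (nat_lit 0x1d8a1d881d861d841d800e9b06) (nat_lit 0x20001c23) (nat_lit 17))
 (.p (nat_lit 0x39f13991387303) (nat_lit 0xb5c00008060) (nat_lit 44))))
 (.n (.n (.p (nat_lit 0x104f0d7f02) (nat_lit 0x6c21) (nat_lit 19))
 (.p (nat_lit 0x38d038ce38cc38ac38a638a422a907) (nat_lit 0x8a0) (nat_lit 38)))
 (.p (nat_lit 0xfc50fad02) (nat_lit 0x25) (nat_lit 18))))
 (.n (.n (.n (.p (nat_lit 0xd310d1902) (nat_lit 0x860) (nat_lit 18))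
 (.p (nat_lit 0x37df37b502) (nat_lit 0xa8002000000) (nat_lit 35)))
 (.p (nat_lit 0x23ea23e823e623e423e20f1d06) (nat_lit 0x10001024) (nat_lit 14)))
 (.n (.n (.p (nat_lit 0x2850284c284a28480e1f0e1b06) (nat_lit 0x280001542) (nat_lit 16))
 (.p (nat_lit 0x39ac39a639a439a0399e399c225307) (nat_lit 0xa000820) (nat_lit 38)))
 (.p (nat_lit 0x1b15106402) (nat_lit 0x4846) (nat_lit 4)))))
 (.n (.n (.n (.n (.p (nat_lit 0x243e2438243624340d090d0706) (nat_lit 0x180000c40) (nat_lit 14))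
 (.p (nat_lit 0x2c6f170e02) (nat_lit 0x6832) (nat_lit 5)))
 (.n (.p (nat_lit 0x245d19ad032702f1011e05) (nat_lit 0x16048a3) (nat_lit 9))
 (.p (nat_lit 0x3a0b39bb389b03) (nat_lit 0x9cc0000a0a0) (nat_lit 44))))
 (.n (.n (.p (nat_lit 0x1af41af21af01aee0dbf0db506) (nat_lit 0x210000181) (nat_lit 17))
 (.p (nat_lit 0x395f395102) (nat_lit 0xab806000800) (nat_lit 35)))
 (.p (nat_lit 0x208a2088208620842080100f06) (nat_lit 0x200010a5) (nat_lit 15))))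
 (.n (.n (.n (.p (nat_lit 0x1aea1ae81ae61ae21ae00d4106) (nat_lit 0x400010a0) (nat_lit 15))
 (.p (nat_lit 0x3865386102) (nat_lit 0x83808000000) (nat_lit 35)))
 (.p (nat_lit 0xf860f840f820f810f7f0f7c03440035003309) (nat_lit 0x220a4) (nat_lit 13)))
 (.n (.n (.p (nat_lit 0x22b222ae22ac22aa22a80e5906) (nat_lit 0x100001d82) (nat_lit 14))
 (.p (nat_lit 0x3a1f395b384303) (nat_lit 0x9dc00006020) (nat_lit 43)))
 (.p (nat_lit 0x2673111202) (nat_lit 0xa867) (nat_lit 5)))))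

def c256_108 : Tr := .n c512_108 c512_364

def c512_236 : Tr :=
 .n (.n (.n (.n (.n (.p (nat_lit 0x187a18781876187218700cd506) (nat_lit 0x40001c00) (nat_lit 15))
 (.p (nat_lit 0x1e27137602) (nat_lit 0xa0ab) (nat_lit 4)))
 (.n (.p (nat_lit 0x190a1908190419020e870e8106) (nat_lit 0x90001c03) (nat_lit 15))
 (.p (nat_lit 0x3a3439ec003503) (nat_lit 0x4060) (nat_lit 40))))
 (.n (.n (.p (nat_lit 0xdf50d6502) (nat_lit 0x4a01) (nat_lit 19))
 (.p (nat_lit 0x38c738b102) (nat_lit 0x89800000800) (nat_lit 35)))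
 (.p (nat_lit 0x25ca25c825c625c425c00fa306) (nat_lit 0x20001a05) (nat_lit 14))))
 (.n (.n (.n (.p (nat_lit 0x19d619d419d219d019cc0d1b06) (nat_lit 0x20000960) (nat_lit 15))
 (.p (nat_lit 0x37a1378702) (nat_lit 0x70400000000) (nat_lit 35)))
 (.p (nat_lit 0x22682266226422600f1b0f1306) (nat_lit 0x220001a04) (nat_lit 14)))
 (.n (.n (.p (nat_lit 0x18ab0dfa02) (nat_lit 0xa802) (nat_lit 4))
 (.p (nat_lit 0x39c1399f02) (nat_lit 0xb140a000800) (nat_lit 35)))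
 (.p (nat_lit 0x15e9104902) (nat_lit 0xc26) (nat_lit 19)))))
 (.n (.n (.n (.n (.p (nat_lit 0xd01002402) (nat_lit 0x840) (nat_lit 1))
 (.p (nat_lit 0x2b5315f202) (nat_lit 0xa830) (nat_lit 5)))
 (.n (.p (nat_lit 0xef60ef40ef20ef00eee0eed002507) (nat_lit 0xa3) (nat_lit 7))
 (.p (nat_lit 0x3a09398d384503) (nat_lit 0xa00000080a0) (nat_lit 44))))
 (.n (.n (.p (nat_lit 0x17ba17b817b617b217b00dad06) (nat_lit 0x40001a61) (nat_lit 15))
 (.p (nat_lit 0x393f393902) (nat_lit 0x28806000800) (nat_lit 35)))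
 (.p (nat_lit 0xff20ff00fef0fec0fea0fe8004307) (nat_lit 0x6865) (nat_lit 7))))
 (.n (.n (.n (.p (nat_lit 0x1a881a861a821a800d3b0d3506) (nat_lit 0x240001a80) (nat_lit 15))
 (.p (nat_lit 0x385d384902) (nat_lit 0x60808000000) (nat_lit 35)))
 (.p (nat_lit 0x1f761f741f721f701f6c0f6706) (nat_lit 0x20000184) (nat_lit 17)))
 (.n (.n (.p (nat_lit 0xe5d0e4502) (nat_lit 0x82) (nat_lit 18))
 (.p (nat_lit 0x39d0119902) (nat_lit 0x820) (nat_lit 47)))
 (.p (nat_lit 0x10b3109b02) (nat_lit 0xa886) (nat_lit 18)))))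

def c512_492 : Tr :=
 .n (.n (.n (.n (.n (.p (nat_lit 0x23942392238e238c0cf30ced06) (nat_lit 0x240000b20) (nat_lit 14))
 (.p (nat_lit 0x2a1914b802) (nat_lit 0x880e) (nat_lit 5)))
 (.n (.p (nat_lit 0x197d0ecc02) (nat_lit 0x4863) (nat_lit 4))
 (.p (nat_lit 0x3a3f38d737b703) (nat_lit 0x8400002080) (nat_lit 43))))
 (.n (.n (.p (nat_lit 0x18cc18ca18c818c618c40d9b06) (nat_lit 0x200000a41) (nat_lit 17))
 (.p (nat_lit 0x390338e502) (nat_lit 0xba002000800) (nat_lit 35)))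
 (.p (nat_lit 0x104d0fbd02) (nat_lit 0x4825) (nat_lit 19))))
 (.n (.n (.n (.p (nat_lit 0x25222520251c25180d2b0d2706) (nat_lit 0xa0001180) (nat_lit 16))
 (.p (nat_lit 0x380f37eb02) (nat_lit 0xa8c04000000) (nat_lit 35)))
 (.p (nat_lit 0x243a2438243624340f330f3106) (nat_lit 0x300000c24) (nat_lit 16)))
 (.n (.n (.p (nat_lit 0x24182416241224100e370e3106) (nat_lit 0x240001262) (nat_lit 14))
 (.p (nat_lit 0x3990398e398a3988387105) (nat_lit 0x5808000000) (nat_lit 36)))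
 (.p (nat_lit 0x1077004602) (nat_lit 0xa066) (nat_lit 1)))))
 (.n (.n (.n (.n (.p (nat_lit 0x22770d1602) (nat_lit 0xa060) (nat_lit 5))
 (.p (nat_lit 0x1aea1ae81ae61ae41ae0173b06) (nat_lit 0x20001872) (nat_lit 17)))
 (.p (nat_lit 0x319030d011e03) (nat_lit 0x8034003) (nat_lit 22)))
 (.n (.n (.p (nat_lit 0x1b321b301b2e1b2c1b280dc306) (nat_lit 0x20001b81) (nat_lit 15))
 (.p (nat_lit 0x3993396f02) (nat_lit 0xb9408000800) (nat_lit 35)))
 (.p (nat_lit 0x14f0052004a03) (nat_lit 0x22000a006) (nat_lit 20))))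
 (.n (.n (.n (.p (nat_lit 0x18010d5002) (nat_lit 0x88a0) (nat_lit 4))
 (.p (nat_lit 0x3887387f02) (nat_lit 0x4940a000000) (nat_lit 35)))
 (.p (nat_lit 0x1a8a1a881a861a841a820f8906) (nat_lit 0x10001aa4) (nat_lit 17)))
 (.n (.n (.p (nat_lit 0xe720e700e6f0e6c0e6a0e6902aa001f001909) (nat_lit 0x308a2) (nat_lit 13))
 (.p (nat_lit 0x39dc12d102) (nat_lit 0x940) (nat_lit 47)))
 (.p (nat_lit 0x271511b402) (nat_lit 0x4888) (nat_lit 5)))))

def c256_236 : Tr := .n c512_236 c512_492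

def c128_108 : Tr := .n c256_108 c256_236

def c64_44 : Tr := .n c128_44 c128_108

def c32_12 : Tr := .n c64_12 c64_44

def c512_28 : Tr :=
 .n (.n (.n (.n (.n (.p (nat_lit 0x182618221820181e0ccd0cc506) (nat_lit 0x110000100) (nat_lit 15))
 (.p (nat_lit 0x1ceb123a02) (nat_lit 0x6089) (nat_lit 4)))
 (.n (.p (nat_lit 0x12eb0e6b02) (nat_lit 0x2aa2) (nat_lit 19))
 (.p (nat_lit 0x3a29392f37e503) (nat_lit 0xa8000004040) (nat_lit 43))))
 (.n (.n (.p (nat_lit 0x25b225b025ac25a80d4f0d4b06) (nat_lit 0xa00019a0) (nat_lit 14))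
 (.p (nat_lit 0x3891388502) (nat_lit 0x7200a000000) (nat_lit 35)))
 (.p (nat_lit 0x34b0349012e03) (nat_lit 0x2058004) (nat_lit 22))))
 (.n (.n (.n (.p (nat_lit 0x248424822480247e0d170d0d06) (nat_lit 0x210000160) (nat_lit 14))
 (.p (nat_lit 0x7ef001702) (nat_lit 0xa081) (nat_lit 31)))
 (.p (nat_lit 0x12d00380036003204) (nat_lit 0x1a0008004) (nat_lit 20)))
 (.n (.n (.p (nat_lit 0x2de1001102) (nat_lit 0x40a1) (nat_lit 33))
 (.p (nat_lit 0x3987397702) (nat_lit 0x8a408000800) (nat_lit 35)))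
 (.p (nat_lit 0x304a30483046304430423040014c07) (nat_lit 0x806) (nat_lit 8)))))
 (.n (.n (.n (.n (.p (nat_lit 0x190a1906190419020cf10ce906) (nat_lit 0x110001c20) (nat_lit 17))
 (.p (nat_lit 0x24e624e424e224de24dc14c106) (nat_lit 0x4000052e) (nat_lit 14)))
 (.n (.p (nat_lit 0x2eee2eec2eea2ee82ee62ee4011c07) (nat_lit 0x83) (nat_lit 8))
 (.p (nat_lit 0x3a43393d381d03) (nat_lit 0x21000006080) (nat_lit 43))))
 (.n (.n (.p (nat_lit 0x17270d9702) (nat_lit 0x6d41) (nat_lit 19))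
 (.p (nat_lit 0x38f438ee38ec38e838e638e417fb07) (nat_lit 0x20008a0) (nat_lit 37)))
 (.p (nat_lit 0xfce0fcc0fcb0fc90fc60fc4039a0043004109) (nat_lit 0x34045) (nat_lit 13))))
 (.n (.n (.n (.p (nat_lit 0x25522550254c25480d2b0d2706) (nat_lit 0xa0001380) (nat_lit 14))
 (.p (nat_lit 0x3807380102) (nat_lit 0x8b804000000) (nat_lit 35)))
 (.p (nat_lit 0x24950f3402) (nat_lit 0x44) (nat_lit 5)))
 (.n (.n (.p (nat_lit 0x18eb0e3a02) (nat_lit 0x2862) (nat_lit 4))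
 (.p (nat_lit 0x39c538b3379b03) (nat_lit 0x3ac00000000) (nat_lit 44)))
 (.p (nat_lit 0x1089107102) (nat_lit 0x4066) (nat_lit 18)))))

def c512_284 : Tr :=
 .n (.n (.n (.n (.n (.p (nat_lit 0xdf10cd102) (nat_lit 0x900) (nat_lit 19))
 (.p (nat_lit 0x1393002602) (nat_lit 0x280c) (nat_lit 1)))
 (.n (.p (nat_lit 0xe960e950e920e900e8e0e8c002d07) (nat_lit 0x8023) (nat_lit 7))
 (.p (nat_lit 0x3a373941382703) (nat_lit 0x32400006060) (nat_lit 43))))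
 (.n (.n (.p (nat_lit 0x27182716271427100d770d6f06) (nat_lit 0x220001421) (nat_lit 16))
 (.p (nat_lit 0x38c538b902) (nat_lit 0x82800000800) (nat_lit 35)))
 (.p (nat_lit 0xfb60fb40fb20fb00fae0fad003d07) (nat_lit 0x25) (nat_lit 7))))
 (.n (.n (.n (.p (nat_lit 0x19fa19f819f419f20d1f0d1906) (nat_lit 0x90001a60) (nat_lit 15))
 (.p (nat_lit 0x379f379902) (nat_lit 0x6a800000000) (nat_lit 35)))
 (.p (nat_lit 0x17f617f217ee17ec0f190f1506) (nat_lit 0x140000d04) (nat_lit 15)))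
 (.n (.n (.p (nat_lit 0x2e17002302) (nat_lit 0xa022) (nat_lit 33))
 (.p (nat_lit 0x39ad39a702) (nat_lit 0x6240a000800) (nat_lit 35)))
 (.p (nat_lit 0x2252224e224c224a2248105d06) (nat_lit 0x100001146) (nat_lit 14)))))
 (.n (.n (.n (.n (.p (nat_lit 0x193a19381936193219300d0506) (nat_lit 0x40001840) (nat_lit 15))
 (.p (nat_lit 0x1ac61ac41ac21ac01abe15f506) (nat_lit 0x10000550) (nat_lit 17)))
 (.n (.p (nat_lit 0x226a22682266226422620eed06) (nat_lit 0x100012a3) (nat_lit 16))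
 (.p (nat_lit 0x3a09398d386d03) (nat_lit 0xa50000080a0) (nat_lit 44))))
 (.n (.n (.p (nat_lit 0x22a622a222a0229e229c0db106) (nat_lit 0x100000d61) (nat_lit 14))
 (.p (nat_lit 0x3955393f02) (nat_lit 0x81406000800) (nat_lit 35)))
 (.p (nat_lit 0x1aab0ffa02) (nat_lit 0x6085) (nat_lit 4))))
 (.n (.n (.n (.p (nat_lit 0xd4b0d3302) (nat_lit 0x2880) (nat_lit 18))
 (.p (nat_lit 0x3871384f02) (nat_lit 0xb1408000000) (nat_lit 35)))
 (.p (nat_lit 0x24d91a290349033b012e05) (nat_lit 0xc18884) (nat_lit 9)))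
 (.n (.n (.p (nat_lit 0xe5a0e580e560e550e520e5102a8001d001909) (nat_lit 0x20882) (nat_lit 13))
 (.p (nat_lit 0x39d5392b380b03) (nat_lit 0x9cc00004020) (nat_lit 44)))
 (.p (nat_lit 0x3d903d7014e03) (nat_lit 0x2046006) (nat_lit 22)))))

def c256_28 : Tr := .n c512_28 c512_284

def c512_156 : Tr :=
 .n (.n (.n (.n (.n (.p (nat_lit 0x22ec22ea22e622e40cdb0cd506) (nat_lit 0x240000a00) (nat_lit 14))
 (.p (nat_lit 0x1d9112e002) (nat_lit 0x40aa) (nat_lit 4)))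
 (.n (.p (nat_lit 0x138f0e7f02) (nat_lit 0xa303) (nat_lit 19))
 (.p (nat_lit 0x3a2f399d387d03) (nat_lit 0x2100000a040) (nat_lit 43))))
 (.n (.n (.p (nat_lit 0x10b30d5302) (nat_lit 0xada0) (nat_lit 19))
 (.p (nat_lit 0x38b138a702) (nat_lit 0x30400000800) (nat_lit 35)))
 (.p (nat_lit 0x25e225e025de25da25d80f9906) (nat_lit 0x40001305) (nat_lit 16))))
 (.n (.n (.n (.p (nat_lit 0x106f0d0f02) (nat_lit 0x2560) (nat_lit 19))
 (.p (nat_lit 0x917004302) (nat_lit 0x60a5) (nat_lit 31)))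
 (.p (nat_lit 0xf9f0f0f02) (nat_lit 0xa504) (nat_lit 19)))
 (.n (.n (.p (nat_lit 0x111001802) (nat_lit 0x1000c002) (nat_lit 20))
 (.p (nat_lit 0x39bb399702) (nat_lit 0x9840a000800) (nat_lit 35)))
 (.p (nat_lit 0x25a91af903f103c9014e05) (nat_lit 0x11a0826) (nat_lit 9)))))
 (.n (.n (.n (.n (.p (nat_lit 0x23fe23fc23fa23f80cff0cfd06) (nat_lit 0x300001140) (nat_lit 14))
 (.p (nat_lit 0x2011156002) (nat_lit 0x882f) (nat_lit 4)))
 (.n (.p (nat_lit 0xee7003602) (nat_lit 0x6883) (nat_lit 1))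
 (.p (nat_lit 0x3a0338d737bd03) (nat_lit 0x90000020a0) (nat_lit 44))))
 (.n (.n (.p (nat_lit 0xe310da102) (nat_lit 0x4261) (nat_lit 19))
 (.p (nat_lit 0x3933392102) (nat_lit 0xbb804000800) (nat_lit 35)))
 (.p (nat_lit 0x16030fd302) (nat_lit 0x2d45) (nat_lit 19))))
 (.n (.n (.n (.p (nat_lit 0x24fc24f824f624f40d3b0d3706) (nat_lit 0x280000880) (nat_lit 14))
 (.p (nat_lit 0x3829382502) (nat_lit 0x52006000000) (nat_lit 35)))
 (.p (nat_lit 0x1ece1ecc1eca1ec61ec40f5106) (nat_lit 0x40000064) (nat_lit 17)))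
 (.n (.n (.p (nat_lit 0x178a17881786178417820e4506) (nat_lit 0x10001082) (nat_lit 15))
 (.p (nat_lit 0x3a12223702) (nat_lit 0x6800) (nat_lit 46)))
 (.p (nat_lit 0x309b108a02) (nat_lit 0x6086) (nat_lit 32)))))

def c512_412 : Tr :=
 .n (.n (.n (.n (.n (.p (nat_lit 0xcf3002202) (nat_lit 0xa820) (nat_lit 1))
 (.p (nat_lit 0x247a2478247624722470142506) (nat_lit 0x4000180d) (nat_lit 16)))
 (.n (.p (nat_lit 0x24150eb402) (nat_lit 0x4843) (nat_lit 5))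
 (.p (nat_lit 0x39f339a7388f03) (nat_lit 0x4b40000a060) (nat_lit 44))))
 (.n (.n (.p (nat_lit 0x18d818d618d418d218d00d8f06) (nat_lit 0x200001241) (nat_lit 17))
 (.p (nat_lit 0x38e538d902) (nat_lit 0x40802000800) (nat_lit 35)))
 (.p (nat_lit 0x177c177a177817760fc30fb906) (nat_lit 0x210000825) (nat_lit 15))))
 (.n (.n (.n (.p (nat_lit 0x17d70d2602) (nat_lit 0x2080) (nat_lit 4))
 (.p (nat_lit 0x37d337bd02) (nat_lit 0x79002000000) (nat_lit 35)))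
 (.p (nat_lit 0x142f0f1f02) (nat_lit 0x2324) (nat_lit 19)))
 (.n (.n (.p (nat_lit 0x28222820281e281c281a0e2106) (nat_lit 0x10001b42) (nat_lit 14))
 (.p (nat_lit 0x38ee38ec38e838e637cf05) (nat_lit 0x3402000000) (nat_lit 36)))
 (.p (nat_lit 0x227622742272226e226c106506) (nat_lit 0x40000b46) (nat_lit 14)))))
 (.n (.n (.n (.n (.p (nat_lit 0x19b219b019ac19a80d070d0306) (nat_lit 0xa0001d40) (nat_lit 17))
 (.p (nat_lit 0x18781876187418721870171f06) (nat_lit 0x200001452) (nat_lit 15)))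
 (.p (nat_lit 0x17b817b617b217b00f030efd06) (nat_lit 0x240001aa3) (nat_lit 17)))
 (.n (.n (.p (nat_lit 0xe4b0dbb02) (nat_lit 0x6281) (nat_lit 19))
 (.p (nat_lit 0x397d396702) (nat_lit 0x60408000800) (nat_lit 35)))
 (.p (nat_lit 0x257f1acf039b0391013e05) (nat_lit 0x10a68a5) (nat_lit 9))))
 (.n (.n (.n (.p (nat_lit 0x25d225d025ce25cc0d470d4506) (nat_lit 0x3000003a0) (nat_lit 14))
 (.p (nat_lit 0x3897387502) (nat_lit 0x8800a000000) (nat_lit 35)))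
 (.p (nat_lit 0x14070f8702) (nat_lit 0xa2a4) (nat_lit 19)))
 (.n (.n (.p (nat_lit 0xe67001602) (nat_lit 0xa0a2) (nat_lit 1))
 (.p (nat_lit 0x39d80d9902) (nat_lit 0x8d20) (nat_lit 47)))
 (.p (nat_lit 0x23882386238423821197118d06) (nat_lit 0x210001268) (nat_lit 14)))))

def c256_156 : Tr := .n c512_156 c512_412

def c128_28 : Tr := .n c256_28 c256_156

def c512_92 : Tr :=
 .n (.n (.n (.n (.n (.p (nat_lit 0x2231178102) (nat_lit 0x800) (nat_lit 11))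
 (.p (nat_lit 0x12ce12cc12ca12c812c612c5007907) (nat_lit 0x8a) (nat_lit 7)))
 (.n (.p (nat_lit 0x11d002e002a002804) (nat_lit 0x2c0008003) (nat_lit 20))
 (.p (nat_lit 0x3a2d396f385103) (nat_lit 0x29800008040) (nat_lit 43))))
 (.n (.n (.p (nat_lit 0x1b321b2e1b2c1b280d510d4b06) (nat_lit 0x120001ba0) (nat_lit 15))
 (.p (nat_lit 0x389b389302) (nat_lit 0x9bc0a000000) (nat_lit 35)))
 (.p (nat_lit 0x1a4e1a4c1a4a1a481a461a4406) (nat_lit 0x5) (nat_lit 2))))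
 (.n (.n (.n (.p (nat_lit 0x1a281a261a221a200d170d1106) (nat_lit 0x240001460) (nat_lit 15))
 (.p (nat_lit 0x87e087c087a08780876011c000107) (nat_lit 0x83) (nat_lit 28)))
 (.p (nat_lit 0x179e179c179a17980f0f0f0d06) (nat_lit 0x300001104) (nat_lit 15)))
 (.n (.n (.p (nat_lit 0xde20de00dde0ddd0dda0dd902600011000d09) (nat_lit 0x208a1) (nat_lit 13))
 (.p (nat_lit 0x3993398702) (nat_lit 0xbc408000800) (nat_lit 35)))
 (.p (nat_lit 0x259f1aef03e503db014e05) (nat_lit 0x1152026) (nat_lit 9)))))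
 (.n (.n (.n (.n (.p (nat_lit 0xf2b0ceb02) (nat_lit 0x2b20) (nat_lit 19))
 (.p (nat_lit 0x1f8d14dc02) (nat_lit 0x804e) (nat_lit 4)))
 (.n (.p (nat_lit 0x19d419d219d019ce0edf0ed506) (nat_lit 0x210000183) (nat_lit 17))
 (.p (nat_lit 0x39fc107502) (nat_lit 0x8080) (nat_lit 47))))
 (.n (.n (.p (nat_lit 0x226a22682266226422620d9d06) (nat_lit 0x10001261) (nat_lit 14))
 (.p (nat_lit 0x3925391102) (nat_lit 0x81804000800) (nat_lit 35)))
 (.p (nat_lit 0x25370fd602) (nat_lit 0x6845) (nat_lit 5))))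
 (.n (.n (.n (.p (nat_lit 0xff70d2702) (nat_lit 0x2480) (nat_lit 19))
 (.p (nat_lit 0x3827381702) (nat_lit 0x48406000000) (nat_lit 35)))
 (.p (nat_lit 0x19f10f4002) (nat_lit 0x844) (nat_lit 4)))
 (.n (.n (.p (nat_lit 0x24542450244e244c0e430e3f06) (nat_lit 0x280000d62) (nat_lit 14))
 (.p (nat_lit 0x39c738dd37c503) (nat_lit 0x22000002000) (nat_lit 44)))
 (.p (nat_lit 0x1a5a1a581a561a541a52107906) (nat_lit 0x10001866) (nat_lit 17)))))

def c512_348 : Tr :=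
 .n (.n (.n (.n (.n (.p (nat_lit 0x18f218ee18ea18e80ce50ce106) (nat_lit 0x140001320) (nat_lit 15))
 (.p (nat_lit 0x19e219e019de19dc19da13fd06) (nat_lit 0x100011ac) (nat_lit 15)))
 (.n (.p (nat_lit 0x24030ea202) (nat_lit 0xa823) (nat_lit 5))
 (.p (nat_lit 0x39f13981386903) (nat_lit 0x74800008060) (nat_lit 44))))
 (.n (.n (.p (nat_lit 0x1c681c661c641c600d830d7b06) (nat_lit 0x220001c21) (nat_lit 17))
 (.p (nat_lit 0x38cf38cd02) (nat_lit 0xad000000800) (nat_lit 35)))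
 (.p (nat_lit 0x17dc17da17d817d60fb70fad06) (nat_lit 0x210000425) (nat_lit 17))))
 (.n (.n (.n (.p (nat_lit 0x24f224f024ee24ec24e80d1b06) (nat_lit 0x20001d60) (nat_lit 14))
 (.p (nat_lit 0x37b737b502) (nat_lit 0x8002000000) (nat_lit 35)))
 (.p (nat_lit 0xf260f250f220f200f1e0f1c003907) (nat_lit 0x8024) (nat_lit 7)))
 (.n (.n (.p (nat_lit 0x237f0e1e02) (nat_lit 0xa042) (nat_lit 5))
 (.p (nat_lit 0x39bd39b902) (nat_lit 0xa480a000800) (nat_lit 35)))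
 (.p (nat_lit 0x1715105502) (nat_lit 0x46) (nat_lit 19)))))
 (.n (.n (.n (.n (.p (nat_lit 0x24322430242a24280d070d0506) (nat_lit 0xc0001b40) (nat_lit 14))
 (.p (nat_lit 0x1b1a1b181b141b121b10168b06) (nat_lit 0x80001251) (nat_lit 17)))
 (.n (.p (nat_lit 0x14070ef702) (nat_lit 0xa3a3) (nat_lit 19))
 (.p (nat_lit 0x3a0b39b1389303) (nat_lit 0x73c0000a0a0) (nat_lit 44))))
 (.n (.n (.p (nat_lit 0x231f0dbe02) (nat_lit 0xa081) (nat_lit 5))
 (.p (nat_lit 0x394d394b02) (nat_lit 0x62c06000800) (nat_lit 35)))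
 (.p (nat_lit 0x3023101202) (nat_lit 0x60a5) (nat_lit 32))))
 (.n (.n (.n (.p (nat_lit 0x22a517f502) (nat_lit 0x80a0) (nat_lit 11))
 (.p (nat_lit 0x385f385d02) (nat_lit 0x6b008000000) (nat_lit 35)))
 (.p (nat_lit 0x1a330f8202) (nat_lit 0x60a4) (nat_lit 4)))
 (.n (.n (.p (nat_lit 0x229a22982296229222900e5506) (nat_lit 0x40001c82) (nat_lit 16))
 (.p (nat_lit 0x3a1f3953383903) (nat_lit 0x7c800006020) (nat_lit 43)))
 (.p (nat_lit 0x2663110202) (nat_lit 0x6067) (nat_lit 5)))))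

def c256_92 : Tr := .n c512_92 c512_348

def c512_220 : Tr :=
 .n (.n (.n (.n (.n (.p (nat_lit 0x186e186c186818640cd70cd306) (nat_lit 0xa0000c00) (nat_lit 15))
 (.p (nat_lit 0x18fe18fa18f818f618f412f106) (nat_lit 0x100000caa) (nat_lit 15)))
 (.n (.p (nat_lit 0x23942390238e238c0e8b0e8706) (nat_lit 0x280000b03) (nat_lit 16))
 (.p (nat_lit 0x3a3338d737bd03) (nat_lit 0x9000002060) (nat_lit 43))))
 (.n (.n (.p (nat_lit 0x18170d6602) (nat_lit 0x6801) (nat_lit 4))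
 (.p (nat_lit 0x38bf38af02) (nat_lit 0x69400000800) (nat_lit 35)))
 (.p (nat_lit 0x1adc1ada1ad81ad61ad40fab06) (nat_lit 0x200000805) (nat_lit 17))))
 (.n (.n (.n (.p (nat_lit 0x19ca19c819c419c219c00d1f06) (nat_lit 0x80001860) (nat_lit 17))
 (.p (nat_lit 0xc0f004602) (nat_lit 0xa050) (nat_lit 30)))
 (.p (nat_lit 0x225e225c225a225822560f1106) (nat_lit 0x10000a04) (nat_lit 14)))
 (.n (.n (.p (nat_lit 0x18a30df202) (nat_lit 0x2802) (nat_lit 4))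
 (.p (nat_lit 0x39a1399f02) (nat_lit 0x3140a000800) (nat_lit 35)))
 (.p (nat_lit 0x231a2318231623141053105106) (nat_lit 0x300000c26) (nat_lit 16)))))
 (.n (.n (.n (.n (.p (nat_lit 0xea50cf502) (nat_lit 0x240) (nat_lit 19))
 (.p (nat_lit 0x1b321b301b2e1b2a1b2815e106) (nat_lit 0x40001330) (nat_lit 15)))
 (.n (.p (nat_lit 0x12d90ee902) (nat_lit 0x8983) (nat_lit 19))
 (.p (nat_lit 0x3a4f3941382903) (nat_lit 0x328000060a0) (nat_lit 43))))
 (.n (.n (.p (nat_lit 0x179617941792178e0dad0da906) (nat_lit 0x50000961) (nat_lit 15))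
 (.p (nat_lit 0x3945393702) (nat_lit 0x40406000800) (nat_lit 35)))
 (.p (nat_lit 0x25490fe802) (nat_lit 0x865) (nat_lit 5))))
 (.n (.n (.n (.p (nat_lit 0x1a7c1a7a1a761a740d3b0d3506) (nat_lit 0x240000a80) (nat_lit 15))
 (.p (nat_lit 0x3867384702) (nat_lit 0x88408000000) (nat_lit 35)))
 (.p (nat_lit 0x2f7f003b02) (nat_lit 0xa084) (nat_lit 33)))
 (.n (.n (.p (nat_lit 0x17e817e417e217e00e4f0e4b06) (nat_lit 0x280001482) (nat_lit 17))
 (.p (nat_lit 0x39ce105302) (nat_lit 0xac00) (nat_lit 47)))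
 (.p (nat_lit 0x109a1098109710951092109003e2004f004d09) (nat_lit 0x34886) (nat_lit 13)))))

def c512_476 : Tr :=
 .n (.n (.n (.n (.n (.p (nat_lit 0x238a2386238423800cf10ceb06) (nat_lit 0x120001a20) (nat_lit 14))
 (.p (nat_lit 0x14bf14a702) (nat_lit 0x200e) (nat_lit 18)))
 (.n (.p (nat_lit 0xf4d0ebd02) (nat_lit 0x463) (nat_lit 19))
 (.p (nat_lit 0x3a3c228502) (nat_lit 0x80) (nat_lit 46))))
 (.n (.n (.p (nat_lit 0x18490d9802) (nat_lit 0x8841) (nat_lit 4))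
 (.p (nat_lit 0x38ff38e302) (nat_lit 0xa9c02000800) (nat_lit 35)))
 (.p (nat_lit 0x17f617f217f017ee17ec0fc106) (nat_lit 0x100000d25) (nat_lit 15))))
 (.n (.n (.n (.p (nat_lit 0x1a661a641a601a5c0d2b0d2706) (nat_lit 0xa0000180) (nat_lit 17))
 (.p (nat_lit 0x380537e702) (nat_lit 0x80404000000) (nat_lit 35)))
 (.p (nat_lit 0x193819361934193219300f3306) (nat_lit 0x200001824) (nat_lit 15)))
 (.n (.n (.p (nat_lit 0x192e192a192619240e350e3106) (nat_lit 0x140000062) (nat_lit 17))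
 (.p (nat_lit 0x3970396e396a3968385105) (nat_lit 0x1808000000) (nat_lit 36)))
 (.p (nat_lit 0x307f004b02) (nat_lit 0x2066) (nat_lit 33)))))
 (.n (.n (.n (.n (.p (nat_lit 0xd11003402) (nat_lit 0x4060) (nat_lit 1))
 (.p (nat_lit 0x2c99173802) (nat_lit 0x872) (nat_lit 5)))
 (.p (nat_lit 0x31902ff011e03) (nat_lit 0x6042003) (nat_lit 22)))
 (.n (.n (.p (nat_lit 0x1b0e1b0c1b0a1b061b040dc506) (nat_lit 0x40000a81) (nat_lit 15))
 (.p (nat_lit 0x3973396f02) (nat_lit 0x39408000800) (nat_lit 35)))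
 (.p (nat_lit 0x14f004c004a03) (nat_lit 0x6000a006) (nat_lit 20))))
 (.n (.n (.n (.p (nat_lit 0x22aa17fa0d4b03) (nat_lit 0x28a0) (nat_lit 6))
 (.p (nat_lit 0x387f387d02) (nat_lit 0x2900a000000) (nat_lit 35)))
 (.p (nat_lit 0x25222520251e251c25180f8b06) (nat_lit 0x200019a4) (nat_lit 14)))
 (.n (.n (.p (nat_lit 0xe6f001202) (nat_lit 0x68a2) (nat_lit 1))
 (.p (nat_lit 0x39dd38c137a703) (nat_lit 0x74400000040) (nat_lit 44)))
 (.p (nat_lit 0x22f822f622f422f222f011af06) (nat_lit 0x200001288) (nat_lit 14)))))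

def c256_220 : Tr := .n c512_220 c512_476

def c128_92 : Tr := .n c256_92 c256_220

def c64_28 : Tr := .n c128_28 c128_92

def c512_60 : Tr :=
 .n (.n (.n (.n (.n (.p (nat_lit 0x233423322330232c0ccf0cc706) (nat_lit 0x220000500) (nat_lit 14))
 (.p (nat_lit 0x18d007e007c007804) (nat_lit 0xd000800a) (nat_lit 20)))
 (.n (.p (nat_lit 0x2c702bb010e03) (nat_lit 0xa022002) (nat_lit 22))
 (.p (nat_lit 0x39e33945382d03) (nat_lit 0x43000006040) (nat_lit 44))))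
 (.n (.n (.p (nat_lit 0x1b1a1b181b121b100d4f0d4d06) (nat_lit 0xc0001aa0) (nat_lit 17))
 (.p (nat_lit 0x389b388b02) (nat_lit 0x9ac0a000000) (nat_lit 35)))
 (.p (nat_lit 0x36f034b012e03) (nat_lit 0xa042004) (nat_lit 22))))
 (.n (.n (.n (.p (nat_lit 0x24aa24a824a624a40d0f0d0d06) (nat_lit 0x30001260) (nat_lit 14))
 (.p (nat_lit 0x8420840083e083c0838010c000307) (nat_lit 0x23a2) (nat_lit 28)))
 (.p (nat_lit 0xf0e0f0c0f0b0f080f060f04003707) (nat_lit 0x6004) (nat_lit 7)))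
 (.n (.n (.p (nat_lit 0x11c10dd102) (nat_lit 0x41a1) (nat_lit 19))
 (.p (nat_lit 0x398b397d02) (nat_lit 0x9b008000800) (nat_lit 35)))
 (.p (nat_lit 0x103a1038103710351032103003e2004f004d09) (nat_lit 0x34806) (nat_lit 13)))))
 (.n (.n (.n (.n (.p (nat_lit 0x1922191e191c19180cf10ceb06) (nat_lit 0x120001d20) (nat_lit 15))
 (.p (nat_lit 0x34e300b302) (nat_lit 0xa82e) (nat_lit 33)))
 (.n (.p (nat_lit 0x243f0ede02) (nat_lit 0xa083) (nat_lit 5))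
 (.p (nat_lit 0x39fd3993384b03) (nat_lit 0xb8c00008080) (nat_lit 44))))
 (.n (.n (.p (nat_lit 0xda60da40da20da10d9f0d9c026c0011000f09) (nat_lit 0x22061) (nat_lit 13))
 (.p (nat_lit 0x391f390902) (nat_lit 0x68804000800) (nat_lit 35)))
 (.p (nat_lit 0x105f0fcf02) (nat_lit 0xa045) (nat_lit 19))))
 (.n (.n (.n (.p (nat_lit 0x1ad21ace1acc1aca0d2d0d2506) (nat_lit 0x110001580) (nat_lit 15))
 (.p (nat_lit 0x3813380d02) (nat_lit 0xbd004000000) (nat_lit 35)))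
 (.p (nat_lit 0x2f4f003b02) (nat_lit 0xa044) (nat_lit 33)))
 (.n (.n (.p (nat_lit 0xe430e410e3e0e3c0e3a0e3802de0023002109) (nat_lit 0x58862) (nat_lit 13))
 (.p (nat_lit 0x39c538d137b103) (nat_lit 0xb5800000000) (nat_lit 44)))
 (.p (nat_lit 0x25dd1b2d03e503db014e05) (nat_lit 0x14c4866) (nat_lit 9)))))

def c512_316 : Tr :=
 .n (.n (.n (.n (.n (.p (nat_lit 0x178f0cde02) (nat_lit 0x2020) (nat_lit 4))
 (.p (nat_lit 0x28d628d428d028ce28cc13a306) (nat_lit 0x8000052c) (nat_lit 14)))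
 (.n (.p (nat_lit 0x139f0e8f02) (nat_lit 0x2323) (nat_lit 19))
 (.p (nat_lit 0x3a39396d384d03) (nat_lit 0x21000008060) (nat_lit 43))))
 (.n (.n (.p (nat_lit 0x2d8f001302) (nat_lit 0x6821) (nat_lit 33))
 (.p (nat_lit 0x38cb38bf02) (nat_lit 0x9b400000800) (nat_lit 35)))
 (.p (nat_lit 0x22382236223422300fb70faf06) (nat_lit 0x220001025) (nat_lit 14))))
 (.n (.n (.n (.p (nat_lit 0x24da24d824d624d424d20d1906) (nat_lit 0x10001c60) (nat_lit 14))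
 (.p (nat_lit 0x37a937a102) (nat_lit 0x93800000000) (nat_lit 35)))
 (.p (nat_lit 0x14b50f1502) (nat_lit 0x4c04) (nat_lit 19)))
 (.n (.n (.p (nat_lit 0xe2b0e1302) (nat_lit 0xa822) (nat_lit 18))
 (.p (nat_lit 0x39bb39ad02) (nat_lit 0x9b00a000800) (nat_lit 35)))
 (.p (nat_lit 0x17de17dc17d817d617d4105b06) (nat_lit 0x80000446) (nat_lit 15)))))
 (.n (.n (.n (.n (.p (nat_lit 0x19521950194c19480d070d0306) (nat_lit 0xa0001940) (nat_lit 15))
 (.p (nat_lit 0x1a581a561a541a521a50160b06) (nat_lit 0x200001850) (nat_lit 15)))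
 (.n (.p (nat_lit 0x229a22982296229422900eef06) (nat_lit 0x200014a3) (nat_lit 14))
 (.p (nat_lit 0x3a53399b387b03) (nat_lit 0x18c0000a0a0) (nat_lit 43))))
 (.n (.n (.p (nat_lit 0x17430db302) (nat_lit 0xad61) (nat_lit 19))
 (.p (nat_lit 0x395d394302) (nat_lit 0xa1c06000800) (nat_lit 35)))
 (.p (nat_lit 0x2ab62ab42ab02aac1007100306) (nat_lit 0xa0000985) (nat_lit 16))))
 (.n (.n (.n (.p (nat_lit 0x10070d3702) (nat_lit 0x6c80) (nat_lit 19))
 (.p (nat_lit 0x3871385502) (nat_lit 0xb2008000000) (nat_lit 35)))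
 (.p (nat_lit 0x1f8e1f8a1f881f861f840f7906) (nat_lit 0x100000a84) (nat_lit 15)))
 (.n (.n (.p (nat_lit 0x17ba17b617b417b217b00e5906) (nat_lit 0x100001a82) (nat_lit 15))
 (.p (nat_lit 0x39d73941382103) (nat_lit 0x31800006020) (nat_lit 44)))
 (.p (nat_lit 0x3f303e703cf015004) (nat_lit 0xa1a0006) (nat_lit 23)))))

def c256_60 : Tr := .n c512_60 c512_316

def c512_188 : Tr :=
 .n (.n (.n (.n (.n (.p (nat_lit 0x23042302230022fc0cdb0cd306) (nat_lit 0x220000b00) (nat_lit 16))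
 (.p (nat_lit 0x32f912e802) (nat_lit 0x8aa) (nat_lit 32)))
 (.n (.p (nat_lit 0x2e99002d02) (nat_lit 0x8803) (nat_lit 33))
 (.p (nat_lit 0x39e60f2702) (nat_lit 0xa440) (nat_lit 47))))
 (.n (.n (.p (nat_lit 0xff0016001003) (nat_lit 0x24000a001) (nat_lit 20))
 (.p (nat_lit 0x38ad38ab02) (nat_lit 0x20c00000800) (nat_lit 35)))
 (.p (nat_lit 0x25011a51038f0385013e05) (nat_lit 0xcc0805) (nat_lit 9))))
 (.n (.n (.n (.p (nat_lit 0x228117d102) (nat_lit 0x8860) (nat_lit 11))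
 (.p (nat_lit 0x943004b02) (nat_lit 0x2066) (nat_lit 31)))
 (.p (nat_lit 0xf1b0f180f160f140f120f10003b07) (nat_lit 0xa804) (nat_lit 7)))
 (.n (.n (.p (nat_lit 0x2dfd002102) (nat_lit 0x8002) (nat_lit 33))
 (.p (nat_lit 0x39a9399b02) (nat_lit 0x50c0a000800) (nat_lit 35)))
 (.p (nat_lit 0x10521050104e104c104b104903c6004b004909) (nat_lit 0x10826) (nat_lit 13)))))
 (.n (.n (.n (.n (.p (nat_lit 0x199a1996199419900cfd0cf706) (nat_lit 0x120001440) (nat_lit 15))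
 (.p (nat_lit 0x208915d802) (nat_lit 0x8810) (nat_lit 4)))
 (.n (.p (nat_lit 0x247824762474247224700eeb06) (nat_lit 0x200001883) (nat_lit 14))
 (.p (nat_lit 0x3a0417f102) (nat_lit 0x40a0) (nat_lit 45))))
 (.n (.n (.p (nat_lit 0xdb20db10dae0dac0daa0da8001507) (nat_lit 0x8861) (nat_lit 7))
 (.p (nat_lit 0x3914390e390c39083906390417cd07) (nat_lit 0x4000860) (nat_lit 37)))
 (.p (nat_lit 0x2ff5004502) (nat_lit 0x8065) (nat_lit 33))))
 (.n (.n (.n (.p (nat_lit 0x1a721a701a6e1a6c1a680d3306) (nat_lit 0x20001980) (nat_lit 17))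
 (.p (nat_lit 0x38723870386e386c386a38683866386438623860385e385c385a38583856385438523850384e384c384a38483846384418) (nat_lit 0x8000000) (nat_lit 34)))
 (.p (nat_lit 0xf7b0f6302) (nat_lit 0xa864) (nat_lit 18)))
 (.n (.n (.p (nat_lit 0x227622742272226e226c0e4906) (nat_lit 0x40000382) (nat_lit 14))
 (.p (nat_lit 0x3a15397f386503) (nat_lit 0x6c000008000) (nat_lit 43)))
 (.p (nat_lit 0x30aa30a830a630a430a230a0014c07) (nat_lit 0x886) (nat_lit 8)))))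

def c512_444 : Tr :=
 .n (.n (.n (.n (.n (.p (nat_lit 0x18aa18a618a418a218a00cf106) (nat_lit 0x100001820) (nat_lit 15))
 (.p (nat_lit 0x1f5514a402) (nat_lit 0xe) (nat_lit 4)))
 (.n (.p (nat_lit 0x2ed10ec002) (nat_lit 0x4063) (nat_lit 32))
 (.p (nat_lit 0x3a3a228302) (nat_lit 0xa860) (nat_lit 46))))
 (.n (.n (.p (nat_lit 0xe1b0d8b02) (nat_lit 0x6241) (nat_lit 19))
 (.p (nat_lit 0x38f938dd02) (nat_lit 0x91002000800) (nat_lit 35)))
 (.p (nat_lit 0x227622742272226e226c0fbd06) (nat_lit 0x40000b25) (nat_lit 14))))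
 (.n (.n (.n (.p (nat_lit 0x1a4e1a4c1a481a461a440d2b06) (nat_lit 0x80000080) (nat_lit 15))
 (.p (nat_lit 0x37dd37c502) (nat_lit 0xa2002000000) (nat_lit 35)))
 (.p (nat_lit 0x248f0f2e02) (nat_lit 0x6824) (nat_lit 5)))
 (.n (.n (.p (nat_lit 0x18df0e2e02) (nat_lit 0x2062) (nat_lit 4))
 (.p (nat_lit 0x3930392e392a3928381105) (nat_lit 0x5804000000) (nat_lit 36)))
 (.p (nat_lit 0x1802180017fe17fc17fa106106) (nat_lit 0x10001d46) (nat_lit 17)))))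
 (.n (.n (.n (.n (.p (nat_lit 0xeb50d0502) (nat_lit 0x4a40) (nat_lit 19))
 (.p (nat_lit 0x1741172902) (nat_lit 0x8852) (nat_lit 18)))
 (.p (nat_lit 0x22b222b022ae22ac22aa0ef906) (nat_lit 0x10001da3) (nat_lit 16)))
 (.n (.n (.p (nat_lit 0x2dd7001302) (nat_lit 0x6881) (nat_lit 33))
 (.p (nat_lit 0x3971396b02) (nat_lit 0x30c08000800) (nat_lit 35)))
 (.p (nat_lit 0x10ab101b02) (nat_lit 0x28a5) (nat_lit 19))))
 (.n (.n (.n (.p (nat_lit 0xdd50d4502) (nat_lit 0x80a0) (nat_lit 19))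
 (.p (nat_lit 0x388b387902) (nat_lit 0x5880a000000) (nat_lit 35)))
 (.p (nat_lit 0x1a410f9002) (nat_lit 0x88a4) (nat_lit 4)))
 (.n (.n (.p (nat_lit 0x232a2328232423220e630e5d06) (nat_lit 0x900014a2) (nat_lit 14))
 (.p (nat_lit 0x3a2339bd389d03) (nat_lit 0xa500000a020) (nat_lit 43)))
 (.p (nat_lit 0x23ac23aa23a823a623a411a306) (nat_lit 0x200000c68) (nat_lit 14)))))

def c256_188 : Tr := .n c512_188 c512_444

def c128_60 : Tr := .n c256_60 c256_188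

def c512_124 : Tr :=
 .n (.n (.n (.n (.n (.p (nat_lit 0x22d622d222d022cc0cd90cd306) (nat_lit 0x120000900) (nat_lit 14))
 (.p (nat_lit 0x12da12d812d612d412d212d1007907) (nat_lit 0x88a) (nat_lit 7)))
 (.n (.p (nat_lit 0x18a818a618a218a00e7f0e7906) (nat_lit 0x240001003) (nat_lit 17))
 (.p (nat_lit 0x3a2d398d386f03) (nat_lit 0xa5400008040) (nat_lit 43))))
 (.n (.n (.p (nat_lit 0xddb0d4b02) (nat_lit 0x28a0) (nat_lit 19))
 (.p (nat_lit 0x389e389c3898389638943874228f07) (nat_lit 0xa000080) (nat_lit 38)))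
 (.p (nat_lit 0xf9f0f9d0f9a0f980f960f9403b60047004509) (nat_lit 0x58005) (nat_lit 13))))
 (.n (.n (.n (.p (nat_lit 0xd2f0d1702) (nat_lit 0xa060) (nat_lit 18))
 (.p (nat_lit 0x8d3003b02) (nat_lit 0xa0a4) (nat_lit 31)))
 (.p (nat_lit 0x228a2288228622840f0f0f0d06) (nat_lit 0x300000404) (nat_lit 14)))
 (.n (.n (.p (nat_lit 0x26f026d00fe03) (nat_lit 0x2034001) (nat_lit 22))
 (.p (nat_lit 0x39a3399502) (nat_lit 0x3800a000800) (nat_lit 35)))
 (.p (nat_lit 0x18481846184418421840104706) (nat_lit 0x200001226) (nat_lit 15)))))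
 (.n (.n (.n (.n (.p (nat_lit 0x225d17ad02) (nat_lit 0x8040) (nat_lit 11))
 (.p (nat_lit 0x63f063301ce03) (nat_lit 0xa04600e) (nat_lit 22)))
 (.n (.p (nat_lit 0xeef0ed702) (nat_lit 0x2083) (nat_lit 18))
 (.p (nat_lit 0x3a4938b7379f03) (nat_lit 0x4b4000000a0) (nat_lit 43))))
 (.n (.n (.p (nat_lit 0x17ea17e617e417e217e00da506) (nat_lit 0x100001461) (nat_lit 15))
 (.p (nat_lit 0x3921391b02) (nat_lit 0x72c04000800) (nat_lit 35)))
 (.p (nat_lit 0x19d619d219d019ce19cc0fd906) (nat_lit 0x100000945) (nat_lit 15))))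
 (.n (.n (.n (.p (nat_lit 0x22970d3602) (nat_lit 0x6880) (nat_lit 5))
 (.p (nat_lit 0x3821381f02) (nat_lit 0x31406000000) (nat_lit 35)))
 (.p (nat_lit 0x1ec21ec01ebe1ebc1eb80f4306) (nat_lit 0x20001d44) (nat_lit 17)))
 (.n (.n (.p (nat_lit 0x23a50e4402) (nat_lit 0x82) (nat_lit 5))
 (.p (nat_lit 0x3a11391d380503) (nat_lit 0x64000004000) (nat_lit 43)))
 (.p (nat_lit 0x255c255a255825541083107b06) (nat_lit 0x220000c66) (nat_lit 14)))))

def c512_380 : Tr :=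
 .n (.n (.n (.n (.n (.p (nat_lit 0xe950ce502) (nat_lit 0x8220) (nat_lit 19))
 (.p (nat_lit 0x24782476247424722470141306) (nat_lit 0x2000018ac) (nat_lit 14)))
 (.n (.p (nat_lit 0xf290e9902) (nat_lit 0xc23) (nat_lit 19))
 (.p (nat_lit 0x3a3b39c1387703) (nat_lit 0xb040000a060) (nat_lit 43))))
 (.n (.n (.p (nat_lit 0x22e71837026f026700fe05) (nat_lit 0x1432041) (nat_lit 9))
 (.p (nat_lit 0x38f738d502) (nat_lit 0x88002000800) (nat_lit 35)))
 (.p (nat_lit 0x2fd22fd02fce2fcc2fca2fc8013c07) (nat_lit 0x825) (nat_lit 8))))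
 (.n (.n (.n (.p (nat_lit 0xe410d2102) (nat_lit 0x8960) (nat_lit 19))
 (.p (nat_lit 0x37db37b702) (nat_lit 0x98402000000) (nat_lit 35)))
 (.p (nat_lit 0x198e198c198a19880f1f0f1d06) (nat_lit 0x30000424) (nat_lit 17)))
 (.n (.n (.p (nat_lit 0x2e310e2002) (nat_lit 0x842) (nat_lit 32))
 (.p (nat_lit 0x38d238d038a838a6378905) (nat_lit 0x800000000) (nat_lit 36)))
 (.p (nat_lit 0x307b106a02) (nat_lit 0xa846) (nat_lit 32)))))
 (.n (.n (.n (.n (.p (nat_lit 0x244a2446244424400d090d0306) (nat_lit 0x120001c40) (nat_lit 14))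
 (.p (nat_lit 0x3729171802) (nat_lit 0x4052) (nat_lit 32)))
 (.p (nat_lit 0x222e222c222a222822240efb06) (nat_lit 0x200008a3) (nat_lit 14)))
 (.n (.n (.p (nat_lit 0x25c825c625c425c225c00dbf06) (nat_lit 0x200001281) (nat_lit 14))
 (.p (nat_lit 0x3960395e395c393c3936393422af07) (nat_lit 0x60008a0) (nat_lit 38)))
 (.p (nat_lit 0x2b6a2b682b642b622b60101306) (nat_lit 0x800012a5) (nat_lit 16))))
 (.n (.n (.n (.p (nat_lit 0x1b001afe1afc1afa1af80d4706) (nat_lit 0x2000011a0) (nat_lit 15))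
 (.p (nat_lit 0x386f386b02) (nat_lit 0xacc08000000) (nat_lit 35)))
 (.p (nat_lit 0x1a721a701a6e1a6c1a680f7f06) (nat_lit 0x200011a4) (nat_lit 15)))
 (.n (.n (.p (nat_lit 0x12d10e5102) (nat_lit 0xa82) (nat_lit 19))
 (.p (nat_lit 0x3a213991384703) (nat_lit 0xb0400008020) (nat_lit 43)))
 (.p (nat_lit 0x118b11881186118411821180006b07) (nat_lit 0xa848) (nat_lit 7)))))

def c256_124 : Tr := .n c512_124 c512_380

def c512_252 : Tr :=
 .n (.n (.n (.n (.n (.p (nat_lit 0x18781874187218700cdb0cd706) (nat_lit 0x280001c00) (nat_lit 15))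
 (.p (nat_lit 0x23e823e623e423e223e0138306) (nat_lit 0x2000018ab) (nat_lit 14)))
 (.n (.p (nat_lit 0xe9d0e8502) (nat_lit 0x4803) (nat_lit 18))
 (.p (nat_lit 0x39ed3925380d03) (nat_lit 0x85000004060) (nat_lit 44))))
 (.n (.n (.p (nat_lit 0x22cf0d6e02) (nat_lit 0x2021) (nat_lit 5))
 (.p (nat_lit 0x38b938b502) (nat_lit 0x52000000800) (nat_lit 35)))
 (.p (nat_lit 0x25d425d025ce25cc0fab0fa706) (nat_lit 0x280000b05) (nat_lit 16))))
 (.n (.n (.n (.p (nat_lit 0x19e219e019de19da19d80d1d06) (nat_lit 0x40001960) (nat_lit 15))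
 (.p (nat_lit 0x379d378d02) (nat_lit 0x61000000000) (nat_lit 35)))
 (.p (nat_lit 0x17d217d017cc17c80f170f1306) (nat_lit 0xa0001b04) (nat_lit 17)))
 (.n (.n (.p (nat_lit 0x1c6a1c681c661c641c600df306) (nat_lit 0x20001c02) (nat_lit 15))
 (.p (nat_lit 0x39bf39a102) (nat_lit 0xa980a000800) (nat_lit 35)))
 (.p (nat_lit 0x25b9105802) (nat_lit 0x4046) (nat_lit 5)))))
 (.n (.n (.n (.n (.p (nat_lit 0xd09002c02) (nat_lit 0x8840) (nat_lit 1))
 (.p (nat_lit 0x2b5515f402) (nat_lit 0x50) (nat_lit 5)))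
 (.n (.p (nat_lit 0x2f05002d02) (nat_lit 0x80a3) (nat_lit 33))
 (.p (nat_lit 0x3a093969385103) (nat_lit 0x118000080a0) (nat_lit 44))))
 (.n (.n (.p (nat_lit 0x17c417c217c017bc0db30dab06) (nat_lit 0x220000b61) (nat_lit 17))
 (.p (nat_lit 0x3945393b02) (nat_lit 0x40c06000800) (nat_lit 35)))
 (.p (nat_lit 0x2a0e2a0c2a0a2a062a040fed06) (nat_lit 0x40000865) (nat_lit 16))))
 (.n (.n (.n (.p (nat_lit 0x1aa21a9e1a9c1a9a0d390d3106) (nat_lit 0x110001b80) (nat_lit 15))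
 (.p (nat_lit 0x3865384b02) (nat_lit 0x80c08000000) (nat_lit 35)))
 (.p (nat_lit 0xfff0f6f02) (nat_lit 0xa584) (nat_lit 19)))
 (.n (.n (.p (nat_lit 0x12cf0e4f02) (nat_lit 0xa282) (nat_lit 19))
 (.p (nat_lit 0x39d338dd37c503) (nat_lit 0x22000002020) (nat_lit 44)))
 (.p (nat_lit 0x10a7102f02) (nat_lit 0xa0a6) (nat_lit 18)))))

def c512_508 : Tr :=
 .n (.n (.n (.n (.n (.p (nat_lit 0x23a0239e239c23980cf30ceb06) (nat_lit 0x220001b20) (nat_lit 14))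
 (.p (nat_lit 0x2538253625342532253014bb06) (nat_lit 0x200001a0e) (nat_lit 14)))
 (.n (.p (nat_lit 0xed30ed00ece0ecc0eca0ec8002f07) (nat_lit 0xa863) (nat_lit 7))
 (.p (nat_lit 0x3a3f38dd37c503) (nat_lit 0x22000002080) (nat_lit 43))))
 (.n (.n (.p (nat_lit 0x23ba23b823b623b00d950d9306) (nat_lit 0x60001c41) (nat_lit 14))
 (.p (nat_lit 0x38ff38ef02) (nat_lit 0xab402000800) (nat_lit 35)))
 (.p (nat_lit 0x2fde2fdc2fda2fd82fd62fd4013c07) (nat_lit 0x45) (nat_lit 8))))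
 (.n (.n (.n (.p (nat_lit 0x252e252c252625240d2b0d2906) (nat_lit 0xc0000280) (nat_lit 14))
 (.p (nat_lit 0x380737f502) (nat_lit 0x8a004000000) (nat_lit 35)))
 (.p (nat_lit 0x19a619a219a0199e0f310f2906) (nat_lit 0x110000d24) (nat_lit 15)))
 (.n (.n (.p (nat_lit 0x19a619a219a0199e199c0e3506) (nat_lit 0x100000562) (nat_lit 15))
 (.p (nat_lit 0x39b039ae39aa39a8389105) (nat_lit 0x380a000000) (nat_lit 36)))
 (.p (nat_lit 0x250a2506250425022500107506) (nat_lit 0x100001066) (nat_lit 16)))))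
 (.n (.n (.n (.n (.p (nat_lit 0x19be19ba19b619b40d150d1106) (nat_lit 0x140000060) (nat_lit 17))
 (.p (nat_lit 0x2cad174c02) (nat_lit 0x8092) (nat_lit 5)))
 (.p (nat_lit 0x327031b011e03) (nat_lit 0xa046003) (nat_lit 22)))
 (.n (.n (.p (nat_lit 0x26122610260e260a26080dc506) (nat_lit 0x40001d81) (nat_lit 14))
 (.p (nat_lit 0x3993397102) (nat_lit 0xb9808000800) (nat_lit 35)))
 (.p (nat_lit 0x2589102802) (nat_lit 0x4006) (nat_lit 5))))
 (.n (.n (.n (.p (nat_lit 0xd520d510d4e0d4c0d4b0d4802280009000309) (nat_lit 0x428a0) (nat_lit 13))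
 (.p (nat_lit 0x3889388102) (nat_lit 0x5180a000000) (nat_lit 35)))
 (.p (nat_lit 0x140b0f8b02) (nat_lit 0x2aa4) (nat_lit 19)))
 (.n (.n (.p (nat_lit 0x184a18481846184218400e6d06) (nat_lit 0x40001aa2) (nat_lit 17))
 (.p (nat_lit 0x3a27390337bb03) (nat_lit 0xb8c00002040) (nat_lit 43)))
 (.p (nat_lit 0x23422340233c233a233811b706) (nat_lit 0x80001d88) (nat_lit 14)))))

def c256_252 : Tr := .n c512_252 c512_508

def c128_124 : Tr := .n c256_124 c256_252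

def c64_60 : Tr := .n c128_60 c128_124

def c32_28 : Tr := .n c64_28 c64_60

def c16_12 : Tr := .n c32_12 c32_28

def cb4_12 : Tr := c16_12

def c512_13 : Tr :=
 .n (.n (.n (.n (.n (.p (nat_lit 0x22290cc802) (nat_lit 0x4000) (nat_lit 5))
 (.p (nat_lit 0x1cdf122e02) (nat_lit 0x6869) (nat_lit 4)))
 (.n (.p (nat_lit 0x186c186a1868186618640e7306) (nat_lit 0x200000ca2) (nat_lit 15))
 (.p (nat_lit 0x39de17a702) (nat_lit 0x2040) (nat_lit 45))))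
 (.n (.n (.p (nat_lit 0x259a2594259225900d510d4f06) (nat_lit 0x1800018a0) (nat_lit 14))
 (.p (nat_lit 0x388b388302) (nat_lit 0x59c0a000000) (nat_lit 35)))
 (.p (nat_lit 0x33f0339012e03) (nat_lit 0x54004) (nat_lit 22))))
 (.n (.n (.n (.p (nat_lit 0x247a24762474247224700d1506) (nat_lit 0x100001060) (nat_lit 16))
 (.p (nat_lit 0x7d7002202) (nat_lit 0xa041) (nat_lit 30)))
 (.p (nat_lit 0x12f0034003203) (nat_lit 0x6000a004) (nat_lit 20)))
 (.n (.n (.p (nat_lit 0x10970dc702) (nat_lit 0x6c81) (nat_lit 19))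
 (.p (nat_lit 0x3985397502) (nat_lit 0x82008000800) (nat_lit 35)))
 (.p (nat_lit 0x102e102d102b10281026102403f00051004f09) (nat_lit 0x46006) (nat_lit 13)))))
 (.n (.n (.n (.n (.p (nat_lit 0x23ac23aa23a823a60cf30ce906) (nat_lit 0x210000c20) (nat_lit 16))
 (.p (nat_lit 0x2a2314c202) (nat_lit 0x602e) (nat_lit 5)))
 (.n (.p (nat_lit 0x296629622960295e295c0ed106) (nat_lit 0x100000d63) (nat_lit 14))
 (.p (nat_lit 0x39f93927380903) (nat_lit 0x8c800004080) (nat_lit 44))))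
 (.n (.n (.p (nat_lit 0x11850d9502) (nat_lit 0x4941) (nat_lit 19))
 (.p (nat_lit 0x38ff38fb02) (nat_lit 0xacc02000800) (nat_lit 35)))
 (.p (nat_lit 0xfce0fcc0fcb0fc80fc60fc4004307) (nat_lit 0x6045) (nat_lit 7))))
 (.n (.n (.n (.p (nat_lit 0x25382536253425320d2f0d2506) (nat_lit 0x210001280) (nat_lit 14))
 (.p (nat_lit 0x380737fb02) (nat_lit 0x8ac04000000) (nat_lit 35)))
 (.p (nat_lit 0xf470f2f02) (nat_lit 0x6824) (nat_lit 18)))
 (.n (.n (.p (nat_lit 0x11970e3702) (nat_lit 0xa062) (nat_lit 19))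
 (.p (nat_lit 0x39c538d3378903) (nat_lit 0xb8800000000) (nat_lit 44)))
 (.p (nat_lit 0x253a2538253425301073106f06) (nat_lit 0xa0001266) (nat_lit 14)))))

def c512_269 : Tr :=
 .n (.n (.n (.n (.n (.p (nat_lit 0x1890188e188c188a0cdb0cd106) (nat_lit 0x210001d00) (nat_lit 15))
 (.p (nat_lit 0x28ed138c02) (nat_lit 0x800c) (nat_lit 5)))
 (.n (.p (nat_lit 0xe960e940e920e900e8e0e8d002507) (nat_lit 0x23) (nat_lit 7))
 (.p (nat_lit 0x39ec0ee502) (nat_lit 0x4960) (nat_lit 47))))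
 (.n (.n (.p (nat_lit 0x2d87001702) (nat_lit 0xa021) (nat_lit 33))
 (.p (nat_lit 0x38c138b702) (nat_lit 0x72400000800) (nat_lit 35)))
 (.p (nat_lit 0x10390fa902) (nat_lit 0x8805) (nat_lit 19))))
 (.n (.n (.n (.p (nat_lit 0x19ee19ec19ea19e619e40d1d06) (nat_lit 0x40000a60) (nat_lit 15))
 (.p (nat_lit 0x37a7379102) (nat_lit 0x89800000000) (nat_lit 35)))
 (.p (nat_lit 0x17ea17e817e617e417e20f1106) (nat_lit 0x10001c04) (nat_lit 15)))
 (.n (.n (.p (nat_lit 0x18af0dfe02) (nat_lit 0x2022) (nat_lit 4))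
 (.p (nat_lit 0x39a939a502) (nat_lit 0x5200a000800) (nat_lit 35)))
 (.p (nat_lit 0x105e105c105a10591056105503c8004d004909) (nat_lit 0x20046) (nat_lit 13)))))
 (.n (.n (.n (.n (.p (nat_lit 0x192e192c192a19260d050d0106) (nat_lit 0x50000840) (nat_lit 15))
 (.p (nat_lit 0x2b5f15fe02) (nat_lit 0xa050) (nat_lit 5)))
 (.n (.p (nat_lit 0x17881786178217800ef70ef106) (nat_lit 0x2400010a3) (nat_lit 15))
 (.p (nat_lit 0x3a51397d385d03) (nat_lit 0x630000080a0) (nat_lit 43))))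
 (.n (.n (.p (nat_lit 0x228c228a228822860db30da906) (nat_lit 0x210000c61) (nat_lit 14))
 (.p (nat_lit 0x395b393d02) (nat_lit 0x99006000800) (nat_lit 35)))
 (.p (nat_lit 0x100b0ff302) (nat_lit 0xa865) (nat_lit 18))))
 (.n (.n (.n (.p (nat_lit 0x257625742572256c0d350d3306) (nat_lit 0x60000d80) (nat_lit 14))
 (.p (nat_lit 0x3871384d02) (nat_lit 0xb1008000000) (nat_lit 35)))
 (.p (nat_lit 0x1a250f7402) (nat_lit 0x4884) (nat_lit 4)))
 (.n (.n (.p (nat_lit 0x19050e5402) (nat_lit 0x4882) (nat_lit 4))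
 (.p (nat_lit 0x39d5390d37ef03) (nat_lit 0x21400004020) (nat_lit 44)))
 (.p (nat_lit 0x261110b002) (nat_lit 0x88a6) (nat_lit 5)))))

def c256_13 : Tr := .n c512_13 c512_269

def c512_141 : Tr :=
 .n (.n (.n (.n (.n (.p (nat_lit 0x22de22dc22da22d80cdb0cd906) (nat_lit 0x300001900) (nat_lit 14))
 (.p (nat_lit 0x23de23dc23da23d623d412d506) (nat_lit 0x4000088a) (nat_lit 14)))
 (.n (.p (nat_lit 0x23aa23a823a623a40e7f0e7d06) (nat_lit 0x300000403) (nat_lit 14))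
 (.p (nat_lit 0x3a2c0f3102) (nat_lit 0x8c40) (nat_lit 48))))
 (.n (.n (.p (nat_lit 0xf890d4902) (nat_lit 0xba0) (nat_lit 19))
 (.p (nat_lit 0x38bb38a502) (nat_lit 0x58000000800) (nat_lit 35)))
 (.p (nat_lit 0x1b0c1b0a1b081b061b040f9f06) (nat_lit 0x200000205) (nat_lit 15))))
 (.n (.n (.n (.p (nat_lit 0xec50d1502) (nat_lit 0x8260) (nat_lit 19))
 (.l (nat_lit 0x2550000000000000008) (nat_lit 0x10105) (nat_lit 29)))
 (.p (nat_lit 0x22b022ae22ac22aa22a80f0f06) (nat_lit 0x200001504) (nat_lit 14)))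
 (.n (.n (.p (nat_lit 0x28b027b026f010004) (nat_lit 0x62a2001) (nat_lit 23))
 (.p (nat_lit 0x399d399702) (nat_lit 0x2040a000800) (nat_lit 35)))
 (.p (nat_lit 0x1055103d02) (nat_lit 0x26) (nat_lit 18)))))
 (.n (.n (.n (.n (.p (nat_lit 0x23e823e623e423e00cff0cf706) (nat_lit 0x220001040) (nat_lit 14))
 (.p (nat_lit 0x2ab3155202) (nat_lit 0x602f) (nat_lit 5)))
 (.n (.p (nat_lit 0x2efa2ef82ef62ef42ef22ef0011c07) (nat_lit 0x883) (nat_lit 8))
 (.p (nat_lit 0x3a48173902) (nat_lit 0x8a0) (nat_lit 48))))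
 (.n (.n (.p (nat_lit 0x180017fe17fc17fa0da70d9d06) (nat_lit 0x210001561) (nat_lit 15))
 (.p (nat_lit 0x3925391f02) (nat_lit 0x83404000800) (nat_lit 35)))
 (.p (nat_lit 0x1a421a401a3e1a380fd50fd306) (nat_lit 0x60001d45) (nat_lit 17))))
 (.n (.n (.n (.p (nat_lit 0xd3a0d380d370d340d330d3002260007000309) (nat_lit 0x32880) (nat_lit 13))
 (.p (nat_lit 0x3843381f02) (nat_lit 0xb9406000000) (nat_lit 35)))
 (.p (nat_lit 0x24ad0f4c02) (nat_lit 0x64) (nat_lit 5)))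
 (.n (.n (.p (nat_lit 0x23ad0e4c02) (nat_lit 0x8082) (nat_lit 5))
 (.p (nat_lit 0x39cb3935381d03) (nat_lit 0x1000006000) (nat_lit 44)))
 (.p (nat_lit 0x3095004902) (nat_lit 0x86) (nat_lit 33)))))

def c512_397 : Tr :=
 .n (.n (.n (.n (.n (.p (nat_lit 0x2249179902) (nat_lit 0x820) (nat_lit 11))
 (.p (nat_lit 0x297d141c02) (nat_lit 0x800d) (nat_lit 5)))
 (.n (.p (nat_lit 0x195f0eae02) (nat_lit 0xa043) (nat_lit 4))
 (.p (nat_lit 0x39f3399b388303) (nat_lit 0x19c0000a060) (nat_lit 44))))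
 (.n (.n (.p (nat_lit 0x22ef0d8e02) (nat_lit 0xa041) (nat_lit 5))
 (.p (nat_lit 0x38ed38d702) (nat_lit 0x60402000800) (nat_lit 35)))
 (.p (nat_lit 0x2fcf0fbe02) (nat_lit 0x6825) (nat_lit 32))))
 (.n (.n (.n (.p (nat_lit 0xfef0d1f02) (nat_lit 0x6c60) (nat_lit 19))
 (.p (nat_lit 0x37db37b902) (nat_lit 0x98802000000) (nat_lit 35)))
 (.p (nat_lit 0x245424522450244c0f270f1f06) (nat_lit 0x220000524) (nat_lit 14)))
 (.n (.n (.p (nat_lit 0x18d90e2802) (nat_lit 0x8842) (nat_lit 4))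
 (.p (nat_lit 0x38d038ce38ca38c837b105) (nat_lit 0x5800000000) (nat_lit 36)))
 (.p (nat_lit 0x179617941792178e178c106506) (nat_lit 0x40000946) (nat_lit 15)))))
 (.n (.n (.n (.n (.p (nat_lit 0x245624522450244c0d090d0306) (nat_lit 0x120000d40) (nat_lit 16))
 (.p (nat_lit 0x171e171d171a171817171714073800e100db09) (nat_lit 0x42052) (nat_lit 13)))
 (.p (nat_lit 0x2250224e224c224a22480f0306) (nat_lit 0x2000019a3) (nat_lit 14)))
 (.n (.n (.p (nat_lit 0x1b4a1b461b441b421b400dbd06) (nat_lit 0x100001481) (nat_lit 17))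
 (.p (nat_lit 0x3989396502) (nat_lit 0x90008000800) (nat_lit 35)))
 (.p (nat_lit 0x10221020101e101c101b1018003f07) (nat_lit 0x28a5) (nat_lit 7))))
 (.n (.n (.n (.p (nat_lit 0x25ca25c625c425c225c00d4506) (nat_lit 0x1000012a0) (nat_lit 16))
 (.p (nat_lit 0x38a238a0389e389c389a38983896389438923890388e388c388a38883886388438823880387e387c387a38783876387418) (nat_lit 0xa000000) (nat_lit 34)))
 (.p (nat_lit 0x25762574257225700f7f0f7d06) (nat_lit 0x300005a4) (nat_lit 16)))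
 (.n (.n (.p (nat_lit 0xe61001002) (nat_lit 0x40a2) (nat_lit 1))
 (.p (nat_lit 0x39d93977385f03) (nat_lit 0x4b400008020) (nat_lit 44)))
 (.p (nat_lit 0x1c43119202) (nat_lit 0x6068) (nat_lit 4)))))

def c256_141 : Tr := .n c512_141 c512_397

def c128_13 : Tr := .n c256_13 c256_141

def c512_77 : Tr :=
 .n (.n (.n (.n (.n (.p (nat_lit 0xe7d0ccd02) (nat_lit 0x8200) (nat_lit 19))
 (.p (nat_lit 0x281f12be02) (nat_lit 0x686a) (nat_lit 5)))
 (.n (.p (nat_lit 0x121002a02) (nat_lit 0x8000c003) (nat_lit 20))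
 (.p (nat_lit 0x3a2d3967384703) (nat_lit 0x8400008040) (nat_lit 43))))
 (.n (.n (.p (nat_lit 0x1b241b221b201b1e1b1c0d5306) (nat_lit 0x200000ba0) (nat_lit 15))
 (.p (nat_lit 0x3899388f02) (nat_lit 0x9340a000000) (nat_lit 35)))
 (.p (nat_lit 0x13d00440042003c04) (nat_lit 0x190008005) (nat_lit 20))))
 (.n (.n (.n (.p (nat_lit 0x1a1e1a1a1a181a161a140d1506) (nat_lit 0x100000460) (nat_lit 15))
 (.p (nat_lit 0x85d002502) (nat_lit 0x43) (nat_lit 31)))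
 (.p (nat_lit 0x178a17881784178217800f0b06) (nat_lit 0x80001004) (nat_lit 17)))
 (.n (.n (.p (nat_lit 0x188b0dda02) (nat_lit 0x28a1) (nat_lit 4))
 (.p (nat_lit 0x3989398102) (nat_lit 0x93808000800) (nat_lit 35)))
 (.p (nat_lit 0x1051103902) (nat_lit 0x8806) (nat_lit 18)))))
 (.n (.n (.n (.n (.p (nat_lit 0xd810cf102) (nat_lit 0x8820) (nat_lit 19))
 (.p (nat_lit 0x1a401a3e1a3c1a3a1a3814d306) (nat_lit 0x200001d2e) (nat_lit 15)))
 (.n (.p (nat_lit 0x19be19ba19b819b619b40edd06) (nat_lit 0x100000083) (nat_lit 15))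
 (.p (nat_lit 0x3a45397d385f03) (nat_lit 0x63400008080) (nat_lit 43))))
 (.n (.n (.p (nat_lit 0x22522250224e224c22480d9f06) (nat_lit 0x20001161) (nat_lit 14))
 (.p (nat_lit 0x392f390b02) (nat_lit 0xa8c04000800) (nat_lit 35)))
 (.p (nat_lit 0x2fe10fd002) (nat_lit 0x845) (nat_lit 32))))
 (.n (.n (.n (.p (nat_lit 0xe4d0d2d02) (nat_lit 0x8180) (nat_lit 19))
 (.p (nat_lit 0x3827381502) (nat_lit 0x48006000000) (nat_lit 35)))
 (.p (nat_lit 0x1eb61eb21eae1eac0f3d0f3906) (nat_lit 0x140000544) (nat_lit 17)))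
 (.n (.n (.p (nat_lit 0x196a19661964196219600e4106) (nat_lit 0x100001a62) (nat_lit 15))
 (.p (nat_lit 0x39c7390137b703) (nat_lit 0xb0400002000) (nat_lit 44)))
 (.p (nat_lit 0x10821080107e107d107a107903c8004d004909) (nat_lit 0x20866) (nat_lit 13)))))

def c512_333 : Tr :=
 .n (.n (.n (.n (.n (.p (nat_lit 0x235a2358235223500ce30ce106) (nat_lit 0xc0001020) (nat_lit 14))
 (.p (nat_lit 0x2961140002) (nat_lit 0x40ac) (nat_lit 5)))
 (.n (.p (nat_lit 0x194d0e9c02) (nat_lit 0x4823) (nat_lit 4))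
 (.p (nat_lit 0x39f1397d385f03) (nat_lit 0x63400008060) (nat_lit 44))))
 (.n (.n (.p (nat_lit 0x26f626f426f226f026ee0d7906) (nat_lit 0x10000b21) (nat_lit 14))
 (.p (nat_lit 0x38cb38c502) (nat_lit 0x9c000000800) (nat_lit 35)))
 (.p (nat_lit 0x17c617c417c217c017bc0faf06) (nat_lit 0x20000325) (nat_lit 15))))
 (.n (.n (.n (.p (nat_lit 0x24e624e424e224de24dc0d1d06) (nat_lit 0x40000d60) (nat_lit 14))
 (.p (nat_lit 0x37ab37a902) (nat_lit 0x9c800000000) (nat_lit 35)))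
 (.p (nat_lit 0x247f0f1e02) (nat_lit 0x2024) (nat_lit 5)))
 (.n (.n (.p (nat_lit 0x18c90e1802) (nat_lit 0x4042) (nat_lit 4))
 (.p (nat_lit 0x39b739b302) (nat_lit 0x8bc0a000800) (nat_lit 35)))
 (.p (nat_lit 0x17f417f217ee17ec105f105906) (nat_lit 0x240000546) (nat_lit 17)))))
 (.n (.n (.n (.n (.p (nat_lit 0x195e1958195619540d090d0706) (nat_lit 0x180000a40) (nat_lit 17))
 (.p (nat_lit 0x20c5161402) (nat_lit 0x8070) (nat_lit 4)))
 (.n (.p (nat_lit 0x180217fe17fc17fa17f80ef506) (nat_lit 0x1000015a3) (nat_lit 17))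
 (.p (nat_lit 0x3a5339a9388b03) (nat_lit 0x52c0000a0a0) (nat_lit 43))))
 (.n (.n (.p (nat_lit 0x186b0dba02) (nat_lit 0x6081) (nat_lit 4))
 (.p (nat_lit 0x3949394702) (nat_lit 0x52406000800) (nat_lit 35)))
 (.p (nat_lit 0x256d1abd039b037f013e05) (nat_lit 0xd100a5) (nat_lit 9))))
 (.n (.n (.n (.p (nat_lit 0x22a10d4002) (nat_lit 0x40a0) (nat_lit 5))
 (.p (nat_lit 0x385f385902) (nat_lit 0x6a808000000) (nat_lit 35)))
 (.p (nat_lit 0x24dd0f7c02) (nat_lit 0xa4) (nat_lit 5)))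
 (.n (.n (.p (nat_lit 0x17d217cc17ca17c80e590e5706) (nat_lit 0x180001b82) (nat_lit 15))
 (.p (nat_lit 0x3a1f394f382f03) (nat_lit 0x6b400006020) (nat_lit 43)))
 (.p (nat_lit 0x1bab10fa02) (nat_lit 0xa847) (nat_lit 4)))))

def c256_77 : Tr := .n c512_77 c512_333

def c512_205 : Tr :=
 .n (.n (.n (.n (.n (.p (nat_lit 0x1862185e185a18580cd90cd506) (nat_lit 0x140001b00) (nat_lit 17))
 (.p (nat_lit 0x12f3002202) (nat_lit 0xa8aa) (nat_lit 1)))
 (.n (.p (nat_lit 0x23722370236e236c23680e8306) (nat_lit 0x20001903) (nat_lit 14))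
 (.p (nat_lit 0x39e817c902) (nat_lit 0x860) (nat_lit 45))))
 (.n (.n (.p (nat_lit 0x180f0d5e02) (nat_lit 0xa001) (nat_lit 4))
 (.p (nat_lit 0x38bb38ad02) (nat_lit 0x59000000800) (nat_lit 35)))
 (.p (nat_lit 0x1a590fa802) (nat_lit 0x8805) (nat_lit 4))))
 (.n (.n (.n (.p (nat_lit 0x246e246c246824660d1f0d1906) (nat_lit 0x90000860) (nat_lit 16))
 (.p (nat_lit 0xa71002802) (nat_lit 0x408a) (nat_lit 30)))
 (.p (nat_lit 0x22522250224e224c224a0f1106) (nat_lit 0x10001904) (nat_lit 14)))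
 (.n (.n (.p (nat_lit 0x271827162714271227100def06) (nat_lit 0x200001402) (nat_lit 14))
 (.p (nat_lit 0x39a5399d02) (nat_lit 0x4100a000800) (nat_lit 35)))
 (.p (nat_lit 0x22fa22f822f622f422f0104b06) (nat_lit 0x20001a26) (nat_lit 14)))))
 (.n (.n (.n (.n (.p (nat_lit 0x2462245e245c24580cfd0cf706) (nat_lit 0x120001540) (nat_lit 16))
 (.p (nat_lit 0x15e615e515e215e015de15dc00c907) (nat_lit 0x8030) (nat_lit 7)))
 (.n (.p (nat_lit 0x1a1e1a1c1a181a161a140ee706) (nat_lit 0x80000c83) (nat_lit 17))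
 (.p (nat_lit 0x3a07393f381f03) (nat_lit 0x294000060a0) (nat_lit 44))))
 (.n (.n (.p (nat_lit 0x178a1788178617840dab0da906) (nat_lit 0x30001861) (nat_lit 17))
 (.p (nat_lit 0x394f393502) (nat_lit 0x68006000800) (nat_lit 35)))
 (.p (nat_lit 0x2a262a242a202a1e2a1c0fe306) (nat_lit 0x80000165) (nat_lit 14))))
 (.n (.n (.n (.p (nat_lit 0x1a701a6e1a6a1a680d3b0d3506) (nat_lit 0x240001980) (nat_lit 17))
 (.p (nat_lit 0x3849384702) (nat_lit 0x10408000000) (nat_lit 35)))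
 (.p (nat_lit 0x24c90f6802) (nat_lit 0x4084) (nat_lit 5)))
 (.n (.n (.p (nat_lit 0x2280227e227a22780e4f0e4906) (nat_lit 0x240001382) (nat_lit 14))
 (.p (nat_lit 0x39cf39bf387703) (nat_lit 0xa840000a000) (nat_lit 44)))
 (.p (nat_lit 0x25f7109602) (nat_lit 0x6886) (nat_lit 5)))))

def c512_461 : Tr :=
 .n (.n (.n (.n (.n (.p (nat_lit 0x18b418b218b018ae0cf30ce906) (nat_lit 0x210000920) (nat_lit 17))
 (.p (nat_lit 0x14ae14ac14aa14a914a714a4061400ad00ab09) (nat_lit 0x2200e) (nat_lit 13)))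
 (.n (.p (nat_lit 0xec60ec50ec30ec00ebe0ebc0318002d002b09) (nat_lit 0x46063) (nat_lit 13))
 (.p (nat_lit 0x3a3d38bf37a103) (nat_lit 0x6b800000080) (nat_lit 43))))
 (.n (.n (.p (nat_lit 0x2da1000d02) (nat_lit 0x841) (nat_lit 33))
 (.p (nat_lit 0x38f738df02) (nat_lit 0x89402000800) (nat_lit 35)))
 (.p (nat_lit 0x228c228a2288228622840fc306) (nat_lit 0x200000c25) (nat_lit 16))))
 (.n (.n (.n (.p (nat_lit 0x1a5a1a581a521a500d2b0d2906) (nat_lit 0xc0001080) (nat_lit 15))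
 (.p (nat_lit 0x37f737e502) (nat_lit 0x48004000000) (nat_lit 35)))
 (.p (nat_lit 0xf320f310f2e0f2c0f2a0f29033c0039003109) (nat_lit 0x40824) (nat_lit 13)))
 (.n (.n (.p (nat_lit 0x2e450e3402) (nat_lit 0x8062) (nat_lit 32))
 (.p (nat_lit 0x39523950394a383304) (nat_lit 0x3c06000000) (nat_lit 36)))
 (.p (nat_lit 0x172b106b02) (nat_lit 0xa846) (nat_lit 19)))))
 (.n (.n (.n (.n (.p (nat_lit 0x10630d0302) (nat_lit 0x2d40) (nat_lit 19))
 (.p (nat_lit 0x2c97173602) (nat_lit 0xa072) (nat_lit 5)))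
 (.p (nat_lit 0xf930f0302) (nat_lit 0xaca3) (nat_lit 19)))
 (.n (.n (.p (nat_lit 0xdcb0dc80dc60dc40dc20dc102660017000d09) (nat_lit 0x50881) (nat_lit 13))
 (.p (nat_lit 0x3979396d02) (nat_lit 0x51008000800) (nat_lit 35)))
 (.p (nat_lit 0x3a9038f013e03) (nat_lit 0x6042005) (nat_lit 22))))
 (.n (.n (.n (.p (nat_lit 0x10170d4702) (nat_lit 0xa4a0) (nat_lit 19))
 (.p (nat_lit 0x3887387b02) (nat_lit 0x48c0a000000) (nat_lit 35)))
 (.p (nat_lit 0x24fe24fa24f824f624f40f9106) (nat_lit 0x1000008a4) (nat_lit 14)))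
 (.n (.n (.p (nat_lit 0x2e822e802e7e2e7c2e7a2e78010c07) (nat_lit 0x8a2) (nat_lit 8))
 (.p (nat_lit 0x39dd38b7379d03) (nat_lit 0x4b000000040) (nat_lit 44)))
 (.p (nat_lit 0x270911a802) (nat_lit 0x4088) (nat_lit 5)))))

def c256_205 : Tr := .n c512_205 c512_461

def c128_77 : Tr := .n c256_77 c256_205

def c64_13 : Tr := .n c128_13 c128_77

def c512_45 : Tr :=
 .n (.n (.n (.n (.n (.p (nat_lit 0x2312230e230c230a0ccd0cc506) (nat_lit 0x110001300) (nat_lit 16))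
 (.p (nat_lit 0x27ab124a02) (nat_lit 0xa889) (nat_lit 5)))
 (.n (.p (nat_lit 0x2c502a9010e03) (nat_lit 0x4040002) (nat_lit 22))
 (.p (nat_lit 0x3a2b393d381f03) (nat_lit 0x21400006040) (nat_lit 43))))
 (.n (.n (.p (nat_lit 0x25be25ba25b825b625b40d5106) (nat_lit 0x100000aa0) (nat_lit 16))
 (.p (nat_lit 0x3891388902) (nat_lit 0x7280a000000) (nat_lit 35)))
 (.p (nat_lit 0x36303610347013004) (nat_lit 0x62c2004) (nat_lit 23))))
 (.n (.n (.n (.p (nat_lit 0x2490248e248c24880d170d0f06) (nat_lit 0x220001160) (nat_lit 14))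
 (.p (nat_lit 0x827001f02) (nat_lit 0x6062) (nat_lit 31)))
 (.p (nat_lit 0x12c003b00390035003305) (nat_lit 0x360008004) (nat_lit 21)))
 (.n (.n (.p (nat_lit 0xdd70dd40dd20dd00dcf0dcc02720017000f09) (nat_lit 0x520a1) (nat_lit 13))
 (.p (nat_lit 0x398f397902) (nat_lit 0xaa808000800) (nat_lit 35)))
 (.p (nat_lit 0x2597103602) (nat_lit 0x6806) (nat_lit 5)))))
 (.n (.n (.n (.n (.p (nat_lit 0x191619121910190e0cf10ce906) (nat_lit 0x110000d20) (nat_lit 15))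
 (.p (nat_lit 0x2a2d14cc02) (nat_lit 0x482e) (nat_lit 5)))
 (.n (.p (nat_lit 0x2ee9002902) (nat_lit 0x4083) (nat_lit 33))
 (.p (nat_lit 0x3a420f8302) (nat_lit 0x6280) (nat_lit 48))))
 (.n (.n (.p (nat_lit 0x23011851026d026300fe05) (nat_lit 0xc14061) (nat_lit 9))
 (.p (nat_lit 0x392b390502) (nat_lit 0x98004000800) (nat_lit 35)))
 (.p (nat_lit 0x1a121a101a0e1a0c1a080fc706) (nat_lit 0x20001345) (nat_lit 15))))
 (.n (.n (.n (.p (nat_lit 0x1ac61ac41ac01abe1abc0d2b06) (nat_lit 0x80000580) (nat_lit 15))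
 (.p (nat_lit 0x380b380702) (nat_lit 0x9c404000000) (nat_lit 35)))
 (.p (nat_lit 0x249b0f3a02) (nat_lit 0x6044) (nat_lit 5)))
 (.n (.n (.p (nat_lit 0xe420e410e3e0e3c0e3a0e38002107) (nat_lit 0x8862) (nat_lit 7))
 (.p (nat_lit 0x3a0d38bf37a703) (nat_lit 0x6c400000000) (nat_lit 43)))
 (.p (nat_lit 0x25d9107802) (nat_lit 0x866) (nat_lit 5)))))

def c512_301 : Tr :=
 .n (.n (.n (.n (.n (.p (nat_lit 0xf1b0cdb02) (nat_lit 0xab00) (nat_lit 19))
 (.p (nat_lit 0x19a619a419a0199e199c139706) (nat_lit 0x80000d0c) (nat_lit 15)))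
 (.n (.p (nat_lit 0x1d7c1d7a1d781d761d740e9706) (nat_lit 0x200000423) (nat_lit 17))
 (.p (nat_lit 0x3a36227f02) (nat_lit 0x6860) (nat_lit 46))))
 (.n (.n (.p (nat_lit 0x2d89000d02) (nat_lit 0x821) (nat_lit 33))
 (.p (nat_lit 0x38c138bd02) (nat_lit 0x73000000800) (nat_lit 35)))
 (.p (nat_lit 0x25170fb602) (nat_lit 0xa025) (nat_lit 5))))
 (.n (.n (.n (.p (nat_lit 0x1a061a0019fe19fc0d210d1f06) (nat_lit 0x180000b60) (nat_lit 17))
 (.p (nat_lit 0x37af379d02) (nat_lit 0xab000000000) (nat_lit 35)))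
 (.p (nat_lit 0x17fe17fc17fa17f80f1b0f1906) (nat_lit 0x300001d04) (nat_lit 15)))
 (.n (.n (.p (nat_lit 0x18bb0e0a02) (nat_lit 0x2822) (nat_lit 4))
 (.p (nat_lit 0x39bb39a902) (nat_lit 0x9a80a000800) (nat_lit 35)))
 (.p (nat_lit 0x17c617c217be17bc105d105906) (nat_lit 0x140000346) (nat_lit 15)))))
 (.n (.n (.n (.n (.p (nat_lit 0x1946194419421940193e0d0106) (nat_lit 0x10000940) (nat_lit 15))
 (.p (nat_lit 0x3617160602) (nat_lit 0x6850) (nat_lit 32)))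
 (.n (.p (nat_lit 0x227422722270226e226c0ef706) (nat_lit 0x2000003a3) (nat_lit 14))
 (.p (nat_lit 0x3a08180102) (nat_lit 0x88a0) (nat_lit 45))))
 (.n (.n (.p (nat_lit 0x11a30db302) (nat_lit 0xa961) (nat_lit 19))
 (.p (nat_lit 0x3955394102) (nat_lit 0x81806000800) (nat_lit 35)))
 (.p (nat_lit 0x1ab1100002) (nat_lit 0x885) (nat_lit 4))))
 (.n (.n (.n (.p (nat_lit 0xee10d3102) (nat_lit 0xa80) (nat_lit 19))
 (.p (nat_lit 0x386f385302) (nat_lit 0xa9c08000000) (nat_lit 35)))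
 (.p (nat_lit 0x2a0e2a0c2a0a2a082a060f7106) (nat_lit 0x10000884) (nat_lit 14)))
 (.n (.n (.p (nat_lit 0x17a217a0179e179a17980e5506) (nat_lit 0x40001982) (nat_lit 17))
 (.p (nat_lit 0x3a1f395d381503) (nat_lit 0xa0000006020) (nat_lit 43)))
 (.p (nat_lit 0x3d903cd014e03) (nat_lit 0x8010006) (nat_lit 22)))))

def c256_45 : Tr := .n c512_45 c512_301

def c512_173 : Tr :=
 .n (.n (.n (.n (.n (.p (nat_lit 0x230623042302230022fe0cd106) (nat_lit 0x10000b00) (nat_lit 16))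
 (.p (nat_lit 0x23a223a0239e239c239812df06) (nat_lit 0x200013aa) (nat_lit 14)))
 (.n (.p (nat_lit 0x2e93002702) (nat_lit 0x2803) (nat_lit 33))
 (.p (nat_lit 0x39e739b3389303) (nat_lit 0x7bc0000a040) (nat_lit 44))))
 (.n (.n (.p (nat_lit 0x24f02410235021d04) (nat_lit 0x95a0000) (nat_lit 24))
 (.p (nat_lit 0x38ad38a902) (nat_lit 0x20800000800) (nat_lit 35)))
 (.p (nat_lit 0x14ab0f9b02) (nat_lit 0x6305) (nat_lit 19))))
 (.n (.n (.n (.p (nat_lit 0x227b17cb02) (nat_lit 0x2860) (nat_lit 11))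
 (.l (nat_lit 0x55000000000000200800) (nat_lit 0x58226) (nat_lit 29)))
 (.p (nat_lit 0x2f250f1402) (nat_lit 0x4804) (nat_lit 32)))
 (.n (.n (.p (nat_lit 0x2df50de402) (nat_lit 0x2) (nat_lit 32))
 (.p (nat_lit 0x39b3399902) (nat_lit 0x7880a000800) (nat_lit 35)))
 (.p (nat_lit 0x10521050104f104c104a1048004f07) (nat_lit 0x6826) (nat_lit 7)))))
 (.n (.n (.n (.n (.p (nat_lit 0x1982197e197c197a0cfd0cf506) (nat_lit 0x110001340) (nat_lit 15))
 (.p (nat_lit 0x2acf156e02) (nat_lit 0xa04f) (nat_lit 5)))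
 (.n (.p (nat_lit 0x2efb0eea02) (nat_lit 0xa883) (nat_lit 32))
 (.p (nat_lit 0x3a4d3925380503) (nat_lit 0x840000040a0) (nat_lit 43))))
 (.n (.n (.p (nat_lit 0x2db9000d02) (nat_lit 0x861) (nat_lit 33))
 (.p (nat_lit 0x3931392702) (nat_lit 0xb4404000800) (nat_lit 35)))
 (.p (nat_lit 0x2fef003f02) (nat_lit 0x2065) (nat_lit 33))))
 (.n (.n (.n (.p (nat_lit 0x25082506250225000d3b0d3506) (nat_lit 0x240001880) (nat_lit 14))
 (.p (nat_lit 0x3839382702) (nat_lit 0x92406000000) (nat_lit 35)))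
 (.p (nat_lit 0x1a0d0f5c02) (nat_lit 0x4864) (nat_lit 4)))
 (.n (.n (.p (nat_lit 0x2250224e224c224a22480e4f06) (nat_lit 0x200001182) (nat_lit 16))
 (.p (nat_lit 0x3a153971385903) (nat_lit 0x32800008000) (nat_lit 43)))
 (.p (nat_lit 0x108f108c108a10891086108403e60053004d09) (nat_lit 0x54086) (nat_lit 13)))))

def c512_429 : Tr :=
 .n (.n (.n (.n (.n (.p (nat_lit 0x189e189a189618940cf10ced06) (nat_lit 0x140000820) (nat_lit 15))
 (.p (nat_lit 0x1f821f801f7e1f7c1f7a148d06) (nat_lit 0x100011ad) (nat_lit 15)))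
 (.n (.p (nat_lit 0xf450eb502) (nat_lit 0x4c43) (nat_lit 19))
 (.p (nat_lit 0x3a3b39bb38a103) (nat_lit 0x9d80000a060) (nat_lit 43))))
 (.n (.n (.p (nat_lit 0x191619141910190e190c0d8b06) (nat_lit 0x80000541) (nat_lit 17))
 (.p (nat_lit 0x38ff38db02) (nat_lit 0xa8c02000800) (nat_lit 35)))
 (.p (nat_lit 0x225e225c225a225822560fb906) (nat_lit 0x10000a25) (nat_lit 14))))
 (.n (.n (.n (.p (nat_lit 0x228d0d2c02) (nat_lit 0x8080) (nat_lit 5))
 (.p (nat_lit 0x37db37bf02) (nat_lit 0x99402000000) (nat_lit 35)))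
 (.p (nat_lit 0x2f39003102) (nat_lit 0x824) (nat_lit 33)))
 (.n (.n (.p (nat_lit 0xe410e2902) (nat_lit 0x8842) (nat_lit 18))
 (.p (nat_lit 0x3910390e390a390837f105) (nat_lit 0x1804000000) (nat_lit 36)))
 (.p (nat_lit 0x228e228c228822862284106706) (nat_lit 0x80000c46) (nat_lit 14)))))
 (.n (.n (.n (.n (.p (nat_lit 0xd230d0b02) (nat_lit 0xa840) (nat_lit 18))
 (.p (nat_lit 0x172b001602) (nat_lit 0xa852) (nat_lit 1)))
 (.p (nat_lit 0x17de17da17d817d617d40f0106) (nat_lit 0x100000ca3) (nat_lit 15)))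
 (.n (.n (.p (nat_lit 0xdc3004a02) (nat_lit 0x2881) (nat_lit 1))
 (.p (nat_lit 0x3977396902) (nat_lit 0x48808000800) (nat_lit 35)))
 (.p (nat_lit 0x10231020101e101c101b101803920047003f09) (nat_lit 0x528a5) (nat_lit 13))))
 (.n (.n (.n (.p (nat_lit 0x25ea25e825e625e40d470d4506) (nat_lit 0x3000004a0) (nat_lit 14))
 (.p (nat_lit 0x3895387702) (nat_lit 0x8040a000000) (nat_lit 35)))
 (.p (nat_lit 0x24eb1a3b0347033f012e05) (nat_lit 0x14328a4) (nat_lit 9)))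
 (.n (.n (.p (nat_lit 0x22fa22f822f622f00e610e5f06) (nat_lit 0x600012a2) (nat_lit 16))
 (.p (nat_lit 0x3a23399b387b03) (nat_lit 0x18c0000a020) (nat_lit 43)))
 (.p (nat_lit 0x1c4b119a02) (nat_lit 0x2868) (nat_lit 4)))))

def c256_173 : Tr := .n c512_173 c512_429

def c128_45 : Tr := .n c256_45 c256_173

def c512_109 : Tr :=
 .n (.n (.n (.n (.n (.p (nat_lit 0x178b0cda02) (nat_lit 0xa800) (nat_lit 4))
 (.p (nat_lit 0x193a193819341932193012cb06) (nat_lit 0x8000108a) (nat_lit 15)))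
 (.n (.p (nat_lit 0xe7d002002) (nat_lit 0x8003) (nat_lit 1))
 (.p (nat_lit 0x39e5397f386703) (nat_lit 0x6c400008040) (nat_lit 44))))
 (.n (.n (.p (nat_lit 0x1b4a1b441b421b400d510d4f06) (nat_lit 0x180001ca0) (nat_lit 15))
 (.p (nat_lit 0x389d389b02) (nat_lit 0xa4c0a000000) (nat_lit 35)))
 (.p (nat_lit 0x2fab004302) (nat_lit 0x6005) (nat_lit 33))))
 (.n (.n (.n (.p (nat_lit 0x1a421a401a3e1a380d110d0f06) (nat_lit 0x60001560) (nat_lit 15))
 (.p (nat_lit 0x8a3002e02) (nat_lit 0xa024) (nat_lit 30)))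
 (.p (nat_lit 0x22822280227c227a22780f0b06) (nat_lit 0x80001304) (nat_lit 16)))
 (.n (.n (.p (nat_lit 0xe6d0ddd02) (nat_lit 0x4aa1) (nat_lit 19))
 (.p (nat_lit 0x397c397639743970396e396c225107) (nat_lit 0x8000820) (nat_lit 38)))
 (.p (nat_lit 0x1047104410421040103e103c005307) (nat_lit 0xa026) (nat_lit 7)))))
 (.n (.n (.n (.n (.p (nat_lit 0xcf5002402) (nat_lit 0x40) (nat_lit 1))
 (.p (nat_lit 0x2a8b1fdb063f061501ce05) (nat_lit 0x16228ae) (nat_lit 9)))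
 (.n (.p (nat_lit 0x1a2a1a281a261a221a200ed906) (nat_lit 0x40001483) (nat_lit 17))
 (.p (nat_lit 0x3a4739a5388d03) (nat_lit 0x4300000a080) (nat_lit 43))))
 (.n (.n (.p (nat_lit 0x17d017ce17cc17ca17c80da706) (nat_lit 0x200001361) (nat_lit 17))
 (.p (nat_lit 0x391f391702) (nat_lit 0x6a404000800) (nat_lit 35)))
 (.p (nat_lit 0xfdb0fd80fd60fd40fd20fd103860047003d09) (nat_lit 0x50845) (nat_lit 13))))
 (.n (.n (.n (.p (nat_lit 0xd3a0d380d360d340d320d31000107) (nat_lit 0x880) (nat_lit 7))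
 (.p (nat_lit 0x3827381d02) (nat_lit 0x49006000000) (nat_lit 35)))
 (.p (nat_lit 0xf49009802) (nat_lit 0x8844) (nat_lit 1)))
 (.n (.n (.p (nat_lit 0x122b0e3b02) (nat_lit 0x2962) (nat_lit 19))
 (.p (nat_lit 0x3a0f38f937e103) (nat_lit 0x95800002000) (nat_lit 43)))
 (.p (nat_lit 0x1a721a6e1a6c1a6a1a68108106) (nat_lit 0x100001966) (nat_lit 15)))))

def c512_365 : Tr :=
 .n (.n (.n (.n (.n (.p (nat_lit 0x23d023ce23ca23c80ce70ce106) (nat_lit 0x240001520) (nat_lit 14))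
 (.p (nat_lit 0x1ebd140c02) (nat_lit 0x48ac) (nat_lit 4)))
 (.n (.p (nat_lit 0x1d8a1d861d841d821d800ea106) (nat_lit 0x100001c23) (nat_lit 17))
 (.p (nat_lit 0x39f13993387303) (nat_lit 0xbdc00008060) (nat_lit 44))))
 (.n (.n (.p (nat_lit 0x10510d8102) (nat_lit 0x8c21) (nat_lit 19))
 (.p (nat_lit 0x38d738d502) (nat_lit 0x8002000800) (nat_lit 35)))
 (.p (nat_lit 0xfc70faf02) (nat_lit 0x2025) (nat_lit 18))))
 (.n (.n (.n (.p (nat_lit 0xd330d1b02) (nat_lit 0x2860) (nat_lit 18))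
 (.p (nat_lit 0x37e337b502) (nat_lit 0xb8002000000) (nat_lit 35)))
 (.p (nat_lit 0x23ea23e823e623e423e00f1f06) (nat_lit 0x20001024) (nat_lit 14)))
 (.n (.n (.p (nat_lit 0xe2d0e1502) (nat_lit 0x42) (nat_lit 18))
 (.p (nat_lit 0x39c039be39bc399c3996399417bb07) (nat_lit 0xa000840) (nat_lit 37)))
 (.p (nat_lit 0x25c5106402) (nat_lit 0x4846) (nat_lit 5)))))
 (.n (.n (.n (.n (.p (nat_lit 0x243c243a2438243624340d0b06) (nat_lit 0x200000c40) (nat_lit 14))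
 (.p (nat_lit 0x2c71171002) (nat_lit 0x8832) (nat_lit 5)))
 (.n (.p (nat_lit 0x245d19ad030d02f7011e05) (nat_lit 0x14448a3) (nat_lit 9))
 (.p (nat_lit 0x3a0a17f702) (nat_lit 0xa0a0) (nat_lit 45))))
 (.n (.n (.p (nat_lit 0x1af41af21af01aec0dbf0db706) (nat_lit 0x220000181) (nat_lit 17))
 (.p (nat_lit 0x3961395102) (nat_lit 0xb3806000800) (nat_lit 35)))
 (.p (nat_lit 0x2096209420922090208e100d06) (nat_lit 0x100001a5) (nat_lit 15))))
 (.n (.n (.n (.p (nat_lit 0x1aea1ae81ae21ae00d430d4106) (nat_lit 0xc00010a0) (nat_lit 15))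
 (.p (nat_lit 0x3869386102) (nat_lit 0x93808000000) (nat_lit 35)))
 (.p (nat_lit 0x1a4e1a4c1a4a1a461a440f8106) (nat_lit 0x400000a4) (nat_lit 15)))
 (.n (.n (.p (nat_lit 0x22b222ae22aa22a80e590e5506) (nat_lit 0x140001d82) (nat_lit 14))
 (.p (nat_lit 0x3a1f3961384303) (nat_lit 0xb5c00006020) (nat_lit 43)))
 (.p (nat_lit 0x185618521850184e184c111106) (nat_lit 0x100000b67) (nat_lit 17)))))

def c256_109 : Tr := .n c512_109 c512_365

def c512_237 : Tr :=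
 .n (.n (.n (.n (.n (.p (nat_lit 0x187a1878187618720cd50cd106) (nat_lit 0x50001c00) (nat_lit 15))
 (.p (nat_lit 0x28d7137602) (nat_lit 0xa0ab) (nat_lit 5)))
 (.n (.p (nat_lit 0x190a19061904190219000e8906) (nat_lit 0x100001c03) (nat_lit 15))
 (.p (nat_lit 0x3a35390537e703) (nat_lit 0x400004060) (nat_lit 43))))
 (.n (.n (.p (nat_lit 0xdf70d6702) (nat_lit 0x6a01) (nat_lit 19))
 (.p (nat_lit 0x38c938b102) (nat_lit 0x91800000800) (nat_lit 35)))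
 (.p (nat_lit 0x25ca25c825c425c225c00fa706) (nat_lit 0x80001a05) (nat_lit 14))))
 (.n (.n (.n (.p (nat_lit 0x19d619d419d219d00d1b0d1906) (nat_lit 0x30000960) (nat_lit 15))
 (.p (nat_lit 0x37a5378702) (nat_lit 0x80400000000) (nat_lit 35)))
 (.p (nat_lit 0x2276227422722270226e0f1106) (nat_lit 0x10000b04) (nat_lit 16)))
 (.n (.n (.p (nat_lit 0x235b0dfa02) (nat_lit 0xa802) (nat_lit 5))
 (.p (nat_lit 0x39c3399f02) (nat_lit 0xb940a000800) (nat_lit 35)))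
 (.p (nat_lit 0x15ed104d02) (nat_lit 0x4c26) (nat_lit 19)))))
 (.n (.n (.n (.n (.p (nat_lit 0x17b10d0002) (nat_lit 0x840) (nat_lit 4))
 (.p (nat_lit 0x15f215f115ee15ec15ea15e9069c00c900c109) (nat_lit 0x40830) (nat_lit 13)))
 (.n (.p (nat_lit 0x2efd002502) (nat_lit 0xa3) (nat_lit 33))
 (.p (nat_lit 0x3a093965384703) (nat_lit 0x4000080a0) (nat_lit 44))))
 (.n (.n (.p (nat_lit 0x17ba17b817b417b217b00daf06) (nat_lit 0x80001a61) (nat_lit 15))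
 (.p (nat_lit 0x3941393902) (nat_lit 0x30806000800) (nat_lit 35)))
 (.p (nat_lit 0x2fff004302) (nat_lit 0x6865) (nat_lit 33))))
 (.n (.n (.n (.p (nat_lit 0x1a861a841a821a800d3b0d3906) (nat_lit 0x300001a80) (nat_lit 15))
 (.p (nat_lit 0x385f384902) (nat_lit 0x68808000000) (nat_lit 35)))
 (.p (nat_lit 0x1f761f741f701f6e1f6c0f6b06) (nat_lit 0x80000184) (nat_lit 17)))
 (.n (.n (.p (nat_lit 0xe5f0e4702) (nat_lit 0x2082) (nat_lit 18))
 (.p (nat_lit 0x3a1812e902) (nat_lit 0xa20) (nat_lit 48)))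
 (.p (nat_lit 0x1b561b541b521b501b4e1b4c06) (nat_lit 0xa6) (nat_lit 2)))))

def c512_493 : Tr :=
 .n (.n (.n (.n (.n (.p (nat_lit 0x23942390238e238c0cf30cef06) (nat_lit 0x280000b20) (nat_lit 14))
 (.p (nat_lit 0x1f6b14ba02) (nat_lit 0xa80e) (nat_lit 4)))
 (.n (.p (nat_lit 0x242d0ecc02) (nat_lit 0x4863) (nat_lit 5))
 (.p (nat_lit 0x39f738d737b703) (nat_lit 0x8400002080) (nat_lit 44))))
 (.n (.n (.p (nat_lit 0x18cc18ca18c618c40d9b0d9506) (nat_lit 0x240000a41) (nat_lit 17))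
 (.p (nat_lit 0x38e938e702) (nat_lit 0x52402000800) (nat_lit 35)))
 (.p (nat_lit 0x104f0fbf02) (nat_lit 0x6825) (nat_lit 19))))
 (.n (.n (.n (.p (nat_lit 0x25222520251a25180d2b0d2906) (nat_lit 0xc0001180) (nat_lit 16))
 (.p (nat_lit 0x380537ed02) (nat_lit 0x81004000000) (nat_lit 35)))
 (.p (nat_lit 0x199a19981996199419900f2b06) (nat_lit 0x20001c24) (nat_lit 17)))
 (.n (.n (.p (nat_lit 0x24242420241e241c0e370e3306) (nat_lit 0x280000362) (nat_lit 16))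
 (.p (nat_lit 0x39923990398a387304) (nat_lit 0x5c08000000) (nat_lit 36)))
 (.p (nat_lit 0x1b27107602) (nat_lit 0xa066) (nat_lit 4)))))
 (.n (.n (.n (.n (.p (nat_lit 0x227717c702) (nat_lit 0xa060) (nat_lit 11))
 (.p (nat_lit 0x1af61af41af21af01aec173b06) (nat_lit 0x20000972) (nat_lit 15)))
 (.p (nat_lit 0x327030d011e03) (nat_lit 0x8054003) (nat_lit 22)))
 (.n (.n (.p (nat_lit 0x1b321b301b2e1b2a1b280dc506) (nat_lit 0x40001b81) (nat_lit 15))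
 (.p (nat_lit 0x3973397102) (nat_lit 0x39808000800) (nat_lit 35)))
 (.p (nat_lit 0x14d0052004a004804) (nat_lit 0x230008006) (nat_lit 20))))
 (.n (.n (.n (.p (nat_lit 0x22b10d5002) (nat_lit 0x88a0) (nat_lit 5))
 (.p (nat_lit 0x3889387f02) (nat_lit 0x5140a000000) (nat_lit 35)))
 (.p (nat_lit 0x1a8a1a881a861a800f8d0f8b06) (nat_lit 0x60001aa4) (nat_lit 17)))
 (.n (.n (.p (nat_lit 0xe730e700e6e0e6c0e6a0e6902ae0023001909) (nat_lit 0x508a2) (nat_lit 13))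
 (.p (nat_lit 0x3a240f2902) (nat_lit 0xc40) (nat_lit 48)))
 (.p (nat_lit 0x11b7001202) (nat_lit 0x6888) (nat_lit 1)))))

def c256_237 : Tr := .n c512_237 c512_493

def c128_109 : Tr := .n c256_109 c256_237

def c64_45 : Tr := .n c128_45 c128_109

def c32_13 : Tr := .n c64_13 c64_45

def c512_29 : Tr :=
 .n (.n (.n (.n (.n (.p (nat_lit 0x182418221820181e0ccf0cc506) (nat_lit 0x210000100) (nat_lit 15))
 (.p (nat_lit 0x279b123a02) (nat_lit 0x6089) (nat_lit 5)))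
 (.n (.p (nat_lit 0x12ed0e6d02) (nat_lit 0x4aa2) (nat_lit 19))
 (.p (nat_lit 0x3a293923380903) (nat_lit 0x7c800004040) (nat_lit 43))))
 (.n (.n (.p (nat_lit 0x25b225b025aa25a80d4f0d4d06) (nat_lit 0xc00019a0) (nat_lit 14))
 (.p (nat_lit 0x3893388502) (nat_lit 0x7a00a000000) (nat_lit 35)))
 (.p (nat_lit 0x34703450337013004) (nat_lit 0x21a0004) (nat_lit 23))))
 (.n (.n (.n (.p (nat_lit 0x248424822480247c0d170d0f06) (nat_lit 0x220000160) (nat_lit 14))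
 (.p (nat_lit 0x7ee07ec07ea07e607e400fc000507) (nat_lit 0x4281) (nat_lit 28)))
 (.p (nat_lit 0x12d00380036003404) (nat_lit 0x1c0008004) (nat_lit 20)))
 (.n (.n (.p (nat_lit 0xdd300de02) (nat_lit 0x60a1) (nat_lit 1))
 (.p (nat_lit 0x3989397702) (nat_lit 0x92408000800) (nat_lit 35)))
 (.p (nat_lit 0x103100d802) (nat_lit 0x806) (nat_lit 1)))))
 (.n (.n (.n (.n (.p (nat_lit 0x190a1906190419000cf10ceb06) (nat_lit 0x120001c20) (nat_lit 17))
 (.p (nat_lit 0x24f224f024ec24ea24e814c306) (nat_lit 0x8000152e) (nat_lit 14)))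
 (.n (.p (nat_lit 0xed5003002) (nat_lit 0x83) (nat_lit 1))
 (.p (nat_lit 0x3a433937381f03) (nat_lit 0x9400006080) (nat_lit 43))))
 (.n (.n (.p (nat_lit 0x17290d9902) (nat_lit 0x8d41) (nat_lit 19))
 (.p (nat_lit 0x390038fe38fc38dc38d638d422ab07) (nat_lit 0x20008a0) (nat_lit 38)))
 (.p (nat_lit 0xfcf0fcc0fcb0fc80fc60fc403aa0047004309) (nat_lit 0x56045) (nat_lit 13))))
 (.n (.n (.n (.p (nat_lit 0x25522550254a25480d2b0d2906) (nat_lit 0xc0001380) (nat_lit 14))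
 (.p (nat_lit 0x3809380102) (nat_lit 0x93804000000) (nat_lit 35)))
 (.p (nat_lit 0xf3e0f3c0f3a0f380f360f35003107) (nat_lit 0x44) (nat_lit 7)))
 (.n (.n (.p (nat_lit 0x239b0e3a02) (nat_lit 0x2862) (nat_lit 5))
 (.p (nat_lit 0x39c538b9379b03) (nat_lit 0x52c00000000) (nat_lit 44)))
 (.p (nat_lit 0x108b107302) (nat_lit 0x6066) (nat_lit 18)))))

def c512_285 : Tr :=
 .n (.n (.n (.n (.n (.p (nat_lit 0xdf30cd302) (nat_lit 0x2900) (nat_lit 19))
 (.p (nat_lit 0x1e43139202) (nat_lit 0x280c) (nat_lit 4)))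
 (.n (.p (nat_lit 0x2ea5002d02) (nat_lit 0x8023) (nat_lit 33))
 (.p (nat_lit 0x39ef3941382703) (nat_lit 0x32400006060) (nat_lit 44))))
 (.n (.n (.p (nat_lit 0xd850d6d02) (nat_lit 0x21) (nat_lit 18))
 (.p (nat_lit 0x38c738b902) (nat_lit 0x8a800000800) (nat_lit 35)))
 (.p (nat_lit 0x2fbd003d02) (nat_lit 0x25) (nat_lit 33))))
 (.n (.n (.n (.p (nat_lit 0x19fa19f819f419f00d1f0d1b06) (nat_lit 0xa0001a60) (nat_lit 15))
 (.p (nat_lit 0x37a1379902) (nat_lit 0x72800000000) (nat_lit 35)))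
 (.p (nat_lit 0x17f417f217f017ee17ec0f1b06) (nat_lit 0x200000d04) (nat_lit 15)))
 (.n (.n (.p (nat_lit 0xe060e040e020e000dff0dfd02a6001b001909) (nat_lit 0x10022) (nat_lit 13))
 (.p (nat_lit 0x39af39a702) (nat_lit 0x6a40a000800) (nat_lit 35)))
 (.p (nat_lit 0x2252224e224a2248105d105906) (nat_lit 0x140001146) (nat_lit 14)))))
 (.n (.n (.n (.n (.p (nat_lit 0x193a1938193619320d050d0106) (nat_lit 0x50001840) (nat_lit 15))
 (.p (nat_lit 0x20ba20b820b620b420b220b006) (nat_lit 0x850) (nat_lit 2)))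
 (.n (.p (nat_lit 0x226a22682266226422600eef06) (nat_lit 0x200012a3) (nat_lit 16))
 (.p (nat_lit 0x3a093987386f03) (nat_lit 0x8d4000080a0) (nat_lit 44))))
 (.n (.n (.p (nat_lit 0x22a422a222a0229e229c0db306) (nat_lit 0x200000d61) (nat_lit 14))
 (.p (nat_lit 0x3957393f02) (nat_lit 0x89406000800) (nat_lit 35)))
 (.p (nat_lit 0x255b0ffa02) (nat_lit 0x6085) (nat_lit 5))))
 (.n (.n (.n (.p (nat_lit 0xd4d0d3502) (nat_lit 0x4880) (nat_lit 18))
 (.p (nat_lit 0x3873384f02) (nat_lit 0xb9408000000) (nat_lit 35)))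
 (.p (nat_lit 0x24d91a2903630349012e05) (nat_lit 0x1598884) (nat_lit 9)))
 (.n (.n (.p (nat_lit 0xe5a0e590e560e550e520e5002c40021001d09) (nat_lit 0x44882) (nat_lit 13))
 (.p (nat_lit 0x3a1d3925380d03) (nat_lit 0x85000004020) (nat_lit 43)))
 (.p (nat_lit 0x3db03d7014e03) (nat_lit 0x2056006) (nat_lit 22)))))

def c256_29 : Tr := .n c512_29 c512_285

def c512_157 : Tr :=
 .n (.n (.n (.n (.n (.p (nat_lit 0x22ec22e822e622e40cdb0cd706) (nat_lit 0x280000a00) (nat_lit 14))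
 (.p (nat_lit 0x284112e002) (nat_lit 0x40aa) (nat_lit 5)))
 (.n (.p (nat_lit 0xf090e7902) (nat_lit 0x4403) (nat_lit 19))
 (.p (nat_lit 0x3a2f3997387f03) (nat_lit 0x940000a040) (nat_lit 43))))
 (.n (.n (.p (nat_lit 0x21d021b0219021704) (nat_lit 0x11a2000) (nat_lit 24))
 (.p (nat_lit 0x38b338a702) (nat_lit 0x38400000800) (nat_lit 35)))
 (.p (nat_lit 0x25e225e025dc25da25d80f9b06) (nat_lit 0x80001305) (nat_lit 16))))
 (.n (.n (.n (.p (nat_lit 0x10710d1102) (nat_lit 0x4560) (nat_lit 19))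
 (.p (nat_lit 0x91900c802) (nat_lit 0x80a5) (nat_lit 30)))
 (.p (nat_lit 0x19ca19c819c619c419c219c006) (nat_lit 0x804) (nat_lit 2)))
 (.n (.n (.p (nat_lit 0x111001a02) (nat_lit 0x2000c002) (nat_lit 20))
 (.p (nat_lit 0x39bd399702) (nat_lit 0xa040a000800) (nat_lit 35)))
 (.p (nat_lit 0x25a91af903f303cd014e05) (nat_lit 0x15c0826) (nat_lit 9)))))
 (.n (.n (.n (.n (.p (nat_lit 0x196a19681966196419620cf506) (nat_lit 0x10001240) (nat_lit 17))
 (.p (nat_lit 0x2ac1156002) (nat_lit 0x882f) (nat_lit 5)))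
 (.n (.p (nat_lit 0x19970ee602) (nat_lit 0x6883) (nat_lit 4))
 (.p (nat_lit 0x3a0338dd37bd03) (nat_lit 0x210000020a0) (nat_lit 44))))
 (.n (.n (.p (nat_lit 0xe330da302) (nat_lit 0x6261) (nat_lit 19))
 (.p (nat_lit 0x3925392302) (nat_lit 0x83c04000800) (nat_lit 35)))
 (.p (nat_lit 0x16050fd502) (nat_lit 0x4d45) (nat_lit 19))))
 (.n (.n (.n (.p (nat_lit 0x24fa24f824f624f40d3b0d3906) (nat_lit 0x300000880) (nat_lit 14))
 (.p (nat_lit 0x382b382502) (nat_lit 0x5a006000000) (nat_lit 35)))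
 (.p (nat_lit 0x298a29882986298429800f4f06) (nat_lit 0x20001064) (nat_lit 16)))
 (.n (.n (.p (nat_lit 0x178a17881786178417800e4706) (nat_lit 0x20001082) (nat_lit 15))
 (.p (nat_lit 0x3a1211b702) (nat_lit 0x6900) (nat_lit 48)))
 (.p (nat_lit 0x309b004f02) (nat_lit 0x6086) (nat_lit 33)))))

def c512_413 : Tr :=
 .n (.n (.n (.n (.n (.p (nat_lit 0x17a30cf202) (nat_lit 0xa820) (nat_lit 4))
 (.p (nat_lit 0x247a2476247424722470142906) (nat_lit 0x10000180d) (nat_lit 16)))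
 (.n (.p (nat_lit 0x19670eb602) (nat_lit 0x6843) (nat_lit 4))
 (.p (nat_lit 0x39f339a9388f03) (nat_lit 0x5340000a060) (nat_lit 44))))
 (.n (.n (.p (nat_lit 0x18d818d618d418d20d8f0d8506) (nat_lit 0x210001241) (nat_lit 17))
 (.p (nat_lit 0x38e738d902) (nat_lit 0x48802000800) (nat_lit 35)))
 (.p (nat_lit 0x178a17881786178417820fb906) (nat_lit 0x10001825) (nat_lit 15))))
 (.n (.n (.n (.p (nat_lit 0x22870d2602) (nat_lit 0x2080) (nat_lit 5))
 (.p (nat_lit 0x37d537bd02) (nat_lit 0x81002000000) (nat_lit 35)))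
 (.p (nat_lit 0x14350f2502) (nat_lit 0x8324) (nat_lit 19)))
 (.n (.n (.p (nat_lit 0x28222820281c281a28180e2706) (nat_lit 0x80001b42) (nat_lit 14))
 (.p (nat_lit 0x38f038ee38ea38e837d105) (nat_lit 0x3802000000) (nat_lit 36)))
 (.p (nat_lit 0x227622742270226e226c106706) (nat_lit 0x80000b46) (nat_lit 14)))))
 (.n (.n (.n (.n (.p (nat_lit 0x19b219b019aa19a80d070d0506) (nat_lit 0xc0001d40) (nat_lit 17))
 (.p (nat_lit 0x172d171502) (nat_lit 0x52) (nat_lit 18)))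
 (.p (nat_lit 0x17c617c417c217c017bc0efb06) (nat_lit 0x20000ba3) (nat_lit 15)))
 (.n (.n (.p (nat_lit 0xe4d0dbd02) (nat_lit 0x8281) (nat_lit 19))
 (.p (nat_lit 0x397f396702) (nat_lit 0x68408000800) (nat_lit 35)))
 (.p (nat_lit 0x102100c802) (nat_lit 0x88a5) (nat_lit 1))))
 (.n (.n (.n (.p (nat_lit 0x25e225e025de25da25d80d4106) (nat_lit 0x400013a0) (nat_lit 14))
 (.p (nat_lit 0x389b387502) (nat_lit 0x9800a000000) (nat_lit 35)))
 (.p (nat_lit 0x14910f8102) (nat_lit 0x43a4) (nat_lit 19)))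
 (.n (.n (.p (nat_lit 0x19170e6602) (nat_lit 0xa0a2) (nat_lit 4))
 (.p (nat_lit 0x3a233995387503) (nat_lit 0xa020) (nat_lit 43)))
 (.p (nat_lit 0x2396239423922390238e118d06) (nat_lit 0x10000368) (nat_lit 16)))))

def c256_157 : Tr := .n c512_157 c512_413

def c128_29 : Tr := .n c256_29 c256_157

def c512_93 : Tr :=
 .n (.n (.n (.n (.n (.p (nat_lit 0x17830cd202) (nat_lit 0x2800) (nat_lit 4))
 (.p (nat_lit 0x1d7712c602) (nat_lit 0x208a) (nat_lit 4)))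
 (.n (.p (nat_lit 0x11c002f002d0027002505) (nat_lit 0x330008003) (nat_lit 21))
 (.p (nat_lit 0x3a2d3971385103) (nat_lit 0x31800008040) (nat_lit 43))))
 (.n (.n (.p (nat_lit 0x1b321b2e1b2a1b280d510d4d06) (nat_lit 0x140001ba0) (nat_lit 15))
 (.p (nat_lit 0x389d389302) (nat_lit 0xa3c0a000000) (nat_lit 35)))
 (.p (nat_lit 0x2fae2fac2faa2fa82fa62fa4013c07) (nat_lit 0x5) (nat_lit 8))))
 (.n (.n (.n (.p (nat_lit 0x1a261a241a221a200d170d1506) (nat_lit 0x300001460) (nat_lit 15))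
 (.p (nat_lit 0x87e087c087a08780874011c000307) (nat_lit 0x2083) (nat_lit 28)))
 (.p (nat_lit 0x17ae17aa17a817a617a40f0d06) (nat_lit 0x100000204) (nat_lit 15)))
 (.n (.n (.p (nat_lit 0xde30de00dde0ddc0dda0dd902660017000d09) (nat_lit 0x508a1) (nat_lit 13))
 (.p (nat_lit 0x398b398902) (nat_lit 0x9c808000800) (nat_lit 35)))
 (.p (nat_lit 0x259f1aef03f103db014e05) (nat_lit 0x11d2026) (nat_lit 9)))))
 (.n (.n (.n (.n (.p (nat_lit 0xf2d0ced02) (nat_lit 0x4b20) (nat_lit 19))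
 (.p (nat_lit 0x34ed00b102) (nat_lit 0x804e) (nat_lit 33)))
 (.n (.p (nat_lit 0x19d419d219d019cc0edf0ed706) (nat_lit 0x220000183) (nat_lit 17))
 (.p (nat_lit 0x3a440f8502) (nat_lit 0x8280) (nat_lit 48))))
 (.n (.n (.p (nat_lit 0x226a22682266226422600d9f06) (nat_lit 0x20001261) (nat_lit 14))
 (.p (nat_lit 0x3927391102) (nat_lit 0x89804000800) (nat_lit 35)))
 (.p (nat_lit 0xfda0fd80fd70fd40fd20fd0004307) (nat_lit 0x6845) (nat_lit 7))))
 (.n (.n (.n (.p (nat_lit 0xff90d2902) (nat_lit 0x4480) (nat_lit 19))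
 (.p (nat_lit 0x382d381702) (nat_lit 0x60406000000) (nat_lit 35)))
 (.p (nat_lit 0x24a10f4002) (nat_lit 0x844) (nat_lit 5)))
 (.n (.n (.p (nat_lit 0x24622460245e245c245a0e3906) (nat_lit 0x10001d62) (nat_lit 14))
 (.p (nat_lit 0x39c738df37c503) (nat_lit 0x2a000002000) (nat_lit 44)))
 (.p (nat_lit 0x1a5a1a581a561a541a50107b06) (nat_lit 0x20001866) (nat_lit 17)))))

def c512_349 : Tr :=
 .n (.n (.n (.n (.n (.p (nat_lit 0x18f018ee18ec18ea18e80ce706) (nat_lit 0x200001320) (nat_lit 15))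
 (.p (nat_lit 0x19e219de19dc19da19d8140506) (nat_lit 0x1000011ac) (nat_lit 15)))
 (.n (.p (nat_lit 0xea30ea00e9e0e9c0e9a0e98002f07) (nat_lit 0xa823) (nat_lit 7))
 (.p (nat_lit 0x39f13983386903) (nat_lit 0x7c800008060) (nat_lit 44))))
 (.n (.n (.p (nat_lit 0x1c761c741c701c6e1c6c0d7f06) (nat_lit 0x80000d21) (nat_lit 15))
 (.p (nat_lit 0x38d138cd02) (nat_lit 0xb5000000800) (nat_lit 35)))
 (.p (nat_lit 0x17dc17da17d817d40fb70faf06) (nat_lit 0x220000425) (nat_lit 17))))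
 (.n (.n (.n (.p (nat_lit 0x24f224f024ee24ec0d1b0d1906) (nat_lit 0x30001d60) (nat_lit 14))
 (.p (nat_lit 0x37b937b502) (nat_lit 0x10002000000) (nat_lit 35)))
 (.p (nat_lit 0x2f350f2402) (nat_lit 0x8024) (nat_lit 32)))
 (.n (.n (.p (nat_lit 0xe1f0e1c0e1a0e180e160e14002307) (nat_lit 0xa042) (nat_lit 7))
 (.p (nat_lit 0x39c139b902) (nat_lit 0xb480a000800) (nat_lit 35)))
 (.p (nat_lit 0x1719105902) (nat_lit 0x4046) (nat_lit 19)))))
 (.n (.n (.n (.n (.p (nat_lit 0x2432242e242c242a0d090d0106) (nat_lit 0x110001b40) (nat_lit 14))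
 (.p (nat_lit 0x1b181b161b141b121b10168f06) (nat_lit 0x200001251) (nat_lit 17)))
 (.n (.p (nat_lit 0xf7d0eed02) (nat_lit 0x4a3) (nat_lit 19))
 (.p (nat_lit 0x3a5339b3389303) (nat_lit 0x7bc0000a0a0) (nat_lit 43))))
 (.n (.n (.p (nat_lit 0xdbf0dbc0dba0db80db60db4001707) (nat_lit 0xa081) (nat_lit 7))
 (.p (nat_lit 0x395d394b02) (nat_lit 0xa2c06000800) (nat_lit 35)))
 (.p (nat_lit 0x3023004302) (nat_lit 0x60a5) (nat_lit 33))))
 (.n (.n (.n (.p (nat_lit 0xd47005202) (nat_lit 0xa0a0) (nat_lit 1))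
 (.p (nat_lit 0x3861385d02) (nat_lit 0x73008000000) (nat_lit 35)))
 (.p (nat_lit 0x24e30f8202) (nat_lit 0x60a4) (nat_lit 5)))
 (.n (.n (.p (nat_lit 0x229a22962294229222900e5906) (nat_lit 0x100001c82) (nat_lit 16))
 (.p (nat_lit 0x3a1f3957383903) (nat_lit 0x8c800006020) (nat_lit 43)))
 (.p (nat_lit 0x1bb5110402) (nat_lit 0x8067) (nat_lit 4)))))

def c256_93 : Tr := .n c512_93 c512_349

def c512_221 : Tr :=
 .n (.n (.n (.n (.n (.p (nat_lit 0x186e186c186618640cd70cd506) (nat_lit 0xc0000c00) (nat_lit 15))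
 (.p (nat_lit 0x18fc18fa18f818f618f412f306) (nat_lit 0x200000caa) (nat_lit 15)))
 (.n (.p (nat_lit 0x23922390238e238c0e8b0e8906) (nat_lit 0x300000b03) (nat_lit 16))
 (.p (nat_lit 0x3a3338dd37bd03) (nat_lit 0x21000002060) (nat_lit 43))))
 (.n (.n (.p (nat_lit 0x22c70d6602) (nat_lit 0x6801) (nat_lit 5))
 (.p (nat_lit 0x38c138af02) (nat_lit 0x71400000800) (nat_lit 35)))
 (.p (nat_lit 0x1adc1ada1ad61ad40fab0fa506) (nat_lit 0x240000805) (nat_lit 17))))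
 (.n (.n (.n (.p (nat_lit 0x19ca19c819c419c20d1f0d1906) (nat_lit 0x90001860) (nat_lit 17))
 (.p (nat_lit 0xc0e0c0c0c0a0c060c0401ec000507) (nat_lit 0x4150) (nat_lit 28)))
 (.p (nat_lit 0x225e225c225a225822540f1306) (nat_lit 0x20000a04) (nat_lit 14)))
 (.n (.n (.p (nat_lit 0x23530df202) (nat_lit 0x2802) (nat_lit 5))
 (.p (nat_lit 0x39a3399f02) (nat_lit 0x3940a000800) (nat_lit 35)))
 (.p (nat_lit 0x187a1878187618741872104906) (nat_lit 0x10001c26) (nat_lit 17)))))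
 (.n (.n (.n (.n (.p (nat_lit 0xea70cf702) (nat_lit 0x2240) (nat_lit 19))
 (.p (nat_lit 0x26122610260e260c260a15dd06) (nat_lit 0x10001530) (nat_lit 14)))
 (.n (.p (nat_lit 0x12db0eeb02) (nat_lit 0xa983) (nat_lit 19))
 (.p (nat_lit 0x3a4f3945382d03) (nat_lit 0x430000060a0) (nat_lit 43))))
 (.n (.n (.p (nat_lit 0x17a217a0179e179c179a0da906) (nat_lit 0x10001961) (nat_lit 15))
 (.p (nat_lit 0x3947393702) (nat_lit 0x48406000800) (nat_lit 35)))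
 (.p (nat_lit 0xff20ff00fee0fec0fea0fe9003d07) (nat_lit 0x865) (nat_lit 7))))
 (.n (.n (.n (.p (nat_lit 0x1a7c1a781a761a740d3b0d3706) (nat_lit 0x280000a80) (nat_lit 15))
 (.p (nat_lit 0x3869384702) (nat_lit 0x90408000000) (nat_lit 35)))
 (.p (nat_lit 0xf6e0f6c0f6a0f680f670f6503360033003109) (nat_lit 0x10084) (nat_lit 13)))
 (.n (.n (.p (nat_lit 0x17f617f417f017ee17ec0e4b06) (nat_lit 0x80000582) (nat_lit 15))
 (.p (nat_lit 0x39ce172b02) (nat_lit 0xad00) (nat_lit 47)))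
 (.p (nat_lit 0x109b1098109710941092109003f20053004f09) (nat_lit 0x56886) (nat_lit 13)))))

def c512_477 : Tr :=
 .n (.n (.n (.n (.n (.p (nat_lit 0x238823862384238223800cf306) (nat_lit 0x200001a20) (nat_lit 14))
 (.p (nat_lit 0x14c114a902) (nat_lit 0x400e) (nat_lit 18)))
 (.n (.p (nat_lit 0xf4f0ebf02) (nat_lit 0x2463) (nat_lit 19))
 (.p (nat_lit 0x39f4106d02) (nat_lit 0x80) (nat_lit 47))))
 (.n (.n (.p (nat_lit 0x22f90d9802) (nat_lit 0x8841) (nat_lit 5))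
 (.p (nat_lit 0x390138e302) (nat_lit 0xb1c02000800) (nat_lit 35)))
 (.p (nat_lit 0x17f417f217f017ee17ec0fc306) (nat_lit 0x200000d25) (nat_lit 15))))
 (.n (.n (.n (.p (nat_lit 0x1a661a621a601a5e1a5c0d2d06) (nat_lit 0x100000180) (nat_lit 17))
 (.p (nat_lit 0x380737e702) (nat_lit 0x88404000000) (nat_lit 35)))
 (.p (nat_lit 0x1946194419421940193e0f2906) (nat_lit 0x10000924) (nat_lit 17)))
 (.n (.n (.p (nat_lit 0x192e1928192619240e350e3306) (nat_lit 0x180000062) (nat_lit 17))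
 (.p (nat_lit 0x39723970396a385304) (nat_lit 0x1c08000000) (nat_lit 36)))
 (.p (nat_lit 0x1b21107002) (nat_lit 0x4066) (nat_lit 4)))))
 (.n (.n (.n (.n (.p (nat_lit 0x17c10d1002) (nat_lit 0x4060) (nat_lit 4))
 (.p (nat_lit 0x173b004a02) (nat_lit 0x2872) (nat_lit 1)))
 (.p (nat_lit 0x31b02ff011e03) (nat_lit 0x6052003) (nat_lit 22)))
 (.n (.n (.p (nat_lit 0x1b0e1b0c1b0a1b060dc50dc106) (nat_lit 0x50000a81) (nat_lit 15))
 (.p (nat_lit 0x3975396f02) (nat_lit 0x41408000800) (nat_lit 35)))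
 (.p (nat_lit 0x14d004c004a004804) (nat_lit 0x70008006) (nat_lit 20))))
 (.n (.n (.n (.p (nat_lit 0xd520d500d4e0d4c0d4b0d48000307) (nat_lit 0x28a0) (nat_lit 7))
 (.p (nat_lit 0x3881387d02) (nat_lit 0x3100a000000) (nat_lit 35)))
 (.p (nat_lit 0x25222520251c251a25180f8f06) (nat_lit 0x800019a4) (nat_lit 14)))
 (.n (.n (.p (nat_lit 0x191f0e6e02) (nat_lit 0x68a2) (nat_lit 4))
 (.p (nat_lit 0x39dd38c537a703) (nat_lit 0x84400000040) (nat_lit 44)))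
 (.p (nat_lit 0x23062304230222fe22fc11a906) (nat_lit 0x40000388) (nat_lit 14)))))

def c256_221 : Tr := .n c512_221 c512_477

def c128_93 : Tr := .n c256_93 c256_221

def c64_29 : Tr := .n c128_29 c128_93

def c512_61 : Tr :=
 .n (.n (.n (.n (.n (.p (nat_lit 0x23422340233e233c0cc70cc506) (nat_lit 0x30001500) (nat_lit 14))
 (.p (nat_lit 0x18d0080007a007804) (nat_lit 0x13000800a) (nat_lit 20)))
 (.n (.p (nat_lit 0x2d302bb010e03) (nat_lit 0xa032002) (nat_lit 22))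
 (.p (nat_lit 0x39e33947382d03) (nat_lit 0x4b000006040) (nat_lit 44))))
 (.n (.n (.p (nat_lit 0x1b1a1b161b141b121b100d5106) (nat_lit 0x100001aa0) (nat_lit 17))
 (.p (nat_lit 0x389d388b02) (nat_lit 0xa2c0a000000) (nat_lit 35)))
 (.p (nat_lit 0x3630357012e03) (nat_lit 0xa034004) (nat_lit 22))))
 (.n (.n (.n (.p (nat_lit 0x24aa24a824a624a224a00d1106) (nat_lit 0x40001260) (nat_lit 14))
 (.p (nat_lit 0x845001802) (nat_lit 0x3) (nat_lit 30)))
 (.p (nat_lit 0x2f1b003702) (nat_lit 0x6004) (nat_lit 33)))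
 (.n (.n (.p (nat_lit 0x11c70dd702) (nat_lit 0xa1a1) (nat_lit 19))
 (.p (nat_lit 0x398d397d02) (nat_lit 0xa3008000800) (nat_lit 35)))
 (.p (nat_lit 0x103b1038103610351032103003e60053004d09) (nat_lit 0x54806) (nat_lit 13)))))
 (.n (.n (.n (.n (.p (nat_lit 0x1922191e191a19180cf10ced06) (nat_lit 0x140001d20) (nat_lit 15))
 (.p (nat_lit 0x14d214d014cf14cd14ca14c8062200af00ad09) (nat_lit 0x3482e) (nat_lit 13)))
 (.n (.p (nat_lit 0xedf0edc0eda0ed80ed60ed4002f07) (nat_lit 0xa083) (nat_lit 7))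
 (.p (nat_lit 0x3a453971385103) (nat_lit 0x31800008080) (nat_lit 43))))
 (.n (.n (.p (nat_lit 0x177e177c177a177817760d9d06) (nat_lit 0x10000061) (nat_lit 17))
 (.p (nat_lit 0x3921390902) (nat_lit 0x70804000800) (nat_lit 35)))
 (.p (nat_lit 0x14d70fc702) (nat_lit 0x2345) (nat_lit 19))))
 (.n (.n (.n (.p (nat_lit 0x1ad21ace1acc1ac80d2d0d2706) (nat_lit 0x120001580) (nat_lit 15))
 (.p (nat_lit 0x3811380f02) (nat_lit 0xb5404000000) (nat_lit 35)))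
 (.p (nat_lit 0x249f19ef0353033f012e05) (nat_lit 0xd0a044) (nat_lit 9)))
 (.n (.n (.p (nat_lit 0x23de23dc23da23d623d40e3d06) (nat_lit 0x40000862) (nat_lit 16))
 (.p (nat_lit 0x39c538cb37b303) (nat_lit 0x9dc00000000) (nat_lit 44)))
 (.p (nat_lit 0x1b2f107e02) (nat_lit 0x6866) (nat_lit 4)))))

def c512_317 : Tr :=
 .n (.n (.n (.n (.n (.p (nat_lit 0x223f0cde02) (nat_lit 0x2020) (nat_lit 5))
 (.p (nat_lit 0x28e228e028de28dc28da139d06) (nat_lit 0x1000152c) (nat_lit 14)))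
 (.n (.p (nat_lit 0x13a70e9702) (nat_lit 0xa323) (nat_lit 19))
 (.p (nat_lit 0x39f1396b385303) (nat_lit 0x19c00008060) (nat_lit 44))))
 (.n (.n (.p (nat_lit 0x18310d8002) (nat_lit 0x8821) (nat_lit 4))
 (.p (nat_lit 0x38cd38bf02) (nat_lit 0xa3400000800) (nat_lit 35)))
 (.p (nat_lit 0x22362234223222300fb70fb506) (nat_lit 0x300001025) (nat_lit 14))))
 (.n (.n (.n (.p (nat_lit 0x24da24d824d624d40d1b0d1906) (nat_lit 0x30001c60) (nat_lit 14))
 (.p (nat_lit 0x37ad37a102) (nat_lit 0xa3800000000) (nat_lit 35)))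
 (.p (nat_lit 0x14b90f1902) (nat_lit 0x8c04) (nat_lit 19)))
 (.n (.n (.p (nat_lit 0xe990e0902) (nat_lit 0xb22) (nat_lit 19))
 (.p (nat_lit 0x39bf39ad02) (nat_lit 0xab00a000800) (nat_lit 35)))
 (.p (nat_lit 0x17dc17da17d817d617d4105f06) (nat_lit 0x200000446) (nat_lit 15)))))
 (.n (.n (.n (.n (.p (nat_lit 0x1952194e194c194a19480d0906) (nat_lit 0x100001940) (nat_lit 15))
 (.p (nat_lit 0x1a661a641a621a601a5e160106) (nat_lit 0x10000950) (nat_lit 15)))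
 (.n (.p (nat_lit 0x229a22982296229222900ef106) (nat_lit 0x400014a3) (nat_lit 14))
 (.p (nat_lit 0x3a0b399b387b03) (nat_lit 0x18c0000a0a0) (nat_lit 44))))
 (.n (.n (.p (nat_lit 0x2dce2dcc2dca2dc82dc62dc400fc07) (nat_lit 0x81) (nat_lit 8))
 (.p (nat_lit 0x395f394302) (nat_lit 0xa9c06000800) (nat_lit 35)))
 (.p (nat_lit 0x20122010200e200c200a100106) (nat_lit 0x10001985) (nat_lit 17))))
 (.n (.n (.n (.p (nat_lit 0x10090d3902) (nat_lit 0x8c80) (nat_lit 19))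
 (.p (nat_lit 0x3873385502) (nat_lit 0xba008000000) (nat_lit 35)))
 (.p (nat_lit 0x2a902a8e2a8c2a8a2a880f7b06) (nat_lit 0x200001d84) (nat_lit 14)))
 (.n (.n (.p (nat_lit 0x17b817b617b417b217b00e5b06) (nat_lit 0x200001a82) (nat_lit 15))
 (.p (nat_lit 0x39d7393d382503) (nat_lit 0x22000006020) (nat_lit 44)))
 (.p (nat_lit 0x3ff03e703cf015004) (nat_lit 0xa220006) (nat_lit 23)))))

def c256_61 : Tr := .n c512_61 c512_317

def c512_189 : Tr :=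
 .n (.n (.n (.n (.n (.p (nat_lit 0x2304230222fe22fc0cdb0cd506) (nat_lit 0x240000b00) (nat_lit 16))
 (.p (nat_lit 0x1d9b12ea02) (nat_lit 0x28aa) (nat_lit 4)))
 (.n (.p (nat_lit 0xe8b002202) (nat_lit 0xa803) (nat_lit 1))
 (.p (nat_lit 0x39e617bb02) (nat_lit 0xa840) (nat_lit 45))))
 (.n (.n (.p (nat_lit 0xff0016001203) (nat_lit 0x28000a001) (nat_lit 20))
 (.p (nat_lit 0x38af38ab02) (nat_lit 0x28c00000800) (nat_lit 35)))
 (.p (nat_lit 0xfa3004a02) (nat_lit 0x2805) (nat_lit 1))))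
 (.n (.n (.n (.p (nat_lit 0xd23003a02) (nat_lit 0xa860) (nat_lit 1))
 (.p (nat_lit 0x945004d02) (nat_lit 0x4066) (nat_lit 31)))
 (.p (nat_lit 0x2f2b0f1a02) (nat_lit 0xa804) (nat_lit 32)))
 (.n (.n (.p (nat_lit 0x189f0dee02) (nat_lit 0xa002) (nat_lit 4))
 (.p (nat_lit 0x39ab399b02) (nat_lit 0x58c0a000800) (nat_lit 35)))
 (.p (nat_lit 0x10521050104e104d104a104903c8004d004909) (nat_lit 0x20826) (nat_lit 13)))))
 (.n (.n (.n (.n (.p (nat_lit 0x199819961994199219900cff06) (nat_lit 0x200001440) (nat_lit 15))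
 (.p (nat_lit 0x208b15da02) (nat_lit 0xa810) (nat_lit 4)))
 (.n (.p (nat_lit 0x24782476247424700eeb0ee306) (nat_lit 0x220001883) (nat_lit 14))
 (.p (nat_lit 0x3a040db902) (nat_lit 0x41a0) (nat_lit 47))))
 (.n (.n (.p (nat_lit 0x2dc10db002) (nat_lit 0x8861) (nat_lit 32))
 (.p (nat_lit 0x392c392639243920391e391c227d07) (nat_lit 0x4000860) (nat_lit 38)))
 (.p (nat_lit 0x25451a9503930385013e05) (nat_lit 0x1488065) (nat_lit 9))))
 (.n (.n (.n (.p (nat_lit 0x1a721a701a6e1a6c0d330d3106) (nat_lit 0x30001980) (nat_lit 17))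
 (.p (nat_lit 0x3847384502) (nat_lit 0x8008000000) (nat_lit 35)))
 (.p (nat_lit 0xfe90f5902) (nat_lit 0xd64) (nat_lit 19)))
 (.n (.n (.p (nat_lit 0x227622742272226e0e490e4506) (nat_lit 0x50000382) (nat_lit 14))
 (.p (nat_lit 0x3a153985386d03) (nat_lit 0x85000008000) (nat_lit 43)))
 (.p (nat_lit 0x109100c002) (nat_lit 0x886) (nat_lit 1)))))

def c512_445 : Tr :=
 .n (.n (.n (.n (.n (.p (nat_lit 0x18aa18a618a418a20cf10ce906) (nat_lit 0x110001820) (nat_lit 15))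
 (.p (nat_lit 0x2a0514a402) (nat_lit 0xe) (nat_lit 5)))
 (.n (.p (nat_lit 0x19730ec202) (nat_lit 0x6063) (nat_lit 4))
 (.p (nat_lit 0x39f20eeb02) (nat_lit 0xa960) (nat_lit 47))))
 (.n (.n (.p (nat_lit 0xe1d0d8d02) (nat_lit 0x8241) (nat_lit 19))
 (.p (nat_lit 0x38fb38dd02) (nat_lit 0x99002000800) (nat_lit 35)))
 (.p (nat_lit 0x227622742270226e226c0fbf06) (nat_lit 0x80000b25) (nat_lit 14))))
 (.n (.n (.n (.p (nat_lit 0x1a4e1a4c1a461a440d2b0d2906) (nat_lit 0xc0000080) (nat_lit 15))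
 (.p (nat_lit 0x37df37c502) (nat_lit 0xaa002000000) (nat_lit 35)))
 (.p (nat_lit 0xf320f300f2f0f2c0f2a0f28003707) (nat_lit 0x6824) (nat_lit 7)))
 (.n (.n (.p (nat_lit 0x238f0e2e02) (nat_lit 0x2062) (nat_lit 5))
 (.p (nat_lit 0x39323930392a381304) (nat_lit 0x5c04000000) (nat_lit 36)))
 (.p (nat_lit 0x1802180017fe17fc17f8106306) (nat_lit 0x20001d46) (nat_lit 17)))))
 (.n (.n (.n (.n (.p (nat_lit 0xeb70d0702) (nat_lit 0x6a40) (nat_lit 19))
 (.p (nat_lit 0x21e621e421e221e021de21dc06) (nat_lit 0x72) (nat_lit 2)))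
 (.p (nat_lit 0x22b222b022ae22ac22a80efb06) (nat_lit 0x20001da3) (nat_lit 16)))
 (.n (.n (.p (nat_lit 0x18790dc802) (nat_lit 0x8881) (nat_lit 4))
 (.p (nat_lit 0x3975396b02) (nat_lit 0x40c08000800) (nat_lit 35)))
 (.p (nat_lit 0x10ad101d02) (nat_lit 0x48a5) (nat_lit 19))))
 (.n (.n (.n (.p (nat_lit 0xdd70d4702) (nat_lit 0xa0a0) (nat_lit 19))
 (.p (nat_lit 0x388d387902) (nat_lit 0x6080a000000) (nat_lit 35)))
 (.p (nat_lit 0x24f10f9002) (nat_lit 0x88a4) (nat_lit 5)))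
 (.n (.n (.p (nat_lit 0x18921890188e188a0e610e5d06) (nat_lit 0x500015a2) (nat_lit 17))
 (.p (nat_lit 0x3a2339b938a103) (nat_lit 0x9580000a020) (nat_lit 43)))
 (.p (nat_lit 0x23ba23b823b623b423b2119906) (nat_lit 0x10001c68) (nat_lit 14)))))

def c256_189 : Tr := .n c512_189 c512_445

def c128_61 : Tr := .n c256_61 c256_189

def c512_125 : Tr :=
 .n (.n (.n (.n (.n (.p (nat_lit 0x22d422d222d022ce0cdb0cd106) (nat_lit 0x210000900) (nat_lit 14))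
 (.p (nat_lit 0x1d8312d202) (nat_lit 0x288a) (nat_lit 4)))
 (.n (.p (nat_lit 0x18b418b218b018ae18ac0e7f06) (nat_lit 0x200000103) (nat_lit 15))
 (.p (nat_lit 0x3a2d398f386f03) (nat_lit 0xad400008040) (nat_lit 43))))
 (.n (.n (.p (nat_lit 0xddd0d4d02) (nat_lit 0x48a0) (nat_lit 19))
 (.p (nat_lit 0x3894388e388c38883886388417f707) (nat_lit 0xa0000a0) (nat_lit 37)))
 (.p (nat_lit 0x258e258c258a258625840f9906) (nat_lit 0x40000005) (nat_lit 16))))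
 (.n (.n (.n (.p (nat_lit 0xd9d0d0d02) (nat_lit 0x60) (nat_lit 19))
 (.p (nat_lit 0x8d208d008ce08ca08c8012c000507) (nat_lit 0x41a4) (nat_lit 28)))
 (.p (nat_lit 0x229a22982296229222900f0906) (nat_lit 0x40001404) (nat_lit 14)))
 (.n (.n (.p (nat_lit 0x271026d00fe03) (nat_lit 0x2044001) (nat_lit 22))
 (.p (nat_lit 0x39a5399502) (nat_lit 0x4000a000800) (nat_lit 35)))
 (.p (nat_lit 0x18481846184418401047103f06) (nat_lit 0x220001226) (nat_lit 15)))))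
 (.n (.n (.n (.n (.p (nat_lit 0xcff002e02) (nat_lit 0xa040) (nat_lit 1))
 (.p (nat_lit 0x2a95153402) (nat_lit 0xf) (nat_lit 5)))
 (.n (.p (nat_lit 0xef10ed902) (nat_lit 0x4083) (nat_lit 18))
 (.p (nat_lit 0x3a4938b9379f03) (nat_lit 0x534000000a0) (nat_lit 43))))
 (.n (.n (.p (nat_lit 0x17ea17e617e217e00da50da106) (nat_lit 0x140001461) (nat_lit 15))
 (.p (nat_lit 0x3923391b02) (nat_lit 0x7ac04000800) (nat_lit 35)))
 (.p (nat_lit 0x19e219e019de19da19d80fd506) (nat_lit 0x40001945) (nat_lit 15))))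
 (.n (.n (.n (.p (nat_lit 0xd3a0d380d370d340d320d30000707) (nat_lit 0x6880) (nat_lit 7))
 (.p (nat_lit 0x3823381f02) (nat_lit 0x39406000000) (nat_lit 35)))
 (.p (nat_lit 0x1ec21ec01ebc1eb80f470f4306) (nat_lit 0xa0001d44) (nat_lit 17)))
 (.n (.n (.p (nat_lit 0xe4e0e4c0e4a0e480e460e45001907) (nat_lit 0x82) (nat_lit 7))
 (.p (nat_lit 0x3a113925380503) (nat_lit 0x84000004000) (nat_lit 43)))
 (.p (nat_lit 0x255c255a255625541083107d06) (nat_lit 0x240000c66) (nat_lit 14)))))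

def c512_381 : Tr :=
 .n (.n (.n (.n (.n (.p (nat_lit 0xe970ce702) (nat_lit 0xa220) (nat_lit 19))
 (.p (nat_lit 0x2486248424822480247c140b06) (nat_lit 0x200009ac) (nat_lit 14)))
 (.n (.p (nat_lit 0xf2b0e9b02) (nat_lit 0x2c23) (nat_lit 19))
 (.p (nat_lit 0x3a3b3997387903) (nat_lit 0x880000a060) (nat_lit 43))))
 (.n (.n (.p (nat_lit 0x18390d8802) (nat_lit 0x4041) (nat_lit 4))
 (.p (nat_lit 0x38f938d502) (nat_lit 0x90002000800) (nat_lit 35)))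
 (.p (nat_lit 0x1a690fb802) (nat_lit 0x825) (nat_lit 4))))
 (.n (.n (.n (.p (nat_lit 0xe430d2302) (nat_lit 0xa960) (nat_lit 19))
 (.p (nat_lit 0x37dd37b702) (nat_lit 0xa0402000000) (nat_lit 35)))
 (.p (nat_lit 0x198e198a198819860f250f1d06) (nat_lit 0x110000424) (nat_lit 17)))
 (.n (.n (.p (nat_lit 0x2e31001902) (nat_lit 0x842) (nat_lit 33))
 (.p (nat_lit 0x38d238aa38a8378b04) (nat_lit 0xc00000000) (nat_lit 36)))
 (.p (nat_lit 0x307b005302) (nat_lit 0xa846) (nat_lit 33)))))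
 (.n (.n (.n (.n (.p (nat_lit 0x244a2444244224400d090d0706) (nat_lit 0x180001c40) (nat_lit 14))
 (.p (nat_lit 0x21cb171a02) (nat_lit 0x6052) (nat_lit 4)))
 (.p (nat_lit 0x222e222a222822240f010efb06) (nat_lit 0x1200008a3) (nat_lit 14)))
 (.n (.n (.p (nat_lit 0x25c825c625c425c20dbf0db506) (nat_lit 0x210001281) (nat_lit 14))
 (.p (nat_lit 0x3967396502) (nat_lit 0x8008000800) (nat_lit 35)))
 (.p (nat_lit 0x2b762b742b722b702b6c100f06) (nat_lit 0x200003a5) (nat_lit 14))))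
 (.n (.n (.n (.p (nat_lit 0x1b001afe1afa1af80d470d4106) (nat_lit 0x2400011a0) (nat_lit 15))
 (.p (nat_lit 0x3871386d02) (nat_lit 0xb5008000000) (nat_lit 35)))
 (.p (nat_lit 0x1a721a701a6e1a6a1a680f8106) (nat_lit 0x400011a4) (nat_lit 15)))
 (.n (.n (.p (nat_lit 0x12d90e5902) (nat_lit 0x8a82) (nat_lit 19))
 (.p (nat_lit 0x39d93991384703) (nat_lit 0xb0400008020) (nat_lit 44)))
 (.p (nat_lit 0x279e279c279827962794118706) (nat_lit 0x80000c48) (nat_lit 14)))))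

def c256_125 : Tr := .n c512_125 c512_381

def c512_253 : Tr :=
 .n (.n (.n (.n (.n (.p (nat_lit 0x18761874187218700cdb0cd906) (nat_lit 0x300001c00) (nat_lit 15))
 (.p (nat_lit 0x23f423f223f023ee23ec138306) (nat_lit 0x2000009ab) (nat_lit 14)))
 (.n (.p (nat_lit 0xe9f0e8702) (nat_lit 0x6803) (nat_lit 18))
 (.p (nat_lit 0x39ed3927380d03) (nat_lit 0x8d000004060) (nat_lit 44))))
 (.n (.n (.p (nat_lit 0x2d7f000f02) (nat_lit 0x2021) (nat_lit 33))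
 (.p (nat_lit 0x38bb38b502) (nat_lit 0x5a000000800) (nat_lit 35)))
 (.p (nat_lit 0x1b321b301b2e1b2c1b2a0fa106) (nat_lit 0x10001b05) (nat_lit 17))))
 (.n (.n (.n (.p (nat_lit 0x19e219e019de19da0d1d0d1906) (nat_lit 0x50001960) (nat_lit 15))
 (.p (nat_lit 0x379f378d02) (nat_lit 0x69000000000) (nat_lit 35)))
 (.p (nat_lit 0x17d217d017ca17c80f170f1506) (nat_lit 0xc0001b04) (nat_lit 17)))
 (.n (.n (.p (nat_lit 0x1c6a1c661c641c621c600df906) (nat_lit 0x100001c02) (nat_lit 15))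
 (.p (nat_lit 0x39c139a102) (nat_lit 0xb180a000800) (nat_lit 35)))
 (.p (nat_lit 0x105e105c105a105910561054004d07) (nat_lit 0x4046) (nat_lit 7)))))
 (.n (.n (.n (.n (.p (nat_lit 0x17b90d0802) (nat_lit 0x8840) (nat_lit 4))
 (.p (nat_lit 0x15fe15fc15fa15f815f615f500c107) (nat_lit 0x50) (nat_lit 7)))
 (.n (.p (nat_lit 0x19a70ef602) (nat_lit 0xa0a3) (nat_lit 4))
 (.p (nat_lit 0x3a09396b385103) (nat_lit 0x198000080a0) (nat_lit 44))))
 (.n (.n (.p (nat_lit 0x17c417c017be17bc0db30daf06) (nat_lit 0x280000b61) (nat_lit 17))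
 (.p (nat_lit 0x3947393b02) (nat_lit 0x48c06000800) (nat_lit 35)))
 (.p (nat_lit 0x2a0e2a0c2a0a2a060fed0fe906) (nat_lit 0x50000865) (nat_lit 16))))
 (.n (.n (.n (.p (nat_lit 0x1aa21a9e1a9c1a980d390d3306) (nat_lit 0x120001b80) (nat_lit 15))
 (.p (nat_lit 0x386d384b02) (nat_lit 0xa0c08000000) (nat_lit 35)))
 (.p (nat_lit 0x24da24d824d624d424d224d006) (nat_lit 0x884) (nat_lit 3)))
 (.n (.n (.p (nat_lit 0xed50e4502) (nat_lit 0x382) (nat_lit 19))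
 (.p (nat_lit 0x39d338e537c503) (nat_lit 0x42000002020) (nat_lit 44)))
 (.p (nat_lit 0x1b621b601b5e1b5c1b5a1b5806) (nat_lit 0x8a6) (nat_lit 2)))))

def c512_509 : Tr :=
 .n (.n (.n (.n (.n (.p (nat_lit 0x23a0239e239a23980cf30ced06) (nat_lit 0x240001b20) (nat_lit 14))
 (.p (nat_lit 0x2546254425422540253c14b306) (nat_lit 0x20000b0e) (nat_lit 16)))
 (.n (.p (nat_lit 0x2ee3002f02) (nat_lit 0xa863) (nat_lit 33))
 (.p (nat_lit 0x3a3f38df37c503) (nat_lit 0x2a000002080) (nat_lit 43))))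
 (.n (.n (.p (nat_lit 0x23ba23b623b423b223b00d9906) (nat_lit 0x100001c41) (nat_lit 14))
 (.p (nat_lit 0x390138ef02) (nat_lit 0xb3402000800) (nat_lit 35)))
 (.p (nat_lit 0x1a750fc402) (nat_lit 0x45) (nat_lit 4))))
 (.n (.n (.n (.p (nat_lit 0x252e2528252625240d2d0d2b06) (nat_lit 0x180000280) (nat_lit 14))
 (.p (nat_lit 0x380937f502) (nat_lit 0x92004000000) (nat_lit 35)))
 (.p (nat_lit 0x19a619a0199e199c0f310f2f06) (nat_lit 0x180000d24) (nat_lit 15)))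
 (.n (.n (.p (nat_lit 0x19a619a0199e199c0e350e3306) (nat_lit 0x180000562) (nat_lit 15))
 (.p (nat_lit 0x39b239b039aa389304) (nat_lit 0x3c0a000000) (nat_lit 36)))
 (.p (nat_lit 0x250a2504250225001075107306) (nat_lit 0x180001066) (nat_lit 16)))))
 (.n (.n (.n (.n (.p (nat_lit 0x19be19b819b619b40d150d1306) (nat_lit 0x180000060) (nat_lit 17))
 (.p (nat_lit 0x2caf174e02) (nat_lit 0xa092) (nat_lit 5)))
 (.p (nat_lit 0x30f030302f7012004) (nat_lit 0xa110003) (nat_lit 23)))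
 (.n (.n (.p (nat_lit 0xddd0dc502) (nat_lit 0x4881) (nat_lit 18))
 (.p (nat_lit 0x3975397302) (nat_lit 0x41c08000800) (nat_lit 35)))
 (.p (nat_lit 0x102e102c102a102910261024004d07) (nat_lit 0x4006) (nat_lit 7))))
 (.n (.n (.n (.p (nat_lit 0xd530d500d4e0d4c0d4b0d48022a000b000309) (nat_lit 0x528a0) (nat_lit 13))
 (.p (nat_lit 0x388b388102) (nat_lit 0x5980a000000) (nat_lit 35)))
 (.p (nat_lit 0x140f0f8f02) (nat_lit 0x6aa4) (nat_lit 19)))
 (.n (.n (.p (nat_lit 0x184a18481844184218400e6f06) (nat_lit 0x80001aa2) (nat_lit 17))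
 (.p (nat_lit 0x39df390337bb03) (nat_lit 0xb8c00002040) (nat_lit 44)))
 (.p (nat_lit 0x124b11bb02) (nat_lit 0xaa88) (nat_lit 19)))))

def c256_253 : Tr := .n c512_253 c512_509

def c128_125 : Tr := .n c256_125 c256_253

def c64_61 : Tr := .n c128_61 c128_125

def c32_29 : Tr := .n c64_29 c64_61

def c16_13 : Tr := .n c32_13 c32_29

def cb4_13 : Tr := c16_13

def c512_14 : Tr :=
 .n (.n (.n (.n (.n (.p (nat_lit 0x177b0cca02) (nat_lit 0x6000) (nat_lit 4))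
 (.p (nat_lit 0x278f122e02) (nat_lit 0x6869) (nat_lit 5)))
 (.n (.p (nat_lit 0x186c186a186818640e730e6b06) (nat_lit 0x220000ca2) (nat_lit 15))
 (.p (nat_lit 0x3a26225702) (nat_lit 0x2040) (nat_lit 46))))
 (.n (.n (.p (nat_lit 0x25a625a425a225a0259c0d4b06) (nat_lit 0x200009a0) (nat_lit 14))
 (.p (nat_lit 0x388d388302) (nat_lit 0x61c0a000000) (nat_lit 35)))
 (.p (nat_lit 0x33d033b012e03) (nat_lit 0x46004) (nat_lit 22))))
 (.n (.n (.n (.p (nat_lit 0x247a2476247224700d150d1106) (nat_lit 0x140001060) (nat_lit 16))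
 (.p (nat_lit 0x7d607d407d207ce07cc00fc000507) (nat_lit 0x4441) (nat_lit 28)))
 (.p (nat_lit 0x12d00340032003004) (nat_lit 0x70008004) (nat_lit 20)))
 (.n (.n (.p (nat_lit 0x10990dc902) (nat_lit 0x8c81) (nat_lit 19))
 (.p (nat_lit 0x3987397502) (nat_lit 0x8a008000800) (nat_lit 35)))
 (.p (nat_lit 0x102f102c102b10281026102403f20053004f09) (nat_lit 0x56006) (nat_lit 13)))))
 (.n (.n (.n (.n (.p (nat_lit 0x23ac23aa23a823a40cf30ceb06) (nat_lit 0x220000c20) (nat_lit 16))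
 (.p (nat_lit 0x14c614c414c314c014be14bc00af07) (nat_lit 0x602e) (nat_lit 7)))
 (.n (.p (nat_lit 0xee10ec902) (nat_lit 0x863) (nat_lit 18))
 (.p (nat_lit 0x39f93929380903) (nat_lit 0x94800004080) (nat_lit 44))))
 (.n (.n (.p (nat_lit 0xe210d9102) (nat_lit 0xa41) (nat_lit 19))
 (.p (nat_lit 0x390138fd02) (nat_lit 0xb5002000800) (nat_lit 35)))
 (.p (nat_lit 0x2fdb004302) (nat_lit 0x6045) (nat_lit 33))))
 (.n (.n (.n (.p (nat_lit 0x25382536253425300d2f0d2706) (nat_lit 0x220001280) (nat_lit 14))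
 (.p (nat_lit 0x380937fb02) (nat_lit 0x92c04000000) (nat_lit 35)))
 (.p (nat_lit 0xf490f3102) (nat_lit 0x8824) (nat_lit 18)))
 (.n (.n (.p (nat_lit 0xebd0e2d02) (nat_lit 0x362) (nat_lit 19))
 (.p (nat_lit 0x39c538a9378b03) (nat_lit 0x10c00000000) (nat_lit 44)))
 (.p (nat_lit 0x253a2536253425322530107506) (nat_lit 0x100001266) (nat_lit 14)))))

def c512_270 : Tr :=
 .n (.n (.n (.n (.n (.p (nat_lit 0x1890188e188a18880cdb0cd506) (nat_lit 0x240001d00) (nat_lit 15))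
 (.p (nat_lit 0x138e138d138a138813861384009907) (nat_lit 0x800c) (nat_lit 7)))
 (.n (.p (nat_lit 0x2e9d0e8c02) (nat_lit 0x23) (nat_lit 32))
 (.p (nat_lit 0x3a3639ee003703) (nat_lit 0x6060) (nat_lit 40))))
 (.n (.n (.p (nat_lit 0xd760d750d720d700d6e0d6d02640015000d09) (nat_lit 0x40021) (nat_lit 13))
 (.p (nat_lit 0x38c338b702) (nat_lit 0x7a400000800) (nat_lit 35)))
 (.p (nat_lit 0x103b0fab02) (nat_lit 0xa805) (nat_lit 19))))
 (.n (.n (.n (.p (nat_lit 0x19ee19ec19ea19e60d1d0d1906) (nat_lit 0x50000a60) (nat_lit 15))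
 (.p (nat_lit 0x37ad379102) (nat_lit 0xa1800000000) (nat_lit 35)))
 (.p (nat_lit 0x17ea17e817e617e417e00f1306) (nat_lit 0x20001c04) (nat_lit 15)))
 (.n (.n (.p (nat_lit 0x235f0dfe02) (nat_lit 0x2022) (nat_lit 5))
 (.p (nat_lit 0x39ab39a502) (nat_lit 0x5a00a000800) (nat_lit 35)))
 (.p (nat_lit 0x105f105c105a10591056105403e60053004d09) (nat_lit 0x54046) (nat_lit 13)))))
 (.n (.n (.n (.n (.p (nat_lit 0x192e192c192a19240d050d0306) (nat_lit 0x60000840) (nat_lit 15))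
 (.p (nat_lit 0x15ff15fc15fa15f815f615f400cb07) (nat_lit 0xa050) (nat_lit 7)))
 (.n (.p (nat_lit 0x17861784178217800ef70ef506) (nat_lit 0x3000010a3) (nat_lit 15))
 (.p (nat_lit 0x3a513977385f03) (nat_lit 0x4b4000080a0) (nat_lit 43))))
 (.n (.n (.p (nat_lit 0x229a22982296229422920da906) (nat_lit 0x10001c61) (nat_lit 14))
 (.p (nat_lit 0x395d393d02) (nat_lit 0xa1006000800) (nat_lit 35)))
 (.p (nat_lit 0x10790fe902) (nat_lit 0x865) (nat_lit 19))))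
 (.n (.n (.n (.p (nat_lit 0x257625742570256e0d370d3106) (nat_lit 0x90000d80) (nat_lit 14))
 (.p (nat_lit 0x3873384d02) (nat_lit 0xb9008000000) (nat_lit 35)))
 (.p (nat_lit 0x24d50f7402) (nat_lit 0x4884) (nat_lit 5)))
 (.n (.n (.p (nat_lit 0x23b50e5402) (nat_lit 0x4882) (nat_lit 5))
 (.p (nat_lit 0x39d5390f37ef03) (nat_lit 0x29400004020) (nat_lit 44)))
 (.p (nat_lit 0x30c1005102) (nat_lit 0x88a6) (nat_lit 33)))))

def c256_14 : Tr := .n c512_14 c512_270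

def c512_142 : Tr :=
 .n (.n (.n (.n (.n (.p (nat_lit 0x22ee22ec22ea22e80cd30cd106) (nat_lit 0x30000a00) (nat_lit 14))
 (.p (nat_lit 0x23ea23e823e423e223e012d706) (nat_lit 0x8000188a) (nat_lit 14)))
 (.n (.p (nat_lit 0x23ba23b623b423b223b00e7d06) (nat_lit 0x100001403) (nat_lit 14))
 (.p (nat_lit 0x3a2e39e6002f03) (nat_lit 0xa040) (nat_lit 40))))
 (.n (.n (.p (nat_lit 0xf8b0d4b02) (nat_lit 0x2ba0) (nat_lit 19))
 (.p (nat_lit 0x38bd38a502) (nat_lit 0x60000000800) (nat_lit 35)))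
 (.p (nat_lit 0x1b0c1b0a1b061b040f9f0f9906) (nat_lit 0x240000205) (nat_lit 15))))
 (.n (.n (.n (.p (nat_lit 0xec70d1702) (nat_lit 0xa260) (nat_lit 19))
 (.l (nat_lit 0x8550000000000000002) (nat_lit 0x2105) (nat_lit 29)))
 (.p (nat_lit 0x22b022ac22aa22a80f0f0f0b06) (nat_lit 0x280001504) (nat_lit 14)))
 (.n (.n (.p (nat_lit 0x28b0289026f010004) (nat_lit 0x62c2001) (nat_lit 23))
 (.p (nat_lit 0x399f399702) (nat_lit 0x2840a000800) (nat_lit 35)))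
 (.p (nat_lit 0x1057103f02) (nat_lit 0x2026) (nat_lit 18)))))
 (.n (.n (.n (.n (.p (nat_lit 0x23e623e423e223e00cff0cfd06) (nat_lit 0x300001040) (nat_lit 14))
 (.p (nat_lit 0x1555004402) (nat_lit 0x802f) (nat_lit 1)))
 (.n (.p (nat_lit 0xee1003002) (nat_lit 0x883) (nat_lit 1))
 (.p (nat_lit 0x3a480dc102) (nat_lit 0x9a0) (nat_lit 48))))
 (.n (.n (.p (nat_lit 0xdb50d9d02) (nat_lit 0x61) (nat_lit 18))
 (.p (nat_lit 0x3927391f02) (nat_lit 0x8b404000800) (nat_lit 35)))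
 (.p (nat_lit 0x1a421a401a3c1a3a1a380fd706) (nat_lit 0x80001d45) (nat_lit 17))))
 (.n (.n (.n (.p (nat_lit 0xd3a0d390d360d340d330d3002280009000309) (nat_lit 0x42880) (nat_lit 13))
 (.p (nat_lit 0x3823382102) (nat_lit 0x39806000000) (nat_lit 35)))
 (.p (nat_lit 0x19ff0f4e02) (nat_lit 0x2064) (nat_lit 4)))
 (.n (.n (.p (nat_lit 0xe4e0e4d0e4a0e480e460e44002107) (nat_lit 0x8082) (nat_lit 7))
 (.p (nat_lit 0x39cb3937381d03) (nat_lit 0x9000006000) (nat_lit 44)))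
 (.p (nat_lit 0x25e51b3503d703cd014e05) (nat_lit 0xcc0086) (nat_lit 9)))))

def c512_398 : Tr :=
 .n (.n (.n (.n (.n (.p (nat_lit 0xceb001a02) (nat_lit 0x2820) (nat_lit 1))
 (.p (nat_lit 0x1ecf141e02) (nat_lit 0xa00d) (nat_lit 4)))
 (.n (.p (nat_lit 0x240f0eae02) (nat_lit 0xa043) (nat_lit 5))
 (.p (nat_lit 0x3a3b39a1388303) (nat_lit 0x31c0000a060) (nat_lit 43))))
 (.n (.n (.p (nat_lit 0xd8f0d8c0d8a0d880d860d84001707) (nat_lit 0xa041) (nat_lit 7))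
 (.p (nat_lit 0x38ef38d702) (nat_lit 0x68402000800) (nat_lit 35)))
 (.p (nat_lit 0x2fcf004302) (nat_lit 0x6825) (nat_lit 33))))
 (.n (.n (.n (.p (nat_lit 0xff10d2102) (nat_lit 0x8c60) (nat_lit 19))
 (.p (nat_lit 0x37dd37b902) (nat_lit 0xa0802000000) (nat_lit 35)))
 (.p (nat_lit 0x24622460245e245c245a0f1d06) (nat_lit 0x10001524) (nat_lit 14)))
 (.n (.n (.p (nat_lit 0x23890e2802) (nat_lit 0x8842) (nat_lit 5))
 (.p (nat_lit 0x38d238d038ca37b304) (nat_lit 0x5c00000000) (nat_lit 36)))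
 (.p (nat_lit 0x17961792178e178c1069106506) (nat_lit 0x140000946) (nat_lit 15)))))
 (.n (.n (.n (.n (.p (nat_lit 0x24562450244e244c0d090d0706) (nat_lit 0x180000d40) (nat_lit 16))
 (.p (nat_lit 0x22d622d222d022ce22cc171d06) (nat_lit 0x100000152) (nat_lit 14)))
 (.p (nat_lit 0x225e225c225a225822560ef906) (nat_lit 0x10000aa3) (nat_lit 16)))
 (.n (.n (.p (nat_lit 0x1b4a1b461b441b420dbd0db506) (nat_lit 0x110001481) (nat_lit 17))
 (.p (nat_lit 0x398b396502) (nat_lit 0x98008000800) (nat_lit 35)))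
 (.p (nat_lit 0x302b101a02) (nat_lit 0x28a5) (nat_lit 32))))
 (.n (.n (.n (.p (nat_lit 0x25ca25c625c225c00d450d4106) (nat_lit 0x1400012a0) (nat_lit 16))
 (.p (nat_lit 0x3877387502) (nat_lit 0x800a000000) (nat_lit 35)))
 (.p (nat_lit 0x1ad21ad01ace1acc1aca0f7d06) (nat_lit 0x100015a4) (nat_lit 17)))
 (.n (.n (.p (nat_lit 0x19110e6002) (nat_lit 0x40a2) (nat_lit 4))
 (.p (nat_lit 0x3a213979385f03) (nat_lit 0x53400008020) (nat_lit 43)))
 (.p (nat_lit 0x26f3119202) (nat_lit 0x6068) (nat_lit 5)))))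

def c256_142 : Tr := .n c512_142 c512_398

def c128_14 : Tr := .n c256_14 c256_142

def c512_78 : Tr :=
 .n (.n (.n (.n (.n (.p (nat_lit 0xe7f0ccf02) (nat_lit 0xa200) (nat_lit 19))
 (.p (nat_lit 0x32cf007f02) (nat_lit 0x686a) (nat_lit 33)))
 (.n (.p (nat_lit 0x11f002a002403) (nat_lit 0x9000a003) (nat_lit 20))
 (.p (nat_lit 0x3a2d398f384703) (nat_lit 0xa8400008040) (nat_lit 43))))
 (.n (.n (.p (nat_lit 0x1b241b221b201b1e0d530d4906) (nat_lit 0x210000ba0) (nat_lit 15))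
 (.p (nat_lit 0x389b388f02) (nat_lit 0x9b40a000000) (nat_lit 35)))
 (.p (nat_lit 0x141004602) (nat_lit 0x20000c005) (nat_lit 20))))
 (.n (.n (.n (.p (nat_lit 0x1a1e1a181a161a140d150d1306) (nat_lit 0x180000460) (nat_lit 15))
 (.p (nat_lit 0x85f002702) (nat_lit 0x2043) (nat_lit 31)))
 (.p (nat_lit 0x178a1788178217800f0b0f0906) (nat_lit 0xc0001004) (nat_lit 17)))
 (.n (.n (.p (nat_lit 0x233b0dda02) (nat_lit 0x28a1) (nat_lit 5))
 (.p (nat_lit 0x398d398102) (nat_lit 0xa3808000800) (nat_lit 35)))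
 (.p (nat_lit 0x15d5103502) (nat_lit 0x4c06) (nat_lit 19)))))
 (.n (.n (.n (.n (.p (nat_lit 0xd830cf302) (nat_lit 0xa820) (nat_lit 19))
 (.p (nat_lit 0x155f14cf02) (nat_lit 0x6d2e) (nat_lit 19)))
 (.n (.p (nat_lit 0x19be19ba19b619b40edd0ed906) (nat_lit 0x140000083) (nat_lit 15))
 (.p (nat_lit 0x39fd3979386103) (nat_lit 0x53800008080) (nat_lit 44))))
 (.n (.n (.p (nat_lit 0x22522250224e224a22480da106) (nat_lit 0x40001161) (nat_lit 14))
 (.p (nat_lit 0x3911390d02) (nat_lit 0x31004000800) (nat_lit 35)))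
 (.p (nat_lit 0x2fe1003d02) (nat_lit 0x845) (nat_lit 33))))
 (.n (.n (.n (.p (nat_lit 0xe4f0d2f02) (nat_lit 0xa180) (nat_lit 19))
 (.p (nat_lit 0x3829381502) (nat_lit 0x50006000000) (nat_lit 35)))
 (.p (nat_lit 0x1eb41eb21eae1eac0f3f0f3906) (nat_lit 0x240000544) (nat_lit 17)))
 (.n (.n (.p (nat_lit 0x197619741972196e0e3d0e3906) (nat_lit 0x50000b62) (nat_lit 17))
 (.p (nat_lit 0x39c738d737b903) (nat_lit 0x8800002000) (nat_lit 44)))
 (.p (nat_lit 0x10821080107f107c107a107903ca004f004909) (nat_lit 0x30866) (nat_lit 13)))))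

def c512_334 : Tr :=
 .n (.n (.n (.n (.n (.p (nat_lit 0x235a2356235223500ce50ce106) (nat_lit 0x140001020) (nat_lit 14))
 (.p (nat_lit 0x1eb3140202) (nat_lit 0x60ac) (nat_lit 4)))
 (.n (.p (nat_lit 0x23fd0e9c02) (nat_lit 0x4823) (nat_lit 5))
 (.p (nat_lit 0x39f1397f385f03) (nat_lit 0x6b400008060) (nat_lit 44))))
 (.n (.n (.p (nat_lit 0x26f626f426f026ee26ec0d7f06) (nat_lit 0x80000b21) (nat_lit 14))
 (.p (nat_lit 0x38cd38c502) (nat_lit 0xa4000000800) (nat_lit 35)))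
 (.p (nat_lit 0x17c617c217c017be17bc0fb506) (nat_lit 0x100000325) (nat_lit 15))))
 (.n (.n (.n (.p (nat_lit 0x24e624e424e224de0d1d0d1906) (nat_lit 0x50000d60) (nat_lit 14))
 (.p (nat_lit 0x37ad37a902) (nat_lit 0xa4800000000) (nat_lit 35)))
 (.p (nat_lit 0xf260f240f220f200f1f0f1c003307) (nat_lit 0x2024) (nat_lit 7)))
 (.n (.n (.p (nat_lit 0x23790e1802) (nat_lit 0x4042) (nat_lit 5))
 (.p (nat_lit 0x39bb39b302) (nat_lit 0x9bc0a000800) (nat_lit 35)))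
 (.p (nat_lit 0x17f417f017ee17ec105f105b06) (nat_lit 0x280000546) (nat_lit 17)))))
 (.n (.n (.n (.n (.p (nat_lit 0x195c1958195619540d0b0d0706) (nat_lit 0x280000a40) (nat_lit 17))
 (.p (nat_lit 0x2b75161402) (nat_lit 0x8070) (nat_lit 5)))
 (.n (.p (nat_lit 0x180217fe17fc17f80ef50eef06) (nat_lit 0x1200015a3) (nat_lit 17))
 (.p (nat_lit 0x3a5339ab388b03) (nat_lit 0x5ac0000a0a0) (nat_lit 43))))
 (.n (.n (.p (nat_lit 0x231b0dba02) (nat_lit 0x6081) (nat_lit 5))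
 (.p (nat_lit 0x394b394702) (nat_lit 0x5a406000800) (nat_lit 35)))
 (.p (nat_lit 0x100f00c202) (nat_lit 0x20a5) (nat_lit 1))))
 (.n (.n (.n (.p (nat_lit 0x22a017f00d4103) (nat_lit 0x40a0) (nat_lit 6))
 (.p (nat_lit 0x3861385902) (nat_lit 0x72808000000) (nat_lit 35)))
 (.p (nat_lit 0xf860f840f820f800f7e0f7d003107) (nat_lit 0xa4) (nat_lit 7)))
 (.n (.n (.p (nat_lit 0x17d017ce17cc17ca17c80e5b06) (nat_lit 0x200001b82) (nat_lit 15))
 (.p (nat_lit 0x3a1f3949383103) (nat_lit 0x53800006020) (nat_lit 43)))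
 (.p (nat_lit 0x265b10fa02) (nat_lit 0xa847) (nat_lit 5)))))

def c256_78 : Tr := .n c512_78 c512_334

def c512_206 : Tr :=
 .n (.n (.n (.n (.n (.p (nat_lit 0x1862185c185a18580cd90cd706) (nat_lit 0x180001b00) (nat_lit 17))
 (.p (nat_lit 0x1da312f202) (nat_lit 0xa8aa) (nat_lit 4)))
 (.n (.p (nat_lit 0x2370236e236c236a23680e8b06) (nat_lit 0x200001903) (nat_lit 14))
 (.p (nat_lit 0x39e80ee102) (nat_lit 0x960) (nat_lit 47))))
 (.n (.n (.p (nat_lit 0x22bf0d5e02) (nat_lit 0xa001) (nat_lit 5))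
 (.p (nat_lit 0x38bd38ad02) (nat_lit 0x61000000800) (nat_lit 35)))
 (.p (nat_lit 0x25090fa802) (nat_lit 0x8805) (nat_lit 5))))
 (.n (.n (.n (.p (nat_lit 0x246e246c246624640d1f0d1d06) (nat_lit 0xc0000860) (nat_lit 16))
 (.p (nat_lit 0xa73002a02) (nat_lit 0x608a) (nat_lit 30)))
 (.p (nat_lit 0x22522250224e224c22480f1306) (nat_lit 0x20001904) (nat_lit 14)))
 (.n (.n (.p (nat_lit 0xe050ded02) (nat_lit 0x8002) (nat_lit 18))
 (.p (nat_lit 0x39a7399d02) (nat_lit 0x4900a000800) (nat_lit 35)))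
 (.p (nat_lit 0x230623042302230022fe104906) (nat_lit 0x10000b26) (nat_lit 14)))))
 (.n (.n (.n (.n (.p (nat_lit 0x2460245e245c245a0cff0cf506) (nat_lit 0x210001540) (nat_lit 16))
 (.p (nat_lit 0x209715e602) (nat_lit 0xa030) (nat_lit 4)))
 (.n (.p (nat_lit 0x1a1e1a1c1a181a140ee70ee306) (nat_lit 0xa0000c83) (nat_lit 17))
 (.p (nat_lit 0x3a4f3939382103) (nat_lit 0x118000060a0) (nat_lit 43))))
 (.n (.n (.p (nat_lit 0x178a17881786178217800dad06) (nat_lit 0x40001861) (nat_lit 17))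
 (.p (nat_lit 0x3951393502) (nat_lit 0x70006000800) (nat_lit 35)))
 (.p (nat_lit 0x2a322a302a2e2a2c2a2a0fdd06) (nat_lit 0x10001165) (nat_lit 14))))
 (.n (.n (.n (.p (nat_lit 0x1a701a6c1a6a1a680d3b0d3706) (nat_lit 0x280001980) (nat_lit 17))
 (.p (nat_lit 0x384b384702) (nat_lit 0x18408000000) (nat_lit 35)))
 (.p (nat_lit 0x2f790f6802) (nat_lit 0x4084) (nat_lit 32)))
 (.n (.n (.p (nat_lit 0x228e228c228a228822860e4506) (nat_lit 0x10000482) (nat_lit 16))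
 (.p (nat_lit 0x39cf39c1387703) (nat_lit 0xb040000a000) (nat_lit 44)))
 (.p (nat_lit 0x109a10981097109410921090004f07) (nat_lit 0x6886) (nat_lit 7)))))

def c512_462 : Tr :=
 .n (.n (.n (.n (.n (.p (nat_lit 0x18b418b218b018ac0cf30ceb06) (nat_lit 0x220000920) (nat_lit 17))
 (.p (nat_lit 0x24fe24fc24f824f624f414ab06) (nat_lit 0x8000000e) (nat_lit 16)))
 (.n (.p (nat_lit 0xec70ec40ec30ec00ebe0ebc031a002f002b09) (nat_lit 0x56063) (nat_lit 13))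
 (.p (nat_lit 0x39f538bf37a103) (nat_lit 0x6b800000080) (nat_lit 44))))
 (.n (.n (.p (nat_lit 0xd93001a02) (nat_lit 0x2841) (nat_lit 1))
 (.p (nat_lit 0x38f938df02) (nat_lit 0x91402000800) (nat_lit 35)))
 (.p (nat_lit 0x228c228a228822840fc30fbb06) (nat_lit 0x220000c25) (nat_lit 16))))
 (.n (.n (.n (.p (nat_lit 0x1a5a1a561a541a521a500d2d06) (nat_lit 0x100001080) (nat_lit 15))
 (.p (nat_lit 0x37fb37e502) (nat_lit 0x58004000000) (nat_lit 35)))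
 (.p (nat_lit 0xf330f300f2e0f2c0f2a0f29033e003b003109) (nat_lit 0x50824) (nat_lit 13)))
 (.n (.n (.p (nat_lit 0x2e45002102) (nat_lit 0x8062) (nat_lit 33))
 (.p (nat_lit 0x3954394e394c383504) (nat_lit 0x4006000000) (nat_lit 36)))
 (.p (nat_lit 0x1603106302) (nat_lit 0x2c46) (nat_lit 19)))))
 (.n (.n (.n (.n (.p (nat_lit 0x10650d0502) (nat_lit 0x4d40) (nat_lit 19))
 (.p (nat_lit 0x1737173417321730172e172c00e307) (nat_lit 0xa072) (nat_lit 7)))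
 (.p (nat_lit 0x2f502ef011e03) (nat_lit 0x42003) (nat_lit 22)))
 (.n (.n (.p (nat_lit 0xdca0dc80dc60dc50dc30dc0026c0011000f09) (nat_lit 0x22881) (nat_lit 13))
 (.p (nat_lit 0x397b396d02) (nat_lit 0x59008000800) (nat_lit 35)))
 (.p (nat_lit 0x3ab038f013e03) (nat_lit 0x6052005) (nat_lit 22))))
 (.n (.n (.n (.p (nat_lit 0x10a10d4102) (nat_lit 0x45a0) (nat_lit 19))
 (.p (nat_lit 0x3889387b02) (nat_lit 0x50c0a000000) (nat_lit 35)))
 (.p (nat_lit 0x24fc24fa24f824f624f40f9306) (nat_lit 0x2000008a4) (nat_lit 14)))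
 (.n (.n (.p (nat_lit 0x19190e6802) (nat_lit 0x8a2) (nat_lit 4))
 (.p (nat_lit 0x39dd38bd379d03) (nat_lit 0x63000000040) (nat_lit 44)))
 (.p (nat_lit 0x11ab001202) (nat_lit 0x6088) (nat_lit 1)))))

def c256_206 : Tr := .n c512_206 c512_462

def c128_78 : Tr := .n c256_78 c256_206

def c64_14 : Tr := .n c128_14 c128_78

def c512_46 : Tr :=
 .n (.n (.n (.n (.n (.p (nat_lit 0x2312230e230c23080ccd0cc706) (nat_lit 0x120001300) (nat_lit 16))
 (.p (nat_lit 0x18fe18fa18f818f618f4124906) (nat_lit 0x100000c89) (nat_lit 17)))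
 (.n (.p (nat_lit 0x2c702a9010e03) (nat_lit 0x4050002) (nat_lit 22))
 (.p (nat_lit 0x3a2b3939382103) (nat_lit 0x11800006040) (nat_lit 43))))
 (.n (.n (.p (nat_lit 0x25be25ba25b825b60d510d4906) (nat_lit 0x110000aa0) (nat_lit 16))
 (.p (nat_lit 0x3893388902) (nat_lit 0x7a80a000000) (nat_lit 35)))
 (.p (nat_lit 0x349033d012e03) (nat_lit 0x8010004) (nat_lit 22))))
 (.n (.n (.n (.p (nat_lit 0x2490248c248a24880d170d1306) (nat_lit 0x280001160) (nat_lit 14))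
 (.p (nat_lit 0x829002102) (nat_lit 0x8062) (nat_lit 31)))
 (.p (nat_lit 0x12d003a0038003604) (nat_lit 0x380008004) (nat_lit 20)))
 (.n (.n (.p (nat_lit 0xdd60dd40dd30dd10dce0dcc027a0013001109) (nat_lit 0x340a1) (nat_lit 13))
 (.p (nat_lit 0x3991397902) (nat_lit 0xb2808000800) (nat_lit 35)))
 (.p (nat_lit 0x103a10381037103410321030004f07) (nat_lit 0x6806) (nat_lit 7)))))
 (.n (.n (.n (.n (.p (nat_lit 0x19161912190e190c0cf10ced06) (nat_lit 0x140000d20) (nat_lit 15))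
 (.p (nat_lit 0x34dd00ad02) (nat_lit 0x482e) (nat_lit 33)))
 (.n (.p (nat_lit 0xedb003602) (nat_lit 0x6083) (nat_lit 1))
 (.p (nat_lit 0x3a4214ab02) (nat_lit 0x6380) (nat_lit 48))))
 (.n (.n (.p (nat_lit 0x23011851026d026500fe05) (nat_lit 0x1014061) (nat_lit 9))
 (.p (nat_lit 0x392d390502) (nat_lit 0xa0004000800) (nat_lit 35)))
 (.p (nat_lit 0x1a1e1a1c1a1a1a181a140fc706) (nat_lit 0x20000445) (nat_lit 15))))
 (.n (.n (.n (.p (nat_lit 0x1ac61ac41ac01abe0d2b0d2506) (nat_lit 0x90000580) (nat_lit 15))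
 (.p (nat_lit 0x380d380702) (nat_lit 0xa4404000000) (nat_lit 35)))
 (.p (nat_lit 0xf3e0f3c0f3b0f380f360f34003707) (nat_lit 0x6044) (nat_lit 7)))
 (.n (.n (.p (nat_lit 0x2e510e4002) (nat_lit 0x8862) (nat_lit 32))
 (.p (nat_lit 0x3a0d38c137a703) (nat_lit 0x74400000000) (nat_lit 43)))
 (.p (nat_lit 0x10821080107e107c107a1079004907) (nat_lit 0x866) (nat_lit 7)))))

def c512_302 : Tr :=
 .n (.n (.n (.n (.n (.p (nat_lit 0xfa10cd102) (nat_lit 0xc00) (nat_lit 19))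
 (.p (nat_lit 0x19a419a219a0199e199c139b06) (nat_lit 0x200000d0c) (nat_lit 15)))
 (.n (.p (nat_lit 0x1d7c1d7a1d781d760e970e8d06) (nat_lit 0x210000423) (nat_lit 17))
 (.p (nat_lit 0x39ee0ee702) (nat_lit 0x6960) (nat_lit 47))))
 (.n (.n (.p (nat_lit 0x22d91829026d026700fe05) (nat_lit 0x8d0821) (nat_lit 9))
 (.p (nat_lit 0x38c338bd02) (nat_lit 0x7b000000800) (nat_lit 35)))
 (.p (nat_lit 0xfb70fb40fb20fb00fae0fac004707) (nat_lit 0xa025) (nat_lit 7))))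
 (.n (.n (.n (.p (nat_lit 0x1a041a021a0019fe19fc0d2306) (nat_lit 0x200000b60) (nat_lit 17))
 (.p (nat_lit 0x37b1379d02) (nat_lit 0xb3000000000) (nat_lit 35)))
 (.p (nat_lit 0xf290f1102) (nat_lit 0x804) (nat_lit 18)))
 (.n (.n (.p (nat_lit 0x236b0e0a02) (nat_lit 0x2822) (nat_lit 5))
 (.p (nat_lit 0x39bd39a902) (nat_lit 0xa280a000800) (nat_lit 35)))
 (.p (nat_lit 0x17c417c217c017be17bc105f06) (nat_lit 0x200000346) (nat_lit 15)))))
 (.n (.n (.n (.n (.p (nat_lit 0x1946194419421940193c0d0306) (nat_lit 0x20000940) (nat_lit 15))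
 (.p (nat_lit 0x1609004402) (nat_lit 0x8850) (nat_lit 1)))
 (.n (.p (nat_lit 0x22822280227e227c227a0eed06) (nat_lit 0x100013a3) (nat_lit 14))
 (.p (nat_lit 0x3a5022b102) (nat_lit 0x88a0) (nat_lit 46))))
 (.n (.n (.p (nat_lit 0xe390da902) (nat_lit 0xa61) (nat_lit 19))
 (.p (nat_lit 0x3957394102) (nat_lit 0x89806000800) (nat_lit 35)))
 (.p (nat_lit 0x2561100002) (nat_lit 0x885) (nat_lit 5))))
 (.n (.n (.n (.p (nat_lit 0xee30d3302) (nat_lit 0x2a80) (nat_lit 19))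
 (.p (nat_lit 0x3871385302) (nat_lit 0xb1c08000000) (nat_lit 35)))
 (.p (nat_lit 0x2a0e2a0c2a0a2a082a040f7306) (nat_lit 0x20000884) (nat_lit 14)))
 (.n (.n (.p (nat_lit 0x17a217a0179e179a0e550e5106) (nat_lit 0x50001982) (nat_lit 17))
 (.p (nat_lit 0x3a1f3937381903) (nat_lit 0x8800006020) (nat_lit 43)))
 (.p (nat_lit 0x3e503cd014e03) (nat_lit 0x8020006) (nat_lit 22)))))

def c256_46 : Tr := .n c512_46 c512_302

def c512_174 : Tr :=
 .n (.n (.n (.n (.n (.p (nat_lit 0x230623042302230022fc0cd306) (nat_lit 0x20000b00) (nat_lit 16))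
 (.p (nat_lit 0x23a223a0239e239a239812e106) (nat_lit 0x400013aa) (nat_lit 14)))
 (.n (.p (nat_lit 0x19350e8402) (nat_lit 0x4803) (nat_lit 4))
 (.p (nat_lit 0x3a2f39b1389903) (nat_lit 0x7480000a040) (nat_lit 43))))
 (.n (.n (.p (nat_lit 0x24f02410235022904) (nat_lit 0x95a2000) (nat_lit 24))
 (.p (nat_lit 0x38af38a902) (nat_lit 0x28800000800) (nat_lit 35)))
 (.p (nat_lit 0x14ad0f9d02) (nat_lit 0x8305) (nat_lit 19))))
 (.n (.n (.n (.p (nat_lit 0xd1d003402) (nat_lit 0x4860) (nat_lit 1))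
 (.l (nat_lit 0x115000000000000800080) (nat_lit 0x3a226) (nat_lit 29)))
 (.p (nat_lit 0x2f25003502) (nat_lit 0x4804) (nat_lit 33)))
 (.n (.n (.p (nat_lit 0x18970de602) (nat_lit 0x2002) (nat_lit 4))
 (.p (nat_lit 0x39b5399902) (nat_lit 0x8080a000800) (nat_lit 35)))
 (.p (nat_lit 0x305f104e02) (nat_lit 0x6826) (nat_lit 32)))))
 (.n (.n (.n (.n (.p (nat_lit 0x1982197e197c19780cfd0cf706) (nat_lit 0x120001340) (nat_lit 15))
 (.p (nat_lit 0x2a322a302a2e2a2c2a2a156506) (nat_lit 0x1000114f) (nat_lit 14)))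
 (.n (.p (nat_lit 0x2efb002f02) (nat_lit 0xa883) (nat_lit 33))
 (.p (nat_lit 0x3a4d391f380703) (nat_lit 0x6c4000040a0) (nat_lit 43))))
 (.n (.n (.p (nat_lit 0x185b0daa02) (nat_lit 0x2861) (nat_lit 4))
 (.p (nat_lit 0x3933392702) (nat_lit 0xbc404000800) (nat_lit 35)))
 (.p (nat_lit 0x1a910fe002) (nat_lit 0x4065) (nat_lit 4))))
 (.n (.n (.n (.p (nat_lit 0x25082504250225000d3b0d3706) (nat_lit 0x280001880) (nat_lit 14))
 (.p (nat_lit 0x383b382702) (nat_lit 0x9a406000000) (nat_lit 35)))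
 (.p (nat_lit 0x24bd0f5c02) (nat_lit 0x4864) (nat_lit 5)))
 (.n (.n (.p (nat_lit 0x2250224c224a22480e4f0e4b06) (nat_lit 0x280001182) (nat_lit 16))
 (.p (nat_lit 0x39cd3971385903) (nat_lit 0x32800008000) (nat_lit 44)))
 (.p (nat_lit 0x209620942092208e208c108906) (nat_lit 0x40000186) (nat_lit 17)))))

def c512_430 : Tr :=
 .n (.n (.n (.n (.n (.p (nat_lit 0x189e1898189618940cf10cef06) (nat_lit 0x180000820) (nat_lit 15))
 (.p (nat_lit 0x1fe21fe01fde1fdc1fd8148f06) (nat_lit 0x200015ad) (nat_lit 17)))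
 (.n (.p (nat_lit 0xf470eb702) (nat_lit 0x6c43) (nat_lit 19))
 (.p (nat_lit 0x39f339bb38a103) (nat_lit 0x9d80000a060) (nat_lit 44))))
 (.n (.n (.p (nat_lit 0x191619141910190e0d8b0d8506) (nat_lit 0x90000541) (nat_lit 17))
 (.p (nat_lit 0x390138db02) (nat_lit 0xb0c02000800) (nat_lit 35)))
 (.p (nat_lit 0x225e225c225a225822540fbb06) (nat_lit 0x20000a25) (nat_lit 14))))
 (.n (.n (.n (.p (nat_lit 0xd2e0d2d0d2a0d280d260d24000907) (nat_lit 0x8080) (nat_lit 7))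
 (.p (nat_lit 0x37dd37bf02) (nat_lit 0xa1402000000) (nat_lit 35)))
 (.p (nat_lit 0x19db0f2a02) (nat_lit 0x2824) (nat_lit 4)))
 (.n (.n (.p (nat_lit 0xe430e2b02) (nat_lit 0xa842) (nat_lit 18))
 (.p (nat_lit 0x39123910390a37f304) (nat_lit 0x1c04000000) (nat_lit 36)))
 (.p (nat_lit 0x228e228a228822862284106906) (nat_lit 0x100000c46) (nat_lit 14)))))
 (.n (.n (.n (.n (.p (nat_lit 0xd910d0102) (nat_lit 0x840) (nat_lit 19))
 (.p (nat_lit 0x21db172a02) (nat_lit 0xa852) (nat_lit 4)))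
 (.p (nat_lit 0x17dc17da17d817d617d40f0306) (nat_lit 0x200000ca3) (nat_lit 15)))
 (.n (.n (.p (nat_lit 0x18730dc202) (nat_lit 0x2881) (nat_lit 4))
 (.p (nat_lit 0x3979396902) (nat_lit 0x50808000800) (nat_lit 35)))
 (.p (nat_lit 0x10221020101f101d101a1018039a0043004109) (nat_lit 0x348a5) (nat_lit 13))))
 (.n (.n (.n (.p (nat_lit 0x25fa25f625f425f225f00d4506) (nat_lit 0x1000014a0) (nat_lit 14))
 (.p (nat_lit 0x3897387702) (nat_lit 0x8840a000000) (nat_lit 35)))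
 (.p (nat_lit 0x1a3d0f8c02) (nat_lit 0x48a4) (nat_lit 4)))
 (.n (.n (.p (nat_lit 0x22fa22f822f422f20e630e5d06) (nat_lit 0x900012a2) (nat_lit 16))
 (.p (nat_lit 0x3a2339c3387b03) (nat_lit 0xb8c0000a020) (nat_lit 43)))
 (.p (nat_lit 0x26fb119a02) (nat_lit 0x2868) (nat_lit 5)))))

def c256_174 : Tr := .n c512_174 c512_430

def c128_46 : Tr := .n c256_46 c256_174

def c512_110 : Tr :=
 .n (.n (.n (.n (.n (.p (nat_lit 0x223b0cda02) (nat_lit 0xa800) (nat_lit 5))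
 (.p (nat_lit 0x1938193619341932193012cf06) (nat_lit 0x20000108a) (nat_lit 15)))
 (.n (.p (nat_lit 0x192d0e7c02) (nat_lit 0x8003) (nat_lit 4))
 (.p (nat_lit 0x39e53981386703) (nat_lit 0x74400008040) (nat_lit 44))))
 (.n (.n (.p (nat_lit 0x1b481b461b441b420d530d4906) (nat_lit 0x210001ca0) (nat_lit 15))
 (.p (nat_lit 0x389f389b02) (nat_lit 0xacc0a000000) (nat_lit 35)))
 (.p (nat_lit 0xf9d005002) (nat_lit 0x8005) (nat_lit 1))))
 (.n (.n (.n (.p (nat_lit 0x1a421a401a3c1a3a1a380d1306) (nat_lit 0x80001560) (nat_lit 15))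
 (.p (nat_lit 0x8a3003b02) (nat_lit 0xa024) (nat_lit 31)))
 (.p (nat_lit 0x2282227e227c227a22780f0d06) (nat_lit 0x100001304) (nat_lit 16)))
 (.n (.n (.p (nat_lit 0xe6f0ddf02) (nat_lit 0x6aa1) (nat_lit 19))
 (.p (nat_lit 0x3990398e398c396c3966396417b907) (nat_lit 0x8000840) (nat_lit 37)))
 (.p (nat_lit 0x3057104602) (nat_lit 0xa026) (nat_lit 32)))))
 (.n (.n (.n (.n (.p (nat_lit 0x17a50cf402) (nat_lit 0x40) (nat_lit 4))
 (.p (nat_lit 0x1fdd152c02) (nat_lit 0x48ae) (nat_lit 4)))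
 (.n (.p (nat_lit 0x1a2a1a281a241a220edb0ed506) (nat_lit 0x90001483) (nat_lit 17))
 (.p (nat_lit 0x39ff39af389103) (nat_lit 0x6b80000a080) (nat_lit 44))))
 (.n (.n (.p (nat_lit 0x17d017ce17cc17c80da70d9f06) (nat_lit 0x220001361) (nat_lit 17))
 (.p (nat_lit 0x3921391702) (nat_lit 0x72404000800) (nat_lit 35)))
 (.p (nat_lit 0x19be19bc19ba19b819b40fd306) (nat_lit 0x20000845) (nat_lit 15))))
 (.n (.n (.n (.p (nat_lit 0x229117e102) (nat_lit 0x880) (nat_lit 11))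
 (.p (nat_lit 0x3829381d02) (nat_lit 0x51006000000) (nat_lit 35)))
 (.p (nat_lit 0x19f90f4802) (nat_lit 0x8844) (nat_lit 4)))
 (.n (.n (.p (nat_lit 0x122f0e3f02) (nat_lit 0x6962) (nat_lit 19))
 (.p (nat_lit 0x3a0f38fb37e103) (nat_lit 0x9d800002000) (nat_lit 43)))
 (.p (nat_lit 0x1a721a6e1a6c1a681081107b06) (nat_lit 0x120001966) (nat_lit 15)))))

def c512_366 : Tr :=
 .n (.n (.n (.n (.n (.p (nat_lit 0x23d023cc23ca23c80ce70ce306) (nat_lit 0x280001520) (nat_lit 14))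
 (.p (nat_lit 0x296d140c02) (nat_lit 0x48ac) (nat_lit 5)))
 (.n (.p (nat_lit 0x1d8a1d861d841d800ea10e9b06) (nat_lit 0x120001c23) (nat_lit 17))
 (.p (nat_lit 0x39f017c502) (nat_lit 0x8060) (nat_lit 45))))
 (.n (.n (.p (nat_lit 0x10530d8302) (nat_lit 0xac21) (nat_lit 19))
 (.p (nat_lit 0x38d938d502) (nat_lit 0x10002000800) (nat_lit 35)))
 (.p (nat_lit 0xfcd0fb502) (nat_lit 0x8025) (nat_lit 18))))
 (.n (.n (.n (.p (nat_lit 0xd350d1d02) (nat_lit 0x4860) (nat_lit 18))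
 (.p (nat_lit 0x37b937b702) (nat_lit 0x10402000000) (nat_lit 35)))
 (.p (nat_lit 0x23ea23e823e623e40f1f0f1d06) (nat_lit 0x30001024) (nat_lit 14)))
 (.n (.n (.p (nat_lit 0xe2f0e1702) (nat_lit 0x2042) (nat_lit 18))
 (.p (nat_lit 0x39b439ae39ac39a839a639a4226b07) (nat_lit 0xa000840) (nat_lit 38)))
 (.p (nat_lit 0x3075106402) (nat_lit 0x4846) (nat_lit 32)))))
 (.n (.n (.n (.n (.p (nat_lit 0x243c243a243824360d0b0d0106) (nat_lit 0x210000c40) (nat_lit 14))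
 (.p (nat_lit 0x17121711170e170c170a170800e107) (nat_lit 0x8832) (nat_lit 7)))
 (.n (.p (nat_lit 0x19af0efe02) (nat_lit 0x68a3) (nat_lit 4))
 (.p (nat_lit 0x3a5222a702) (nat_lit 0xa0a0) (nat_lit 46))))
 (.n (.n (.p (nat_lit 0x25b225b025ae25ac25aa0db506) (nat_lit 0x10001181) (nat_lit 16))
 (.p (nat_lit 0x395d395302) (nat_lit 0xa3c06000800) (nat_lit 35)))
 (.p (nat_lit 0x209620942092208e208c101106) (nat_lit 0x400001a5) (nat_lit 15))))
 (.n (.n (.n (.p (nat_lit 0x1aea1ae41ae21ae00d450d4306) (nat_lit 0x1800010a0) (nat_lit 15))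
 (.p (nat_lit 0x386d386102) (nat_lit 0xa3808000000) (nat_lit 35)))
 (.p (nat_lit 0x1a4e1a4a1a481a461a440f8506) (nat_lit 0x1000000a4) (nat_lit 15)))
 (.n (.n (.p (nat_lit 0x22b222ac22aa22a80e590e5706) (nat_lit 0x180001d82) (nat_lit 14))
 (.p (nat_lit 0x3a1f3963384303) (nat_lit 0xbdc00006020) (nat_lit 43)))
 (.p (nat_lit 0x1743111302) (nat_lit 0xac67) (nat_lit 19)))))

def c256_110 : Tr := .n c512_110 c512_366

def c512_238 : Tr :=
 .n (.n (.n (.n (.n (.p (nat_lit 0x187a1878187618700cd50cd306) (nat_lit 0x60001c00) (nat_lit 15))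
 (.p (nat_lit 0x192e192c192a19261924137106) (nat_lit 0x400000ab) (nat_lit 15)))
 (.n (.p (nat_lit 0x190a1906190419020e890e8106) (nat_lit 0x110001c03) (nat_lit 15))
 (.p (nat_lit 0x3a35392f37e703) (nat_lit 0xa8400004060) (nat_lit 43))))
 (.n (.n (.p (nat_lit 0xdf90d6902) (nat_lit 0x8a01) (nat_lit 19))
 (.p (nat_lit 0x38cd38b102) (nat_lit 0xa1800000800) (nat_lit 35)))
 (.p (nat_lit 0x25ca25c825c425c00fa70fa306) (nat_lit 0xa0001a05) (nat_lit 14))))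
 (.n (.n (.n (.p (nat_lit 0x19d619d419d019ce0d1f0d1906) (nat_lit 0x90000960) (nat_lit 15))
 (.p (nat_lit 0x37a7378702) (nat_lit 0x88400000000) (nat_lit 35)))
 (.p (nat_lit 0x22762274227222700f130f1106) (nat_lit 0x30000b04) (nat_lit 16)))
 (.n (.n (.p (nat_lit 0xdfb0df80df60df40df20df0002307) (nat_lit 0xa802) (nat_lit 7))
 (.p (nat_lit 0x39a339a102) (nat_lit 0x3980a000800) (nat_lit 35)))
 (.p (nat_lit 0x15ef104f02) (nat_lit 0x6c26) (nat_lit 19)))))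
 (.n (.n (.n (.n (.p (nat_lit 0x22610d0002) (nat_lit 0x840) (nat_lit 5))
 (.p (nat_lit 0x1af61af41af21af01aec15eb06) (nat_lit 0x20000930) (nat_lit 17)))
 (.n (.p (nat_lit 0x199f0eee02) (nat_lit 0x20a3) (nat_lit 4))
 (.p (nat_lit 0x3a093967384703) (nat_lit 0x84000080a0) (nat_lit 44))))
 (.n (.n (.p (nat_lit 0x17ba17b817b417b00daf0dab06) (nat_lit 0xa0001a61) (nat_lit 15))
 (.p (nat_lit 0x3943393902) (nat_lit 0x38806000800) (nat_lit 35)))
 (.p (nat_lit 0x1aa10ff002) (nat_lit 0x8865) (nat_lit 4))))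
 (.n (.n (.n (.p (nat_lit 0x1a961a941a921a8e1a8c0d3506) (nat_lit 0x40000b80) (nat_lit 15))
 (.p (nat_lit 0x3861384902) (nat_lit 0x70808000000) (nat_lit 35)))
 (.p (nat_lit 0x1f761f741f701f6e0f6b0f6506) (nat_lit 0x90000184) (nat_lit 17)))
 (.n (.n (.p (nat_lit 0xe610e4902) (nat_lit 0x4082) (nat_lit 18))
 (.p (nat_lit 0x3a180e8102) (nat_lit 0xb20) (nat_lit 48)))
 (.p (nat_lit 0x30b630b430b230b030ae30ac014c07) (nat_lit 0xa6) (nat_lit 8)))))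

def c512_494 : Tr :=
 .n (.n (.n (.n (.n (.p (nat_lit 0x23922390238e238c0cf30cf106) (nat_lit 0x300000b20) (nat_lit 14))
 (.p (nat_lit 0x2a1b14ba02) (nat_lit 0xa80e) (nat_lit 5)))
 (.n (.p (nat_lit 0xed20ed00ece0ecd0eca0ec8002907) (nat_lit 0x4863) (nat_lit 7))
 (.p (nat_lit 0x39f738ff37b703) (nat_lit 0xa8400002080) (nat_lit 44))))
 (.n (.n (.p (nat_lit 0x2396239423922390238e0d9106) (nat_lit 0x10000b41) (nat_lit 14))
 (.p (nat_lit 0x38ef38e702) (nat_lit 0x6a402000800) (nat_lit 35)))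
 (.p (nat_lit 0x10510fc102) (nat_lit 0x8825) (nat_lit 19))))
 (.n (.n (.n (.p (nat_lit 0x2522251e251c251a25180d2d06) (nat_lit 0x100001180) (nat_lit 16))
 (.p (nat_lit 0x380737ed02) (nat_lit 0x89004000000) (nat_lit 35)))
 (.p (nat_lit 0x199a1998199619940f2b0f2906) (nat_lit 0x30001c24) (nat_lit 17)))
 (.n (.n (.p (nat_lit 0x1980197e197c197a19780e3706) (nat_lit 0x200001362) (nat_lit 17))
 (.p (nat_lit 0x39be39bc3994387504) (nat_lit 0xa000000) (nat_lit 36)))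
 (.p (nat_lit 0x25d7107602) (nat_lit 0xa066) (nat_lit 5)))))
 (.n (.n (.n (.n (.p (nat_lit 0xd160d140d130d100d0e0d0d021a0007000109) (nat_lit 0x30060) (nat_lit 13))
 (.p (nat_lit 0x1b0e1b0c1b0a1b061b04173d06) (nat_lit 0x40000a72) (nat_lit 15)))
 (.p (nat_lit 0x319030d02f5012004) (nat_lit 0x81a0003) (nat_lit 23)))
 (.n (.n (.p (nat_lit 0x1b321b301b2c1b280dc70dc306) (nat_lit 0xa0001b81) (nat_lit 15))
 (.p (nat_lit 0x3975397102) (nat_lit 0x41808000800) (nat_lit 35)))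
 (.p (nat_lit 0x14f0052004c03) (nat_lit 0x24000a006) (nat_lit 20))))
 (.n (.n (.n (.p (nat_lit 0x22b018000d5103) (nat_lit 0x88a0) (nat_lit 6))
 (.p (nat_lit 0x388b387f02) (nat_lit 0x5940a000000) (nat_lit 35)))
 (.p (nat_lit 0x1aa21aa01a9c1a9a1a980f8f06) (nat_lit 0x80001ba4) (nat_lit 15)))
 (.n (.n (.p (nat_lit 0xe720e700e6e0e6d0e6b0e6802b4001d001b09) (nat_lit 0x228a2) (nat_lit 13))
 (.p (nat_lit 0x3a2738d537b503) (nat_lit 0x2040) (nat_lit 43)))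
 (.p (nat_lit 0x1c6711b602) (nat_lit 0x6888) (nat_lit 4)))))

def c256_238 : Tr := .n c512_238 c512_494

def c128_110 : Tr := .n c256_110 c256_238

def c64_46 : Tr := .n c128_46 c128_110

def c32_14 : Tr := .n c64_14 c64_46

def c512_30 : Tr :=
 .n (.n (.n (.n (.n (.p (nat_lit 0x18321830182e182c0cc70cc506) (nat_lit 0x30001100) (nat_lit 15))
 (.p (nat_lit 0x1ced123c02) (nat_lit 0x8089) (nat_lit 4)))
 (.n (.p (nat_lit 0x12ef0e6f02) (nat_lit 0x6aa2) (nat_lit 19))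
 (.p (nat_lit 0x3a293927380903) (nat_lit 0x8c800004040) (nat_lit 43))))
 (.n (.n (.p (nat_lit 0x25b225ae25ac25aa25a80d5106) (nat_lit 0x1000019a0) (nat_lit 14))
 (.p (nat_lit 0x3897388502) (nat_lit 0x8a00a000000) (nat_lit 35)))
 (.p (nat_lit 0x34903470337013004) (nat_lit 0x2230004) (nat_lit 23))))
 (.n (.n (.n (.p (nat_lit 0x24842482247e247c0d170d1106) (nat_lit 0x240000160) (nat_lit 14))
 (.p (nat_lit 0x7ee07ea07e807e607e400fc000907) (nat_lit 0x8281) (nat_lit 28)))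
 (.p (nat_lit 0x12e0039003700350033003106) (nat_lit 0x1f000a004) (nat_lit 21)))
 (.n (.n (.p (nat_lit 0x18830dd202) (nat_lit 0x60a1) (nat_lit 4))
 (.p (nat_lit 0x398b397702) (nat_lit 0x9a408000800) (nat_lit 35)))
 (.p (nat_lit 0x1ae1103002) (nat_lit 0x806) (nat_lit 4)))))
 (.n (.n (.n (.n (.p (nat_lit 0x190a1906190219000cf10ced06) (nat_lit 0x140001c20) (nat_lit 17))
 (.p (nat_lit 0x24f224ee24ec24ea24e814c506) (nat_lit 0x10000152e) (nat_lit 14)))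
 (.n (.p (nat_lit 0x19850ed402) (nat_lit 0x83) (nat_lit 4))
 (.p (nat_lit 0x3a43393d381f03) (nat_lit 0x21400006080) (nat_lit 43))))
 (.n (.n (.p (nat_lit 0x230623042302230022fe22fc06) (nat_lit 0x61) (nat_lit 3))
 (.p (nat_lit 0x3907390502) (nat_lit 0x8004000800) (nat_lit 35)))
 (.p (nat_lit 0x246e246c2468246624640fcb06) (nat_lit 0x80000045) (nat_lit 14))))
 (.n (.n (.n (.p (nat_lit 0x2552254e254c25480d2d0d2706) (nat_lit 0x120001380) (nat_lit 14))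
 (.p (nat_lit 0x380d380102) (nat_lit 0xa3804000000) (nat_lit 35)))
 (.p (nat_lit 0x2f450f3402) (nat_lit 0x44) (nat_lit 32)))
 (.n (.n (.p (nat_lit 0xe420e400e3e0e3c0e3b0e38001b07) (nat_lit 0x2862) (nat_lit 7))
 (.p (nat_lit 0x39c538bb379b03) (nat_lit 0x5ac00000000) (nat_lit 44)))
 (.p (nat_lit 0x108d107502) (nat_lit 0x8066) (nat_lit 18)))))

def c512_286 : Tr :=
 .n (.n (.n (.n (.n (.p (nat_lit 0xdf50cd502) (nat_lit 0x4900) (nat_lit 19))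
 (.p (nat_lit 0x28f3139202) (nat_lit 0x280c) (nat_lit 5)))
 (.n (.p (nat_lit 0x23f51945030302f5011e05) (nat_lit 0x1488023) (nat_lit 9))
 (.p (nat_lit 0x3a373945382703) (nat_lit 0x42400006060) (nat_lit 43))))
 (.n (.n (.p (nat_lit 0xd870d6f02) (nat_lit 0x2021) (nat_lit 18))
 (.p (nat_lit 0x38c938b902) (nat_lit 0x92800000800) (nat_lit 35)))
 (.p (nat_lit 0x1a5f0fae02) (nat_lit 0x2025) (nat_lit 4))))
 (.n (.n (.n (.p (nat_lit 0x19fa19f819f219f00d1f0d1d06) (nat_lit 0xc0001a60) (nat_lit 15))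
 (.p (nat_lit 0x37a7379902) (nat_lit 0x8a800000000) (nat_lit 35)))
 (.p (nat_lit 0x17f417f217ee17ec0f1b0f1506) (nat_lit 0x240000d04) (nat_lit 15)))
 (.n (.n (.p (nat_lit 0x1ce01cde1cdc1cda0e070dfd06) (nat_lit 0x210001322) (nat_lit 15))
 (.p (nat_lit 0x39b139a702) (nat_lit 0x7240a000800) (nat_lit 35)))
 (.p (nat_lit 0x2250224e224c224a2248105f06) (nat_lit 0x200001146) (nat_lit 14)))))
 (.n (.n (.n (.n (.p (nat_lit 0x193a1938193619300d050d0306) (nat_lit 0x60001840) (nat_lit 15))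
 (.p (nat_lit 0x361a3618361636143612361001ec07) (nat_lit 0x850) (nat_lit 8)))
 (.n (.p (nat_lit 0x226a22682264226222600ef306) (nat_lit 0x800012a3) (nat_lit 16))
 (.p (nat_lit 0x3a093989386f03) (nat_lit 0x954000080a0) (nat_lit 44))))
 (.n (.n (.p (nat_lit 0x22b222b022ae22ac22aa0da906) (nat_lit 0x10001d61) (nat_lit 14))
 (.p (nat_lit 0x3959393f02) (nat_lit 0x91406000800) (nat_lit 35)))
 (.p (nat_lit 0x1aad0ffc02) (nat_lit 0x8085) (nat_lit 4))))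
 (.n (.n (.n (.p (nat_lit 0xd4f0d3702) (nat_lit 0x6880) (nat_lit 18))
 (.p (nat_lit 0x3855385102) (nat_lit 0x41808000000) (nat_lit 35)))
 (.p (nat_lit 0x24d91a2903630355012e05) (nat_lit 0x15a8884) (nat_lit 9)))
 (.n (.n (.p (nat_lit 0xe5b0e590e560e540e520e5002de0023002109) (nat_lit 0x58882) (nat_lit 13))
 (.p (nat_lit 0x3a1d3927380d03) (nat_lit 0x8d000004020) (nat_lit 43)))
 (.p (nat_lit 0x3db03d9014e03) (nat_lit 0x2058006) (nat_lit 22)))))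

def c256_30 : Tr := .n c512_30 c512_286

def c512_158 : Tr :=
 .n (.n (.n (.n (.n (.p (nat_lit 0x22ea22e822e622e40cdb0cd906) (nat_lit 0x300000a00) (nat_lit 14))
 (.p (nat_lit 0x12e612e412e212e112de12dc007d07) (nat_lit 0x40aa) (nat_lit 7)))
 (.n (.p (nat_lit 0xf0b0e7b02) (nat_lit 0x6403) (nat_lit 19))
 (.p (nat_lit 0x3a2f399f388103) (nat_lit 0x2980000a040) (nat_lit 43))))
 (.n (.n (.p (nat_lit 0x21f021b0219021704) (nat_lit 0x15a2000) (nat_lit 24))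
 (.p (nat_lit 0x38b538a702) (nat_lit 0x40400000800) (nat_lit 35)))
 (.p (nat_lit 0x25e225e025da25d80f9b0f9906) (nat_lit 0xc0001305) (nat_lit 16))))
 (.n (.n (.n (.p (nat_lit 0x10730d1302) (nat_lit 0x6560) (nat_lit 19))
 (.p (nat_lit 0x91b00ca02) (nat_lit 0xa0a5) (nat_lit 30)))
 (.p (nat_lit 0x247a2478247624742472247006) (nat_lit 0x804) (nat_lit 3)))
 (.n (.n (.p (nat_lit 0x10f001a001803) (nat_lit 0x3000a002) (nat_lit 20))
 (.p (nat_lit 0x39bf399702) (nat_lit 0xa840a000800) (nat_lit 35)))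
 (.p (nat_lit 0x1afb104a02) (nat_lit 0x2826) (nat_lit 4)))))
 (.n (.n (.n (.n (.p (nat_lit 0x196a19681966196419600cf706) (nat_lit 0x20001240) (nat_lit 17))
 (.p (nat_lit 0x2013156202) (nat_lit 0xa82f) (nat_lit 4)))
 (.n (.p (nat_lit 0x24470ee602) (nat_lit 0x6883) (nat_lit 5))
 (.p (nat_lit 0x3a0338d737bf03) (nat_lit 0x94000020a0) (nat_lit 44))))
 (.n (.n (.p (nat_lit 0xe350da502) (nat_lit 0x8261) (nat_lit 19))
 (.p (nat_lit 0x3927392302) (nat_lit 0x8bc04000800) (nat_lit 35)))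
 (.p (nat_lit 0x16070fd702) (nat_lit 0x6d45) (nat_lit 19))))
 (.n (.n (.n (.p (nat_lit 0x250a25082506250425020d3106) (nat_lit 0x10001880) (nat_lit 14))
 (.p (nat_lit 0x382f382502) (nat_lit 0x6a006000000) (nat_lit 35)))
 (.p (nat_lit 0xf650f4d02) (nat_lit 0x64) (nat_lit 18)))
 (.n (.n (.p (nat_lit 0x178a17881786178217800e4906) (nat_lit 0x40001082) (nat_lit 15))
 (.p (nat_lit 0x39ca104f02) (nat_lit 0x6c00) (nat_lit 47)))
 (.p (nat_lit 0x1b3d108c02) (nat_lit 0x8086) (nat_lit 4)))))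

def c512_414 : Tr :=
 .n (.n (.n (.n (.n (.p (nat_lit 0x22530cf202) (nat_lit 0xa820) (nat_lit 5))
 (.p (nat_lit 0x2492248e248c248a2488142906) (nat_lit 0x10000190d) (nat_lit 14)))
 (.n (.p (nat_lit 0x24170eb602) (nat_lit 0x6843) (nat_lit 5))
 (.p (nat_lit 0x39f339ad388f03) (nat_lit 0x6340000a060) (nat_lit 44))))
 (.n (.n (.p (nat_lit 0x18d818d418d218d00d8f0d8b06) (nat_lit 0x280001241) (nat_lit 17))
 (.p (nat_lit 0x38eb38d902) (nat_lit 0x58802000800) (nat_lit 35)))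
 (.p (nat_lit 0x178a17881786178417800fbb06) (nat_lit 0x20001825) (nat_lit 15))))
 (.n (.n (.n (.p (nat_lit 0x228617d60d2703) (nat_lit 0x2080) (nat_lit 6))
 (.p (nat_lit 0x37d937bd02) (nat_lit 0x91002000000) (nat_lit 35)))
 (.p (nat_lit 0x14bd0f1d02) (nat_lit 0x424) (nat_lit 19)))
 (.n (.n (.p (nat_lit 0x2820281e281c281a0e2b0e2106) (nat_lit 0x210001b42) (nat_lit 14))
 (.p (nat_lit 0x38f238f038ea37d304) (nat_lit 0x3c02000000) (nat_lit 36)))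
 (.p (nat_lit 0x227622742270226e1067106106) (nat_lit 0x90000b46) (nat_lit 14)))))
 (.n (.n (.n (.n (.p (nat_lit 0x19b219ae19ac19aa19a80d0906) (nat_lit 0x100001d40) (nat_lit 17))
 (.p (nat_lit 0x1731171902) (nat_lit 0x4052) (nat_lit 18)))
 (.p (nat_lit 0x17c617c417c217be17bc0efd06) (nat_lit 0x40000ba3) (nat_lit 15)))
 (.n (.n (.p (nat_lit 0xe4f0dbf02) (nat_lit 0xa281) (nat_lit 19))
 (.p (nat_lit 0x3981396702) (nat_lit 0x70408000800) (nat_lit 35)))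
 (.p (nat_lit 0x1ad1102002) (nat_lit 0x88a5) (nat_lit 4))))
 (.n (.n (.n (.p (nat_lit 0x25e225e025dc25da25d80d4306) (nat_lit 0x800013a0) (nat_lit 14))
 (.p (nat_lit 0x38a3387502) (nat_lit 0xb800a000000) (nat_lit 35)))
 (.p (nat_lit 0x100d0f7d02) (nat_lit 0x5a4) (nat_lit 19)))
 (.n (.n (.p (nat_lit 0x23c70e6602) (nat_lit 0xa0a2) (nat_lit 5))
 (.p (nat_lit 0x3a2339bd387503) (nat_lit 0xa000000a020) (nat_lit 43)))
 (.p (nat_lit 0x18fe18fc18fa18f818f4118f06) (nat_lit 0x20000468) (nat_lit 15)))))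

def c256_158 : Tr := .n c512_158 c512_414

def c128_30 : Tr := .n c256_30 c256_158

def c512_94 : Tr :=
 .n (.n (.n (.n (.n (.p (nat_lit 0x22330cd202) (nat_lit 0x2800) (nat_lit 5))
 (.p (nat_lit 0x282712c602) (nat_lit 0x208a) (nat_lit 5)))
 (.n (.p (nat_lit 0x11d002e002c002804) (nat_lit 0x340008003) (nat_lit 20))
 (.p (nat_lit 0x3a2d3971385303) (nat_lit 0x31c00008040) (nat_lit 43))))
 (.n (.n (.p (nat_lit 0x1b321b2c1b2a1b280d510d4f06) (nat_lit 0x180001ba0) (nat_lit 15))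
 (.p (nat_lit 0x389f389302) (nat_lit 0xabc0a000000) (nat_lit 35)))
 (.p (nat_lit 0x1a450f9402) (nat_lit 0x5) (nat_lit 4))))
 (.n (.n (.n (.p (nat_lit 0x1a361a341a321a301a2e0d0d06) (nat_lit 0x10000560) (nat_lit 15))
 (.p (nat_lit 0x87e087c087808760874011c000707) (nat_lit 0x6083) (nat_lit 28)))
 (.p (nat_lit 0x17ba17b817b617b217b00f0906) (nat_lit 0x40001204) (nat_lit 15)))
 (.n (.n (.p (nat_lit 0xde20de00dde0ddd0ddb0dd8026c0011000f09) (nat_lit 0x228a1) (nat_lit 13))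
 (.p (nat_lit 0x398d398902) (nat_lit 0xa4808000800) (nat_lit 35)))
 (.p (nat_lit 0x1af1104002) (nat_lit 0x4026) (nat_lit 4)))))
 (.n (.n (.n (.n (.p (nat_lit 0xf2f0cef02) (nat_lit 0x6b20) (nat_lit 19))
 (.p (nat_lit 0x1f8f14de02) (nat_lit 0xa04e) (nat_lit 4)))
 (.n (.p (nat_lit 0x24922490248e248c248a0ed506) (nat_lit 0x10001183) (nat_lit 16))
 (.p (nat_lit 0x39fc15fd02) (nat_lit 0x8580) (nat_lit 47))))
 (.n (.n (.p (nat_lit 0x226a22682266226222600da106) (nat_lit 0x40001261) (nat_lit 14))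
 (.p (nat_lit 0x3929391102) (nat_lit 0x91804000800) (nat_lit 35)))
 (.p (nat_lit 0x2fe70fd602) (nat_lit 0x6845) (nat_lit 32))))
 (.n (.n (.n (.p (nat_lit 0xffb0d2b02) (nat_lit 0x6480) (nat_lit 19))
 (.p (nat_lit 0x3831381702) (nat_lit 0x70406000000) (nat_lit 35)))
 (.p (nat_lit 0xf4a0f480f460f440f420f41003107) (nat_lit 0x844) (nat_lit 7)))
 (.n (.n (.p (nat_lit 0x24622460245e245c24580e3b06) (nat_lit 0x20001d62) (nat_lit 14))
 (.p (nat_lit 0x39c738e537c503) (nat_lit 0x42000002000) (nat_lit 44)))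
 (.p (nat_lit 0x1a5a1a581a561a52107d107906) (nat_lit 0x50001866) (nat_lit 17)))))

def c512_350 : Tr :=
 .n (.n (.n (.n (.n (.p (nat_lit 0x18f018ee18ea18e80ce70ce106) (nat_lit 0x240001320) (nat_lit 15))
 (.p (nat_lit 0x19e019de19dc19da19d8140706) (nat_lit 0x2000011ac) (nat_lit 15)))
 (.n (.p (nat_lit 0x2eb3002f02) (nat_lit 0xa823) (nat_lit 33))
 (.p (nat_lit 0x39f13987386903) (nat_lit 0x8c800008060) (nat_lit 44))))
 (.n (.n (.p (nat_lit 0xd910d7902) (nat_lit 0x821) (nat_lit 18))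
 (.p (nat_lit 0x38d338cd02) (nat_lit 0xbd000000800) (nat_lit 35)))
 (.p (nat_lit 0x17da17d817d617d40fb70fb506) (nat_lit 0x300000425) (nat_lit 17))))
 (.n (.n (.n (.p (nat_lit 0x24f224f024ee24ea0d1d0d1906) (nat_lit 0x50001d60) (nat_lit 14))
 (.p (nat_lit 0x37bb37b502) (nat_lit 0x18002000000) (nat_lit 35)))
 (.p (nat_lit 0x2f35003902) (nat_lit 0x8024) (nat_lit 33)))
 (.n (.n (.p (nat_lit 0x2e2f002302) (nat_lit 0xa042) (nat_lit 33))
 (.p (nat_lit 0x39c339b902) (nat_lit 0xbc80a000800) (nat_lit 35)))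
 (.p (nat_lit 0x171f105f02) (nat_lit 0xa046) (nat_lit 19)))))
 (.n (.n (.n (.n (.p (nat_lit 0x2432242e242a24280d090d0506) (nat_lit 0x140001b40) (nat_lit 14))
 (.p (nat_lit 0x1717168702) (nat_lit 0x2151) (nat_lit 19)))
 (.n (.p (nat_lit 0xf7f0eef02) (nat_lit 0x24a3) (nat_lit 19))
 (.p (nat_lit 0x3a0b39b3389303) (nat_lit 0x7bc0000a0a0) (nat_lit 44))))
 (.n (.n (.p (nat_lit 0x2dcf0dbe02) (nat_lit 0xa081) (nat_lit 32))
 (.p (nat_lit 0x395f394b02) (nat_lit 0xaac06000800) (nat_lit 35)))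
 (.p (nat_lit 0x1ac5101402) (nat_lit 0x80a5) (nat_lit 4))))
 (.n (.n (.n (.p (nat_lit 0x17f70d4602) (nat_lit 0xa0a0) (nat_lit 4))
 (.p (nat_lit 0x3863385d02) (nat_lit 0x7b008000000) (nat_lit 35)))
 (.p (nat_lit 0xf860f840f830f800f7e0f7c003707) (nat_lit 0x60a4) (nat_lit 7)))
 (.n (.n (.p (nat_lit 0x229822962294229222900e5b06) (nat_lit 0x200001c82) (nat_lit 16))
 (.p (nat_lit 0x3a1f3959383903) (nat_lit 0x94800006020) (nat_lit 43)))
 (.p (nat_lit 0x2665110402) (nat_lit 0x8067) (nat_lit 5)))))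

def c256_94 : Tr := .n c512_94 c512_350

def c512_222 : Tr :=
 .n (.n (.n (.n (.n (.p (nat_lit 0x186e186a1868186618640cd906) (nat_lit 0x100000c00) (nat_lit 15))
 (.p (nat_lit 0x190a190819061904190212e906) (nat_lit 0x10001caa) (nat_lit 15)))
 (.n (.p (nat_lit 0x18f218f018ee18ec18ea0e8106) (nat_lit 0x10001b03) (nat_lit 17))
 (.p (nat_lit 0x3a3338d737bf03) (nat_lit 0x9400002060) (nat_lit 43))))
 (.n (.n (.p (nat_lit 0xd6a0d680d670d640d620d60001307) (nat_lit 0x6801) (nat_lit 7))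
 (.p (nat_lit 0x38c538af02) (nat_lit 0x81400000800) (nat_lit 35)))
 (.p (nat_lit 0x1adc1ad81ad61ad40fab0fa706) (nat_lit 0x280000805) (nat_lit 17))))
 (.n (.n (.n (.p (nat_lit 0x19ca19c819c419c00d1f0d1b06) (nat_lit 0xa0001860) (nat_lit 17))
 (.p (nat_lit 0x3787378502) (nat_lit 0x8000000000) (nat_lit 35)))
 (.p (nat_lit 0x225e225a2258225622540f1906) (nat_lit 0x100000a04) (nat_lit 14)))
 (.n (.n (.p (nat_lit 0x2e030df202) (nat_lit 0x2802) (nat_lit 32))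
 (.p (nat_lit 0x39a5399f02) (nat_lit 0x4140a000800) (nat_lit 35)))
 (.p (nat_lit 0x187a1878187618741870104b06) (nat_lit 0x20001c26) (nat_lit 17)))))
 (.n (.n (.n (.n (.p (nat_lit 0xead0cfd02) (nat_lit 0x8240) (nat_lit 19))
 (.p (nat_lit 0x15fb15e302) (nat_lit 0x6030) (nat_lit 18)))
 (.n (.p (nat_lit 0x13f30ee302) (nat_lit 0x2b83) (nat_lit 19))
 (.p (nat_lit 0x3a4f3947382d03) (nat_lit 0x4b0000060a0) (nat_lit 43))))
 (.n (.n (.p (nat_lit 0x17a217a0179e179c17980dab06) (nat_lit 0x20001961) (nat_lit 15))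
 (.p (nat_lit 0x3949393702) (nat_lit 0x50406000800) (nat_lit 35)))
 (.p (nat_lit 0x2ff90fe802) (nat_lit 0x865) (nat_lit 32))))
 (.n (.n (.n (.p (nat_lit 0x1a8a1a881a861a841a820d3106) (nat_lit 0x10001a80) (nat_lit 15))
 (.p (nat_lit 0x386b384702) (nat_lit 0x98408000000) (nat_lit 35)))
 (.p (nat_lit 0xf6e0f6d0f6a0f680f660f65033c0039003109) (nat_lit 0x40084) (nat_lit 13)))
 (.n (.n (.p (nat_lit 0x17f617f217f017ee17ec0e4d06) (nat_lit 0x100000582) (nat_lit 15))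
 (.p (nat_lit 0x3a1839d0001903) (nat_lit 0x20) (nat_lit 40)))
 (.p (nat_lit 0x109b1099109610941092109003fe0053005109) (nat_lit 0x58886) (nat_lit 13)))))

def c512_478 : Tr :=
 .n (.n (.n (.n (.n (.p (nat_lit 0x23882386238423820cf30ce906) (nat_lit 0x210001a20) (nat_lit 14))
 (.p (nat_lit 0x14c314ab02) (nat_lit 0x600e) (nat_lit 18)))
 (.n (.p (nat_lit 0xf510ec102) (nat_lit 0x4463) (nat_lit 19))
 (.p (nat_lit 0x3a3c0f7d02) (nat_lit 0x280) (nat_lit 48))))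
 (.n (.n (.p (nat_lit 0xd9a0d990d960d940d920d90001507) (nat_lit 0x8841) (nat_lit 7))
 (.p (nat_lit 0x38e738e502) (nat_lit 0x4a002000800) (nat_lit 35)))
 (.p (nat_lit 0x1802180017fe17fc17fa0fb906) (nat_lit 0x10001d25) (nat_lit 15))))
 (.n (.n (.n (.p (nat_lit 0x1a661a621a601a5e0d2d0d2506) (nat_lit 0x110000180) (nat_lit 17))
 (.p (nat_lit 0x380937e702) (nat_lit 0x90404000000) (nat_lit 35)))
 (.p (nat_lit 0x194619421940193e193c0f3106) (nat_lit 0x100000924) (nat_lit 17)))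
 (.n (.n (.p (nat_lit 0x192c192a192619240e370e3106) (nat_lit 0x240000062) (nat_lit 17))
 (.p (nat_lit 0x3974396e396c385504) (nat_lit 0x2008000000) (nat_lit 36)))
 (.p (nat_lit 0x25d1107002) (nat_lit 0x4066) (nat_lit 5)))))
 (.n (.n (.n (.n (.p (nat_lit 0x22710d1002) (nat_lit 0x4060) (nat_lit 5))
 (.p (nat_lit 0x21eb173a02) (nat_lit 0x2872) (nat_lit 4)))
 (.p (nat_lit 0x319030b011e03) (nat_lit 0x6044003) (nat_lit 22)))
 (.n (.n (.p (nat_lit 0x1b0e1b0a1b081b061b040dc906) (nat_lit 0x100000a81) (nat_lit 15))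
 (.p (nat_lit 0x3977396f02) (nat_lit 0x49408000800) (nat_lit 35)))
 (.p (nat_lit 0x151004e02) (nat_lit 0x8000c006) (nat_lit 20))))
 (.n (.n (.n (.p (nat_lit 0x22ab17fb02) (nat_lit 0x28a0) (nat_lit 11))
 (.p (nat_lit 0x3883387d02) (nat_lit 0x3900a000000) (nat_lit 35)))
 (.p (nat_lit 0x25222520251c25180f8f0f8b06) (nat_lit 0xa00019a4) (nat_lit 14)))
 (.n (.n (.p (nat_lit 0x23cf0e6e02) (nat_lit 0x68a2) (nat_lit 5))
 (.p (nat_lit 0x3a2538c737a703) (nat_lit 0x8c400000040) (nat_lit 43)))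
 (.p (nat_lit 0x23062302230022fe22fc11ad06) (nat_lit 0x100000388) (nat_lit 14)))))

def c256_222 : Tr := .n c512_222 c512_478

def c128_94 : Tr := .n c256_94 c256_222

def c64_30 : Tr := .n c128_30 c128_94

def c512_62 : Tr :=
 .n (.n (.n (.n (.n (.p (nat_lit 0xcdd0cc502) (nat_lit 0x0) (nat_lit 18))
 (.p (nat_lit 0x18f0080007c03) (nat_lit 0x14000a00a) (nat_lit 20)))
 (.n (.p (nat_lit 0x2d302c7010e03) (nat_lit 0xa034002) (nat_lit 22))
 (.p (nat_lit 0x39e3394d382d03) (nat_lit 0x63000006040) (nat_lit 44))))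
 (.n (.n (.p (nat_lit 0x1b1a1b161b141b120d510d4906) (nat_lit 0x110001aa0) (nat_lit 17))
 (.p (nat_lit 0x389f388b02) (nat_lit 0xaac0a000000) (nat_lit 35)))
 (.p (nat_lit 0x36f0357012e03) (nat_lit 0xa044004) (nat_lit 22))))
 (.n (.n (.n (.p (nat_lit 0x24aa24a824a424a00d130d0f06) (nat_lit 0xa0001260) (nat_lit 14))
 (.p (nat_lit 0x845002502) (nat_lit 0x3) (nat_lit 31)))
 (.p (nat_lit 0x19bd0f0c02) (nat_lit 0x8004) (nat_lit 4)))
 (.n (.n (.p (nat_lit 0xe5d0dcd02) (nat_lit 0x2a1) (nat_lit 19))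
 (.p (nat_lit 0x398f397d02) (nat_lit 0xab008000800) (nat_lit 35)))
 (.p (nat_lit 0x103a1039103710341032103003f00051004f09) (nat_lit 0x46806) (nat_lit 13)))))
 (.n (.n (.n (.n (.p (nat_lit 0x1922191c191a19180cf10cef06) (nat_lit 0x180001d20) (nat_lit 15))
 (.p (nat_lit 0x19be19bc19b819b619b414cf06) (nat_lit 0x8000082e) (nat_lit 15)))
 (.n (.p (nat_lit 0x2eef0ede02) (nat_lit 0xa083) (nat_lit 32))
 (.p (nat_lit 0x39fd3973385303) (nat_lit 0x39c00008080) (nat_lit 44))))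
 (.n (.n (.p (nat_lit 0x177e177c177a17780d9f0d9d06) (nat_lit 0x30000061) (nat_lit 17))
 (.p (nat_lit 0x3925390902) (nat_lit 0x80804000800) (nat_lit 35)))
 (.p (nat_lit 0x14db0fcb02) (nat_lit 0x6345) (nat_lit 19))))
 (.n (.n (.n (.p (nat_lit 0x1ad01ace1aca1ac80d2f0d2906) (nat_lit 0x240001580) (nat_lit 15))
 (.p (nat_lit 0x3813380f02) (nat_lit 0xbd404000000) (nat_lit 35)))
 (.p (nat_lit 0x249f19ef036f0353012e05) (nat_lit 0xd4a044) (nat_lit 9)))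
 (.n (.n (.p (nat_lit 0x23de23dc23d623d40e3f0e3d06) (nat_lit 0xc0000862) (nat_lit 16))
 (.p (nat_lit 0x39c538d137b303) (nat_lit 0xb5c00000000) (nat_lit 44)))
 (.p (nat_lit 0x25df107e02) (nat_lit 0x6866) (nat_lit 5)))))

def c512_318 : Tr :=
 .n (.n (.n (.n (.n (.p (nat_lit 0xce1001c02) (nat_lit 0x4020) (nat_lit 1))
 (.p (nat_lit 0x143113a102) (nat_lit 0x442c) (nat_lit 19)))
 (.n (.p (nat_lit 0xf1d0e8d02) (nat_lit 0x423) (nat_lit 19))
 (.p (nat_lit 0x39f13971385303) (nat_lit 0x31c00008060) (nat_lit 44))))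
 (.n (.n (.p (nat_lit 0x22e10d8002) (nat_lit 0x8821) (nat_lit 5))
 (.p (nat_lit 0x38cf38bf02) (nat_lit 0xab400000800) (nat_lit 35)))
 (.p (nat_lit 0x17a217a0179e179c179a0fad06) (nat_lit 0x10001125) (nat_lit 17))))
 (.n (.n (.n (.p (nat_lit 0x24da24d824d624d224d00d1d06) (nat_lit 0x40001c60) (nat_lit 14))
 (.p (nat_lit 0x37af37a102) (nat_lit 0xab800000000) (nat_lit 35)))
 (.p (nat_lit 0x14bb0f1b02) (nat_lit 0xac04) (nat_lit 19)))
 (.n (.n (.p (nat_lit 0xe9b0e0b02) (nat_lit 0x2b22) (nat_lit 19))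
 (.p (nat_lit 0x39c139ad02) (nat_lit 0xb300a000800) (nat_lit 35)))
 (.p (nat_lit 0x17ea17e817e617e417e2105506) (nat_lit 0x10001446) (nat_lit 15)))))
 (.n (.n (.n (.n (.p (nat_lit 0x1952194e194c194a0d090d0106) (nat_lit 0x110001940) (nat_lit 15))
 (.p (nat_lit 0x1a661a621a601a5e1a5c160906) (nat_lit 0x100000950) (nat_lit 15)))
 (.n (.p (nat_lit 0x229a22982294229222900ef306) (nat_lit 0x800014a3) (nat_lit 14))
 (.p (nat_lit 0x3a5339c3387b03) (nat_lit 0xb8c0000a0a0) (nat_lit 43))))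
 (.n (.n (.p (nat_lit 0xdb5004802) (nat_lit 0x81) (nat_lit 1))
 (.p (nat_lit 0x3947394502) (nat_lit 0x4a006000800) (nat_lit 35)))
 (.p (nat_lit 0x1019100102) (nat_lit 0x885) (nat_lit 18))))
 (.n (.n (.n (.p (nat_lit 0x100b0d3b02) (nat_lit 0xac80) (nat_lit 19))
 (.p (nat_lit 0x3859385702) (nat_lit 0x52408000000) (nat_lit 35)))
 (.p (nat_lit 0x2a902a8e2a8a2a880f7b0f7506) (nat_lit 0x240001d84) (nat_lit 14)))
 (.n (.n (.p (nat_lit 0x17b817b617b217b00e5b0e5506) (nat_lit 0x240001a82) (nat_lit 15))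
 (.p (nat_lit 0x39d7393f382503) (nat_lit 0x2a000006020) (nat_lit 44)))
 (.p (nat_lit 0x3f303e703db015004) (nat_lit 0xa1a2006) (nat_lit 23)))))

def c256_62 : Tr := .n c512_62 c512_318

def c512_190 : Tr :=
 .n (.n (.n (.n (.n (.p (nat_lit 0x2304230022fe22fc0cdb0cd706) (nat_lit 0x280000b00) (nat_lit 16))
 (.p (nat_lit 0x284b12ea02) (nat_lit 0x28aa) (nat_lit 5)))
 (.n (.p (nat_lit 0x193b0e8a02) (nat_lit 0xa803) (nat_lit 4))
 (.p (nat_lit 0x3a2e226b02) (nat_lit 0xa840) (nat_lit 46))))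
 (.n (.n (.p (nat_lit 0xfd00160012001004) (nat_lit 0x2c0008001) (nat_lit 20))
 (.p (nat_lit 0x38b138ab02) (nat_lit 0x30c00000800) (nat_lit 35)))
 (.p (nat_lit 0x1a530fa202) (nat_lit 0x2805) (nat_lit 4))))
 (.n (.n (.n (.p (nat_lit 0x17d30d2202) (nat_lit 0xa860) (nat_lit 4))
 (.p (nat_lit 0x947004f02) (nat_lit 0x6066) (nat_lit 31)))
 (.p (nat_lit 0x2f2b003b02) (nat_lit 0xa804) (nat_lit 33)))
 (.n (.n (.p (nat_lit 0x234f0dee02) (nat_lit 0xa002) (nat_lit 5))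
 (.p (nat_lit 0x39ad399b02) (nat_lit 0x60c0a000800) (nat_lit 35)))
 (.p (nat_lit 0x10521051104e104c104a104903cc0051004909) (nat_lit 0x40826) (nat_lit 13)))))
 (.n (.n (.n (.n (.p (nat_lit 0x19961994199219900cff0cfd06) (nat_lit 0x300001440) (nat_lit 15))
 (.p (nat_lit 0x15db15d815d615d415d215d000cb07) (nat_lit 0xa810) (nat_lit 7)))
 (.n (.p (nat_lit 0x2486248424822480247c0ee306) (nat_lit 0x20000983) (nat_lit 16))
 (.p (nat_lit 0x3a4c0f9902) (nat_lit 0x43a0) (nat_lit 48))))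
 (.n (.n (.p (nat_lit 0x2dc1001502) (nat_lit 0x8861) (nat_lit 33))
 (.p (nat_lit 0x392e392c3928392639243904229507) (nat_lit 0x4000880) (nat_lit 38)))
 (.p (nat_lit 0x25451a95039d038f013e05) (nat_lit 0xca8065) (nat_lit 9))))
 (.n (.n (.n (.p (nat_lit 0x1a721a701a6e1a6a1a680d3506) (nat_lit 0x40001980) (nat_lit 17))
 (.p (nat_lit 0x3849384502) (nat_lit 0x10008000000) (nat_lit 35)))
 (.p (nat_lit 0xfeb0f5b02) (nat_lit 0x2d64) (nat_lit 19)))
 (.n (.n (.p (nat_lit 0x227622742270226e226c0e4b06) (nat_lit 0x80000382) (nat_lit 14))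
 (.p (nat_lit 0x3a153989387103) (nat_lit 0x95800008000) (nat_lit 43)))
 (.p (nat_lit 0x1b41109002) (nat_lit 0x886) (nat_lit 4)))))

def c512_446 : Tr :=
 .n (.n (.n (.n (.n (.p (nat_lit 0x18aa18a618a418a00cf10ceb06) (nat_lit 0x120001820) (nat_lit 15))
 (.p (nat_lit 0x14ae14ac14aa14a814a614a500a907) (nat_lit 0xe) (nat_lit 7)))
 (.n (.p (nat_lit 0x24230ec202) (nat_lit 0x6063) (nat_lit 5))
 (.p (nat_lit 0x39f2141302) (nat_lit 0xaa60) (nat_lit 47))))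
 (.n (.n (.p (nat_lit 0xe1f0d8f02) (nat_lit 0xa241) (nat_lit 19))
 (.p (nat_lit 0x38fd38dd02) (nat_lit 0xa1002000800) (nat_lit 35)))
 (.p (nat_lit 0x227622722270226e226c0fc106) (nat_lit 0x100000b25) (nat_lit 14))))
 (.n (.n (.n (.p (nat_lit 0x1a4e1a4a1a481a461a440d2d06) (nat_lit 0x100000080) (nat_lit 15))
 (.p (nat_lit 0x37e137c502) (nat_lit 0xb2002000000) (nat_lit 35)))
 (.p (nat_lit 0x2f3f0f2e02) (nat_lit 0x6824) (nat_lit 32)))
 (.n (.n (.p (nat_lit 0xe360e340e320e300e2f0e2c001b07) (nat_lit 0x2062) (nat_lit 7))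
 (.p (nat_lit 0x395e395c3934381504) (nat_lit 0x6000000) (nat_lit 36)))
 (.p (nat_lit 0x1802180017fe17fc1063106106) (nat_lit 0x30001d46) (nat_lit 17)))))
 (.n (.n (.n (.n (.p (nat_lit 0xeb90d0902) (nat_lit 0x8a40) (nat_lit 19))
 (.p (nat_lit 0x172d004802) (nat_lit 0x72) (nat_lit 1)))
 (.p (nat_lit 0x22b222b022ae22aa22a80efd06) (nat_lit 0x40001da3) (nat_lit 16)))
 (.n (.n (.p (nat_lit 0x23290dc802) (nat_lit 0x8881) (nat_lit 5))
 (.p (nat_lit 0x3977396b02) (nat_lit 0x48c08000800) (nat_lit 35)))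
 (.p (nat_lit 0x10b3102302) (nat_lit 0xa8a5) (nat_lit 19))))
 (.n (.n (.n (.p (nat_lit 0xe610d4102) (nat_lit 0x41a0) (nat_lit 19))
 (.p (nat_lit 0x388f387902) (nat_lit 0x6880a000000) (nat_lit 35)))
 (.p (nat_lit 0xf920f910f8e0f8c0f8a0f88003907) (nat_lit 0x88a4) (nat_lit 7)))
 (.n (.n (.p (nat_lit 0xe610de902) (nat_lit 0x40a2) (nat_lit 18))
 (.p (nat_lit 0x3a2339bf38a103) (nat_lit 0xad80000a020) (nat_lit 43)))
 (.p (nat_lit 0x23b823b623b423b223b011a306) (nat_lit 0x200001c68) (nat_lit 14)))))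

def c256_190 : Tr := .n c512_190 c512_446

def c128_62 : Tr := .n c256_62 c256_190

def c512_126 : Tr :=
 .n (.n (.n (.n (.n (.p (nat_lit 0x22d422d222ce22cc0cdb0cd506) (nat_lit 0x240000900) (nat_lit 14))
 (.p (nat_lit 0x283312d202) (nat_lit 0x288a) (nat_lit 5)))
 (.n (.p (nat_lit 0x18b418b218ae18ac0e7f0e7906) (nat_lit 0x240000103) (nat_lit 15))
 (.p (nat_lit 0x3a2d398f387103) (nat_lit 0xad800008040) (nat_lit 43))))
 (.n (.n (.p (nat_lit 0xddf0d4f02) (nat_lit 0x68a0) (nat_lit 19))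
 (.p (nat_lit 0x38a0389e389c387c3876387422a707) (nat_lit 0xa0000a0) (nat_lit 38)))
 (.p (nat_lit 0x1aea1ae81ae61ae21ae00f9906) (nat_lit 0x40001005) (nat_lit 17))))
 (.n (.n (.n (.p (nat_lit 0xd9f0d0f02) (nat_lit 0x2060) (nat_lit 19))
 (.p (nat_lit 0x8d208d008cc08ca08c8012c000707) (nat_lit 0x61a4) (nat_lit 28)))
 (.p (nat_lit 0x229a22982294229222900f0b06) (nat_lit 0x80001404) (nat_lit 14)))
 (.n (.n (.p (nat_lit 0x273026d00fe03) (nat_lit 0x2054001) (nat_lit 22))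
 (.p (nat_lit 0x39a7399502) (nat_lit 0x4800a000800) (nat_lit 35)))
 (.p (nat_lit 0x185618521850184e184c104506) (nat_lit 0x100000326) (nat_lit 15)))))
 (.n (.n (.n (.n (.p (nat_lit 0x17af0cfe02) (nat_lit 0xa040) (nat_lit 4))
 (.p (nat_lit 0x2a99153802) (nat_lit 0x400f) (nat_lit 5)))
 (.n (.p (nat_lit 0xef30edb02) (nat_lit 0x6083) (nat_lit 18))
 (.p (nat_lit 0x3a4938bd379f03) (nat_lit 0x634000000a0) (nat_lit 43))))
 (.n (.n (.p (nat_lit 0x17e817e617e417e217e00da706) (nat_lit 0x200001461) (nat_lit 15))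
 (.p (nat_lit 0x3925391b02) (nat_lit 0x82c04000800) (nat_lit 35)))
 (.p (nat_lit 0x19e219de19dc19da19d80fd906) (nat_lit 0x100001945) (nat_lit 15))))
 (.n (.n (.n (.p (nat_lit 0x229717e702) (nat_lit 0x6880) (nat_lit 11))
 (.p (nat_lit 0x3825381f02) (nat_lit 0x41406000000) (nat_lit 35)))
 (.p (nat_lit 0x1ec01ebe1ebc1eba1eb80f4b06) (nat_lit 0x200001d44) (nat_lit 17)))
 (.n (.n (.p (nat_lit 0x2e550e4402) (nat_lit 0x82) (nat_lit 32))
 (.p (nat_lit 0x3a113921380703) (nat_lit 0x74400004000) (nat_lit 43)))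
 (.p (nat_lit 0x256a2568256625642560107b06) (nat_lit 0x20001c66) (nat_lit 14)))))

def c512_382 : Tr :=
 .n (.n (.n (.n (.n (.p (nat_lit 0xf210ce102) (nat_lit 0x4320) (nat_lit 19))
 (.p (nat_lit 0x248624822480247e247c141106) (nat_lit 0x1000009ac) (nat_lit 14)))
 (.n (.p (nat_lit 0xf2d0e9d02) (nat_lit 0x4c23) (nat_lit 19))
 (.p (nat_lit 0x3a3b3999387903) (nat_lit 0x1080000a060) (nat_lit 43))))
 (.n (.n (.p (nat_lit 0x22e90d8802) (nat_lit 0x4041) (nat_lit 5))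
 (.p (nat_lit 0x38fb38d502) (nat_lit 0x98002000800) (nat_lit 35)))
 (.p (nat_lit 0x25190fb802) (nat_lit 0x825) (nat_lit 5))))
 (.n (.n (.n (.p (nat_lit 0xec90d1902) (nat_lit 0xa60) (nat_lit 19))
 (.p (nat_lit 0x37df37b702) (nat_lit 0xa8402000000) (nat_lit 35)))
 (.p (nat_lit 0x198c198a1988198619840f2706) (nat_lit 0x200000424) (nat_lit 17)))
 (.n (.n (.p (nat_lit 0x18d30e2202) (nat_lit 0x2842) (nat_lit 4))
 (.p (nat_lit 0x38ae38ac38a838a6378f05) (nat_lit 0x1400000000) (nat_lit 36)))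
 (.p (nat_lit 0x25cb1b1b03f303c9014e05) (nat_lit 0x83a846) (nat_lit 9)))))
 (.n (.n (.n (.n (.p (nat_lit 0x244824462444244224400d0b06) (nat_lit 0x200001c40) (nat_lit 14))
 (.p (nat_lit 0x2c7b171a02) (nat_lit 0x6052) (nat_lit 5)))
 (.p (nat_lit 0x222c222a222822240f030efb06) (nat_lit 0x2200008a3) (nat_lit 14)))
 (.n (.n (.p (nat_lit 0x25c825c625c425c00dbf0db706) (nat_lit 0x220001281) (nat_lit 14))
 (.p (nat_lit 0x3969396502) (nat_lit 0x10008000800) (nat_lit 35)))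
 (.p (nat_lit 0x10110f9902) (nat_lit 0x40a5) (nat_lit 18))))
 (.n (.n (.n (.p (nat_lit 0x1b001afc1afa1af80d470d4306) (nat_lit 0x2800011a0) (nat_lit 15))
 (.p (nat_lit 0x3873386d02) (nat_lit 0xbd008000000) (nat_lit 35)))
 (.p (nat_lit 0x1a721a6e1a6c1a6a1a680f8506) (nat_lit 0x1000011a4) (nat_lit 15)))
 (.n (.n (.p (nat_lit 0x12db0e5b02) (nat_lit 0xaa82) (nat_lit 19))
 (.p (nat_lit 0x3a213967384903) (nat_lit 0x8800008020) (nat_lit 43)))
 (.p (nat_lit 0x279c279a279827962794118b06) (nat_lit 0x200000c48) (nat_lit 14)))))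

def c256_126 : Tr := .n c512_126 c512_382

def c512_254 : Tr :=
 .n (.n (.n (.n (.n (.p (nat_lit 0x18861884188218800cd30cd106) (nat_lit 0x30000d00) (nat_lit 15))
 (.p (nat_lit 0x198e198c198a19881986137906) (nat_lit 0x10000cab) (nat_lit 15)))
 (.n (.p (nat_lit 0xea10e8902) (nat_lit 0x8803) (nat_lit 18))
 (.p (nat_lit 0x39ed392d380d03) (nat_lit 0xa5000004060) (nat_lit 44))))
 (.n (.n (.p (nat_lit 0x18210d7002) (nat_lit 0x4021) (nat_lit 4))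
 (.p (nat_lit 0x38bd38b502) (nat_lit 0x62000000800) (nat_lit 35)))
 (.p (nat_lit 0x1b321b301b2e1b2c1b280fa306) (nat_lit 0x20001b05) (nat_lit 17))))
 (.n (.n (.n (.p (nat_lit 0x19e219e019de19d80d1d0d1b06) (nat_lit 0x60001960) (nat_lit 15))
 (.p (nat_lit 0x37a1378d02) (nat_lit 0x71000000000) (nat_lit 35)))
 (.p (nat_lit 0x17d217ce17cc17ca17c80f1906) (nat_lit 0x100001b04) (nat_lit 17)))
 (.n (.n (.p (nat_lit 0x1c741c721c701c6c0dfb0df306) (nat_lit 0x220000d02) (nat_lit 15))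
 (.p (nat_lit 0x39c339a102) (nat_lit 0xb980a000800) (nat_lit 35)))
 (.p (nat_lit 0x3069004d02) (nat_lit 0x4046) (nat_lit 33)))))
 (.n (.n (.n (.n (.p (nat_lit 0x22690d0802) (nat_lit 0x8840) (nat_lit 5))
 (.p (nat_lit 0x20a715f602) (nat_lit 0x2050) (nat_lit 4)))
 (.n (.p (nat_lit 0x24570ef602) (nat_lit 0xa0a3) (nat_lit 5))
 (.p (nat_lit 0x3a09396f385103) (nat_lit 0x298000080a0) (nat_lit 44))))
 (.n (.n (.p (nat_lit 0x22822280227e227c227a0da906) (nat_lit 0x10001b61) (nat_lit 16))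
 (.p (nat_lit 0x394d393b02) (nat_lit 0x60c06000800) (nat_lit 35)))
 (.p (nat_lit 0x2a0e2a0c2a0a2a040fed0feb06) (nat_lit 0x60000865) (nat_lit 16))))
 (.n (.n (.n (.p (nat_lit 0x1aa21a9c1a9a1a980d390d3706) (nat_lit 0x180001b80) (nat_lit 15))
 (.p (nat_lit 0x386f384b02) (nat_lit 0xa8c08000000) (nat_lit 35)))
 (.p (nat_lit 0x2f8a2f882f862f842f822f80012c07) (nat_lit 0x884) (nat_lit 8)))
 (.n (.n (.p (nat_lit 0xed70e4702) (nat_lit 0x2382) (nat_lit 19))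
 (.p (nat_lit 0x3a1a118f02) (nat_lit 0x2020) (nat_lit 48)))
 (.p (nat_lit 0x30c230c030be30bc30ba30b8014c07) (nat_lit 0x8a6) (nat_lit 8)))))

def c512_510 : Tr :=
 .n (.n (.n (.n (.n (.p (nat_lit 0x23a0239c239a23980cf30cef06) (nat_lit 0x280001b20) (nat_lit 14))
 (.p (nat_lit 0x1aae1aac1aaa1aa61aa414b506) (nat_lit 0x40000c0e) (nat_lit 15)))
 (.n (.p (nat_lit 0xed20ed00ece0ecc0ecb0ec902ee0027002509) (nat_lit 0x10863) (nat_lit 13))
 (.p (nat_lit 0x3a3f38e537c503) (nat_lit 0x42000002080) (nat_lit 43))))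
 (.n (.n (.p (nat_lit 0x23b823b623b423b223b00d9b06) (nat_lit 0x200001c41) (nat_lit 14))
 (.p (nat_lit 0x38ff38f102) (nat_lit 0xab802000800) (nat_lit 35)))
 (.p (nat_lit 0x25250fc402) (nat_lit 0x45) (nat_lit 5))))
 (.n (.n (.n (.p (nat_lit 0x252c252a2528252625240d2f06) (nat_lit 0x200000280) (nat_lit 14))
 (.p (nat_lit 0x380d37f502) (nat_lit 0xa2004000000) (nat_lit 35)))
 (.p (nat_lit 0x19a419a219a0199e199c0f3306) (nat_lit 0x200000d24) (nat_lit 15)))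
 (.n (.n (.p (nat_lit 0x19a419a219a0199e199c0e3706) (nat_lit 0x200000562) (nat_lit 15))
 (.p (nat_lit 0x39b439ae39ac389504) (nat_lit 0x400a000000) (nat_lit 36)))
 (.p (nat_lit 0x25082504250225001077107306) (nat_lit 0x280001066) (nat_lit 16)))))
 (.n (.n (.n (.n (.p (nat_lit 0x19bc19ba19b819b619b40d1706) (nat_lit 0x200000060) (nat_lit 17))
 (.p (nat_lit 0x174e174c174b174917461744074200df00dd09) (nat_lit 0x34092) (nat_lit 13)))
 (.p (nat_lit 0x31b030302f7012004) (nat_lit 0xa190003) (nat_lit 23)))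
 (.n (.n (.p (nat_lit 0xddf0dc702) (nat_lit 0x6881) (nat_lit 18))
 (.p (nat_lit 0x3977397302) (nat_lit 0x49c08000800) (nat_lit 35)))
 (.p (nat_lit 0x102b00de02) (nat_lit 0x6006) (nat_lit 1))))
 (.n (.n (.n (.p (nat_lit 0xd530d500d4e0d4d0d4a0d480236000b000509) (nat_lit 0x548a0) (nat_lit 13))
 (.p (nat_lit 0x388d388102) (nat_lit 0x6180a000000) (nat_lit 35)))
 (.p (nat_lit 0x14110f9102) (nat_lit 0x8aa4) (nat_lit 19)))
 (.n (.n (.p (nat_lit 0x184a1848184418400e6f0e6b06) (nat_lit 0xa0001aa2) (nat_lit 17))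
 (.p (nat_lit 0x3a2738d537bd03) (nat_lit 0x1000002040) (nat_lit 43)))
 (.p (nat_lit 0x1c6d11bc02) (nat_lit 0xa8) (nat_lit 4)))))

def c256_254 : Tr := .n c512_254 c512_510

def c128_126 : Tr := .n c256_126 c256_254

def c64_62 : Tr := .n c128_62 c128_126

def c32_30 : Tr := .n c64_30 c64_62

def c16_14 : Tr := .n c32_14 c32_30

def cb4_14 : Tr := c16_14

def c512_15 : Tr :=
 .n (.n (.n (.n (.n (.p (nat_lit 0x222b0cca02) (nat_lit 0x6000) (nat_lit 5))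
 (.p (nat_lit 0x1ce1123002) (nat_lit 0x8869) (nat_lit 4)))
 (.n (.p (nat_lit 0x187a18781876187418700e6b06) (nat_lit 0x20001ca2) (nat_lit 15))
 (.p (nat_lit 0x3a260e2f02) (nat_lit 0x2040) (nat_lit 48))))
 (.n (.n (.p (nat_lit 0x25a625a425a225a00d4b0d4906) (nat_lit 0x300009a0) (nat_lit 14))
 (.p (nat_lit 0x388f388302) (nat_lit 0x69c0a000000) (nat_lit 35)))
 (.p (nat_lit 0x33f033d012e03) (nat_lit 0x58004) (nat_lit 22))))
 (.n (.n (.n (.p (nat_lit 0x247a2474247224700d150d1306) (nat_lit 0x180001060) (nat_lit 16))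
 (.p (nat_lit 0x7d607d407d007ce07cc00fc000707) (nat_lit 0x6441) (nat_lit 28)))
 (.p (nat_lit 0x131003602) (nat_lit 0x8000c004) (nat_lit 20)))
 (.n (.n (.p (nat_lit 0x109b0dcb02) (nat_lit 0xac81) (nat_lit 19))
 (.p (nat_lit 0x3989397502) (nat_lit 0x92008000800) (nat_lit 35)))
 (.p (nat_lit 0x102f102d102a10281026102403fe0053005109) (nat_lit 0x58006) (nat_lit 13)))))
 (.n (.n (.n (.n (.p (nat_lit 0x23ac23aa23a623a40cf30ced06) (nat_lit 0x240000c20) (nat_lit 16))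
 (.p (nat_lit 0x14c5003802) (nat_lit 0x802e) (nat_lit 1)))
 (.n (.p (nat_lit 0xee30ecb02) (nat_lit 0x2863) (nat_lit 18))
 (.p (nat_lit 0x39f93925380d03) (nat_lit 0x85000004080) (nat_lit 44))))
 (.n (.n (.p (nat_lit 0xe230d9302) (nat_lit 0x2a41) (nat_lit 19))
 (.p (nat_lit 0x390338fd02) (nat_lit 0xbd002000800) (nat_lit 35)))
 (.p (nat_lit 0x252b1a7b038f0381013e05) (nat_lit 0x816045) (nat_lit 9))))
 (.n (.n (.n (.p (nat_lit 0x25382536253225300d2f0d2906) (nat_lit 0x240001280) (nat_lit 14))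
 (.p (nat_lit 0x380d37fb02) (nat_lit 0xa2c04000000) (nat_lit 35)))
 (.p (nat_lit 0xf4b0f3302) (nat_lit 0xa824) (nat_lit 18)))
 (.n (.n (.p (nat_lit 0xebf0e2f02) (nat_lit 0x2362) (nat_lit 19))
 (.p (nat_lit 0x39c538ab378b03) (nat_lit 0x18c00000000) (nat_lit 44)))
 (.p (nat_lit 0x1aa21aa01a9c1a9a1a98107306) (nat_lit 0x80001366) (nat_lit 17)))))

def c512_271 : Tr :=
 .n (.n (.n (.n (.n (.p (nat_lit 0x188e188c188a18880cdb0cd906) (nat_lit 0x300001d00) (nat_lit 15))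
 (.p (nat_lit 0x1e3f138e02) (nat_lit 0xa00c) (nat_lit 4)))
 (.n (.p (nat_lit 0xe8f007a02) (nat_lit 0x2023) (nat_lit 1))
 (.p (nat_lit 0x3a373935381d03) (nat_lit 0x1000006060) (nat_lit 43))))
 (.n (.n (.p (nat_lit 0xd770d740d720d700d6e0d6d02660017000d09) (nat_lit 0x50021) (nat_lit 13))
 (.p (nat_lit 0x38c538b702) (nat_lit 0x82400000800) (nat_lit 35)))
 (.p (nat_lit 0x14b10fa102) (nat_lit 0xb05) (nat_lit 19))))
 (.n (.n (.n (.p (nat_lit 0x19ee19ec19ea19e40d1d0d1b06) (nat_lit 0x60000a60) (nat_lit 15))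
 (.p (nat_lit 0x379d379302) (nat_lit 0x61c00000000) (nat_lit 35)))
 (.p (nat_lit 0x17ea17e817e617e217e00f1506) (nat_lit 0x40001c04) (nat_lit 15)))
 (.n (.n (.p (nat_lit 0x2e0f0dfe02) (nat_lit 0x2022) (nat_lit 32))
 (.p (nat_lit 0x39ad39a502) (nat_lit 0x6200a000800) (nat_lit 35)))
 (.p (nat_lit 0x222e222c222a22282224105706) (nat_lit 0x20000046) (nat_lit 14)))))
 (.n (.n (.n (.n (.p (nat_lit 0x192e192c1928192619240d0706) (nat_lit 0x80000840) (nat_lit 15))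
 (.p (nat_lit 0x15fe15fc15fb15f815f715f406a600c700c309) (nat_lit 0x32050) (nat_lit 13)))
 (.n (.p (nat_lit 0x179617941792178e178c0ef106) (nat_lit 0x400001a3) (nat_lit 15))
 (.p (nat_lit 0x3a513979385f03) (nat_lit 0x534000080a0) (nat_lit 43))))
 (.n (.n (.p (nat_lit 0x229a22982296229222900dad06) (nat_lit 0x40001c61) (nat_lit 14))
 (.p (nat_lit 0x395f393d02) (nat_lit 0xa9006000800) (nat_lit 35)))
 (.p (nat_lit 0x107b0feb02) (nat_lit 0x2865) (nat_lit 19))))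
 (.n (.n (.n (.p (nat_lit 0x25762574256e256c0d370d3506) (nat_lit 0xc0000d80) (nat_lit 14))
 (.p (nat_lit 0x3853384f02) (nat_lit 0x39408000000) (nat_lit 35)))
 (.p (nat_lit 0xf7a0f780f760f750f720f70003507) (nat_lit 0x4884) (nat_lit 7)))
 (.n (.n (.p (nat_lit 0xe5a0e580e560e550e520e50001d07) (nat_lit 0x4882) (nat_lit 7))
 (.p (nat_lit 0x39d5390d37f503) (nat_lit 0x22000004020) (nat_lit 44)))
 (.p (nat_lit 0x1b6310b202) (nat_lit 0xa8a6) (nat_lit 4)))))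

def c256_15 : Tr := .n c512_15 c512_271

def c512_143 : Tr :=
 .n (.n (.n (.n (.n (.p (nat_lit 0x22ee22ec22ea22e622e40cd506) (nat_lit 0x40000a00) (nat_lit 14))
 (.p (nat_lit 0x23e823e623e423e223e012db06) (nat_lit 0x20000188a) (nat_lit 14)))
 (.n (.p (nat_lit 0x23b823b623b423b223b00e7f06) (nat_lit 0x200001403) (nat_lit 14))
 (.p (nat_lit 0x3a2f3995387503) (nat_lit 0xa040) (nat_lit 43))))
 (.n (.n (.p (nat_lit 0xf8d0d4d02) (nat_lit 0x4ba0) (nat_lit 19))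
 (.p (nat_lit 0x38bf38a502) (nat_lit 0x68000000800) (nat_lit 35)))
 (.p (nat_lit 0x1b1a1b181b141b121b100f9b06) (nat_lit 0x80001205) (nat_lit 15))))
 (.n (.n (.n (.p (nat_lit 0xf4d0d0d02) (nat_lit 0x360) (nat_lit 19))
 (.l (nat_lit 0x80415000000000000200) (nat_lit 0x46105) (nat_lit 29)))
 (.p (nat_lit 0xf250f0d02) (nat_lit 0x8004) (nat_lit 18)))
 (.n (.n (.p (nat_lit 0x271026500fe03) (nat_lit 0x8010001) (nat_lit 22))
 (.p (nat_lit 0x39a1399702) (nat_lit 0x3040a000800) (nat_lit 35)))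
 (.p (nat_lit 0x105d104502) (nat_lit 0x8026) (nat_lit 18)))))
 (.n (.n (.n (.n (.p (nat_lit 0x23f623f423f223f023ee0cf506) (nat_lit 0x10000140) (nat_lit 14))
 (.p (nat_lit 0x2ab5155402) (nat_lit 0x802f) (nat_lit 5)))
 (.n (.p (nat_lit 0x19910ee002) (nat_lit 0x883) (nat_lit 4))
 (.p (nat_lit 0x3a000fa102) (nat_lit 0xba0) (nat_lit 47))))
 (.n (.n (.p (nat_lit 0xdb70d9f02) (nat_lit 0x2061) (nat_lit 18))
 (.p (nat_lit 0x3929391f02) (nat_lit 0x93404000800) (nat_lit 35)))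
 (.p (nat_lit 0x1a421a3e1a3c1a3a1a380fd906) (nat_lit 0x100001d45) (nat_lit 17))))
 (.n (.n (.n (.p (nat_lit 0xd3b0d380d360d340d330d30022a000b000309) (nat_lit 0x52880) (nat_lit 13))
 (.p (nat_lit 0x3825382102) (nat_lit 0x41806000000) (nat_lit 35)))
 (.p (nat_lit 0xf560f540f520f500f4f0f4c003307) (nat_lit 0x2064) (nat_lit 7)))
 (.n (.n (.p (nat_lit 0x2e5d0e4c02) (nat_lit 0x8082) (nat_lit 32))
 (.p (nat_lit 0x39cb393d381d03) (nat_lit 0x21000006000) (nat_lit 44)))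
 (.p (nat_lit 0x108700c202) (nat_lit 0x2086) (nat_lit 1)))))

def c512_399 : Tr :=
 .n (.n (.n (.n (.n (.p (nat_lit 0x179b0cea02) (nat_lit 0x2820) (nat_lit 4))
 (.p (nat_lit 0x297f141e02) (nat_lit 0xa00d) (nat_lit 5)))
 (.n (.p (nat_lit 0xeaf0eac0eaa0ea90ea60ea4030e002f002909) (nat_lit 0x54043) (nat_lit 13))
 (.p (nat_lit 0x39f339a1388303) (nat_lit 0x31c0000a060) (nat_lit 44))))
 (.n (.n (.p (nat_lit 0x2d9f0d8e02) (nat_lit 0xa041) (nat_lit 32))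
 (.p (nat_lit 0x38f138d702) (nat_lit 0x70402000800) (nat_lit 35)))
 (.p (nat_lit 0x1a710fc002) (nat_lit 0x8825) (nat_lit 4))))
 (.n (.n (.n (.p (nat_lit 0xff30d2302) (nat_lit 0xac60) (nat_lit 19))
 (.p (nat_lit 0x37df37b902) (nat_lit 0xa8802000000) (nat_lit 35)))
 (.p (nat_lit 0x24622460245e245c24580f1f06) (nat_lit 0x20001524) (nat_lit 14)))
 (.n (.n (.p (nat_lit 0xe2a0e290e260e240e220e20002107) (nat_lit 0x8842) (nat_lit 7))
 (.p (nat_lit 0x38fe38fc38d437b504) (nat_lit 0x2000000) (nat_lit 36)))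
 (.p (nat_lit 0x17a217a0179e179c179a106106) (nat_lit 0x10001946) (nat_lit 15)))))
 (.n (.n (.n (.n (.p (nat_lit 0x245424522450244e244c0d0b06) (nat_lit 0x200000d40) (nat_lit 16))
 (.p (nat_lit 0x184a1848184418421840171b06) (nat_lit 0x80001252) (nat_lit 17)))
 (.p (nat_lit 0x225e225c225a225822540efb06) (nat_lit 0x20000aa3) (nat_lit 16)))
 (.n (.n (.p (nat_lit 0x1b481b461b441b420dbf0db506) (nat_lit 0x210001481) (nat_lit 17))
 (.p (nat_lit 0x398d396502) (nat_lit 0xa0008000800) (nat_lit 35)))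
 (.p (nat_lit 0x302b003f02) (nat_lit 0x28a5) (nat_lit 33))))
 (.n (.n (.n (.p (nat_lit 0x25ca25c425c225c00d450d4306) (nat_lit 0x1800012a0) (nat_lit 16))
 (.p (nat_lit 0x3879387502) (nat_lit 0x1000a000000) (nat_lit 35)))
 (.p (nat_lit 0x1ad21ad01ace1acc1ac80f7f06) (nat_lit 0x200015a4) (nat_lit 17)))
 (.n (.n (.p (nat_lit 0x23c10e6002) (nat_lit 0x40a2) (nat_lit 5))
 (.p (nat_lit 0x39d9397d385f03) (nat_lit 0x63400008020) (nat_lit 44)))
 (.p (nat_lit 0x1196119411931190118e118c006707) (nat_lit 0x6068) (nat_lit 7)))))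

def c256_143 : Tr := .n c512_143 c512_399

def c128_15 : Tr := .n c256_15 c256_143

def c512_79 : Tr :=
 .n (.n (.n (.n (.n (.p (nat_lit 0xf050cc502) (nat_lit 0x300) (nat_lit 19))
 (.p (nat_lit 0x1d7112c002) (nat_lit 0x886a) (nat_lit 4)))
 (.n (.p (nat_lit 0x11f002a002603) (nat_lit 0xa000a003) (nat_lit 20))
 (.p (nat_lit 0x3a2d3991384703) (nat_lit 0xb0400008040) (nat_lit 43))))
 (.n (.n (.p (nat_lit 0x1b241b221b1e1b1c0d530d4d06) (nat_lit 0x240000ba0) (nat_lit 15))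
 (.p (nat_lit 0x389d388f02) (nat_lit 0xa340a000000) (nat_lit 35)))
 (.p (nat_lit 0x13f0046003c03) (nat_lit 0x21000a005) (nat_lit 20))))
 (.n (.n (.n (.p (nat_lit 0x1a1c1a1a1a181a161a140d1706) (nat_lit 0x200000460) (nat_lit 15))
 (.p (nat_lit 0x863008a02) (nat_lit 0x6043) (nat_lit 30)))
 (.p (nat_lit 0x178a17861784178217800f0d06) (nat_lit 0x100001004) (nat_lit 17)))
 (.n (.n (.p (nat_lit 0x188d0ddc02) (nat_lit 0x48a1) (nat_lit 4))
 (.p (nat_lit 0x398f398102) (nat_lit 0xab808000800) (nat_lit 35)))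
 (.p (nat_lit 0x15d7103702) (nat_lit 0x6c06) (nat_lit 19)))))
 (.n (.n (.n (.n (.p (nat_lit 0xe090ce902) (nat_lit 0x920) (nat_lit 19))
 (.p (nat_lit 0x34ee34ec34ea34e834e634e401cc07) (nat_lit 0x4e) (nat_lit 8)))
 (.n (.p (nat_lit 0x19be19b819b619b40edd0edb06) (nat_lit 0x180000083) (nat_lit 15))
 (.p (nat_lit 0x39fd397f386103) (nat_lit 0x6b800008080) (nat_lit 44))))
 (.n (.n (.p (nat_lit 0x22522250224e22480da10d9f06) (nat_lit 0x60001161) (nat_lit 14))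
 (.p (nat_lit 0x3925390d02) (nat_lit 0x81004000800) (nat_lit 35)))
 (.p (nat_lit 0xfd3003202) (nat_lit 0x2845) (nat_lit 1))))
 (.n (.n (.n (.p (nat_lit 0xed50d2502) (nat_lit 0x280) (nat_lit 19))
 (.p (nat_lit 0x382b381502) (nat_lit 0x58006000000) (nat_lit 35)))
 (.p (nat_lit 0x29722970296e296c296a0f3506) (nat_lit 0x10001544) (nat_lit 16)))
 (.n (.n (.p (nat_lit 0x19761972196e196c0e410e3d06) (nat_lit 0x140000b62) (nat_lit 17))
 (.p (nat_lit 0x39c738d937b903) (nat_lit 0x10800002000) (nat_lit 44)))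
 (.p (nat_lit 0x10821081107e107c107a107903cc0051004909) (nat_lit 0x40866) (nat_lit 13)))))

def c512_335 : Tr :=
 .n (.n (.n (.n (.n (.p (nat_lit 0x18c218c018bc18ba18b80ce306) (nat_lit 0x80001120) (nat_lit 17))
 (.p (nat_lit 0x2963140202) (nat_lit 0x60ac) (nat_lit 5)))
 (.n (.p (nat_lit 0xea20ea00e9e0e9d0e9a0e98002907) (nat_lit 0x4823) (nat_lit 7))
 (.p (nat_lit 0x39f13979386103) (nat_lit 0x53800008060) (nat_lit 44))))
 (.n (.n (.p (nat_lit 0x26f626f426f026ee0d7f0d7906) (nat_lit 0x90000b21) (nat_lit 14))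
 (.p (nat_lit 0x38cf38c502) (nat_lit 0xac000000800) (nat_lit 35)))
 (.p (nat_lit 0x17c417c217c017be17bc0fb706) (nat_lit 0x200000325) (nat_lit 15))))
 (.n (.n (.n (.p (nat_lit 0x24e624e424e224dc0d1d0d1b06) (nat_lit 0x60000d60) (nat_lit 14))
 (.p (nat_lit 0x37af37a902) (nat_lit 0xac800000000) (nat_lit 35)))
 (.p (nat_lit 0x2f2f003302) (nat_lit 0x2024) (nat_lit 33)))
 (.n (.n (.p (nat_lit 0xe1e0e1c0e1a0e190e160e14001d07) (nat_lit 0x4042) (nat_lit 7))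
 (.p (nat_lit 0x39bd39b302) (nat_lit 0xa3c0a000800) (nat_lit 35)))
 (.p (nat_lit 0x22b222b022ae22ac22aa105506) (nat_lit 0x10001546) (nat_lit 16)))))
 (.n (.n (.n (.n (.p (nat_lit 0x242624242422241e0d050d0106) (nat_lit 0x50000b40) (nat_lit 14))
 (.p (nat_lit 0x20c7161602) (nat_lit 0xa070) (nat_lit 4)))
 (.n (.p (nat_lit 0x180017fe17fc17fa17f80ef706) (nat_lit 0x2000015a3) (nat_lit 17))
 (.p (nat_lit 0x3a0b39ab388b03) (nat_lit 0x5ac0000a0a0) (nat_lit 44))))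
 (.n (.n (.p (nat_lit 0xdbe0dbc0dbb0db80db60db4001307) (nat_lit 0x6081) (nat_lit 7))
 (.p (nat_lit 0x394d394702) (nat_lit 0x62406000800) (nat_lit 35)))
 (.p (nat_lit 0x1abf100e02) (nat_lit 0x20a5) (nat_lit 4))))
 (.n (.n (.n (.p (nat_lit 0xd460d440d420d410d3e0d3c000507) (nat_lit 0x40a0) (nat_lit 7))
 (.p (nat_lit 0x3863385902) (nat_lit 0x7a808000000) (nat_lit 35)))
 (.p (nat_lit 0x2f8d003102) (nat_lit 0xa4) (nat_lit 33)))
 (.n (.n (.p (nat_lit 0x17ce17cc17ca17c80e5b0e5906) (nat_lit 0x300001b82) (nat_lit 15))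
 (.p (nat_lit 0x3a1f394b383103) (nat_lit 0x5b800006020) (nat_lit 43)))
 (.p (nat_lit 0x2702270026fc26fa26f810f706) (nat_lit 0x80001b47) (nat_lit 14)))))

def c256_79 : Tr := .n c512_79 c512_335

def c512_207 : Tr :=
 .n (.n (.n (.n (.n (.p (nat_lit 0x1860185e185c185a18580cdb06) (nat_lit 0x200001b00) (nat_lit 17))
 (.p (nat_lit 0x285312f202) (nat_lit 0xa8aa) (nat_lit 5)))
 (.n (.p (nat_lit 0x237c237a2378237623740e8b06) (nat_lit 0x200000a03) (nat_lit 14))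
 (.p (nat_lit 0x39e8140902) (nat_lit 0xa60) (nat_lit 47))))
 (.n (.n (.p (nat_lit 0x1bb41bb21bb01bae1bac0d5f06) (nat_lit 0x200000301) (nat_lit 17))
 (.p (nat_lit 0x38bf38ad02) (nat_lit 0x69000000800) (nat_lit 35)))
 (.p (nat_lit 0xfaa0fa90fa60fa40fa20fa0004507) (nat_lit 0x8805) (nat_lit 7))))
 (.n (.n (.n (.p (nat_lit 0x246e246a2468246624640d2106) (nat_lit 0x100000860) (nat_lit 16))
 (.p (nat_lit 0xa75008102) (nat_lit 0x808a) (nat_lit 31)))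
 (.p (nat_lit 0x22522250224e224a22480f1506) (nat_lit 0x40001904) (nat_lit 14)))
 (.n (.n (.p (nat_lit 0xe070def02) (nat_lit 0xa002) (nat_lit 18))
 (.p (nat_lit 0x39a9399d02) (nat_lit 0x5100a000800) (nat_lit 35)))
 (.p (nat_lit 0x23062304230222fe22fc104d06) (nat_lit 0x40000b26) (nat_lit 14)))))
 (.n (.n (.n (.n (.p (nat_lit 0x245e245c245a24580cff0cfd06) (nat_lit 0x300001540) (nat_lit 16))
 (.p (nat_lit 0x2b4715e602) (nat_lit 0xa030) (nat_lit 5)))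
 (.n (.p (nat_lit 0x1a1e1a1a1a181a161a140ee906) (nat_lit 0x100000c83) (nat_lit 17))
 (.p (nat_lit 0x3a073939382103) (nat_lit 0x118000060a0) (nat_lit 44))))
 (.n (.n (.p (nat_lit 0x178a1788178617820dad0da906) (nat_lit 0x50001861) (nat_lit 17))
 (.p (nat_lit 0x3953393502) (nat_lit 0x78006000800) (nat_lit 35)))
 (.p (nat_lit 0x2a322a302a2e2a2a2a280fe106) (nat_lit 0x40001165) (nat_lit 14))))
 (.n (.n (.n (.p (nat_lit 0x1a6e1a6c1a6a1a680d3b0d3906) (nat_lit 0x300001980) (nat_lit 17))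
 (.p (nat_lit 0x384d384702) (nat_lit 0x20408000000) (nat_lit 35)))
 (.p (nat_lit 0x2f79003502) (nat_lit 0x4084) (nat_lit 33)))
 (.n (.n (.p (nat_lit 0x228e228c228a228822840e4706) (nat_lit 0x20000482) (nat_lit 16))
 (.p (nat_lit 0x39cf39c3387b03) (nat_lit 0xb8c0000a000) (nat_lit 44)))
 (.p (nat_lit 0x30a7004f02) (nat_lit 0x6886) (nat_lit 33)))))

def c512_463 : Tr :=
 .n (.n (.n (.n (.n (.p (nat_lit 0x18b418b218ae18ac0cf30ced06) (nat_lit 0x240000920) (nat_lit 17))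
 (.p (nat_lit 0x1a5a1a581a561a541a5214a506) (nat_lit 0x1000100e) (nat_lit 17)))
 (.n (.p (nat_lit 0x1e3e1e3c1e3a1e381e340ebf06) (nat_lit 0x20000063) (nat_lit 17))
 (.p (nat_lit 0x3a3d38c137a103) (nat_lit 0x73800000080) (nat_lit 43))))
 (.n (.n (.p (nat_lit 0x18430d9202) (nat_lit 0x2841) (nat_lit 4))
 (.p (nat_lit 0x38fb38df02) (nat_lit 0x99402000800) (nat_lit 35)))
 (.p (nat_lit 0x17ea17e817e617e417e00fbb06) (nat_lit 0x20001c25) (nat_lit 17))))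
 (.n (.n (.n (.p (nat_lit 0x1a5a1a561a541a520d2d0d2506) (nat_lit 0x110001080) (nat_lit 15))
 (.p (nat_lit 0x37fd37e502) (nat_lit 0x60004000000) (nat_lit 35)))
 (.p (nat_lit 0xf320f310f2e0f2c0f2b0f2803480039003309) (nat_lit 0x42824) (nat_lit 13)))
 (.n (.n (.p (nat_lit 0xe37002e02) (nat_lit 0xa062) (nat_lit 1))
 (.p (nat_lit 0x395639543950394e383705) (nat_lit 0x4406000000) (nat_lit 36)))
 (.p (nat_lit 0x1607106702) (nat_lit 0x6c46) (nat_lit 19)))))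
 (.n (.n (.n (.n (.p (nat_lit 0x10670d0702) (nat_lit 0x6d40) (nat_lit 19))
 (.p (nat_lit 0x25a625a425a225a0259c172f06) (nat_lit 0x20000172) (nat_lit 14)))
 (.p (nat_lit 0x2f702f5011e03) (nat_lit 0x58003) (nat_lit 22)))
 (.n (.n (.p (nat_lit 0xdca0dc80dc70dc40dc30dc0026e0013000f09) (nat_lit 0x32881) (nat_lit 13))
 (.p (nat_lit 0x397d396d02) (nat_lit 0x61008000800) (nat_lit 35)))
 (.p (nat_lit 0x3ab03a9013e03) (nat_lit 0x6058005) (nat_lit 22))))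
 (.n (.n (.n (.p (nat_lit 0x10a30d4302) (nat_lit 0x65a0) (nat_lit 19))
 (.p (nat_lit 0x388b387b02) (nat_lit 0x58c0a000000) (nat_lit 35)))
 (.p (nat_lit 0x24fc24f824f624f40f930f8f06) (nat_lit 0x2800008a4) (nat_lit 14)))
 (.n (.n (.p (nat_lit 0x23c90e6802) (nat_lit 0x8a2) (nat_lit 5))
 (.p (nat_lit 0x39dd38b7379f03) (nat_lit 0x4b400000040) (nat_lit 44)))
 (.p (nat_lit 0x1c5b11aa02) (nat_lit 0x6088) (nat_lit 4)))))

def c256_207 : Tr := .n c512_207 c512_463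

def c128_79 : Tr := .n c256_79 c256_207

def c64_15 : Tr := .n c128_15 c128_79

def c512_47 : Tr :=
 .n (.n (.n (.n (.n (.p (nat_lit 0x2310230e230c230a23080ccf06) (nat_lit 0x200001300) (nat_lit 16))
 (.p (nat_lit 0x23ba23b823b623b423b2124106) (nat_lit 0x10001c89) (nat_lit 16)))
 (.n (.p (nat_lit 0x2c702b5010e03) (nat_lit 0x4052002) (nat_lit 22))
 (.p (nat_lit 0x39e33939382103) (nat_lit 0x11800006040) (nat_lit 44))))
 (.n (.n (.p (nat_lit 0x25be25ba25b625b40d510d4d06) (nat_lit 0x140000aa0) (nat_lit 16))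
 (.p (nat_lit 0x3897388902) (nat_lit 0x8a80a000000) (nat_lit 35)))
 (.p (nat_lit 0x355033d012e03) (nat_lit 0x8020004) (nat_lit 22))))
 (.n (.n (.n (.p (nat_lit 0x248e248c248a24880d170d1506) (nat_lit 0x300001160) (nat_lit 14))
 (.p (nat_lit 0x82b002e02) (nat_lit 0xa062) (nat_lit 30)))
 (.p (nat_lit 0x19be19bc19ba19b819b619b406) (nat_lit 0x4) (nat_lit 2)))
 (.n (.n (.p (nat_lit 0x21ce21cc21c821c621c40dd306) (nat_lit 0x800002a1) (nat_lit 17))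
 (.p (nat_lit 0x3993397902) (nat_lit 0xba808000800) (nat_lit 35)))
 (.p (nat_lit 0x3047103602) (nat_lit 0x6806) (nat_lit 32)))))
 (.n (.n (.n (.n (.p (nat_lit 0x19161910190e190c0cf10cef06) (nat_lit 0x180000d20) (nat_lit 15))
 (.p (nat_lit 0x14cf003602) (nat_lit 0x682e) (nat_lit 1)))
 (.n (.p (nat_lit 0x198b0eda02) (nat_lit 0x6083) (nat_lit 4))
 (.p (nat_lit 0x3a42155302) (nat_lit 0x6480) (nat_lit 48))))
 (.n (.n (.p (nat_lit 0x23011851026d026700fe05) (nat_lit 0x1414061) (nat_lit 9))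
 (.p (nat_lit 0x3931390502) (nat_lit 0xb0004000800) (nat_lit 35)))
 (.p (nat_lit 0x1a2a1a281a241a221a200fcb06) (nat_lit 0x80001445) (nat_lit 15))))
 (.n (.n (.n (.p (nat_lit 0x1ac61ac41ac01abc0d2b0d2706) (nat_lit 0xa0000580) (nat_lit 15))
 (.p (nat_lit 0x380f380702) (nat_lit 0xac404000000) (nat_lit 35)))
 (.p (nat_lit 0x2f4b0f3a02) (nat_lit 0x6044) (nat_lit 32)))
 (.n (.n (.p (nat_lit 0x2e51002102) (nat_lit 0x8862) (nat_lit 33))
 (.p (nat_lit 0x3a0d38c537a703) (nat_lit 0x84400000000) (nat_lit 43)))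
 (.p (nat_lit 0x3089107802) (nat_lit 0x866) (nat_lit 32)))))

def c512_303 : Tr :=
 .n (.n (.n (.n (.n (.p (nat_lit 0xfa30cd302) (nat_lit 0x2c00) (nat_lit 19))
 (.p (nat_lit 0x19b219b019ae19aa19a8139506) (nat_lit 0x40001d0c) (nat_lit 15)))
 (.n (.p (nat_lit 0x1d7c1d7a1d781d740e970e8f06) (nat_lit 0x220000423) (nat_lit 17))
 (.p (nat_lit 0x3a3614cf02) (nat_lit 0x6c60) (nat_lit 48))))
 (.n (.n (.p (nat_lit 0xd7b006202) (nat_lit 0x2821) (nat_lit 1))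
 (.p (nat_lit 0x38c538bd02) (nat_lit 0x83000000800) (nat_lit 35)))
 (.p (nat_lit 0x2fc70fb602) (nat_lit 0xa025) (nat_lit 32))))
 (.n (.n (.n (.p (nat_lit 0x1a041a021a0019fc0d230d1b06) (nat_lit 0x220000b60) (nat_lit 17))
 (.p (nat_lit 0x37b3379d02) (nat_lit 0xbb000000000) (nat_lit 35)))
 (.p (nat_lit 0xf2b0f1302) (nat_lit 0x2804) (nat_lit 18)))
 (.n (.n (.p (nat_lit 0x18bd0e0c02) (nat_lit 0x4822) (nat_lit 4))
 (.p (nat_lit 0x39bf39a902) (nat_lit 0xaa80a000800) (nat_lit 35)))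
 (.p (nat_lit 0x17c417c217c017bc105f105706) (nat_lit 0x220000346) (nat_lit 15)))))
 (.n (.n (.n (.n (.p (nat_lit 0x19461944194219400d030d0106) (nat_lit 0x30000940) (nat_lit 15))
 (.p (nat_lit 0x20b9160802) (nat_lit 0x8850) (nat_lit 4)))
 (.n (.p (nat_lit 0x22822280227e227c22780eef06) (nat_lit 0x200013a3) (nat_lit 14))
 (.p (nat_lit 0x3a50174102) (nat_lit 0x88a0) (nat_lit 48))))
 (.n (.n (.p (nat_lit 0xe3b0dab02) (nat_lit 0x2a61) (nat_lit 19))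
 (.p (nat_lit 0x3959394102) (nat_lit 0x91806000800) (nat_lit 35)))
 (.p (nat_lit 0x1ab3100202) (nat_lit 0x2885) (nat_lit 4))))
 (.n (.n (.n (.p (nat_lit 0xee50d3502) (nat_lit 0x4a80) (nat_lit 19))
 (.p (nat_lit 0x3873385302) (nat_lit 0xb9c08000000) (nat_lit 35)))
 (.p (nat_lit 0x2a0e2a0c2a0a2a062a040f7506) (nat_lit 0x40000884) (nat_lit 14)))
 (.n (.n (.p (nat_lit 0x17a217a0179c179a17980e5706) (nat_lit 0x80001982) (nat_lit 17))
 (.p (nat_lit 0x3a1f3939381903) (nat_lit 0x10800006020) (nat_lit 43)))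
 (.p (nat_lit 0x3f103cd014e03) (nat_lit 0x8030006) (nat_lit 22)))))

def c256_47 : Tr := .n c512_47 c512_303

def c512_175 : Tr :=
 .n (.n (.n (.n (.n (.p (nat_lit 0x23062304230222fe22fc0cd506) (nat_lit 0x40000b00) (nat_lit 16))
 (.p (nat_lit 0x23a2239e239c239a239812e506) (nat_lit 0x1000013aa) (nat_lit 14)))
 (.n (.p (nat_lit 0x23e50e8402) (nat_lit 0x4803) (nat_lit 5))
 (.p (nat_lit 0x3a2f39b3389903) (nat_lit 0x7c80000a040) (nat_lit 43))))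
 (.n (.n (.p (nat_lit 0x24f0237022b021f04) (nat_lit 0xb110000) (nat_lit 24))
 (.p (nat_lit 0x38b138a902) (nat_lit 0x30800000800) (nat_lit 35)))
 (.p (nat_lit 0x14af0f9f02) (nat_lit 0xa305) (nat_lit 19))))
 (.n (.n (.n (.p (nat_lit 0x17cd0d1c02) (nat_lit 0x4860) (nat_lit 4))
 (.l (nat_lit 0x55000000000000800200) (nat_lit 0x4a226) (nat_lit 29)))
 (.p (nat_lit 0x247519c50355033b012e05) (nat_lit 0xc44804) (nat_lit 9)))
 (.n (.n (.p (nat_lit 0x23470de602) (nat_lit 0x2002) (nat_lit 5))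
 (.p (nat_lit 0x39b7399902) (nat_lit 0x8880a000800) (nat_lit 35)))
 (.p (nat_lit 0x305f004f02) (nat_lit 0x6826) (nat_lit 33)))))
 (.n (.n (.n (.n (.p (nat_lit 0x1980197e197c197a19780cff06) (nat_lit 0x200001340) (nat_lit 15))
 (.p (nat_lit 0x1ef00c800c403) (nat_lit 0x14000a010) (nat_lit 20)))
 (.n (.p (nat_lit 0xeea0ee90ee60ee40ee20ee102f4002d002509) (nat_lit 0x40883) (nat_lit 13))
 (.p (nat_lit 0x3a4d3921380703) (nat_lit 0x744000040a0) (nat_lit 43))))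
 (.n (.n (.p (nat_lit 0x230b0daa02) (nat_lit 0x2861) (nat_lit 5))
 (.p (nat_lit 0x392b392902) (nat_lit 0x9c804000800) (nat_lit 35)))
 (.p (nat_lit 0x25410fe002) (nat_lit 0x4065) (nat_lit 5))))
 (.n (.n (.n (.p (nat_lit 0x25062504250225000d3b0d3906) (nat_lit 0x300001880) (nat_lit 14))
 (.p (nat_lit 0x383d382702) (nat_lit 0xa2406000000) (nat_lit 35)))
 (.p (nat_lit 0x1a0f0f5e02) (nat_lit 0x6864) (nat_lit 4)))
 (.n (.n (.p (nat_lit 0x224e224c224a22480e4f0e4d06) (nat_lit 0x300001182) (nat_lit 16))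
 (.p (nat_lit 0x3a153973385903) (nat_lit 0x3a800008000) (nat_lit 43)))
 (.p (nat_lit 0x209620942092208e1089108506) (nat_lit 0x50000186) (nat_lit 17)))))

def c512_431 : Tr :=
 .n (.n (.n (.n (.n (.p (nat_lit 0x189c189a1898189618940cf306) (nat_lit 0x200000820) (nat_lit 15))
 (.p (nat_lit 0x29f9149802) (nat_lit 0x8ad) (nat_lit 5)))
 (.n (.p (nat_lit 0xf490eb902) (nat_lit 0x8c43) (nat_lit 19))
 (.p (nat_lit 0x39f339bf38a103) (nat_lit 0xad80000a060) (nat_lit 44))))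
 (.n (.n (.p (nat_lit 0x191619141910190c0d8b0d8706) (nat_lit 0xa0000541) (nat_lit 17))
 (.p (nat_lit 0x38df38dd02) (nat_lit 0x29002000800) (nat_lit 35)))
 (.p (nat_lit 0x225e225a2258225622540fc106) (nat_lit 0x100000a25) (nat_lit 14))))
 (.n (.n (.n (.p (nat_lit 0x228d17dd02) (nat_lit 0x8080) (nat_lit 11))
 (.p (nat_lit 0x37df37bf02) (nat_lit 0xa9402000000) (nat_lit 35)))
 (.p (nat_lit 0x248b0f2a02) (nat_lit 0x2824) (nat_lit 5)))
 (.n (.n (.p (nat_lit 0x11810e2102) (nat_lit 0x842) (nat_lit 19))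
 (.p (nat_lit 0x3914390e390c37f504) (nat_lit 0x2004000000) (nat_lit 36)))
 (.p (nat_lit 0x229a2298229622942292106106) (nat_lit 0x10001c46) (nat_lit 14)))))
 (.n (.n (.n (.n (.p (nat_lit 0xd930d0302) (nat_lit 0x2840) (nat_lit 19))
 (.p (nat_lit 0x2c8b172a02) (nat_lit 0xa852) (nat_lit 5)))
 (.p (nat_lit 0x17ea17e817e617e417e20ef906) (nat_lit 0x10001ca3) (nat_lit 15)))
 (.n (.n (.p (nat_lit 0x23230dc202) (nat_lit 0x2881) (nat_lit 5))
 (.p (nat_lit 0x397b396902) (nat_lit 0x58808000800) (nat_lit 35)))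
 (.p (nat_lit 0x2b462b442b422b3e2b3c101d06) (nat_lit 0x400009a5) (nat_lit 14))))
 (.n (.n (.n (.p (nat_lit 0x25fa25f625f225f00d450d4106) (nat_lit 0x1400014a0) (nat_lit 14))
 (.p (nat_lit 0x3899387702) (nat_lit 0x9040a000000) (nat_lit 35)))
 (.p (nat_lit 0x24ed0f8c02) (nat_lit 0x48a4) (nat_lit 5)))
 (.n (.n (.p (nat_lit 0x22fa22f622f422f20e650e5d06) (nat_lit 0x1100012a2) (nat_lit 16))
 (.p (nat_lit 0x39db3997387d03) (nat_lit 0x900000a020) (nat_lit 44)))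
 (.p (nat_lit 0x1c4d119c02) (nat_lit 0x4868) (nat_lit 4)))))

def c256_175 : Tr := .n c512_175 c512_431

def c128_47 : Tr := .n c256_47 c256_175

def c512_111 : Tr :=
 .n (.n (.n (.n (.n (.p (nat_lit 0x223b178b02) (nat_lit 0xa800) (nat_lit 11))
 (.p (nat_lit 0x240023fe23fc23fa23f812cf06) (nat_lit 0x20000118a) (nat_lit 16)))
 (.n (.p (nat_lit 0x23dd0e7c02) (nat_lit 0x8003) (nat_lit 5))
 (.p (nat_lit 0x39e53985386703) (nat_lit 0x84400008040) (nat_lit 44))))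
 (.n (.n (.p (nat_lit 0x1b481b461b441b400d530d4b06) (nat_lit 0x220001ca0) (nat_lit 15))
 (.p (nat_lit 0x38a3389b02) (nat_lit 0xbcc0a000000) (nat_lit 35)))
 (.p (nat_lit 0x1a4d0f9c02) (nat_lit 0x8005) (nat_lit 4))))
 (.n (.n (.n (.p (nat_lit 0x1a421a401a3c1a380d130d0f06) (nat_lit 0xa0001560) (nat_lit 15))
 (.p (nat_lit 0x8a208a0089e089c089a012c000107) (nat_lit 0x524) (nat_lit 28)))
 (.p (nat_lit 0x2282227e227a22780f0d0f0906) (nat_lit 0x140001304) (nat_lit 16)))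
 (.n (.n (.p (nat_lit 0xe710de102) (nat_lit 0x8aa1) (nat_lit 19))
 (.p (nat_lit 0x3984397e397c397839763974226907) (nat_lit 0x8000840) (nat_lit 38)))
 (.p (nat_lit 0x3057005302) (nat_lit 0xa026) (nat_lit 33)))))
 (.n (.n (.n (.n (.p (nat_lit 0x22550cf402) (nat_lit 0x40) (nat_lit 5))
 (.p (nat_lit 0x2a8d152c02) (nat_lit 0x48ae) (nat_lit 5)))
 (.n (.p (nat_lit 0x1a2a1a261a241a220edd0ed506) (nat_lit 0x110001483) (nat_lit 17))
 (.p (nat_lit 0x39ff39b3389b03) (nat_lit 0x7cc0000a080) (nat_lit 44))))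
 (.n (.n (.p (nat_lit 0x17de17dc17da17d817d40d9f06) (nat_lit 0x20000461) (nat_lit 15))
 (.p (nat_lit 0x3923391702) (nat_lit 0x7a404000800) (nat_lit 35)))
 (.p (nat_lit 0x19be19bc19b819b619b40fd706) (nat_lit 0x80000845) (nat_lit 15))))
 (.n (.n (.n (.p (nat_lit 0xd33003e02) (nat_lit 0x2880) (nat_lit 1))
 (.p (nat_lit 0x382b381d02) (nat_lit 0x59006000000) (nat_lit 35)))
 (.p (nat_lit 0x24a90f4802) (nat_lit 0x8844) (nat_lit 5)))
 (.n (.n (.p (nat_lit 0x12bb0e3b02) (nat_lit 0x2a62) (nat_lit 19))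
 (.p (nat_lit 0x3a0f38ff37e103) (nat_lit 0xad800002000) (nat_lit 43)))
 (.p (nat_lit 0x1a701a6e1a6c1a6a1a68108306) (nat_lit 0x200001966) (nat_lit 15)))))

def c512_367 : Tr :=
 .n (.n (.n (.n (.n (.p (nat_lit 0xcf90ce102) (nat_lit 0x4020) (nat_lit 18))
 (.p (nat_lit 0x140f003602) (nat_lit 0x68ac) (nat_lit 1)))
 (.n (.p (nat_lit 0x1d881d861d841d821d800ea306) (nat_lit 0x200001c23) (nat_lit 17))
 (.p (nat_lit 0x3a38227502) (nat_lit 0x8060) (nat_lit 46))))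
 (.n (.n (.p (nat_lit 0x170f0d7f02) (nat_lit 0x6d21) (nat_lit 19))
 (.p (nat_lit 0x38db38d502) (nat_lit 0x18002000800) (nat_lit 35)))
 (.p (nat_lit 0xfcf0fb702) (nat_lit 0xa025) (nat_lit 18))))
 (.n (.n (.n (.p (nat_lit 0xd370d1f02) (nat_lit 0x6860) (nat_lit 18))
 (.p (nat_lit 0x37bb37b702) (nat_lit 0x18402000000) (nat_lit 35)))
 (.p (nat_lit 0x23ea23e623e423e223e00f2506) (nat_lit 0x100001024) (nat_lit 14)))
 (.n (.n (.p (nat_lit 0xe310e1902) (nat_lit 0x4042) (nat_lit 18))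
 (.p (nat_lit 0x39a4399e399c39983996399417d307) (nat_lit 0xa000860) (nat_lit 37)))
 (.p (nat_lit 0x1b17106602) (nat_lit 0x6846) (nat_lit 4)))))
 (.n (.n (.n (.n (.p (nat_lit 0x243c243a243824340d0b0d0306) (nat_lit 0x220000c40) (nat_lit 14))
 (.p (nat_lit 0x2c73171202) (nat_lit 0xa832) (nat_lit 5)))
 (.n (.p (nat_lit 0x245f0efe02) (nat_lit 0x68a3) (nat_lit 5))
 (.p (nat_lit 0x3a0a173702) (nat_lit 0xa0a0) (nat_lit 47))))
 (.n (.n (.p (nat_lit 0x25b225b025ac25aa0dbb0db506) (nat_lit 0x90001181) (nat_lit 16))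
 (.p (nat_lit 0x395f395302) (nat_lit 0xabc06000800) (nat_lit 35)))
 (.p (nat_lit 0x209620942090208c1013100f06) (nat_lit 0xa00001a5) (nat_lit 15))))
 (.n (.n (.n (.p (nat_lit 0x1ae81ae61ae41ae21ae00d4706) (nat_lit 0x2000010a0) (nat_lit 15))
 (.p (nat_lit 0x386f386102) (nat_lit 0xab808000000) (nat_lit 35)))
 (.p (nat_lit 0x1a4c1a4a1a481a461a440f8706) (nat_lit 0x2000000a4) (nat_lit 15)))
 (.n (.n (.p (nat_lit 0x22b022ae22ac22aa22a80e5b06) (nat_lit 0x200001d82) (nat_lit 14))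
 (.p (nat_lit 0x3a1e224302) (nat_lit 0x6020) (nat_lit 46)))
 (.p (nat_lit 0x16f0064006203) (nat_lit 0x6000a008) (nat_lit 20)))))

def c256_111 : Tr := .n c512_111 c512_367

def c512_239 : Tr :=
 .n (.n (.n (.n (.n (.p (nat_lit 0x187a18781874187218700cd706) (nat_lit 0x80001c00) (nat_lit 15))
 (.p (nat_lit 0x193a1938193619341930136f06) (nat_lit 0x200010ab) (nat_lit 15)))
 (.n (.p (nat_lit 0x190a1904190219000e890e8706) (nat_lit 0x180001c03) (nat_lit 15))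
 (.p (nat_lit 0x39ed391d380503) (nat_lit 0x64000004060) (nat_lit 44))))
 (.n (.n (.p (nat_lit 0xdfb0d6b02) (nat_lit 0xaa01) (nat_lit 19))
 (.p (nat_lit 0x38cf38b102) (nat_lit 0xa9800000800) (nat_lit 35)))
 (.p (nat_lit 0x25ca25c625c425c225c00fa906) (nat_lit 0x100001a05) (nat_lit 14))))
 (.n (.n (.n (.p (nat_lit 0x19d619d219d019ce19cc0d2106) (nat_lit 0x100000960) (nat_lit 15))
 (.p (nat_lit 0x37a9378702) (nat_lit 0x90400000000) (nat_lit 35)))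
 (.p (nat_lit 0x227622742272226e226c0f1506) (nat_lit 0x40000b04) (nat_lit 16)))
 (.n (.n (.p (nat_lit 0x2e0b0dfa02) (nat_lit 0xa802) (nat_lit 32))
 (.p (nat_lit 0x39a539a102) (nat_lit 0x4180a000800) (nat_lit 35)))
 (.p (nat_lit 0x15f1105102) (nat_lit 0x8c26) (nat_lit 19)))))
 (.n (.n (.n (.n (.p (nat_lit 0x226117b102) (nat_lit 0x840) (nat_lit 11))
 (.p (nat_lit 0x25be25bc25ba25b625b415ed06) (nat_lit 0x40000a30) (nat_lit 14)))
 (.n (.p (nat_lit 0x244f0eee02) (nat_lit 0x20a3) (nat_lit 5))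
 (.p (nat_lit 0x3a09398f384703) (nat_lit 0xa84000080a0) (nat_lit 44))))
 (.n (.n (.p (nat_lit 0x17ba17b617b417b217b00db106) (nat_lit 0x100001a61) (nat_lit 15))
 (.p (nat_lit 0x3945393902) (nat_lit 0x40806000800) (nat_lit 35)))
 (.p (nat_lit 0x25510ff002) (nat_lit 0x8865) (nat_lit 5))))
 (.n (.n (.n (.p (nat_lit 0x1a961a941a921a8e0d350d3106) (nat_lit 0x50000b80) (nat_lit 15))
 (.p (nat_lit 0x3863384902) (nat_lit 0x78808000000) (nat_lit 35)))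
 (.p (nat_lit 0x1f761f721f701f6c0f6d0f6706) (nat_lit 0x120000184) (nat_lit 17)))
 (.n (.n (.p (nat_lit 0xe630e4b02) (nat_lit 0x6082) (nat_lit 18))
 (.p (nat_lit 0x39d00d9102) (nat_lit 0xd20) (nat_lit 47)))
 (.p (nat_lit 0x1b4d109c02) (nat_lit 0xa6) (nat_lit 4)))))

def c512_495 : Tr :=
 .n (.n (.n (.n (.n (.p (nat_lit 0x23a223a0239e239c239a0ce906) (nat_lit 0x10001b20) (nat_lit 14))
 (.p (nat_lit 0x14bb14b814b714b414b214b0063200b300af09) (nat_lit 0x5680e) (nat_lit 13)))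
 (.n (.p (nat_lit 0x2edd0ecc02) (nat_lit 0x4863) (nat_lit 32))
 (.p (nat_lit 0x3a3f390137b703) (nat_lit 0xb0400002080) (nat_lit 43))))
 (.n (.n (.p (nat_lit 0x239623942392238e0d950d9106) (nat_lit 0x50000b41) (nat_lit 14))
 (.p (nat_lit 0x38fd38e702) (nat_lit 0xa2402000800) (nat_lit 35)))
 (.p (nat_lit 0x10530fc302) (nat_lit 0xa825) (nat_lit 19))))
 (.n (.n (.n (.p (nat_lit 0x2522251e251c251a0d2d0d2506) (nat_lit 0x110001180) (nat_lit 16))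
 (.p (nat_lit 0x380937ed02) (nat_lit 0x91004000000) (nat_lit 35)))
 (.p (nat_lit 0x199a19981996199219900f2d06) (nat_lit 0x40001c24) (nat_lit 17)))
 (.n (.n (.p (nat_lit 0x1980197e197a19780e370e3106) (nat_lit 0x240001362) (nat_lit 17))
 (.p (nat_lit 0x39c039be39963994387705) (nat_lit 0x40a000000) (nat_lit 36)))
 (.p (nat_lit 0x1077107410721070106e106c005307) (nat_lit 0xa066) (nat_lit 7)))))
 (.n (.n (.n (.n (.p (nat_lit 0xd170d140d120d100d0e0d0d021e000b000109) (nat_lit 0x50060) (nat_lit 13))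
 (.p (nat_lit 0x1b1a1b181b161b141b10173b06) (nat_lit 0x20001a72) (nat_lit 15)))
 (.p (nat_lit 0x327031902f5012004) (nat_lit 0x82b0003) (nat_lit 23)))
 (.n (.n (.p (nat_lit 0x1b321b2e1b2c1b2a1b280dc906) (nat_lit 0x100001b81) (nat_lit 15))
 (.p (nat_lit 0x3977397102) (nat_lit 0x49808000800) (nat_lit 35)))
 (.p (nat_lit 0x14d0052004c004804) (nat_lit 0x250008006) (nat_lit 20))))
 (.n (.n (.n (.p (nat_lit 0xd520d510d4e0d4c0d4a0d48000907) (nat_lit 0x88a0) (nat_lit 7))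
 (.p (nat_lit 0x388f387f02) (nat_lit 0x6940a000000) (nat_lit 35)))
 (.p (nat_lit 0x1aac1aaa1aa81aa61aa40f9306) (nat_lit 0x200000ca4) (nat_lit 15)))
 (.n (.n (.p (nat_lit 0xe720e700e6f0e6c0e6b0e6802b6001f001b09) (nat_lit 0x328a2) (nat_lit 13))
 (.p (nat_lit 0x3a2738fd37b503) (nat_lit 0xa0000002040) (nat_lit 43)))
 (.p (nat_lit 0x271711b602) (nat_lit 0x6888) (nat_lit 5)))))

def c256_239 : Tr := .n c512_239 c512_495

def c128_111 : Tr := .n c256_111 c256_239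

def c64_47 : Tr := .n c128_47 c128_111

def c32_15 : Tr := .n c64_15 c64_47

def c512_31 : Tr :=
 .n (.n (.n (.n (.n (.p (nat_lit 0x1830182e182c18280ccf0cc706) (nat_lit 0x220001100) (nat_lit 15))
 (.p (nat_lit 0x279d123c02) (nat_lit 0x8089) (nat_lit 5)))
 (.n (.p (nat_lit 0x12f10e7102) (nat_lit 0x8aa2) (nat_lit 19))
 (.p (nat_lit 0x39e13927380903) (nat_lit 0x8c800004040) (nat_lit 44))))
 (.n (.n (.p (nat_lit 0x25b225ae25ac25aa0d510d4906) (nat_lit 0x1100019a0) (nat_lit 14))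
 (.p (nat_lit 0x389b388502) (nat_lit 0x9a00a000000) (nat_lit 35)))
 (.p (nat_lit 0x34903470345013004) (nat_lit 0x2234004) (nat_lit 23))))
 (.n (.n (.n (.p (nat_lit 0x24842480247e247c0d170d1306) (nat_lit 0x280000160) (nat_lit 14))
 (.p (nat_lit 0x7ec07ea07e807e607e400fc000b07) (nat_lit 0xa281) (nat_lit 28)))
 (.p (nat_lit 0x131003a02) (nat_lit 0x20000c004) (nat_lit 20)))
 (.n (.n (.p (nat_lit 0x23330dd202) (nat_lit 0x60a1) (nat_lit 5))
 (.p (nat_lit 0x398d397702) (nat_lit 0xa2408000800) (nat_lit 35)))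
 (.p (nat_lit 0x2591103002) (nat_lit 0x806) (nat_lit 5)))))
 (.n (.n (.n (.n (.p (nat_lit 0x190a1904190219000cf10cef06) (nat_lit 0x180001c20) (nat_lit 17))
 (.p (nat_lit 0x24f024ee24ec24ea24e814c706) (nat_lit 0x20000152e) (nat_lit 14)))
 (.n (.p (nat_lit 0x24350ed402) (nat_lit 0x83) (nat_lit 5))
 (.p (nat_lit 0x3a43393f381f03) (nat_lit 0x29400006080) (nat_lit 43))))
 (.n (.n (.p (nat_lit 0x2db62db42db22db02dae2dac00fc07) (nat_lit 0x61) (nat_lit 8))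
 (.p (nat_lit 0x3909390502) (nat_lit 0x10004000800) (nat_lit 35)))
 (.p (nat_lit 0x246c246a2468246624640fcf06) (nat_lit 0x200000045) (nat_lit 14))))
 (.n (.n (.n (.p (nat_lit 0x2550254e254c254a25480d2f06) (nat_lit 0x200001380) (nat_lit 14))
 (.p (nat_lit 0x380f380102) (nat_lit 0xab804000000) (nat_lit 35)))
 (.p (nat_lit 0x2f45003102) (nat_lit 0x44) (nat_lit 33)))
 (.n (.n (.p (nat_lit 0x2e4b0e3a02) (nat_lit 0x2862) (nat_lit 32))
 (.p (nat_lit 0x3a0d38b7379d03) (nat_lit 0x4b000000000) (nat_lit 43)))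
 (.p (nat_lit 0x108f107702) (nat_lit 0xa066) (nat_lit 18)))))

def c512_287 : Tr :=
 .n (.n (.n (.n (.n (.p (nat_lit 0xdf70cd702) (nat_lit 0x6900) (nat_lit 19))
 (.p (nat_lit 0x1395002802) (nat_lit 0x480c) (nat_lit 1)))
 (.n (.p (nat_lit 0xe97008202) (nat_lit 0xa023) (nat_lit 1))
 (.p (nat_lit 0x3a373947382703) (nat_lit 0x4a400006060) (nat_lit 43))))
 (.n (.n (.p (nat_lit 0xd8d0d7502) (nat_lit 0x8021) (nat_lit 18))
 (.p (nat_lit 0x38cb38b902) (nat_lit 0x9a800000800) (nat_lit 35)))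
 (.p (nat_lit 0x250f0fae02) (nat_lit 0x2025) (nat_lit 5))))
 (.n (.n (.n (.p (nat_lit 0x19fa19f619f419f00d210d1b06) (nat_lit 0x120001a60) (nat_lit 15))
 (.p (nat_lit 0x37a9379902) (nat_lit 0x92800000000) (nat_lit 35)))
 (.p (nat_lit 0x1802180017fe17fc17fa0f1106) (nat_lit 0x10001d04) (nat_lit 15)))
 (.n (.n (.p (nat_lit 0x1cee1cec1cea1ce81ce60dfd06) (nat_lit 0x10000422) (nat_lit 17))
 (.p (nat_lit 0x39b339a702) (nat_lit 0x7a40a000800) (nat_lit 35)))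
 (.p (nat_lit 0x2250224c224a2248105f105b06) (nat_lit 0x280001146) (nat_lit 14)))))
 (.n (.n (.n (.n (.p (nat_lit 0x193a19381934193219300d0706) (nat_lit 0x80001840) (nat_lit 15))
 (.p (nat_lit 0x1601003c02) (nat_lit 0x850) (nat_lit 1)))
 (.n (.p (nat_lit 0x226a2268226422620ef30eed06) (nat_lit 0x900012a3) (nat_lit 16))
 (.p (nat_lit 0x3a09398d386f03) (nat_lit 0xa54000080a0) (nat_lit 44))))
 (.n (.n (.p (nat_lit 0x22b222b022ae22ac22a80dab06) (nat_lit 0x20001d61) (nat_lit 14))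
 (.p (nat_lit 0x395b393f02) (nat_lit 0x99406000800) (nat_lit 35)))
 (.p (nat_lit 0x255d0ffc02) (nat_lit 0x8085) (nat_lit 5))))
 (.n (.n (.n (.p (nat_lit 0xd510d3902) (nat_lit 0x8880) (nat_lit 18))
 (.p (nat_lit 0x3857385102) (nat_lit 0x49808000000) (nat_lit 35)))
 (.p (nat_lit 0xf7b00b202) (nat_lit 0xa884) (nat_lit 1)))
 (.n (.n (.p (nat_lit 0x222e222c222a222822240e5306) (nat_lit 0x20000882) (nat_lit 14))
 (.p (nat_lit 0x3a1d392d380d03) (nat_lit 0xa5000004020) (nat_lit 43)))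
 (.p (nat_lit 0x3db03d503c7015004) (nat_lit 0x22a0006) (nat_lit 23)))))

def c256_31 : Tr := .n c512_31 c512_287

def c512_159 : Tr :=
 .n (.n (.n (.n (.n (.p (nat_lit 0x22fa22f822f622f222f00cd506) (nat_lit 0x40001a00) (nat_lit 14))
 (.p (nat_lit 0x28411d91050704ed018e05) (nat_lit 0x10540aa) (nat_lit 9)))
 (.n (.p (nat_lit 0xf0d0e7d02) (nat_lit 0x8403) (nat_lit 19))
 (.p (nat_lit 0x3a2f39a1388103) (nat_lit 0x3180000a040) (nat_lit 43))))
 (.n (.n (.p (nat_lit 0x21f021d0219021704) (nat_lit 0x1622000) (nat_lit 24))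
 (.p (nat_lit 0x38b738a702) (nat_lit 0x48400000800) (nat_lit 35)))
 (.p (nat_lit 0x25e225de25dc25da25d80f9d06) (nat_lit 0x100001305) (nat_lit 16))))
 (.n (.n (.n (.p (nat_lit 0x10750d1502) (nat_lit 0x8560) (nat_lit 19))
 (.p (nat_lit 0x91a0918091609140912013c004907) (nat_lit 0x1a5) (nat_lit 28)))
 (.p (nat_lit 0x2f2a2f282f262f242f222f20012c07) (nat_lit 0x804) (nat_lit 8)))
 (.n (.n (.p (nat_lit 0x111002002) (nat_lit 0x10000c002) (nat_lit 20))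
 (.p (nat_lit 0x39c1399702) (nat_lit 0xb040a000800) (nat_lit 35)))
 (.p (nat_lit 0x25ab104a02) (nat_lit 0x2826) (nat_lit 5)))))
 (.n (.n (.n (.n (.p (nat_lit 0x196a1968196619640cf70cf506) (nat_lit 0x30001240) (nat_lit 17))
 (.p (nat_lit 0x2ac3156202) (nat_lit 0xa82f) (nat_lit 5)))
 (.n (.p (nat_lit 0xeea0ee80ee70ee40ee20ee0002b07) (nat_lit 0x6883) (nat_lit 7))
 (.p (nat_lit 0x3a0338dd37bf03) (nat_lit 0x214000020a0) (nat_lit 44))))
 (.n (.n (.p (nat_lit 0xe370da702) (nat_lit 0xa261) (nat_lit 19))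
 (.p (nat_lit 0x3929392302) (nat_lit 0x93c04000800) (nat_lit 35)))
 (.p (nat_lit 0x16090fd902) (nat_lit 0x8d45) (nat_lit 19))))
 (.n (.n (.n (.p (nat_lit 0x250a2508250625040d330d3106) (nat_lit 0x30001880) (nat_lit 14))
 (.p (nat_lit 0x3831382502) (nat_lit 0x72006000000) (nat_lit 35)))
 (.p (nat_lit 0xf670f4f02) (nat_lit 0x2064) (nat_lit 18)))
 (.n (.n (.p (nat_lit 0x178a17861784178217800e4d06) (nat_lit 0x100001082) (nat_lit 15))
 (.p (nat_lit 0x39ca172702) (nat_lit 0x6d00) (nat_lit 47)))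
 (.p (nat_lit 0x25ed108c02) (nat_lit 0x8086) (nat_lit 5)))))

def c512_415 : Tr :=
 .n (.n (.n (.n (.n (.p (nat_lit 0x225317a302) (nat_lit 0xa820) (nat_lit 11))
 (.p (nat_lit 0x249e249c249a24982496142106) (nat_lit 0x10000a0d) (nat_lit 14)))
 (.n (.p (nat_lit 0xeba0eb80eb70eb40eb20eb0002b07) (nat_lit 0x6843) (nat_lit 7))
 (.p (nat_lit 0x39f339af388f03) (nat_lit 0x6b40000a060) (nat_lit 44))))
 (.n (.n (.p (nat_lit 0x18f218ee18ec18ea18e80d8d06) (nat_lit 0x100001341) (nat_lit 15))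
 (.p (nat_lit 0x38ed38d902) (nat_lit 0x60802000800) (nat_lit 35)))
 (.p (nat_lit 0x178a1788178617840fbb0fb906) (nat_lit 0x30001825) (nat_lit 15))))
 (.n (.n (.n (.p (nat_lit 0xd2e0d2c0d2a0d280d270d24000307) (nat_lit 0x2080) (nat_lit 7))
 (.p (nat_lit 0x37db37bd02) (nat_lit 0x99002000000) (nat_lit 35)))
 (.p (nat_lit 0x14bf0f1f02) (nat_lit 0x2424) (nat_lit 19)))
 (.n (.n (.p (nat_lit 0x282e282c282a282828260e2106) (nat_lit 0x10000c42) (nat_lit 14))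
 (.p (nat_lit 0x38f438ee38ec37d504) (nat_lit 0x4002000000) (nat_lit 36)))
 (.p (nat_lit 0x227622722270226e226c106906) (nat_lit 0x100000b46) (nat_lit 14)))))
 (.n (.n (.n (.n (.p (nat_lit 0x19b219ae19ac19aa0d090d0106) (nat_lit 0x110001d40) (nat_lit 17))
 (.p (nat_lit 0x1735171d02) (nat_lit 0x8052) (nat_lit 18)))
 (.p (nat_lit 0x17c617c417c217bc0efd0efb06) (nat_lit 0x60000ba3) (nat_lit 15)))
 (.n (.n (.p (nat_lit 0x10850db502) (nat_lit 0x481) (nat_lit 19))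
 (.p (nat_lit 0x3985396702) (nat_lit 0x80408000800) (nat_lit 35)))
 (.p (nat_lit 0x2581102002) (nat_lit 0x88a5) (nat_lit 5))))
 (.n (.n (.n (.p (nat_lit 0x25e225e025da25d80d430d4106) (nat_lit 0xc00013a0) (nat_lit 14))
 (.p (nat_lit 0x3879387702) (nat_lit 0x1040a000000) (nat_lit 35)))
 (.p (nat_lit 0x100f0f7f02) (nat_lit 0x25a4) (nat_lit 19)))
 (.n (.n (.p (nat_lit 0xe670e640e620e600e5e0e5c002307) (nat_lit 0xa0a2) (nat_lit 7))
 (.p (nat_lit 0x3a2339bf387503) (nat_lit 0xa800000a020) (nat_lit 43)))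
 (.p (nat_lit 0x190a1908190619041902118d06) (nat_lit 0x10001468) (nat_lit 15)))))

def c256_159 : Tr := .n c512_159 c512_415

def c128_31 : Tr := .n c256_31 c256_159

def c512_95 : Tr :=
 .n (.n (.n (.n (.n (.p (nat_lit 0x2233178302) (nat_lit 0x2800) (nat_lit 11))
 (.p (nat_lit 0x12c9002802) (nat_lit 0x408a) (nat_lit 1)))
 (.n (.p (nat_lit 0x11c002f002d0029002705) (nat_lit 0x360008003) (nat_lit 21))
 (.p (nat_lit 0x39e53975385503) (nat_lit 0x42000008040) (nat_lit 44))))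
 (.n (.n (.p (nat_lit 0x1b301b2e1b2c1b2a0d530d4906) (nat_lit 0x210001ba0) (nat_lit 15))
 (.p (nat_lit 0x38a1389302) (nat_lit 0xb3c0a000000) (nat_lit 35)))
 (.p (nat_lit 0x24f50f9402) (nat_lit 0x5) (nat_lit 5))))
 (.n (.n (.n (.p (nat_lit 0x1a361a341a321a300d0f0d0d06) (nat_lit 0x30000560) (nat_lit 15))
 (.p (nat_lit 0x87e087a087808760874011c000907) (nat_lit 0x8083) (nat_lit 28)))
 (.p (nat_lit 0x17ba17b817b417b217b00f0b06) (nat_lit 0x80001204) (nat_lit 15)))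
 (.n (.n (.p (nat_lit 0xde20de00ddf0ddd0dda0dd8027a0013001109) (nat_lit 0x348a1) (nat_lit 13))
 (.p (nat_lit 0x398f398902) (nat_lit 0xac808000800) (nat_lit 35)))
 (.p (nat_lit 0x25a1104002) (nat_lit 0x4026) (nat_lit 5)))))
 (.n (.n (.n (.n (.p (nat_lit 0xf310cf102) (nat_lit 0x8b20) (nat_lit 19))
 (.p (nat_lit 0x2a3f14de02) (nat_lit 0xa04e) (nat_lit 5)))
 (.n (.p (nat_lit 0x24922490248e248a24880ed906) (nat_lit 0x40001183) (nat_lit 16))
 (.p (nat_lit 0x39fc17e902) (nat_lit 0x8880) (nat_lit 45))))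
 (.n (.n (.p (nat_lit 0x226a2268226622620da10d9d06) (nat_lit 0x50001261) (nat_lit 14))
 (.p (nat_lit 0x392d391102) (nat_lit 0xa1804000800) (nat_lit 35)))
 (.p (nat_lit 0x2fe7004302) (nat_lit 0x6845) (nat_lit 33))))
 (.n (.n (.n (.p (nat_lit 0xffd0d2d02) (nat_lit 0x8480) (nat_lit 19))
 (.p (nat_lit 0x3833381702) (nat_lit 0x78406000000) (nat_lit 35)))
 (.p (nat_lit 0x2f51003102) (nat_lit 0x844) (nat_lit 33)))
 (.n (.n (.p (nat_lit 0x24622460245e245a24580e3d06) (nat_lit 0x40001d62) (nat_lit 14))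
 (.p (nat_lit 0x3a0f38e737cf03) (nat_lit 0x4b400002000) (nat_lit 43)))
 (.p (nat_lit 0x1a5a1a561a541a521a50108106) (nat_lit 0x100001866) (nat_lit 17)))))

def c512_351 : Tr :=
 .n (.n (.n (.n (.n (.p (nat_lit 0x18f018ec18ea18e80ce70ce306) (nat_lit 0x280001320) (nat_lit 15))
 (.p (nat_lit 0x24aa24a624a424a2140513fd06) (nat_lit 0x1100012ac) (nat_lit 16)))
 (.n (.p (nat_lit 0xea20ea10e9e0e9c0e9a0e9902f4002d002509) (nat_lit 0x40823) (nat_lit 13))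
 (.p (nat_lit 0x39f13989386903) (nat_lit 0x94800008060) (nat_lit 44))))
 (.n (.n (.p (nat_lit 0xd930d7b02) (nat_lit 0x2821) (nat_lit 18))
 (.p (nat_lit 0x38d138cf02) (nat_lit 0xb5400000800) (nat_lit 35)))
 (.p (nat_lit 0x229a22982296229422920fad06) (nat_lit 0x10001425) (nat_lit 16))))
 (.n (.n (.n (.p (nat_lit 0x24f224f024ee24e80d1d0d1b06) (nat_lit 0x60001d60) (nat_lit 14))
 (.p (nat_lit 0x37bd37b502) (nat_lit 0x20002000000) (nat_lit 35)))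
 (.p (nat_lit 0xf27002e02) (nat_lit 0xa024) (nat_lit 1)))
 (.n (.n (.p (nat_lit 0x237f18cf02c702b7010e05) (nat_lit 0xcaa042) (nat_lit 9))
 (.p (nat_lit 0x39bd39bb02) (nat_lit 0xa4c0a000800) (nat_lit 35)))
 (.p (nat_lit 0x15f5105502) (nat_lit 0x446) (nat_lit 19)))))
 (.n (.n (.n (.n (.p (nat_lit 0x2432242c242a24280d090d0706) (nat_lit 0x180001b40) (nat_lit 14))
 (.p (nat_lit 0x171d168d02) (nat_lit 0x8151) (nat_lit 19)))
 (.n (.p (nat_lit 0xf810ef102) (nat_lit 0x44a3) (nat_lit 19))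
 (.p (nat_lit 0x3a5339af389703) (nat_lit 0x6c40000a0a0) (nat_lit 43))))
 (.n (.n (.p (nat_lit 0x2dcf001702) (nat_lit 0xa081) (nat_lit 33))
 (.p (nat_lit 0x3961394b02) (nat_lit 0xb2c06000800) (nat_lit 35)))
 (.p (nat_lit 0x2575101402) (nat_lit 0x80a5) (nat_lit 5))))
 (.n (.n (.n (.p (nat_lit 0x22a70d4602) (nat_lit 0xa0a0) (nat_lit 5))
 (.p (nat_lit 0x3867385d02) (nat_lit 0x8b008000000) (nat_lit 35)))
 (.p (nat_lit 0x2f930f8202) (nat_lit 0x60a4) (nat_lit 32)))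
 (.n (.n (.p (nat_lit 0x22982296229222900e5b0e5506) (nat_lit 0x240001c82) (nat_lit 16))
 (.p (nat_lit 0x3a1f3953383b03) (nat_lit 0x7cc00006020) (nat_lit 43)))
 (.p (nat_lit 0x1bb7110602) (nat_lit 0xa067) (nat_lit 4)))))

def c256_95 : Tr := .n c512_95 c512_351

def c512_223 : Tr :=
 .n (.n (.n (.n (.n (.p (nat_lit 0x186e186a186818660cd90cd106) (nat_lit 0x110000c00) (nat_lit 15))
 (.p (nat_lit 0x190a190619041902190012f106) (nat_lit 0x100001caa) (nat_lit 15)))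
 (.n (.p (nat_lit 0x18f218f018ec18e80e870e8306) (nat_lit 0xa0001b03) (nat_lit 17))
 (.p (nat_lit 0x3a3338dd37bf03) (nat_lit 0x21400002060) (nat_lit 43))))
 (.n (.n (.p (nat_lit 0x18190d6802) (nat_lit 0x8801) (nat_lit 4))
 (.p (nat_lit 0x38c738af02) (nat_lit 0x89400000800) (nat_lit 35)))
 (.p (nat_lit 0x25a625a425a225a0259c0fa306) (nat_lit 0x20000905) (nat_lit 14))))
 (.n (.n (.n (.p (nat_lit 0x19ca19c819c219c00d1f0d1d06) (nat_lit 0xc0001860) (nat_lit 17))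
 (.p (nat_lit 0x3789378502) (nat_lit 0x10000000000) (nat_lit 35)))
 (.p (nat_lit 0x225c225a2258225622540f1b06) (nat_lit 0x200000a04) (nat_lit 14)))
 (.n (.n (.p (nat_lit 0x235318a302c702b7010e05) (nat_lit 0x1532802) (nat_lit 9))
 (.p (nat_lit 0x39a7399f02) (nat_lit 0x4940a000800) (nat_lit 35)))
 (.p (nat_lit 0x187a187818741872104f104906) (nat_lit 0x90001c26) (nat_lit 17)))))
 (.n (.n (.n (.n (.p (nat_lit 0xeaf0cff02) (nat_lit 0xa240) (nat_lit 19))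
 (.p (nat_lit 0x20a220a0209e209c209a209806) (nat_lit 0x830) (nat_lit 2)))
 (.n (.p (nat_lit 0x13f90ee902) (nat_lit 0x8b83) (nat_lit 19))
 (.p (nat_lit 0x3a4f394d382d03) (nat_lit 0x630000060a0) (nat_lit 43))))
 (.n (.n (.p (nat_lit 0x17a217a0179e179a17980dad06) (nat_lit 0x40001961) (nat_lit 15))
 (.p (nat_lit 0x394b393702) (nat_lit 0x58406000800) (nat_lit 35)))
 (.p (nat_lit 0x2ff9003d02) (nat_lit 0x865) (nat_lit 33))))
 (.n (.n (.n (.p (nat_lit 0x1a8a1a881a861a840d330d3106) (nat_lit 0x30001a80) (nat_lit 15))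
 (.p (nat_lit 0x386d384702) (nat_lit 0xa0408000000) (nat_lit 35)))
 (.p (nat_lit 0xf6e0f6c0f6a0f690f670f6403440035003309) (nat_lit 0x22084) (nat_lit 13)))
 (.n (.n (.p (nat_lit 0x17f617f017ee17ec0e4d0e4b06) (nat_lit 0x180000582) (nat_lit 15))
 (.p (nat_lit 0x39d138b5379d03) (nat_lit 0x43000000020) (nat_lit 44)))
 (.p (nat_lit 0x2b462b442b402b3e2b3c109706) (nat_lit 0x80000986) (nat_lit 16)))))

def c512_479 : Tr :=
 .n (.n (.n (.n (.n (.p (nat_lit 0x23882386238423800cf30ceb06) (nat_lit 0x220001a20) (nat_lit 14))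
 (.p (nat_lit 0x1f6a1f681f661f641f621f6006) (nat_lit 0x80e) (nat_lit 2)))
 (.n (.p (nat_lit 0xf530ec302) (nat_lit 0x6463) (nat_lit 19))
 (.p (nat_lit 0x3a3c14a502) (nat_lit 0x380) (nat_lit 48))))
 (.n (.n (.p (nat_lit 0x2da90d9802) (nat_lit 0x8841) (nat_lit 32))
 (.p (nat_lit 0x38e938e502) (nat_lit 0x52002000800) (nat_lit 35)))
 (.p (nat_lit 0x1802180017fe17fc17f80fbb06) (nat_lit 0x20001d25) (nat_lit 15))))
 (.n (.n (.n (.p (nat_lit 0x1a661a621a601a5c0d2d0d2706) (nat_lit 0x120000180) (nat_lit 17))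
 (.p (nat_lit 0x380b37e702) (nat_lit 0x98404000000) (nat_lit 35)))
 (.p (nat_lit 0x194619421940193e0f310f2906) (nat_lit 0x110000924) (nat_lit 17)))
 (.n (.n (.p (nat_lit 0x23ea23e823e423e223e00e3306) (nat_lit 0x80001062) (nat_lit 16))
 (.p (nat_lit 0x397639743970396e385705) (nat_lit 0x2408000000) (nat_lit 36)))
 (.p (nat_lit 0x1076107410721071106e106c004d07) (nat_lit 0x4066) (nat_lit 7)))))
 (.n (.n (.n (.n (.p (nat_lit 0x227017c00d1103) (nat_lit 0x4060) (nat_lit 6))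
 (.p (nat_lit 0x2c9b173a02) (nat_lit 0x2872) (nat_lit 5)))
 (.p (nat_lit 0x31b030b011e03) (nat_lit 0x6054003) (nat_lit 22)))
 (.n (.n (.p (nat_lit 0x1b0c1b0a1b081b061b040dcb06) (nat_lit 0x200000a81) (nat_lit 15))
 (.p (nat_lit 0x3979396f02) (nat_lit 0x51408000800) (nat_lit 35)))
 (.p (nat_lit 0x14f004e004803) (nat_lit 0x9000a006) (nat_lit 20))))
 (.n (.n (.n (.p (nat_lit 0xd4d004c02) (nat_lit 0x48a0) (nat_lit 1))
 (.p (nat_lit 0x3889387d02) (nat_lit 0x5100a000000) (nat_lit 35)))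
 (.p (nat_lit 0x2522251e251c251a25180f9106) (nat_lit 0x1000019a4) (nat_lit 14)))
 (.n (.n (.p (nat_lit 0xe720e700e6f0e6c0e6a0e68001f07) (nat_lit 0x68a2) (nat_lit 7))
 (.p (nat_lit 0x39dd38c737a703) (nat_lit 0x8c400000040) (nat_lit 44)))
 (.p (nat_lit 0x23122310230c230a230811ab06) (nat_lit 0x80001388) (nat_lit 14)))))

def c256_223 : Tr := .n c512_223 c512_479

def c128_95 : Tr := .n c256_95 c256_223

def c64_31 : Tr := .n c128_31 c128_95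

def c512_63 : Tr :=
 .n (.n (.n (.n (.n (.p (nat_lit 0xcdf0cc702) (nat_lit 0x2000) (nat_lit 18))
 (.p (nat_lit 0x1d19126802) (nat_lit 0x400a) (nat_lit 4)))
 (.n (.p (nat_lit 0x2df02c7010e03) (nat_lit 0xa044002) (nat_lit 22))
 (.p (nat_lit 0x3a2a0e3302) (nat_lit 0x6040) (nat_lit 48))))
 (.n (.n (.p (nat_lit 0x1b1a1b161b141b100d510d4b06) (nat_lit 0x120001aa0) (nat_lit 17))
 (.p (nat_lit 0x38a1388b02) (nat_lit 0xb2c0a000000) (nat_lit 35)))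
 (.p (nat_lit 0x36f0363012e03) (nat_lit 0xa046004) (nat_lit 22))))
 (.n (.n (.n (.p (nat_lit 0x24a824a624a424a20d170d0d06) (nat_lit 0x210001260) (nat_lit 14))
 (.p (nat_lit 0x847001a02) (nat_lit 0x2003) (nat_lit 30)))
 (.p (nat_lit 0x246d0f0c02) (nat_lit 0x8004) (nat_lit 5)))
 (.n (.n (.p (nat_lit 0xe5f0dcf02) (nat_lit 0x22a1) (nat_lit 19))
 (.p (nat_lit 0x3991397d02) (nat_lit 0xb3008000800) (nat_lit 35)))
 (.p (nat_lit 0x103b1038103710341032103003f20053004f09) (nat_lit 0x56806) (nat_lit 13)))))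
 (.n (.n (.n (.n (.p (nat_lit 0x1920191e191c19180cf30ceb06) (nat_lit 0x220001d20) (nat_lit 15))
 (.p (nat_lit 0x19bc19b819b619b414d314cf06) (nat_lit 0x28000082e) (nat_lit 15)))
 (.n (.p (nat_lit 0x2eef002f02) (nat_lit 0xa083) (nat_lit 33))
 (.p (nat_lit 0x3a45396d385503) (nat_lit 0x22000008080) (nat_lit 43))))
 (.n (.n (.p (nat_lit 0x177e177c177a17760da10d9d06) (nat_lit 0x50000061) (nat_lit 17))
 (.p (nat_lit 0x3927390902) (nat_lit 0x88804000800) (nat_lit 35)))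
 (.p (nat_lit 0x14df0fcf02) (nat_lit 0xa345) (nat_lit 19))))
 (.n (.n (.n (.p (nat_lit 0xd410d2902) (nat_lit 0x4080) (nat_lit 18))
 (.p (nat_lit 0x380e380c38083806380437e4179107) (nat_lit 0x4000020) (nat_lit 37)))
 (.p (nat_lit 0xf3e0f3c0f3a0f390f360f3503380035003109) (nat_lit 0x20044) (nat_lit 13)))
 (.n (.n (.p (nat_lit 0x23de23da23d623d40e410e3d06) (nat_lit 0x140000862) (nat_lit 16))
 (.p (nat_lit 0x39c538d337b303) (nat_lit 0xbdc00000000) (nat_lit 44)))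
 (.p (nat_lit 0x308f107e02) (nat_lit 0x6866) (nat_lit 32)))))

def c512_319 : Tr :=
 .n (.n (.n (.n (.n (.p (nat_lit 0x17910ce002) (nat_lit 0x4020) (nat_lit 4))
 (.p (nat_lit 0x1ea113f002) (nat_lit 0x88c) (nat_lit 4)))
 (.n (.p (nat_lit 0xf1f0e8f02) (nat_lit 0x2423) (nat_lit 19))
 (.p (nat_lit 0x3a39396d385503) (nat_lit 0x22000008060) (nat_lit 43))))
 (.n (.n (.p (nat_lit 0xd820d810d7e0d7c0d7a0d78001507) (nat_lit 0x8821) (nat_lit 7))
 (.p (nat_lit 0x38d138bf02) (nat_lit 0xb3400000800) (nat_lit 35)))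
 (.p (nat_lit 0x17a217a0179e179c17980faf06) (nat_lit 0x20001125) (nat_lit 17))))
 (.n (.n (.n (.p (nat_lit 0x24da24d824d624d00d1d0d1b06) (nat_lit 0x60001c60) (nat_lit 14))
 (.p (nat_lit 0x37b137a102) (nat_lit 0xb3800000000) (nat_lit 35)))
 (.p (nat_lit 0xfa10f1102) (nat_lit 0xd04) (nat_lit 19)))
 (.n (.n (.p (nat_lit 0xe9d0e0d02) (nat_lit 0x4b22) (nat_lit 19))
 (.p (nat_lit 0x39c339ad02) (nat_lit 0xbb00a000800) (nat_lit 35)))
 (.p (nat_lit 0x17ea17e817e617e417e0105706) (nat_lit 0x20001446) (nat_lit 15)))))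
 (.n (.n (.n (.n (.p (nat_lit 0x1952194e194c19480d090d0306) (nat_lit 0x120001940) (nat_lit 15))
 (.p (nat_lit 0x1a641a621a601a5e1a5c160b06) (nat_lit 0x200000950) (nat_lit 15)))
 (.n (.p (nat_lit 0x229a2298229422900ef30eef06) (nat_lit 0xa00014a3) (nat_lit 14))
 (.p (nat_lit 0x3a0b3995387d03) (nat_lit 0x100000a0a0) (nat_lit 44))))
 (.n (.n (.p (nat_lit 0x18650db402) (nat_lit 0x81) (nat_lit 4))
 (.p (nat_lit 0x3949394502) (nat_lit 0x52006000800) (nat_lit 35)))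
 (.p (nat_lit 0x101d100502) (nat_lit 0x4885) (nat_lit 18))))
 (.n (.n (.n (.p (nat_lit 0x10910d3102) (nat_lit 0xd80) (nat_lit 19))
 (.p (nat_lit 0x385b385702) (nat_lit 0x5a408000000) (nat_lit 35)))
 (.p (nat_lit 0xf890f7102) (nat_lit 0x884) (nat_lit 18)))
 (.n (.n (.p (nat_lit 0x17c617c417c217c017bc0e5306) (nat_lit 0x20000b82) (nat_lit 15))
 (.p (nat_lit 0x39d73945382503) (nat_lit 0x42000006020) (nat_lit 44)))
 (.p (nat_lit 0x3ff03f303e7015004) (nat_lit 0xa234006) (nat_lit 23)))))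

def c256_63 : Tr := .n c512_63 c512_319

def c512_191 : Tr :=
 .n (.n (.n (.n (.n (.p (nat_lit 0x2302230022fe22fc0cdb0cd906) (nat_lit 0x300000b00) (nat_lit 16))
 (.p (nat_lit 0x32fb12ea02) (nat_lit 0x28aa) (nat_lit 32)))
 (.n (.p (nat_lit 0x23eb0e8a02) (nat_lit 0xa803) (nat_lit 5))
 (.p (nat_lit 0x3a2e138302) (nat_lit 0xaa40) (nat_lit 48))))
 (.n (.n (.p (nat_lit 0xff0016001403) (nat_lit 0x30000a001) (nat_lit 20))
 (.p (nat_lit 0x38b538ab02) (nat_lit 0x40c00000800) (nat_lit 35)))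
 (.p (nat_lit 0x25030fa202) (nat_lit 0x2805) (nat_lit 5))))
 (.n (.n (.n (.p (nat_lit 0x22830d2202) (nat_lit 0xa860) (nat_lit 5))
 (.p (nat_lit 0x949005102) (nat_lit 0x8066) (nat_lit 31)))
 (.p (nat_lit 0x247b19cb03570349012e05) (nat_lit 0x10aa804) (nat_lit 9)))
 (.n (.n (.p (nat_lit 0xdef0dec0dea0de80de60de4002307) (nat_lit 0xa002) (nat_lit 7))
 (.p (nat_lit 0x39af399b02) (nat_lit 0x68c0a000800) (nat_lit 35)))
 (.p (nat_lit 0x10531050104e104c104a104903ce0053004909) (nat_lit 0x50826) (nat_lit 13)))))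
 (.n (.n (.n (.n (.p (nat_lit 0x19a619a419a219a0199e0cf506) (nat_lit 0x10000540) (nat_lit 17))
 (.p (nat_lit 0x15dd004802) (nat_lit 0x30) (nat_lit 1)))
 (.n (.p (nat_lit 0x248624822480247c0ee90ee306) (nat_lit 0x120000983) (nat_lit 16))
 (.p (nat_lit 0x3a0417fd02) (nat_lit 0x48a0) (nat_lit 45))))
 (.n (.n (.p (nat_lit 0x18630db202) (nat_lit 0xa861) (nat_lit 4))
 (.p (nat_lit 0x3924391e391c39183916391417fd07) (nat_lit 0x40008a0) (nat_lit 37)))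
 (.p (nat_lit 0x1a970fe602) (nat_lit 0xa065) (nat_lit 4))))
 (.n (.n (.n (.p (nat_lit 0x1a721a701a6e1a6a0d350d3106) (nat_lit 0x50001980) (nat_lit 17))
 (.p (nat_lit 0x384b384502) (nat_lit 0x18008000000) (nat_lit 35)))
 (.p (nat_lit 0xfef0f5f02) (nat_lit 0x6d64) (nat_lit 19)))
 (.n (.n (.p (nat_lit 0x22762274226e226c0e4b0e4906) (nat_lit 0xc0000382) (nat_lit 14))
 (.p (nat_lit 0x3a15398b387103) (nat_lit 0x9d800008000) (nat_lit 43)))
 (.p (nat_lit 0x25f1109002) (nat_lit 0x886) (nat_lit 5)))))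

def c512_447 : Tr :=
 .n (.n (.n (.n (.n (.p (nat_lit 0x18aa18a618a218a00cf10ced06) (nat_lit 0x140001820) (nat_lit 15))
 (.p (nat_lit 0x1f5714a602) (nat_lit 0x200e) (nat_lit 4)))
 (.n (.p (nat_lit 0xec60ec40ec30ec00ebe0ebc002b07) (nat_lit 0x6063) (nat_lit 7))
 (.p (nat_lit 0x3a3a142b02) (nat_lit 0xab60) (nat_lit 48))))
 (.n (.n (.p (nat_lit 0x10550d8502) (nat_lit 0x441) (nat_lit 19))
 (.p (nat_lit 0x38ff38dd02) (nat_lit 0xa9002000800) (nat_lit 35)))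
 (.p (nat_lit 0x22762272226e226c0fc10fbd06) (nat_lit 0x140000b25) (nat_lit 14))))
 (.n (.n (.n (.p (nat_lit 0x1a4e1a4a1a461a440d2d0d2906) (nat_lit 0x140000080) (nat_lit 15))
 (.p (nat_lit 0x37e337c502) (nat_lit 0xba002000000) (nat_lit 35)))
 (.p (nat_lit 0x2f3f003702) (nat_lit 0x6824) (nat_lit 33)))
 (.n (.n (.p (nat_lit 0x2e3f0e2e02) (nat_lit 0x2062) (nat_lit 32))
 (.p (nat_lit 0x3960395e39363934381705) (nat_lit 0x406000000) (nat_lit 36)))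
 (.p (nat_lit 0x1802180017fc17fa17f8106706) (nat_lit 0x80001d46) (nat_lit 17)))))
 (.n (.n (.n (.n (.p (nat_lit 0xebb0d0b02) (nat_lit 0xaa40) (nat_lit 19))
 (.p (nat_lit 0x21dd172c02) (nat_lit 0x72) (nat_lit 4)))
 (.p (nat_lit 0x22b222ae22ac22aa22a80f0106) (nat_lit 0x100001da3) (nat_lit 16)))
 (.n (.n (.p (nat_lit 0xdca0dc90dc60dc40dc20dc0001507) (nat_lit 0x8881) (nat_lit 7))
 (.p (nat_lit 0x3979396b02) (nat_lit 0x50c08000800) (nat_lit 35)))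
 (.p (nat_lit 0x1529101902) (nat_lit 0xba5) (nat_lit 19))))
 (.n (.n (.n (.p (nat_lit 0xe630d4302) (nat_lit 0x61a0) (nat_lit 19))
 (.p (nat_lit 0x3891387902) (nat_lit 0x7080a000000) (nat_lit 35)))
 (.p (nat_lit 0x2fa10f9002) (nat_lit 0x88a4) (nat_lit 32)))
 (.n (.n (.p (nat_lit 0xe630deb02) (nat_lit 0x60a2) (nat_lit 18))
 (.p (nat_lit 0x3a2339c138a103) (nat_lit 0xb580000a020) (nat_lit 43)))
 (.p (nat_lit 0x23d223d023ce23cc23c8119b06) (nat_lit 0x20001d68) (nat_lit 14)))))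

def c256_191 : Tr := .n c512_191 c512_447

def c128_63 : Tr := .n c256_63 c256_191

def c512_127 : Tr :=
 .n (.n (.n (.n (.n (.p (nat_lit 0x22d422d022ce22cc0cdb0cd706) (nat_lit 0x280000900) (nat_lit 14))
 (.p (nat_lit 0x12da12d812d612d412d312d0007b07) (nat_lit 0x288a) (nat_lit 7)))
 (.n (.p (nat_lit 0x18c218be18ba18b80e7d0e7906) (nat_lit 0x140001103) (nat_lit 15))
 (.p (nat_lit 0x3a2d3991387103) (nat_lit 0xb5800008040) (nat_lit 43))))
 (.n (.n (.p (nat_lit 0xde10d5102) (nat_lit 0x88a0) (nat_lit 19))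
 (.p (nat_lit 0x38a238a0389e389a3898389238723870386e386a3868386238423840383e383a3838383238123810380e380a3808380237e237e037de37da37d837d237b237b037ae37aa37a837a224) (nat_lit 0x0) (nat_lit 39)))
 (.p (nat_lit 0x1aea1ae81ae41ae21ae00f9b06) (nat_lit 0x80001005) (nat_lit 17))))
 (.n (.n (.n (.p (nat_lit 0xda10d1102) (nat_lit 0x4060) (nat_lit 19))
 (.p (nat_lit 0x8d208ce08cc08ca08c8012c000907) (nat_lit 0x81a4) (nat_lit 28)))
 (.p (nat_lit 0x229a22962294229222900f0d06) (nat_lit 0x100001404) (nat_lit 14)))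
 (.n (.n (.p (nat_lit 0x273026f00fe03) (nat_lit 0x2056001) (nat_lit 22))
 (.p (nat_lit 0x39a9399502) (nat_lit 0x5000a000800) (nat_lit 35)))
 (.p (nat_lit 0x185418521850184e184c104706) (nat_lit 0x200000326) (nat_lit 15)))))
 (.n (.n (.n (.n (.p (nat_lit 0x225f0cfe02) (nat_lit 0xa040) (nat_lit 5))
 (.p (nat_lit 0x2a9d153c02) (nat_lit 0x800f) (nat_lit 5)))
 (.n (.p (nat_lit 0xef50edd02) (nat_lit 0x8083) (nat_lit 18))
 (.p (nat_lit 0x3a4938bf379f03) (nat_lit 0x6b4000000a0) (nat_lit 43))))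
 (.n (.n (.p (nat_lit 0x17e817e617e417e00da70d9f06) (nat_lit 0x220001461) (nat_lit 15))
 (.p (nat_lit 0x3927391b02) (nat_lit 0x8ac04000800) (nat_lit 35)))
 (.p (nat_lit 0x19e019de19dc19da19d80fdb06) (nat_lit 0x200001945) (nat_lit 15))))
 (.n (.n (.n (.p (nat_lit 0xd39004402) (nat_lit 0x8880) (nat_lit 1))
 (.p (nat_lit 0x3827381f02) (nat_lit 0x49406000000) (nat_lit 35)))
 (.p (nat_lit 0x1ec01ebc1eba1eb80f4b0f4706) (nat_lit 0x280001d44) (nat_lit 17)))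
 (.n (.n (.p (nat_lit 0x18f70e4602) (nat_lit 0x2082) (nat_lit 4))
 (.p (nat_lit 0x3a113925380703) (nat_lit 0x84400004000) (nat_lit 43)))
 (.p (nat_lit 0x25822580257e257c2578107b06) (nat_lit 0x20001d66) (nat_lit 14)))))

def c512_383 : Tr :=
 .n (.n (.n (.n (.n (.p (nat_lit 0xf230ce302) (nat_lit 0x6320) (nat_lit 19))
 (.p (nat_lit 0x2492248e248c248a2488141106) (nat_lit 0x1000019ac) (nat_lit 14)))
 (.n (.p (nat_lit 0xf2f0e9f02) (nat_lit 0x6c23) (nat_lit 19))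
 (.p (nat_lit 0x3a3b39c1387903) (nat_lit 0xb080000a060) (nat_lit 43))))
 (.n (.n (.p (nat_lit 0xd8e0d8c0d8a0d890d860d84001107) (nat_lit 0x4041) (nat_lit 7))
 (.p (nat_lit 0x38fd38d502) (nat_lit 0xa0002000800) (nat_lit 35)))
 (.p (nat_lit 0x2fc90fb802) (nat_lit 0x825) (nat_lit 32))))
 (.n (.n (.n (.p (nat_lit 0xecb0d1b02) (nat_lit 0x2a60) (nat_lit 19))
 (.p (nat_lit 0x37e337b702) (nat_lit 0xb8402000000) (nat_lit 35)))
 (.p (nat_lit 0x198c198a198819860f270f1d06) (nat_lit 0x210000424) (nat_lit 17)))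
 (.n (.n (.p (nat_lit 0x23830e2202) (nat_lit 0x2842) (nat_lit 5))
 (.p (nat_lit 0x38b038ae38aa38a8379105) (nat_lit 0x1800000000) (nat_lit 36)))
 (.p (nat_lit 0x25cb1b1b03f303e5014e05) (nat_lit 0x113a846) (nat_lit 9)))))
 (.n (.n (.n (.n (.p (nat_lit 0x24482446244424420d0b0d0106) (nat_lit 0x210001c40) (nat_lit 14))
 (.p (nat_lit 0x171e171c171b17181716171400df07) (nat_lit 0x6052) (nat_lit 7)))
 (.p (nat_lit 0x223a22382236223422320ef906) (nat_lit 0x100018a3) (nat_lit 14)))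
 (.n (.n (.p (nat_lit 0x25d625d425d225d025ce0db506) (nat_lit 0x10000381) (nat_lit 14))
 (.p (nat_lit 0x396b396502) (nat_lit 0x18008000800) (nat_lit 35)))
 (.p (nat_lit 0x10130f9b02) (nat_lit 0x60a5) (nat_lit 18))))
 (.n (.n (.n (.p (nat_lit 0x1afe1afc1afa1af80d470d4506) (nat_lit 0x3000011a0) (nat_lit 15))
 (.p (nat_lit 0x3871386f02) (nat_lit 0xb5408000000) (nat_lit 35)))
 (.p (nat_lit 0x1a721a6e1a6c1a6a0f850f7d06) (nat_lit 0x1100011a4) (nat_lit 15)))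
 (.n (.n (.p (nat_lit 0xee10e5102) (nat_lit 0xb82) (nat_lit 19))
 (.p (nat_lit 0x3a213991384903) (nat_lit 0xb0800008020) (nat_lit 43)))
 (.p (nat_lit 0x27aa27a827a427a227a0118706) (nat_lit 0x80001c48) (nat_lit 14)))))

def c256_127 : Tr := .n c512_127 c512_383

def c512_255 : Tr :=
 .n (.n (.n (.n (.n (.p (nat_lit 0x188618841882187e0cd50cd106) (nat_lit 0x50000d00) (nat_lit 15))
 (.p (nat_lit 0x19a619a419a0199e199c137f06) (nat_lit 0x80000dab) (nat_lit 17)))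
 (.n (.p (nat_lit 0xea30e8b02) (nat_lit 0xa803) (nat_lit 18))
 (.p (nat_lit 0x39ed3927380f03) (nat_lit 0x8d400004060) (nat_lit 44))))
 (.n (.n (.p (nat_lit 0x22d10d7002) (nat_lit 0x4021) (nat_lit 5))
 (.p (nat_lit 0x38bf38b502) (nat_lit 0x6a000000800) (nat_lit 35)))
 (.p (nat_lit 0x1b321b301b2e1b2a1b280fa506) (nat_lit 0x40001b05) (nat_lit 17))))
 (.n (.n (.n (.p (nat_lit 0x19e219e019dc19da19d80d1f06) (nat_lit 0x80001960) (nat_lit 15))
 (.p (nat_lit 0x37a5378d02) (nat_lit 0x81000000000) (nat_lit 35)))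
 (.p (nat_lit 0x17d217ce17cc17c80f190f1306) (nat_lit 0x120001b04) (nat_lit 17)))
 (.n (.n (.p (nat_lit 0xe090df102) (nat_lit 0x802) (nat_lit 18))
 (.p (nat_lit 0x39a539a302) (nat_lit 0x41c0a000800) (nat_lit 35)))
 (.p (nat_lit 0x25b91b0903e703cd014e05) (nat_lit 0x1054046) (nat_lit 9)))))
 (.n (.n (.n (.n (.p (nat_lit 0x226917b902) (nat_lit 0x8840) (nat_lit 11))
 (.p (nat_lit 0x2b5715f602) (nat_lit 0x2050) (nat_lit 5)))
 (.n (.p (nat_lit 0xef70ef40ef20ef00eee0eec002f07) (nat_lit 0xa0a3) (nat_lit 7))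
 (.p (nat_lit 0x3a093971385103) (nat_lit 0x318000080a0) (nat_lit 44))))
 (.n (.n (.p (nat_lit 0x22822280227e227c22780dab06) (nat_lit 0x20001b61) (nat_lit 16))
 (.p (nat_lit 0x393f393d02) (nat_lit 0x29006000800) (nat_lit 35)))
 (.p (nat_lit 0x1f6a1f681f661f641f600feb06) (nat_lit 0x20001865) (nat_lit 17))))
 (.n (.n (.n (.p (nat_lit 0x1aa01a9e1a9c1a9a0d3b0d3106) (nat_lit 0x210001b80) (nat_lit 15))
 (.p (nat_lit 0x384f384d02) (nat_lit 0x29008000000) (nat_lit 35)))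
 (.p (nat_lit 0x1a210f7002) (nat_lit 0x884) (nat_lit 4)))
 (.n (.n (.p (nat_lit 0xed90e4902) (nat_lit 0x4382) (nat_lit 19))
 (.p (nat_lit 0x3a1a123702) (nat_lit 0x2120) (nat_lit 48)))
 (.p (nat_lit 0x1b5910a802) (nat_lit 0x8a6) (nat_lit 4)))))

def c512_511 : Tr :=
 .n (.n (.n (.n (.n (.p (nat_lit 0x239e239c239a23980cf30cf106) (nat_lit 0x300001b20) (nat_lit 14))
 (.p (nat_lit 0x1aba1ab81ab41ab21ab014b706) (nat_lit 0x80001c0e) (nat_lit 15)))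
 (.n (.p (nat_lit 0xed20ed10ece0ecc0eca0ec902f4002d002509) (nat_lit 0x40863) (nat_lit 13))
 (.p (nat_lit 0x39f617d702) (nat_lit 0x2080) (nat_lit 45))))
 (.n (.n (.p (nat_lit 0x23c623c423c223be0d950d9106) (nat_lit 0x50000d41) (nat_lit 16))
 (.p (nat_lit 0x390138f102) (nat_lit 0xb3802000800) (nat_lit 35)))
 (.p (nat_lit 0xfce0fcc0fca0fc80fc60fc5003d07) (nat_lit 0x45) (nat_lit 7))))
 (.n (.n (.n (.p (nat_lit 0x252c252a252625240d2f0d2906) (nat_lit 0x240000280) (nat_lit 14))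
 (.p (nat_lit 0x380f37f502) (nat_lit 0xaa004000000) (nat_lit 35)))
 (.p (nat_lit 0x19a219a0199e199c0f330f3106) (nat_lit 0x300000d24) (nat_lit 15)))
 (.n (.n (.p (nat_lit 0x19b219b019ae19ac19aa0e2d06) (nat_lit 0x10001562) (nat_lit 15))
 (.p (nat_lit 0x39b639b439b039ae389705) (nat_lit 0x440a000000) (nat_lit 36)))
 (.p (nat_lit 0x2516251425122510250e106d06) (nat_lit 0x10000166) (nat_lit 14)))))
 (.n (.n (.n (.n (.p (nat_lit 0x19bc19ba19b819b40d170d0f06) (nat_lit 0x220000060) (nat_lit 17))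
 (.p (nat_lit 0x174f174c174a174917461744074600e300dd09) (nat_lit 0x54092) (nat_lit 13)))
 (.p (nat_lit 0x327030302f7012004) (nat_lit 0xa210003) (nat_lit 23)))
 (.n (.n (.p (nat_lit 0xde10dc902) (nat_lit 0x8881) (nat_lit 18))
 (.p (nat_lit 0x3979397302) (nat_lit 0x51c08000800) (nat_lit 35)))
 (.p (nat_lit 0x1adb102a02) (nat_lit 0x6006) (nat_lit 4))))
 (.n (.n (.n (.p (nat_lit 0xd520d510d4f0d4c0d4a0d4802400009000709) (nat_lit 0x468a0) (nat_lit 13))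
 (.p (nat_lit 0x388f388102) (nat_lit 0x6980a000000) (nat_lit 35)))
 (.p (nat_lit 0x14a30f9302) (nat_lit 0xaba4) (nat_lit 19)))
 (.n (.n (.p (nat_lit 0x184a18461844184218400e7106) (nat_lit 0x100001aa2) (nat_lit 17))
 (.p (nat_lit 0x3a2738d737bd03) (nat_lit 0x9000002040) (nat_lit 43)))
 (.p (nat_lit 0x1c6f11be02) (nat_lit 0x20a8) (nat_lit 4)))))

def c256_255 : Tr := .n c512_255 c512_511

def c128_127 : Tr := .n c256_127 c256_255

def c64_63 : Tr := .n c128_63 c128_127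

def c32_31 : Tr := .n c64_31 c64_63

def c16_15 : Tr := .n c32_15 c32_31

def cb4_15 : Tr := c16_15

def cb3_0 : Tr := .n cb4_0 cb4_8

def cb3_1 : Tr := .n cb4_1 cb4_9

def cb3_2 : Tr := .n cb4_2 cb4_10

def cb3_3 : Tr := .n cb4_3 cb4_11

def cb3_4 : Tr := .n cb4_4 cb4_12

def cb3_5 : Tr := .n cb4_5 cb4_13

def cb3_6 : Tr := .n cb4_6 cb4_14

def cb3_7 : Tr := .n cb4_7 cb4_15

def cb2_0 : Tr := .n cb3_0 cb3_4

def cb2_1 : Tr := .n cb3_1 cb3_5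

def cb2_2 : Tr := .n cb3_2 cb3_6

def cb2_3 : Tr := .n cb3_3 cb3_7

def cb1_0 : Tr := .n cb2_0 cb2_2

def cb1_1 : Tr := .n cb2_1 cb2_3

def cb0_0 : Tr := .n cb1_0 cb1_1

/-- the clauses of the problem, with family codes and arguments -/
def cnfT : Tr := cb0_0

end Vale.Agent.P032.H184.Z
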