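import Vale.Agent.P032.H184.Z.R0
import Vale.Agent.P032.H184.Z.R1
import Vale.Agent.P032.H184.Z.R2
import Vale.Agent.P032.H184.Z.R3
import Vale.Agent.P032.H184.Z.R4
import Vale.Agent.P032.H184.Z.R5
import Vale.Agent.P032.H184.Z.R6
import Vale.Agent.P032.H184.Z.R7
import Vale.Agent.P032.H184.Z.R8
import Vale.Agent.P032.H184.Z.R9
import Vale.Agent.P032.H184.Z.R10
import Vale.Agent.P032.H184.Z.R11
import Vale.Agent.P032.H184.Z.R12
import Vale.Agent.P032.H184.Z.R13
import Vale.Agent.P032.H184.Z.R14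
import Vale.Agent.P032.H184.Z.R15
import Vale.Agent.P032.H184.Z.C0
import Vale.Agent.P032.H184.Z.C1
import Vale.Agent.P032.H184.Z.C2
import Vale.Agent.P032.H184.Z.C3
import Vale.Agent.P032.H184.Z.C4
import Vale.Agent.P032.H184.Z.C5
import Vale.Agent.P032.H184.Z.C6
import Vale.Agent.P032.H184.Z.C7
import Vale.Agent.P032.H184.Z.C8
import Vale.Agent.P032.H184.Z.C9
import Vale.Agent.P032.H184.Z.C10
import Vale.Agent.P032.H184.Z.C11
import Vale.Agent.P032.H184.Z.C12
import Vale.Agent.P032.H184.Z.C13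
import Vale.Agent.P032.H184.Z.C14
import Vale.Agent.P032.H184.Z.C15
import Vale.Agent.P032.H184.Z.T0
import Vale.Agent.P032.H184.Z.T1
import Vale.Agent.P032.H184.Z.T2
import Vale.Agent.P032.H184.Z.T3
import Vale.Agent.P032.H184.Z.T4
import Vale.Agent.P032.H184.Z.T5
import Vale.Agent.P032.H184.Z.T6
import Vale.Agent.P032.H184.Z.T7

namespace Vale.Agent.P032.H184.Z
open Vale.Agent.P032.H859.Rup Vale.Agent.P032.H184

theorem r3_0 : run E L 13175 e3_0 0 8 = true := run_n r4_0 r4_8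

theorem r3_1 : run E L 13175 e3_1 1 8 = true := run_n r4_1 r4_9

theorem r3_2 : run E L 13175 e3_2 2 8 = true := run_n r4_2 r4_10

theorem r3_3 : run E L 13175 e3_3 3 8 = true := run_n r4_3 r4_11

theorem r3_4 : run E L 13175 e3_4 4 8 = true := run_n r4_4 r4_12

theorem r3_5 : run E L 13175 e3_5 5 8 = true := run_n r4_5 r4_13

theorem r3_6 : run E L 13175 e3_6 6 8 = true := run_n r4_6 r4_14

theorem r3_7 : run E L 13175 e3_7 7 8 = true := run_n r4_7 r4_15

theorem r2_0 : run E L 13175 e2_0 0 4 = true := run_n r3_0 r3_4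

theorem r2_1 : run E L 13175 e2_1 1 4 = true := run_n r3_1 r3_5

theorem r2_2 : run E L 13175 e2_2 2 4 = true := run_n r3_2 r3_6

theorem r2_3 : run E L 13175 e2_3 3 4 = true := run_n r3_3 r3_7

theorem r1_0 : run E L 13175 e1_0 0 2 = true := run_n r2_0 r2_2

theorem r1_1 : run E L 13175 e1_1 1 2 = true := run_n r2_1 r2_3

theorem r0_0 : run E L 13175 e0_0 0 1 = true := run_n r1_0 r1_1

theorem a3_0 : allb tst cb3_0 = true := allb_n a4_0 a4_8

theorem a3_1 : allb tst cb3_1 = true := allb_n a4_1 a4_9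

theorem a3_2 : allb tst cb3_2 = true := allb_n a4_2 a4_10

theorem a3_3 : allb tst cb3_3 = true := allb_n a4_3 a4_11

theorem a3_4 : allb tst cb3_4 = true := allb_n a4_4 a4_12

theorem a3_5 : allb tst cb3_5 = true := allb_n a4_5 a4_13

theorem a3_6 : allb tst cb3_6 = true := allb_n a4_6 a4_14

theorem a3_7 : allb tst cb3_7 = true := allb_n a4_7 a4_15

theorem a2_0 : allb tst cb2_0 = true := allb_n a3_0 a3_4

theorem a2_1 : allb tst cb2_1 = true := allb_n a3_1 a3_5

theorem a2_2 : allb tst cb2_2 = true := allb_n a3_2 a3_6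

theorem a2_3 : allb tst cb2_3 = true := allb_n a3_3 a3_7

theorem a1_0 : allb tst cb1_0 = true := allb_n a2_0 a2_2

theorem a1_1 : allb tst cb1_1 = true := allb_n a2_1 a2_3

theorem a0_0 : allb tst cb0_0 = true := allb_n a1_0 a1_1

/-- all learned clauses are true in every model of the rules -/
theorem learned {A : At} (h : LOW A) (j : Nat) : Sat (nu A) (getC db j) :=
  learned_LOW h hE (B := cnfT) (D := db) (n := 13175) a0_0 r0_0 j

theorem ok_all : ∀ t ∈ tabs, chkk db t = true := by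
  simp only [tabs, List.forall_mem_cons, List.not_mem_nil, false_imp_iff, implies_true, and_true]
  exact ⟨ok0, ok1, ok2, ok3, ok4, ok5, ok6, ok7⟩

/-- **the pairs of the table are impossible** -/
theorem kill {A : At} (h : LOW A) {p q g : Nat} (hx : ∃ t ∈ tabs, ∃ l ∈ t, (p, q, g) ∈ l)
    (hp : ∀ j, A.IN false 0 0 j (dcol p j).1 ∧ A.OUT false 0 0 j (dcol p j).2)
    (hq : ∀ j, A.IN true 0 0 j (dcol q j).1 ∧ A.OUT true 0 0 j (dcol q j).2) : False := by
  obtain ⟨t, ht, l, hl, hx⟩ := hx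
  exact not_pair (learned h) (chkk_mem (ok_all t ht) hl) hx hp hq

end Vale.Agent.P032.H184.Z
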